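import Vale.Agent.P211.Cert.Interior.Data.S0Ar

/-!
P211, a part of a cell of the interior family (generated).
-/

namespace Vale.Agent.P211.Cert.Interior.Data

open Vale.Agent.P098.Check6 (ofChunks eqList reach St Cfg Face)
open Vale.Agent.P098.Cert6.Kron (RootPar parOK)

set_option linter.defProp false

noncomputable section

def goodS0A_74 :
    Check.Good noCone cfS0A (reach cfS0A ⟨litS0A, 1, fsS0A⟩
      [(1, false), (1, false), (0, false), (0, false), (0, true)]) :=
  Check.check_sound
    (.node 2
    (.node 1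
    (.node 0
    (.leaf (lf 1024 790 218 0 567 (-965) 0 0 581 255 255 255))
    (.leaf (lf 924 698 181 0 579 (-1024) 0 0 757 255 255 255)))
    (.node 0
    (.node 0
    (.node 1
    (.leaf (lf 1024 0 0 323 309 (-696) 180 0 373 255 255 255))
    (.leaf (lf 1024 0 0 455 320 (-721) 249 0 388 255 255 255)))
    (.node 1
    (.leaf (lf 1024 0 0 351 335 (-766) 210 0 459 255 255 255))
    (.leaf (lf 1024 0 0 494 347 (-793) 291 0 478 255 255 255))))
    (.node 1
    (.leaf (lf 1024 0 0 406 377 (-868) 255 0 612 255 255 255))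
    (.leaf (lf 1024 0 0 569 393 (-903) 354 0 640 255 255 255)))))
    (.node 1
    (.node 0
    (.leaf (lf 1024 778 217 0 567 (-931) 0 0 563 255 255 255))
    (.leaf (lf 971 720 190 0 608 (-1024) 0 0 763 255 255 255)))
    (.node 0
    (.node 0
    (.node 1
    (.leaf (lf 1024 0 0 329 311 (-675) 176 0 362 255 255 255))
    (.leaf (lf 1024 0 0 462 319 (-693) 243 0 374 255 255 255)))
    (.node 1
    (.leaf (lf 1024 0 0 358 337 (-738) 205 0 444 255 255 255))
    (.leaf (lf 1024 0 0 502 346 (-758) 284 0 457 255 255 255))))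
    (.node 1
    (.leaf (lf 1024 0 0 413 379 (-828) 248 0 587 255 255 255))
    (.leaf (lf 1024 0 0 577 390 (-853) 346 0 607 255 255 255))))))
    (by decide +kernel)

def goodS0A_76 :
    Check.Good noCone cfS0A (reach cfS0A ⟨litS0A, 1, fsS0A⟩
      [(2, false), (1, true), (1, false), (0, false), (0, false), (0, true)]) :=
  Check.check_sound
    (.node 0
    (.node 1
    (.node 0
    (.leaf (lf 1024 0 0 670 392 (-880) 340 0 478 255 255 255))
    (.leaf (lf 1024 0 0 726 425 (-967) 398 0 588 255 255 255)))
    (.node 0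
    (.leaf (lf 902 0 0 893 460 (-1024) 372 0 567 255 255 255))
    (.leaf (lf 818 0 0 877 456 (-1024) 394 0 635 255 255 255))))
    (.node 1
    (.node 0
    (.leaf (lf 996 0 0 759 446 (-1024) 450 0 693 255 255 255))
    (.leaf (lf 922 0 0 750 444 (-1024) 482 0 768 255 255 255)))
    (.node 0
    (.leaf (lf 749 0 0 862 453 (-1024) 418 0 707 255 255 255))
    (.leaf (lf 691 0 0 849 452 (-1024) 445 0 784 255 255 255)))))
    (by decide +kernel)

def goodS0A_77 :
    Check.Good noCone cfS0A (reach cfS0A ⟨litS0A, 1, fsS0A⟩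
      [(2, true), (1, true), (1, false), (0, false), (0, false), (0, true)]) :=
  Check.check_sound
    (.node 0
    (.node 1
    (.node 0
    (.node 1
    (.leaf (lf 1024 0 0 600 342 (-742) 307 0 402 255 255 255))
    (.leaf (lf 1024 0 0 746 384 (-835) 364 0 456 255 255 255)))
    (.leaf (lf 1024 0 0 732 418 (-913) 391 0 557 255 255 255)))
    (.node 0
    (.leaf (lf 949 0 0 936 473 (-1024) 391 0 566 255 255 255))
    (.leaf (lf 867 0 0 924 471 (-1024) 417 0 635 255 255 255))))
    (.node 1
    (.node 0
    (.leaf (lf 1024 0 0 786 449 (-986) 455 0 670 255 255 255))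
    (.leaf (lf 995 0 0 814 467 (-1024) 511 0 772 255 255 255)))
    (.node 0
    (.leaf (lf 800 0 0 914 471 (-1024) 447 0 708 255 255 255))
    (.leaf (lf 744 0 0 905 472 (-1024) 481 0 787 255 255 255)))))
    (by decide +kernel)

def goodS0A_75 :
    Check.Good noCone cfS0A (reach cfS0A ⟨litS0A, 1, fsS0A⟩
      [(1, true), (1, false), (0, false), (0, false), (0, true)]) :=
  Check.good_node (a := 2) (by decide +kernel)
    goodS0A_76 goodS0A_77

def goodS0A_73 :
    Check.Good noCone cfS0A (reach cfS0A ⟨litS0A, 1, fsS0A⟩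
      [(1, false), (0, false), (0, false), (0, true)]) :=
  Check.good_node (a := 1) (by decide +kernel)
    goodS0A_74 goodS0A_75

def goodS0A_81 :
    Check.Good noCone cfS0A (reach cfS0A ⟨litS0A, 1, fsS0A⟩
      [(1, false), (2, false), (0, false), (1, true), (0, false), (0, false), (0, true)]) :=
  Check.check_sound
    (.node 0
    (.leaf (lf 550 0 0 1024 474 (-1018) 167 0 587 255 255 255))
    (.leaf (lf 504 0 0 1021 477 (-1024) 168 0 662 255 255 255)))
    (by decide +kernel)

def goodS0A_85 :
    Check.Good noCone cfS0A (reach cfS0A ⟨litS0A, 1, fsS0A⟩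
      [(1, false), (0, false), (0, false), (1, true), (2, false), (0, false), (1, true), (0, false), (0, false), (0, true)]) :=
  Check.check_sound
    (.leaf (lf 323 0 0 1024 338 (-683) (-49) 0 402 255 255 255))
    (by decide +kernel)

def goodS0A_87 :
    Check.Good noCone cfS0A (reach cfS0A ⟨litS0A, 1, fsS0A⟩
      [(0, false), (1, true), (0, false), (0, false), (1, true), (2, false), (0, false), (1, true), (0, false), (0, false), (0, true)]) :=
  Check.check_sound
    (.node 2
    (.node 1
    (.leaf (lf 250 0 0 1024 240 (-464) (-142) 0 278 255 255 255))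
    (.node 0
    (.node 1
    (.leaf (lf 221 0 0 1024 173 (-325) (-182) 0 196 255 255 255))
    (.leaf (lf 204 0 0 1024 106 (-195) (-209) 0 119 255 26 54)))
    (.node 1
    (.leaf (lf 219 0 0 1024 173 (-324) (-186) 0 199 255 255 255))
    (.leaf (lf 202 0 0 1024 106 (-194) (-213) 0 121 255 85 239)))))
    (.node 1
    (.leaf (lf 250 0 0 1024 242 (-466) (-141) 0 279 255 255 255))
    (.node 0
    (.node 1
    (.leaf (lf 221 0 0 1024 174 (-326) (-182) 0 197 255 255 255))
    (.leaf (lf 204 0 0 1024 107 (-196) (-208) 0 120 255 85 240)))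
    (.node 1
    (.leaf (lf 219 0 0 1024 174 (-326) (-186) 0 200 255 255 255))
    (.leaf (lf 202 0 0 1024 107 (-196) (-213) 0 121 255 27 54))))))
    (by decide +kernel)

def goodS0A_88 :
    Check.Good noCone cfS0A (reach cfS0A ⟨litS0A, 1, fsS0A⟩
      [(0, true), (1, true), (0, false), (0, false), (1, true), (2, false), (0, false), (1, true), (0, false), (0, false), (0, true)]) :=
  Check.check_sound
    (.node 2
    (.node 1
    (.leaf (lf 244 0 0 1024 241 (-463) (-149) 0 286 255 255 255))
    (.node 0
    (.node 1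
    (.leaf (lf 217 0 0 1024 173 (-323) (-190) 0 202 255 255 255))
    (.leaf (lf 200 0 0 1024 106 (-193) (-217) 0 122 255 79 242)))
    (.node 1
    (.leaf (lf 214 0 0 1024 173 (-323) (-194) 0 205 255 255 255))
    (.leaf (lf 198 0 0 1024 105 (-192) (-222) 0 123 255 91 239)))))
    (.node 1
    (.leaf (lf 245 0 0 1024 242 (-465) (-148) 0 287 255 255 255))
    (.node 0
    (.node 1
    (.leaf (lf 217 0 0 1024 174 (-325) (-190) 0 203 255 255 255))
    (.leaf (lf 200 0 0 1024 107 (-195) (-217) 0 123 255 85 241)))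
    (.node 1
    (.leaf (lf 215 0 0 1024 174 (-325) (-194) 0 205 255 255 255))
    (.leaf (lf 198 0 0 1024 107 (-194) (-221) 0 124 255 77 237))))))
    (by decide +kernel)

def goodS0A_86 :
    Check.Good noCone cfS0A (reach cfS0A ⟨litS0A, 1, fsS0A⟩
      [(1, true), (0, false), (0, false), (1, true), (2, false), (0, false), (1, true), (0, false), (0, false), (0, true)]) :=
  Check.good_node (a := 0) (by decide +kernel)
    goodS0A_87 goodS0A_88

def goodS0A_84 :
    Check.Good noCone cfS0A (reach cfS0A ⟨litS0A, 1, fsS0A⟩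
      [(0, false), (0, false), (1, true), (2, false), (0, false), (1, true), (0, false), (0, false), (0, true)]) :=
  Check.good_node (a := 1) (by decide +kernel)
    goodS0A_85 goodS0A_86

def goodS0A_90 :
    Check.Good noCone cfS0A (reach cfS0A ⟨litS0A, 1, fsS0A⟩
      [(1, false), (0, true), (0, false), (1, true), (2, false), (0, false), (1, true), (0, false), (0, false), (0, true)]) :=
  Check.check_sound
    (.leaf (lf 309 0 0 1024 340 (-683) (-59) 0 427 255 255 255))
    (by decide +kernel)

def goodS0A_92 :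
    Check.Good noCone cfS0A (reach cfS0A ⟨litS0A, 1, fsS0A⟩
      [(0, false), (1, true), (0, true), (0, false), (1, true), (2, false), (0, false), (1, true), (0, false), (0, false), (0, true)]) :=
  Check.check_sound
    (.node 2
    (.node 1
    (.leaf (lf 239 0 0 1024 242 (-462) (-156) 0 294 255 255 255))
    (.node 0
    (.node 1
    (.leaf (lf 212 0 0 1024 173 (-322) (-198) 0 207 255 255 255))
    (.leaf (lf 196 0 0 1024 105 (-191) (-226) 0 125 255 81 234)))
    (.node 1
    (.leaf (lf 210 0 0 1024 174 (-322) (-203) 0 210 255 255 255))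
    (.leaf (lf 194 0 0 1024 105 (-191) (-230) 0 126 255 26 55)))))
    (.node 1
    (.leaf (lf 240 0 0 1024 243 (-464) (-155) 0 295 255 255 255))
    (.node 0
    (.node 1
    (.leaf (lf 212 0 0 1024 175 (-324) (-198) 0 208 255 255 255))
    (.leaf (lf 196 0 0 1024 107 (-193) (-225) 0 126 255 82 235)))
    (.node 1
    (.leaf (lf 210 0 0 1024 175 (-324) (-202) 0 211 255 255 255))
    (.leaf (lf 194 0 0 1024 107 (-193) (-230) 0 127 255 76 233))))))
    (by decide +kernel)

def goodS0A_93 :
    Check.Good noCone cfS0A (reach cfS0A ⟨litS0A, 1, fsS0A⟩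
      [(0, true), (1, true), (0, true), (0, false), (1, true), (2, false), (0, false), (1, true), (0, false), (0, false), (0, true)]) :=
  Check.check_sound
    (.node 2
    (.node 1
    (.leaf (lf 234 0 0 1024 242 (-461) (-164) 0 303 255 255 255))
    (.node 0
    (.node 1
    (.leaf (lf 208 0 0 1024 174 (-321) (-207) 0 213 255 255 255))
    (.leaf (lf 192 0 0 1024 105 (-190) (-235) 0 128 255 75 233)))
    (.node 1
    (.leaf (lf 206 0 0 1024 174 (-320) (-211) 0 216 255 255 255))
    (.leaf (lf 190 0 0 1024 105 (-189) (-239) 0 129 255 77 204)))))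
    (.node 1
    (.leaf (lf 235 0 0 1024 244 (-463) (-163) 0 303 255 255 255))
    (.node 0
    (.node 1
    (.leaf (lf 208 0 0 1024 175 (-323) (-206) 0 214 255 255 255))
    (.leaf (lf 192 0 0 1024 107 (-192) (-234) 0 129 255 87 235)))
    (.node 1
    (.leaf (lf 206 0 0 1024 175 (-323) (-210) 0 217 255 255 255))
    (.leaf (lf 190 0 0 1024 107 (-192) (-239) 0 131 255 86 233))))))
    (by decide +kernel)

def goodS0A_91 :
    Check.Good noCone cfS0A (reach cfS0A ⟨litS0A, 1, fsS0A⟩
      [(1, true), (0, true), (0, false), (1, true), (2, false), (0, false), (1, true), (0, false), (0, false), (0, true)]) :=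
  Check.good_node (a := 0) (by decide +kernel)
    goodS0A_92 goodS0A_93

def goodS0A_89 :
    Check.Good noCone cfS0A (reach cfS0A ⟨litS0A, 1, fsS0A⟩
      [(0, true), (0, false), (1, true), (2, false), (0, false), (1, true), (0, false), (0, false), (0, true)]) :=
  Check.good_node (a := 1) (by decide +kernel)
    goodS0A_90 goodS0A_91

def goodS0A_83 :
    Check.Good noCone cfS0A (reach cfS0A ⟨litS0A, 1, fsS0A⟩
      [(0, false), (1, true), (2, false), (0, false), (1, true), (0, false), (0, false), (0, true)]) :=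
  Check.good_node (a := 0) (by decide +kernel)
    goodS0A_84 goodS0A_89

def goodS0A_95 :
    Check.Good noCone cfS0A (reach cfS0A ⟨litS0A, 1, fsS0A⟩
      [(1, false), (0, true), (1, true), (2, false), (0, false), (1, true), (0, false), (0, false), (0, true)]) :=
  Check.check_sound
    (.leaf (lf 290 0 0 1024 343 (-680) (-76) 0 465 255 255 255))
    (by decide +kernel)

def goodS0A_98 :
    Check.Good noCone cfS0A (reach cfS0A ⟨litS0A, 1, fsS0A⟩
      [(0, false), (0, false), (1, true), (0, true), (1, true), (2, false), (0, false), (1, true), (0, false), (0, false), (0, true)]) :=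
  Check.check_sound
    (.node 2
    (.node 1
    (.leaf (lf 230 0 0 1024 243 (-460) (-171) 0 311 255 255 255))
    (.node 0
    (.node 1
    (.leaf (lf 204 0 0 1024 175 (-320) (-215) 0 219 255 255 255))
    (.leaf (lf 189 0 0 1024 106 (-189) (-243) 0 131 255 69 207)))
    (.node 1
    (.leaf (lf 202 0 0 1024 175 (-319) (-219) 0 222 255 255 255))
    (.leaf (lf 187 0 0 1024 106 (-188) (-248) 0 132 255 68 206)))))
    (.node 1
    (.leaf (lf 230 0 0 1024 245 (-462) (-170) 0 312 255 255 255))
    (.node 0
    (.node 1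
    (.leaf (lf 204 0 0 1024 176 (-322) (-214) 0 220 255 255 255))
    (.leaf (lf 189 0 0 1024 107 (-191) (-243) 0 132 255 73 208)))
    (.node 1
    (.leaf (lf 202 0 0 1024 176 (-322) (-218) 0 223 255 255 255))
    (.leaf (lf 187 0 0 1024 107 (-191) (-247) 0 134 255 70 207))))))
    (by decide +kernel)

def goodS0A_99 :
    Check.Good noCone cfS0A (reach cfS0A ⟨litS0A, 1, fsS0A⟩
      [(0, true), (0, false), (1, true), (0, true), (1, true), (2, false), (0, false), (1, true), (0, false), (0, false), (0, true)]) :=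
  Check.check_sound
    (.node 2
    (.node 1
    (.leaf (lf 225 0 0 1024 244 (-459) (-179) 0 320 255 255 255))
    (.node 0
    (.node 1
    (.leaf (lf 200 0 0 1024 175 (-319) (-223) 0 225 255 255 255))
    (.leaf (lf 185 0 0 1024 106 (-188) (-252) 0 134 255 74 203)))
    (.node 1
    (.leaf (lf 198 0 0 1024 176 (-319) (-227) 0 228 255 255 255))
    (.leaf (lf 184 0 0 1024 106 (-188) (-257) 0 136 255 76 204)))))
    (.node 1
    (.leaf (lf 226 0 0 1024 246 (-461) (-177) 0 321 255 255 255))
    (.node 0
    (.node 1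
    (.leaf (lf 201 0 0 1024 177 (-321) (-222) 0 226 255 255 255))
    (.leaf (lf 185 0 0 1024 107 (-191) (-252) 0 136 255 74 203)))
    (.node 1
    (.leaf (lf 199 0 0 1024 177 (-321) (-227) 0 229 255 255 255))
    (.leaf (lf 184 0 0 1024 108 (-190) (-256) 0 137 255 67 205))))))
    (by decide +kernel)

def goodS0A_97 :
    Check.Good noCone cfS0A (reach cfS0A ⟨litS0A, 1, fsS0A⟩
      [(0, false), (1, true), (0, true), (1, true), (2, false), (0, false), (1, true), (0, false), (0, false), (0, true)]) :=
  Check.good_node (a := 0) (by decide +kernel)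
    goodS0A_98 goodS0A_99

def goodS0A_101 :
    Check.Good noCone cfS0A (reach cfS0A ⟨litS0A, 1, fsS0A⟩
      [(0, false), (0, true), (1, true), (0, true), (1, true), (2, false), (0, false), (1, true), (0, false), (0, false), (0, true)]) :=
  Check.check_sound
    (.node 2
    (.node 1
    (.leaf (lf 221 0 0 1024 245 (-458) (-186) 0 328 255 255 255))
    (.node 0
    (.node 1
    (.leaf (lf 197 0 0 1024 176 (-318) (-232) 0 231 255 255 255))
    (.leaf (lf 182 0 0 1024 106 (-187) (-261) 0 138 255 65 198)))
    (.node 1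
    (.leaf (lf 195 0 0 1024 176 (-318) (-236) 0 234 255 255 255))
    (.leaf (lf 180 0 0 1024 107 (-187) (-266) 0 139 255 74 197)))))
    (.node 1
    (.leaf (lf 222 0 0 1024 247 (-461) (-185) 0 330 255 255 255))
    (.node 0
    (.node 1
    (.leaf (lf 197 0 0 1024 177 (-320) (-231) 0 232 255 255 255))
    (.leaf (lf 182 0 0 1024 108 (-190) (-261) 0 139 255 65 202)))
    (.node 1
    (.leaf (lf 195 0 0 1024 178 (-320) (-235) 0 235 255 255 255))
    (.leaf (lf 181 0 0 1024 108 (-190) (-265) 0 141 255 71 204))))))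
    (by decide +kernel)

def goodS0A_102 :
    Check.Good noCone cfS0A (reach cfS0A ⟨litS0A, 1, fsS0A⟩
      [(0, true), (0, true), (1, true), (0, true), (1, true), (2, false), (0, false), (1, true), (0, false), (0, false), (0, true)]) :=
  Check.check_sound
    (.node 2
    (.node 1
    (.leaf (lf 217 0 0 1024 246 (-457) (-194) 0 337 255 255 255))
    (.node 0
    (.node 1
    (.leaf (lf 193 0 0 1024 177 (-317) (-240) 0 237 255 255 255))
    (.leaf (lf 179 0 0 1024 107 (-187) (-270) 0 141 255 62 202)))
    (.node 1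
    (.leaf (lf 192 0 0 1024 177 (-317) (-244) 0 240 255 255 255))
    (.leaf (lf 177 0 0 1024 107 (-187) (-275) 0 143 255 75 196)))))
    (.node 1
    (.leaf (lf 218 0 0 1024 248 (-460) (-192) 0 338 255 255 255))
    (.node 0
    (.node 1
    (.leaf (lf 194 0 0 1024 178 (-320) (-239) 0 238 255 255 255))
    (.leaf (lf 179 0 0 1024 109 (-190) (-270) 0 143 255 71 231)))
    (.node 1
    (.leaf (lf 192 0 0 1024 179 (-319) (-243) 0 241 255 255 255))
    (.leaf (lf 178 0 0 1024 109 (-189) (-274) 0 145 255 70 205))))))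
    (by decide +kernel)

def goodS0A_100 :
    Check.Good noCone cfS0A (reach cfS0A ⟨litS0A, 1, fsS0A⟩
      [(0, true), (1, true), (0, true), (1, true), (2, false), (0, false), (1, true), (0, false), (0, false), (0, true)]) :=
  Check.good_node (a := 0) (by decide +kernel)
    goodS0A_101 goodS0A_102

def goodS0A_96 :
    Check.Good noCone cfS0A (reach cfS0A ⟨litS0A, 1, fsS0A⟩
      [(1, true), (0, true), (1, true), (2, false), (0, false), (1, true), (0, false), (0, false), (0, true)]) :=
  Check.good_node (a := 0) (by decide +kernel)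
    goodS0A_97 goodS0A_100

def goodS0A_94 :
    Check.Good noCone cfS0A (reach cfS0A ⟨litS0A, 1, fsS0A⟩
      [(0, true), (1, true), (2, false), (0, false), (1, true), (0, false), (0, false), (0, true)]) :=
  Check.good_node (a := 1) (by decide +kernel)
    goodS0A_95 goodS0A_96

def goodS0A_82 :
    Check.Good noCone cfS0A (reach cfS0A ⟨litS0A, 1, fsS0A⟩
      [(1, true), (2, false), (0, false), (1, true), (0, false), (0, false), (0, true)]) :=
  Check.good_node (a := 0) (by decide +kernel)
    goodS0A_83 goodS0A_94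

def goodS0A_80 :
    Check.Good noCone cfS0A (reach cfS0A ⟨litS0A, 1, fsS0A⟩
      [(2, false), (0, false), (1, true), (0, false), (0, false), (0, true)]) :=
  Check.good_node (a := 1) (by decide +kernel)
    goodS0A_81 goodS0A_82

def goodS0A_104 :
    Check.Good noCone cfS0A (reach cfS0A ⟨litS0A, 1, fsS0A⟩
      [(1, false), (2, true), (0, false), (1, true), (0, false), (0, false), (0, true)]) :=
  Check.check_sound
    (.node 0
    (.leaf (lf 561 0 0 1024 478 (-1009) 179 0 579 255 255 255))
    (.leaf (lf 518 0 0 1024 484 (-1017) 184 0 656 255 255 255)))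
    (by decide +kernel)

def goodS0A_108 :
    Check.Good noCone cfS0A (reach cfS0A ⟨litS0A, 1, fsS0A⟩
      [(1, false), (0, false), (0, false), (1, true), (2, true), (0, false), (1, true), (0, false), (0, false), (0, true)]) :=
  Check.check_sound
    (.leaf (lf 328 0 0 1024 345 (-690) (-42) 0 404 255 255 255))
    (by decide +kernel)

def goodS0A_110 :
    Check.Good noCone cfS0A (reach cfS0A ⟨litS0A, 1, fsS0A⟩
      [(0, false), (1, true), (0, false), (0, false), (1, true), (2, true), (0, false), (1, true), (0, false), (0, false), (0, true)]) :=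
  Check.check_sound
    (.node 2
    (.node 1
    (.leaf (lf 251 0 0 1024 244 (-470) (-139) 0 280 255 255 255))
    (.node 0
    (.node 1
    (.leaf (lf 222 0 0 1024 176 (-330) (-181) 0 198 255 255 255))
    (.leaf (lf 204 0 0 1024 109 (-200) (-208) 0 122 255 26 57)))
    (.node 1
    (.leaf (lf 220 0 0 1024 176 (-329) (-185) 0 201 255 255 255))
    (.leaf (lf 202 0 0 1024 109 (-199) (-212) 0 123 255 25 56)))))
    (.node 1
    (.leaf (lf 252 0 0 1024 248 (-475) (-137) 0 282 255 255 255))
    (.node 0
    (.node 1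
    (.leaf (lf 222 0 0 1024 179 (-335) (-179) 0 200 255 255 255))
    (.leaf (lf 204 0 0 1024 111 (-204) (-207) 0 124 255 255 255)))
    (.node 1
    (.leaf (lf 220 0 0 1024 179 (-334) (-183) 0 203 255 255 255))
    (.leaf (lf 202 0 0 1024 111 (-204) (-211) 0 125 255 255 255))))))
    (by decide +kernel)

def goodS0A_111 :
    Check.Good noCone cfS0A (reach cfS0A ⟨litS0A, 1, fsS0A⟩
      [(0, true), (1, true), (0, false), (0, false), (1, true), (2, true), (0, false), (1, true), (0, false), (0, false), (0, true)]) :=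
  Check.check_sound
    (.node 2
    (.node 1
    (.leaf (lf 246 0 0 1024 245 (-469) (-146) 0 288 255 255 255))
    (.node 0
    (.node 1
    (.leaf (lf 217 0 0 1024 176 (-329) (-189) 0 204 255 255 255))
    (.leaf (lf 200 0 0 1024 109 (-198) (-216) 0 125 255 26 56)))
    (.node 1
    (.leaf (lf 215 0 0 1024 177 (-328) (-193) 0 207 255 255 255))
    (.leaf (lf 198 0 0 1024 109 (-198) (-220) 0 126 255 87 238)))))
    (.node 1
    (.leaf (lf 247 0 0 1024 249 (-475) (-143) 0 290 255 255 255))
    (.node 0
    (.node 1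
    (.leaf (lf 218 0 0 1024 179 (-334) (-187) 0 206 255 255 255))
    (.leaf (lf 200 0 0 1024 112 (-204) (-215) 0 127 255 255 255)))
    (.node 1
    (.leaf (lf 216 0 0 1024 180 (-334) (-191) 0 209 255 255 255))
    (.leaf (lf 198 0 0 1024 112 (-204) (-219) 0 129 255 255 255))))))
    (by decide +kernel)

def goodS0A_109 :
    Check.Good noCone cfS0A (reach cfS0A ⟨litS0A, 1, fsS0A⟩
      [(1, true), (0, false), (0, false), (1, true), (2, true), (0, false), (1, true), (0, false), (0, false), (0, true)]) :=
  Check.good_node (a := 0) (by decide +kernel)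
    goodS0A_110 goodS0A_111

def goodS0A_107 :
    Check.Good noCone cfS0A (reach cfS0A ⟨litS0A, 1, fsS0A⟩
      [(0, false), (0, false), (1, true), (2, true), (0, false), (1, true), (0, false), (0, false), (0, true)]) :=
  Check.good_node (a := 1) (by decide +kernel)
    goodS0A_108 goodS0A_109

def goodS0A_113 :
    Check.Good noCone cfS0A (reach cfS0A ⟨litS0A, 1, fsS0A⟩
      [(1, false), (0, true), (0, false), (1, true), (2, true), (0, false), (1, true), (0, false), (0, false), (0, true)]) :=
  Check.check_sound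
    (.leaf (lf 314 0 0 1024 347 (-690) (-51) 0 429 255 255 255))
    (by decide +kernel)

def goodS0A_115 :
    Check.Good noCone cfS0A (reach cfS0A ⟨litS0A, 1, fsS0A⟩
      [(0, false), (1, true), (0, true), (0, false), (1, true), (2, true), (0, false), (1, true), (0, false), (0, false), (0, true)]) :=
  Check.check_sound
    (.node 2
    (.node 1
    (.leaf (lf 241 0 0 1024 246 (-468) (-153) 0 297 255 255 255))
    (.node 0
    (.node 1
    (.leaf (lf 213 0 0 1024 177 (-328) (-197) 0 210 255 255 255))
    (.leaf (lf 196 0 0 1024 109 (-197) (-225) 0 128 255 25 54)))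
    (.node 1
    (.leaf (lf 211 0 0 1024 177 (-327) (-201) 0 213 255 255 255))
    (.leaf (lf 194 0 0 1024 109 (-197) (-229) 0 130 255 88 234)))))
    (.node 1
    (.leaf (lf 242 0 0 1024 250 (-474) (-150) 0 299 255 255 255))
    (.node 0
    (.node 1
    (.leaf (lf 214 0 0 1024 180 (-334) (-195) 0 212 255 255 255))
    (.leaf (lf 196 0 0 1024 112 (-203) (-223) 0 131 255 255 255)))
    (.node 1
    (.leaf (lf 212 0 0 1024 181 (-333) (-199) 0 215 255 255 255))
    (.leaf (lf 195 0 0 1024 112 (-203) (-228) 0 133 255 29 58))))))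
    (by decide +kernel)

def goodS0A_116 :
    Check.Good noCone cfS0A (reach cfS0A ⟨litS0A, 1, fsS0A⟩
      [(0, true), (1, true), (0, true), (0, false), (1, true), (2, true), (0, false), (1, true), (0, false), (0, false), (0, true)]) :=
  Check.check_sound
    (.node 2
    (.node 1
    (.leaf (lf 236 0 0 1024 247 (-467) (-160) 0 305 255 255 255))
    (.node 0
    (.node 1
    (.leaf (lf 209 0 0 1024 178 (-327) (-205) 0 216 255 255 255))
    (.leaf (lf 192 0 0 1024 109 (-197) (-233) 0 131 255 98 233)))
    (.node 1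
    (.leaf (lf 207 0 0 1024 178 (-327) (-209) 0 219 255 255 255))
    (.leaf (lf 191 0 0 1024 109 (-196) (-238) 0 133 255 92 239)))))
    (.node 1
    (.leaf (lf 238 0 0 1024 251 (-474) (-157) 0 308 255 255 255))
    (.node 0
    (.node 1
    (.leaf (lf 210 0 0 1024 181 (-333) (-203) 0 218 255 255 255))
    (.leaf (lf 193 0 0 1024 113 (-203) (-232) 0 135 255 27 59)))
    (.node 1
    (.leaf (lf 208 0 0 1024 182 (-333) (-207) 0 222 255 255 255))
    (.leaf (lf 191 0 0 1024 113 (-203) (-236) 0 137 255 255 255))))))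
    (by decide +kernel)

def goodS0A_114 :
    Check.Good noCone cfS0A (reach cfS0A ⟨litS0A, 1, fsS0A⟩
      [(1, true), (0, true), (0, false), (1, true), (2, true), (0, false), (1, true), (0, false), (0, false), (0, true)]) :=
  Check.good_node (a := 0) (by decide +kernel)
    goodS0A_115 goodS0A_116

def goodS0A_112 :
    Check.Good noCone cfS0A (reach cfS0A ⟨litS0A, 1, fsS0A⟩
      [(0, true), (0, false), (1, true), (2, true), (0, false), (1, true), (0, false), (0, false), (0, true)]) :=
  Check.good_node (a := 1) (by decide +kernel)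
    goodS0A_113 goodS0A_114

def goodS0A_106 :
    Check.Good noCone cfS0A (reach cfS0A ⟨litS0A, 1, fsS0A⟩
      [(0, false), (1, true), (2, true), (0, false), (1, true), (0, false), (0, false), (0, true)]) :=
  Check.good_node (a := 0) (by decide +kernel)
    goodS0A_107 goodS0A_112

def goodS0A_118 :
    Check.Good noCone cfS0A (reach cfS0A ⟨litS0A, 1, fsS0A⟩
      [(1, false), (0, true), (1, true), (2, true), (0, false), (1, true), (0, false), (0, false), (0, true)]) :=
  Check.check_sound
    (.leaf (lf 295 0 0 1024 351 (-689) (-66) 0 468 255 255 255))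
    (by decide +kernel)

def goodS0A_121 :
    Check.Good noCone cfS0A (reach cfS0A ⟨litS0A, 1, fsS0A⟩
      [(0, false), (0, false), (1, true), (0, true), (1, true), (2, true), (0, false), (1, true), (0, false), (0, false), (0, true)]) :=
  Check.check_sound
    (.node 2
    (.node 1
    (.leaf (lf 231 0 0 1024 248 (-467) (-168) 0 314 255 255 255))
    (.node 0
    (.node 1
    (.leaf (lf 205 0 0 1024 178 (-326) (-213) 0 222 255 255 255))
    (.leaf (lf 189 0 0 1024 110 (-196) (-242) 0 135 255 76 238)))
    (.node 1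
    (.leaf (lf 203 0 0 1024 179 (-326) (-217) 0 225 255 255 255))
    (.leaf (lf 187 0 0 1024 110 (-196) (-246) 0 137 255 90 239)))))
    (.node 1
    (.leaf (lf 233 0 0 1024 252 (-473) (-164) 0 317 255 255 255))
    (.node 0
    (.node 1
    (.leaf (lf 206 0 0 1024 182 (-333) (-211) 0 225 255 255 255))
    (.leaf (lf 189 0 0 1024 114 (-203) (-241) 0 139 255 255 255)))
    (.node 1
    (.leaf (lf 204 0 0 1024 183 (-333) (-215) 0 228 255 255 255))
    (.leaf (lf 188 0 0 1024 114 (-203) (-245) 0 141 255 27 58))))))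
    (by decide +kernel)

def goodS0A_122 :
    Check.Good noCone cfS0A (reach cfS0A ⟨litS0A, 1, fsS0A⟩
      [(0, true), (0, false), (1, true), (0, true), (1, true), (2, true), (0, false), (1, true), (0, false), (0, false), (0, true)]) :=
  Check.check_sound
    (.node 2
    (.node 1
    (.leaf (lf 227 0 0 1024 249 (-466) (-175) 0 323 255 255 255))
    (.node 0
    (.node 1
    (.leaf (lf 201 0 0 1024 179 (-326) (-221) 0 228 255 255 255))
    (.leaf (lf 186 0 0 1024 110 (-196) (-251) 0 139 255 90 240)))
    (.node 1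
    (.leaf (lf 199 0 0 1024 180 (-325) (-225) 0 231 255 255 255))
    (.leaf (lf 184 0 0 1024 111 (-195) (-255) 0 141 255 76 232)))))
    (.node 1
    (.leaf (lf 229 0 0 1024 253 (-473) (-171) 0 326 255 255 255))
    (.node 0
    (.node 1
    (.leaf (lf 202 0 0 1024 183 (-332) (-219) 0 231 255 255 255))
    (.leaf (lf 186 0 0 1024 114 (-203) (-249) 0 143 255 255 255)))
    (.node 1
    (.leaf (lf 200 0 0 1024 184 (-332) (-223) 0 235 255 255 255))
    (.leaf (lf 184 0 0 1024 115 (-203) (-254) 0 145 255 255 255))))))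
    (by decide +kernel)

def goodS0A_120 :
    Check.Good noCone cfS0A (reach cfS0A ⟨litS0A, 1, fsS0A⟩
      [(0, false), (1, true), (0, true), (1, true), (2, true), (0, false), (1, true), (0, false), (0, false), (0, true)]) :=
  Check.good_node (a := 0) (by decide +kernel)
    goodS0A_121 goodS0A_122

def goodS0A_124 :
    Check.Good noCone cfS0A (reach cfS0A ⟨litS0A, 1, fsS0A⟩
      [(0, false), (0, true), (1, true), (0, true), (1, true), (2, true), (0, false), (1, true), (0, false), (0, false), (0, true)]) :=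
  Check.check_sound
    (.node 2
    (.node 1
    (.leaf (lf 223 0 0 1024 250 (-465) (-182) 0 332 255 255 255))
    (.node 0
    (.node 1
    (.leaf (lf 198 0 0 1024 180 (-325) (-229) 0 234 255 255 255))
    (.leaf (lf 182 0 0 1024 111 (-195) (-260) 0 143 255 86 232)))
    (.node 1
    (.leaf (lf 196 0 0 1024 181 (-325) (-233) 0 238 255 255 255))
    (.leaf (lf 181 0 0 1024 111 (-195) (-264) 0 145 255 75 234)))))
    (.node 1
    (.leaf (lf 225 0 0 1024 255 (-473) (-178) 0 335 255 255 255))
    (.node 0
    (.node 1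
    (.leaf (lf 198 0 0 1024 185 (-332) (-227) 0 238 255 255 255))
    (.leaf (lf 183 0 0 1024 116 (-203) (-258) 0 147 255 255 255)))
    (.node 1
    (.leaf (lf 197 0 0 1024 185 (-332) (-231) 0 242 255 255 255))
    (.leaf (lf 181 0 0 1024 116 (-203) (-262) 0 150 255 255 255))))))
    (by decide +kernel)

def goodS0A_125 :
    Check.Good noCone cfS0A (reach cfS0A ⟨litS0A, 1, fsS0A⟩
      [(0, true), (0, true), (1, true), (0, true), (1, true), (2, true), (0, false), (1, true), (0, false), (0, false), (0, true)]) :=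
  Check.check_sound
    (.node 2
    (.node 1
    (.leaf (lf 219 0 0 1024 251 (-465) (-190) 0 341 255 255 255))
    (.node 0
    (.node 1
    (.leaf (lf 194 0 0 1024 181 (-325) (-238) 0 241 255 255 255))
    (.leaf (lf 179 0 0 1024 112 (-195) (-269) 0 147 255 83 235)))
    (.node 1
    (.leaf (lf 192 0 0 1024 182 (-324) (-242) 0 244 255 255 255))
    (.leaf (lf 178 0 0 1024 112 (-195) (-273) 0 149 255 22 53)))))
    (.node 1
    (.leaf (lf 221 0 0 1024 256 (-472) (-185) 0 345 255 255 255))
    (.node 0
    (.node 1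
    (.leaf (lf 195 0 0 1024 186 (-332) (-235) 0 245 255 255 255))
    (.leaf (lf 180 0 0 1024 117 (-203) (-267) 0 152 255 255 255)))
    (.node 1
    (.leaf (lf 193 0 0 1024 187 (-332) (-239) 0 248 255 255 255))
    (.leaf (lf 178 0 0 1024 117 (-204) (-271) 0 154 255 255 255))))))
    (by decide +kernel)

def goodS0A_123 :
    Check.Good noCone cfS0A (reach cfS0A ⟨litS0A, 1, fsS0A⟩
      [(0, true), (1, true), (0, true), (1, true), (2, true), (0, false), (1, true), (0, false), (0, false), (0, true)]) :=
  Check.good_node (a := 0) (by decide +kernel)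
    goodS0A_124 goodS0A_125

def goodS0A_119 :
    Check.Good noCone cfS0A (reach cfS0A ⟨litS0A, 1, fsS0A⟩
      [(1, true), (0, true), (1, true), (2, true), (0, false), (1, true), (0, false), (0, false), (0, true)]) :=
  Check.good_node (a := 0) (by decide +kernel)
    goodS0A_120 goodS0A_123

def goodS0A_117 :
    Check.Good noCone cfS0A (reach cfS0A ⟨litS0A, 1, fsS0A⟩
      [(0, true), (1, true), (2, true), (0, false), (1, true), (0, false), (0, false), (0, true)]) :=
  Check.good_node (a := 1) (by decide +kernel)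
    goodS0A_118 goodS0A_119

def goodS0A_105 :
    Check.Good noCone cfS0A (reach cfS0A ⟨litS0A, 1, fsS0A⟩
      [(1, true), (2, true), (0, false), (1, true), (0, false), (0, false), (0, true)]) :=
  Check.good_node (a := 0) (by decide +kernel)
    goodS0A_106 goodS0A_117

def goodS0A_103 :
    Check.Good noCone cfS0A (reach cfS0A ⟨litS0A, 1, fsS0A⟩
      [(2, true), (0, false), (1, true), (0, false), (0, false), (0, true)]) :=
  Check.good_node (a := 1) (by decide +kernel)
    goodS0A_104 goodS0A_105

def goodS0A_79 :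
    Check.Good noCone cfS0A (reach cfS0A ⟨litS0A, 1, fsS0A⟩
      [(0, false), (1, true), (0, false), (0, false), (0, true)]) :=
  Check.good_node (a := 2) (by decide +kernel)
    goodS0A_80 goodS0A_103

def goodS0A_128 :
    Check.Good noCone cfS0A (reach cfS0A ⟨litS0A, 1, fsS0A⟩
      [(1, false), (2, false), (0, true), (1, true), (0, false), (0, false), (0, true)]) :=
  Check.check_sound
    (.leaf (lf 445 0 0 1024 484 (-1024) 161 0 781 255 255 255))
    (by decide +kernel)

def goodS0A_131 :
    Check.Good noCone cfS0A (reach cfS0A ⟨litS0A, 1, fsS0A⟩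
      [(1, false), (0, false), (1, true), (2, false), (0, true), (1, true), (0, false), (0, false), (0, true)]) :=
  Check.check_sound
    (.leaf (lf 269 0 0 1024 349 (-678) (-97) 0 518 255 255 255))
    (by decide +kernel)

def goodS0A_133 :
    Check.Good noCone cfS0A (reach cfS0A ⟨litS0A, 1, fsS0A⟩
      [(0, false), (1, true), (0, false), (1, true), (2, false), (0, true), (1, true), (0, false), (0, false), (0, true)]) :=
  Check.check_sound
    (.node 1
    (.leaf (lf 212 0 0 1024 249 (-457) (-205) 0 351 255 255 255))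
    (.node 2
    (.node 0
    (.node 0
    (.node 1
    (.leaf (lf 190 0 0 1024 178 (-317) (-249) 0 243 255 255 255))
    (.leaf (lf 176 0 0 1024 108 (-186) (-279) 0 145 255 65 203)))
    (.node 1
    (.leaf (lf 188 0 0 1024 178 (-316) (-253) 0 246 255 255 255))
    (.leaf (lf 175 0 0 1024 108 (-186) (-284) 0 147 255 74 205))))
    (.node 1
    (.leaf (lf 186 0 0 1024 179 (-316) (-259) 0 251 255 255 255))
    (.leaf (lf 173 0 0 1024 109 (-186) (-291) 0 150 255 70 197))))
    (.node 0
    (.node 1
    (.leaf (lf 189 0 0 1024 180 (-319) (-250) 0 246 255 255 255))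
    (.leaf (lf 175 0 0 1024 110 (-189) (-281) 0 148 255 82 227)))
    (.node 1
    (.leaf (lf 186 0 0 1024 181 (-318) (-258) 0 253 255 255 255))
    (.leaf (lf 173 0 0 1024 111 (-189) (-290) 0 152 255 70 228))))))
    (by decide +kernel)

def goodS0A_134 :
    Check.Good noCone cfS0A (reach cfS0A ⟨litS0A, 1, fsS0A⟩
      [(0, true), (1, true), (0, false), (1, true), (2, false), (0, true), (1, true), (0, false), (0, false), (0, true)]) :=
  Check.check_sound
    (.node 1
    (.leaf (lf 205 0 0 1024 252 (-455) (-220) 0 370 255 255 255))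
    (.node 2
    (.node 0
    (.node 1
    (.leaf (lf 183 0 0 1024 180 (-315) (-268) 0 258 255 255 255))
    (.leaf (lf 170 0 0 1024 110 (-186) (-300) 0 154 255 66 226)))
    (.node 1
    (.leaf (lf 180 0 0 1024 182 (-315) (-277) 0 265 255 255 255))
    (.leaf (lf 167 0 0 1024 111 (-186) (-309) 0 159 255 82 227))))
    (.node 0
    (.node 1
    (.leaf (lf 183 0 0 1024 182 (-318) (-267) 0 260 255 255 255))
    (.leaf (lf 170 0 0 1024 112 (-190) (-299) 0 157 255 71 226)))
    (.node 1
    (.leaf (lf 181 0 0 1024 184 (-318) (-276) 0 267 255 255 255))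
    (.leaf (lf 168 0 0 1024 113 (-190) (-309) 0 162 255 83 231))))))
    (by decide +kernel)

def goodS0A_132 :
    Check.Good noCone cfS0A (reach cfS0A ⟨litS0A, 1, fsS0A⟩
      [(1, true), (0, false), (1, true), (2, false), (0, true), (1, true), (0, false), (0, false), (0, true)]) :=
  Check.good_node (a := 0) (by decide +kernel)
    goodS0A_133 goodS0A_134

def goodS0A_130 :
    Check.Good noCone cfS0A (reach cfS0A ⟨litS0A, 1, fsS0A⟩
      [(0, false), (1, true), (2, false), (0, true), (1, true), (0, false), (0, false), (0, true)]) :=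
  Check.good_node (a := 1) (by decide +kernel)
    goodS0A_131 goodS0A_132

def goodS0A_136 :
    Check.Good noCone cfS0A (reach cfS0A ⟨litS0A, 1, fsS0A⟩
      [(1, false), (0, true), (1, true), (2, false), (0, true), (1, true), (0, false), (0, false), (0, true)]) :=
  Check.check_sound
    (.leaf (lf 251 0 0 1024 355 (-675) (-120) 0 574 255 255 255))
    (by decide +kernel)

def goodS0A_138 :
    Check.Good noCone cfS0A (reach cfS0A ⟨litS0A, 1, fsS0A⟩
      [(0, false), (1, true), (0, true), (1, true), (2, false), (0, true), (1, true), (0, false), (0, false), (0, true)]) :=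
  Check.check_sound
    (.node 1
    (.leaf (lf 198 0 0 1024 255 (-454) (-235) 0 389 255 255 255))
    (.node 2
    (.node 0
    (.node 1
    (.leaf (lf 178 0 0 1024 183 (-314) (-285) 0 272 255 255 255))
    (.leaf (lf 165 0 0 1024 112 (-187) (-319) 0 164 255 71 231)))
    (.node 1
    (.leaf (lf 175 0 0 1024 185 (-314) (-294) 0 279 255 255 255))
    (.leaf (lf 163 0 0 1024 114 (-187) (-328) 0 169 255 77 231))))
    (.node 0
    (.node 1
    (.leaf (lf 178 0 0 1024 185 (-317) (-284) 0 274 255 255 255))
    (.leaf (lf 165 0 0 1024 114 (-190) (-318) 0 167 255 72 226)))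
    (.node 1
    (.leaf (lf 175 0 0 1024 187 (-317) (-293) 0 281 255 255 255))
    (.leaf (lf 163 0 0 1024 116 (-191) (-327) 0 172 255 67 232))))))
    (by decide +kernel)

def goodS0A_139 :
    Check.Good noCone cfS0A (reach cfS0A ⟨litS0A, 1, fsS0A⟩
      [(0, true), (1, true), (0, true), (1, true), (2, false), (0, true), (1, true), (0, false), (0, false), (0, true)]) :=
  Check.check_sound
    (.node 1
    (.leaf (lf 192 0 0 1024 258 (-452) (-251) 0 409 255 255 255))
    (.node 2
    (.node 0
    (.node 1
    (.leaf (lf 172 0 0 1024 186 (-314) (-303) 0 286 255 255 255))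
    (.leaf (lf 160 0 0 1024 115 (-188) (-337) 0 174 255 255 255)))
    (.node 1
    (.leaf (lf 170 0 0 1024 188 (-313) (-312) 0 294 255 255 255))
    (.leaf (lf 158 0 0 1024 117 (-189) (-347) 0 180 255 255 255))))
    (.node 0
    (.node 1
    (.leaf (lf 173 0 0 1024 188 (-317) (-302) 0 289 255 255 255))
    (.leaf (lf 161 0 0 1024 118 (-192) (-336) 0 177 255 255 255)))
    (.node 1
    (.leaf (lf 171 0 0 1024 190 (-317) (-311) 0 296 255 255 255))
    (.leaf (lf 159 0 0 1024 119 (-193) (-346) 0 183 255 255 255))))))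
    (by decide +kernel)

def goodS0A_137 :
    Check.Good noCone cfS0A (reach cfS0A ⟨litS0A, 1, fsS0A⟩
      [(1, true), (0, true), (1, true), (2, false), (0, true), (1, true), (0, false), (0, false), (0, true)]) :=
  Check.good_node (a := 0) (by decide +kernel)
    goodS0A_138 goodS0A_139

def goodS0A_135 :
    Check.Good noCone cfS0A (reach cfS0A ⟨litS0A, 1, fsS0A⟩
      [(0, true), (1, true), (2, false), (0, true), (1, true), (0, false), (0, false), (0, true)]) :=
  Check.good_node (a := 1) (by decide +kernel)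
    goodS0A_136 goodS0A_137

def goodS0A_129 :
    Check.Good noCone cfS0A (reach cfS0A ⟨litS0A, 1, fsS0A⟩
      [(1, true), (2, false), (0, true), (1, true), (0, false), (0, false), (0, true)]) :=
  Check.good_node (a := 0) (by decide +kernel)
    goodS0A_130 goodS0A_135

def goodS0A_127 :
    Check.Good noCone cfS0A (reach cfS0A ⟨litS0A, 1, fsS0A⟩
      [(2, false), (0, true), (1, true), (0, false), (0, false), (0, true)]) :=
  Check.good_node (a := 1) (by decide +kernel)
    goodS0A_128 goodS0A_129

def goodS0A_141 :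
    Check.Good noCone cfS0A (reach cfS0A ⟨litS0A, 1, fsS0A⟩
      [(1, false), (2, true), (0, true), (1, true), (0, false), (0, false), (0, true)]) :=
  Check.check_sound
    (.leaf (lf 459 0 0 1024 492 (-1013) 183 0 773 255 255 255))
    (by decide +kernel)

def goodS0A_143 :
    Check.Good noCone cfS0A (reach cfS0A ⟨litS0A, 1, fsS0A⟩
      [(0, false), (1, true), (2, true), (0, true), (1, true), (0, false), (0, false), (0, true)]) :=
  Check.check_sound
    (.node 1
    (.leaf (lf 274 0 0 1024 358 (-688) (-86) 0 523 255 255 255))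
    (.node 0
    (.node 1
    (.leaf (lf 214 0 0 1024 256 (-468) (-199) 0 357 255 255 255))
    (.node 2
    (.node 0
    (.node 0
    (.node 1
    (.leaf (lf 191 0 0 1024 183 (-324) (-246) 0 248 255 255 255))
    (.leaf (lf 176 0 0 1024 113 (-195) (-278) 0 151 255 86 239)))
    (.node 1
    (.leaf (lf 189 0 0 1024 183 (-324) (-250) 0 251 255 255 255))
    (.leaf (lf 175 0 0 1024 113 (-195) (-282) 0 153 255 23 53))))
    (.node 1
    (.leaf (lf 187 0 0 1024 184 (-324) (-256) 0 256 255 255 255))
    (.leaf (lf 173 0 0 1024 114 (-196) (-289) 0 157 255 69 229))))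
    (.leaf (lf 2908 0 0 16384 2501 (-4341) (-4272) 0 3392 255 61 191))))
    (.node 1
    (.leaf (lf 207 0 0 1024 260 (-467) (-213) 0 377 255 255 255))
    (.node 2
    (.node 0
    (.node 1
    (.leaf (lf 184 0 0 1024 186 (-324) (-265) 0 263 255 255 255))
    (.leaf (lf 170 0 0 1024 116 (-196) (-298) 0 162 255 255 255)))
    (.node 1
    (.leaf (lf 181 0 0 1024 187 (-323) (-274) 0 271 255 255 255))
    (.leaf (lf 168 0 0 1024 117 (-197) (-307) 0 167 255 255 255))))
    (.leaf (lf 176 0 0 1024 160 (-272) (-284) 0 225 255 67 193))))))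
    (by decide +kernel)

def goodS0A_144 :
    Check.Good noCone cfS0A (reach cfS0A ⟨litS0A, 1, fsS0A⟩
      [(0, true), (1, true), (2, true), (0, true), (1, true), (0, false), (0, false), (0, true)]) :=
  Check.check_sound
    (.node 1
    (.leaf (lf 257 0 0 1024 365 (-686) (-106) 0 581 255 255 255))
    (.node 0
    (.node 1
    (.leaf (lf 201 0 0 1024 263 (-466) (-228) 0 397 255 255 255))
    (.node 2
    (.leaf (lf 170 0 0 1024 157 (-264) (-305) 0 232 255 65 187))
    (.leaf (lf 171 0 0 1024 163 (-273) (-302) 0 238 255 76 222))))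
    (.node 1
    (.leaf (lf 195 0 0 1024 267 (-465) (-244) 0 418 255 255 255))
    (.leaf (lf 166 0 0 1024 164 (-269) (-321) 0 249 255 67 191)))))
    (by decide +kernel)

def goodS0A_142 :
    Check.Good noCone cfS0A (reach cfS0A ⟨litS0A, 1, fsS0A⟩
      [(1, true), (2, true), (0, true), (1, true), (0, false), (0, false), (0, true)]) :=
  Check.good_node (a := 0) (by decide +kernel)
    goodS0A_143 goodS0A_144

def goodS0A_140 :
    Check.Good noCone cfS0A (reach cfS0A ⟨litS0A, 1, fsS0A⟩
      [(2, true), (0, true), (1, true), (0, false), (0, false), (0, true)]) :=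
  Check.good_node (a := 1) (by decide +kernel)
    goodS0A_141 goodS0A_142

def goodS0A_126 :
    Check.Good noCone cfS0A (reach cfS0A ⟨litS0A, 1, fsS0A⟩
      [(0, true), (1, true), (0, false), (0, false), (0, true)]) :=
  Check.good_node (a := 2) (by decide +kernel)
    goodS0A_127 goodS0A_140

def goodS0A_78 :
    Check.Good noCone cfS0A (reach cfS0A ⟨litS0A, 1, fsS0A⟩
      [(1, true), (0, false), (0, false), (0, true)]) :=
  Check.good_node (a := 0) (by decide +kernel)
    goodS0A_79 goodS0A_126

def goodS0A_72 :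
    Check.Good noCone cfS0A (reach cfS0A ⟨litS0A, 1, fsS0A⟩
      [(0, false), (0, false), (0, true)]) :=
  Check.good_node (a := 1) (by decide +kernel)
    goodS0A_73 goodS0A_78

def goodS0A_147 :
    Check.Good noCone cfS0A (reach cfS0A ⟨litS0A, 1, fsS0A⟩
      [(1, false), (1, false), (0, true), (0, false), (0, true)]) :=
  Check.check_sound
    (.node 2
    (.node 1
    (.leaf (lf 777 574 130 0 575 (-1024) 0 0 1009 255 255 255))
    (.node 0
    (.node 1
    (.leaf (lf 1024 0 0 457 425 (-994) 338 0 850 255 255 255))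
    (.leaf (lf 1015 0 0 633 440 (-1024) 466 0 881 255 255 255)))
    (.node 1
    (.leaf (lf 923 0 0 455 426 (-1001) 397 0 1024 255 255 255))
    (.leaf (lf 883 0 0 607 426 (-995) 529 0 1024 255 255 255)))))
    (.node 1
    (.leaf (lf 834 602 142 0 615 (-1023) 0 0 1024 255 255 255))
    (.node 0
    (.node 1
    (.leaf (lf 1024 0 0 464 427 (-933) 328 0 806 255 255 255))
    (.leaf (lf 1024 0 0 647 439 (-958) 458 0 832 255 255 255)))
    (.node 1
    (.leaf (lf 986 0 0 494 455 (-987) 410 0 1024 255 255 255))
    (.leaf (lf 957 0 0 667 454 (-982) 558 0 1024 255 255 255))))))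
    (by decide +kernel)

def goodS0A_148 :
    Check.Good noCone cfS0A (reach cfS0A ⟨litS0A, 1, fsS0A⟩
      [(1, true), (1, false), (0, true), (0, false), (0, true)]) :=
  Check.check_sound
    (.node 2
    (.node 0
    (.node 1
    (.node 0
    (.leaf (lf 860 0 0 742 442 (-1024) 518 0 847 255 255 255))
    (.leaf (lf 808 0 0 736 441 (-1024) 557 0 931 255 255 255)))
    (.leaf (lf 616 0 0 846 456 (-1024) 475 0 910 255 255 255)))
    (.node 1
    (.node 0
    (.leaf (lf 762 0 0 730 442 (-1024) 599 0 1019 255 255 255))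
    (.leaf (lf 666 0 0 669 408 (-944) 595 0 1024 255 255 255)))
    (.leaf (lf 511 0 0 777 432 (-960) 509 0 1024 255 255 255))))
    (.node 0
    (.node 1
    (.node 0
    (.leaf (lf 937 0 0 813 468 (-1024) 554 0 853 255 255 255))
    (.leaf (lf 887 0 0 812 470 (-1024) 602 0 939 255 255 255)))
    (.leaf (lf 608 0 0 821 1024 0 473 (-751) 351 255 255 255)))
    (.node 1
    (.node 0
    (.leaf (lf 841 0 0 808 470 (-1019) 651 0 1024 255 255 255))
    (.leaf (lf 737 0 0 741 433 (-932) 647 0 1024 255 255 255)))
    (.leaf (lf 560 0 0 832 453 (-952) 568 0 1024 255 255 255)))))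
    (by decide +kernel)

def goodS0A_146 :
    Check.Good noCone cfS0A (reach cfS0A ⟨litS0A, 1, fsS0A⟩
      [(1, false), (0, true), (0, false), (0, true)]) :=
  Check.good_node (a := 1) (by decide +kernel)
    goodS0A_147 goodS0A_148

def goodS0A_151 :
    Check.Good noCone cfS0A (reach cfS0A ⟨litS0A, 1, fsS0A⟩
      [(2, false), (0, false), (1, true), (0, true), (0, false), (0, true)]) :=
  Check.check_sound
    (.node 1
    (.leaf (lf 389 0 0 1017 495 (-1024) 164 0 955 255 255 255))
    (.node 0
    (.node 1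
    (.leaf (lf 235 0 0 1024 362 (-671) (-143) 0 632 255 255 255))
    (.node 0
    (.node 1
    (.leaf (lf 187 0 0 1024 262 (-451) (-267) 0 430 255 255 255))
    (.leaf (lf 161 0 0 1024 159 (-257) (-343) 0 252 255 59 191)))
    (.node 1
    (.leaf (lf 182 0 0 1024 266 (-449) (-283) 0 451 255 255 255))
    (.leaf (lf 157 0 0 1024 163 (-258) (-362) 0 266 255 67 221)))))
    (.node 1
    (.leaf (lf 222 0 0 1024 370 (-666) (-166) 0 693 255 255 255))
    (.node 0
    (.node 1
    (.leaf (lf 177 0 0 1024 270 (-448) (-299) 0 473 255 255 255))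
    (.leaf (lf 153 0 0 1024 167 (-259) (-380) 0 282 255 79 227)))
    (.leaf (lf 127 0 (-116) 558 242 (-1024) 0 0 579 130 54 255))))))
    (by decide +kernel)

def goodS0A_152 :
    Check.Good noCone cfS0A (reach cfS0A ⟨litS0A, 1, fsS0A⟩
      [(2, true), (0, false), (1, true), (0, true), (0, false), (0, true)]) :=
  Check.check_sound
    (.node 1
    (.leaf (lf 406 0 0 1024 509 (-1021) 199 0 954 255 255 255))
    (.node 0
    (.node 1
    (.leaf (lf 242 0 0 1024 374 (-683) (-126) 0 642 255 255 255))
    (.node 0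
    (.node 1
    (.leaf (lf 190 0 0 1024 271 (-464) (-259) 0 440 255 255 255))
    (.leaf (lf 162 0 0 1024 168 (-270) (-339) 0 264 255 67 197)))
    (.leaf (lf 139 0 (-120) 578 244 (-1024) 0 0 531 134 58 255))))
    (.node 1
    (.leaf (lf 229 0 0 1024 383 (-679) (-147) 0 706 255 255 255))
    (.leaf (lf 134 0 (-116) 578 252 (-1024) 0 0 573 144 72 255)))))
    (by decide +kernel)

def goodS0A_150 :
    Check.Good noCone cfS0A (reach cfS0A ⟨litS0A, 1, fsS0A⟩
      [(0, false), (1, true), (0, true), (0, false), (0, true)]) :=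
  Check.good_node (a := 2) (by decide +kernel)
    goodS0A_151 goodS0A_152

def goodS0A_153 :
    Check.Good noCone cfS0A (reach cfS0A ⟨litS0A, 1, fsS0A⟩
      [(0, true), (1, true), (0, true), (0, false), (0, true)]) :=
  Check.check_sound
    (.node 2
    (.node 1
    (.leaf (lf 310 0 0 908 456 (-912) 150 0 1024 255 255 255))
    (.node 0
    (.node 1
    (.leaf (lf 211 0 0 1024 379 (-660) (-190) 0 756 255 255 255))
    (.leaf (lf 123 0 (-112) 561 251 (-1024) 0 0 622 139 59 255)))
    (.node 1
    (.leaf (lf 201 0 0 1024 389 (-654) (-213) 0 821 255 255 255))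
    (.leaf (lf 149 0 0 1024 244 (-352) (-424) 0 469 255 74 203)))))
    (.node 1
    (.leaf (lf 325 0 0 911 470 (-908) 193 0 1024 255 255 255))
    (.node 0
    (.node 1
    (.leaf (lf 217 0 0 1024 393 (-675) (-168) 0 772 255 255 255))
    (.leaf (lf 128 0 (-111) 580 264 (-1024) 0 0 633 151 63 255)))
    (.node 1
    (.leaf (lf 207 0 0 1024 404 (-670) (-189) 0 841 255 255 255))
    (.leaf (lf 151 0 0 1024 255 (-367) (-417) 0 488 255 78 207))))))
    (by decide +kernel)

def goodS0A_149 :
    Check.Good noCone cfS0A (reach cfS0A ⟨litS0A, 1, fsS0A⟩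
      [(1, true), (0, true), (0, false), (0, true)]) :=
  Check.good_node (a := 0) (by decide +kernel)
    goodS0A_150 goodS0A_153

def goodS0A_145 :
    Check.Good noCone cfS0A (reach cfS0A ⟨litS0A, 1, fsS0A⟩
      [(0, true), (0, false), (0, true)]) :=
  Check.good_node (a := 1) (by decide +kernel)
    goodS0A_146 goodS0A_149

def goodS0A_71 :
    Check.Good noCone cfS0A (reach cfS0A ⟨litS0A, 1, fsS0A⟩
      [(0, false), (0, true)]) :=
  Check.good_node (a := 0) (by decide +kernel)
    goodS0A_72 goodS0A_145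

def goodS0A_157 :
    Check.Good noCone cfS0A (reach cfS0A ⟨litS0A, 1, fsS0A⟩
      [(0, false), (1, false), (1, false), (0, true), (0, true)]) :=
  Check.check_sound
    (.node 2
    (.node 1
    (.leaf (lf 472 344 78 0 413 (-749) 0 0 1024 255 255 255))
    (.node 0
    (.node 1
    (.leaf (lf 714 0 0 383 360 (-848) 393 0 1024 255 255 255))
    (.leaf (lf 682 0 0 510 361 (-843) 524 0 1024 255 255 255)))
    (.node 1
    (.leaf (lf 566 0 0 327 310 (-727) 393 0 1024 255 255 255))
    (.leaf (lf 541 0 0 435 311 (-722) 525 0 1024 255 255 255)))))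
    (.node 1
    (.leaf (lf 511 363 87 0 443 (-729) 0 0 1024 255 255 255))
    (.node 0
    (.node 1
    (.leaf (lf 772 0 0 421 388 (-833) 410 0 1024 255 255 255))
    (.leaf (lf 750 0 0 568 388 (-828) 560 0 1024 255 255 255)))
    (.node 1
    (.leaf (lf 620 0 0 364 337 (-710) 414 0 1024 255 255 255))
    (.leaf (lf 603 0 0 491 337 (-706) 567 0 1024 255 255 255))))))
    (by decide +kernel)

def goodS0A_158 :
    Check.Good noCone cfS0A (reach cfS0A ⟨litS0A, 1, fsS0A⟩
      [(0, true), (1, false), (1, false), (0, true), (0, true)]) :=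
  Check.check_sound
    (.node 2
    (.node 1
    (.leaf (lf 309 224 53 0 311 (-561) 0 0 1024 255 255 255))
    (.node 0
    (.node 1
    (.leaf (lf 459 0 0 283 270 (-629) 397 0 1024 255 255 255))
    (.leaf (lf 438 0 0 376 272 (-624) 529 0 1024 255 255 255)))
    (.leaf (lf 377 0 0 297 651 0 478 (-1024) 448 255 139 254))))
    (.node 1
    (.leaf (lf 341 241 61 0 339 (-540) 0 0 1024 255 255 255))
    (.node 0
    (.node 1
    (.leaf (lf 509 0 0 319 296 (-612) 422 0 1024 255 255 255))
    (.leaf (lf 495 0 0 430 296 (-608) 578 0 1024 255 255 255)))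
    (.node 1
    (.leaf (lf 425 0 0 283 262 (-531) 431 0 1024 255 255 255))
    (.leaf (lf 413 0 0 380 263 (-528) 592 0 1024 255 255 255))))))
    (by decide +kernel)

def goodS0A_156 :
    Check.Good noCone cfS0A (reach cfS0A ⟨litS0A, 1, fsS0A⟩
      [(1, false), (1, false), (0, true), (0, true)]) :=
  Check.good_node (a := 0) (by decide +kernel)
    goodS0A_157 goodS0A_158

def goodS0A_160 :
    Check.Good noCone cfS0A (reach cfS0A ⟨litS0A, 1, fsS0A⟩
      [(0, false), (1, true), (1, false), (0, true), (0, true)]) :=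
  Check.check_sound
    (.node 2
    (.node 0
    (.node 1
    (.node 0
    (.leaf (lf 583 0 0 612 377 (-868) 589 0 1024 255 255 255))
    (.leaf (lf 514 0 0 562 349 (-801) 584 0 1024 255 255 255)))
    (.leaf (lf 388 0 0 648 371 (-811) 491 0 1024 255 255 255)))
    (.node 1
    (.leaf (lf 428 0 0 504 315 (-712) 568 0 1024 255 255 255))
    (.leaf (lf 303 0 0 550 325 (-693) 476 0 1024 255 255 255))))
    (.node 0
    (.node 1
    (.node 0
    (.leaf (lf 650 0 0 682 401 (-856) 646 0 1024 255 255 255))
    (.leaf (lf 577 0 0 630 373 (-788) 646 0 1024 255 255 255)))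
    (.leaf (lf 430 0 0 696 391 (-801) 557 0 1024 255 255 255)))
    (.node 1
    (.leaf (lf 485 0 0 566 338 (-698) 637 0 1024 255 255 255))
    (.leaf (lf 338 0 0 591 343 (-682) 550 0 1024 255 255 255)))))
    (by decide +kernel)

def goodS0A_161 :
    Check.Good noCone cfS0A (reach cfS0A ⟨litS0A, 1, fsS0A⟩
      [(0, true), (1, true), (1, false), (0, true), (0, true)]) :=
  Check.check_sound
    (.node 2
    (.node 0
    (.node 1
    (.leaf (lf 344 0 0 434 277 (-615) 566 0 1024 255 255 255))
    (.leaf (lf 242 0 0 475 289 (-598) 463 0 1024 255 255 255)))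
    (.node 1
    (.leaf (lf 281 0 0 379 246 (-536) 565 0 1024 255 255 255))
    (.leaf (lf 196 0 0 417 260 (-520) 451 0 1024 255 255 255))))
    (.node 0
    (.node 1
    (.leaf (lf 394 0 0 491 298 (-601) 644 0 1024 255 255 255))
    (.leaf (lf 271 0 0 509 304 (-586) 544 0 1024 255 255 255)))
    (.node 1
    (.leaf (lf 326 0 0 431 265 (-521) 652 0 1024 255 255 255))
    (.leaf (lf 221 0 0 444 273 (-508) 539 0 1024 255 255 255)))))
    (by decide +kernel)

def goodS0A_159 :
    Check.Good noCone cfS0A (reach cfS0A ⟨litS0A, 1, fsS0A⟩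
      [(1, true), (1, false), (0, true), (0, true)]) :=
  Check.good_node (a := 0) (by decide +kernel)
    goodS0A_160 goodS0A_161

def goodS0A_155 :
    Check.Good noCone cfS0A (reach cfS0A ⟨litS0A, 1, fsS0A⟩
      [(1, false), (0, true), (0, true)]) :=
  Check.good_node (a := 1) (by decide +kernel)
    goodS0A_156 goodS0A_159

def goodS0A_162 :
    Check.Good noCone cfS0A (reach cfS0A ⟨litS0A, 1, fsS0A⟩
      [(1, true), (0, true), (0, true)]) :=
  Check.check_sound
    (.node 0
    (.node 1
    (.node 2
    (.leaf (lf 3337 0 0 11605 6102 (-11215) 1679 0 16384 255 223 171))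
    (.node 0
    (.leaf (lf 250 0 0 770 412 (-762) 177 0 1024 255 255 255))
    (.leaf (lf 197 0 0 661 368 (-647) 164 0 1024 255 255 255))))
    (.node 2
    (.node 0
    (.node 0
    (.leaf (lf 157 0 (-88) 736 359 (-1024) 0 0 866 224 102 255))
    (.leaf (lf 152 0 (-85) 742 374 (-1024) 0 0 942 225 104 255)))
    (.leaf (lf 140 0 (-78) 727 385 (-985) 0 0 1024 255 255 255)))
    (.node 0
    (.node 0
    (.leaf (lf 164 0 (-86) 762 377 (-1024) 0 0 887 225 105 255))
    (.leaf (lf 159 0 (-83) 767 393 (-1024) 0 0 966 226 108 255)))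
    (.leaf (lf 143 0 (-74) 730 393 (-958) 0 0 1024 255 255 255)))))
    (.node 1
    (.leaf (lf 139 0 0 550 317 (-515) 111 0 1024 255 213 185))
    (.leaf (lf 106 0 (-55) 605 355 (-767) 0 0 1024 255 255 255))))
    (by decide +kernel)

def goodS0A_154 :
    Check.Good noCone cfS0A (reach cfS0A ⟨litS0A, 1, fsS0A⟩
      [(0, true), (0, true)]) :=
  Check.good_node (a := 1) (by decide +kernel)
    goodS0A_155 goodS0A_162

def goodS0A_70 :
    Check.Good noCone cfS0A (reach cfS0A ⟨litS0A, 1, fsS0A⟩
      [(0, true)]) :=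
  Check.good_node (a := 0) (by decide +kernel)
    goodS0A_71 goodS0A_154

end

end Vale.Agent.P211.Cert.Interior.Data
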