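import Vale.Agent.P211.Cert.Interior.Data.S0Ap1
import Vale.Agent.P211.Cert.Interior.Data.S0Ap2

/-!
P211, a cell of the interior family (generated).
-/

namespace Vale.Agent.P211.Cert.Interior.Data

open Vale.Agent.P098.Check6 (ofChunks eqList reach St Cfg Face)
open Vale.Agent.P098.Cert6.Kron (RootPar parOK)

set_option linter.defProp false

noncomputable section

def goodS0A_0 :
    Check.Good noCone cfS0A (reach cfS0A ⟨litS0A, 1, fsS0A⟩
      []) :=
  Check.good_node (a := 0) (by decide +kernel)
    goodS0A_1 goodS0A_70

/-- The chart is positive. -/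
theorem posS0A : Pos vecV wgtV false
    (segV 0).chA :=
  pos_of_literal (c := cellS0A) (R := parS0A) (fs := fsS0A) rfl (by decide +kernel)
    (by decide +kernel) (by decide +kernel) (lit := litS0A) (by decide +kernel) goodS0A_0

end

end Vale.Agent.P211.Cert.Interior.Data
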