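import Vale.Agent.P211.Cert.Interior.Data.S0Ar

/-!
P211, a part of a cell of the interior family (generated).
-/

namespace Vale.Agent.P211.Cert.Interior.Data

open Vale.Agent.P098.Check6 (ofChunks eqList reach St Cfg Face)
open Vale.Agent.P098.Cert6.Kron (RootPar parOK)

set_option linter.defProp false

noncomputable section

def goodS0A_3 :
    Check.Good noCone cfS0A (reach cfS0A ⟨litS0A, 1, fsS0A⟩
      [(0, false), (0, false), (0, false)]) :=
  Check.check_sound
    (.node 0
    (.leaf (lf 639 0 0 (-126) 1024 (-358) 2 0 26 255 255 255))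
    (.node 0
    (.leaf (lf 936 0 0 (-258) 1024 (-600) 9 0 39 255 255 255))
    (.leaf (lf 1024 0 379 40 844 (-696) 0 0 49 255 202 225))))
    (by decide +kernel)

def goodS0A_5 :
    Check.Good noCone cfS0A (reach cfS0A ⟨litS0A, 1, fsS0A⟩
      [(0, false), (0, true), (0, false), (0, false)]) :=
  Check.check_sound
    (.node 0
    (.node 1
    (.leaf (lf 1024 0 0 (-85) 645 (-627) 15 0 50 255 255 255))
    (.node 0
    (.leaf (lf 1024 0 0 (-119) 474 (-458) 32 0 36 255 242 122))
    (.leaf (lf 1024 0 0 (-6) 388 (-414) 37 0 35 255 247 92))))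
    (.node 1
    (.leaf (lf 1024 0 0 (-29) 477 (-555) 22 0 53 241 255 151))
    (.node 0
    (.node 1
    (.leaf (lf 1024 0 0 (-12) 348 (-401) 43 0 37 255 255 255))
    (.leaf (lf 1024 0 0 220 267 (-315) 43 0 30 255 255 255)))
    (.node 1
    (.leaf (lf 1024 0 0 72 289 (-360) 50 0 37 255 255 255))
    (.node 0
    (.leaf (lf 1024 0 0 329 242 (-305) 47 0 31 237 255 121))
    (.leaf (lf 1024 0 0 406 238 (-310) 48 0 34 255 255 255)))))))
    (by decide +kernel)

def goodS0A_7 :
    Check.Good noCone cfS0A (reach cfS0A ⟨litS0A, 1, fsS0A⟩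
      [(1, false), (0, true), (0, true), (0, false), (0, false)]) :=
  Check.check_sound
    (.node 2
    (.node 1
    (.node 0
    (.leaf (lf 1024 0 0 4 357 (-479) 16 0 55 255 255 255))
    (.leaf (lf 16384 0 0 503 4500 (-6731) 354 0 946 255 255 255)))
    (.node 0
    (.node 0
    (.leaf (lf 1024 0 0 16 314 (-414) 43 0 46 255 255 255))
    (.leaf (lf 1024 0 0 60 270 (-378) 50 0 46 255 255 255)))
    (.node 0
    (.node 1
    (.leaf (lf 1024 0 0 69 235 (-346) 50 0 47 255 255 255))
    (.leaf (lf 1024 0 0 134 201 (-299) 65 0 41 255 255 255)))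
    (.node 1
    (.leaf (lf 1024 0 0 104 204 (-316) 58 0 47 255 255 255))
    (.leaf (lf 1024 0 0 186 182 (-285) 75 0 43 255 255 255))))))
    (.node 1
    (.node 0
    (.leaf (lf 1024 0 0 3 373 (-492) 16 0 57 255 255 255))
    (.leaf (lf 1024 0 0 30 291 (-430) 22 0 60 255 255 255)))
    (.node 0
    (.leaf (lf 1024 0 0 47 315 (-421) 45 0 49 255 255 255))
    (.node 0
    (.node 1
    (.leaf (lf 1024 0 0 66 249 (-363) 50 0 49 255 255 255))
    (.leaf (lf 1024 0 0 130 219 (-322) 65 0 44 255 255 255)))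
    (.node 1
    (.leaf (lf 1024 0 0 101 216 (-330) 57 0 49 255 255 255))
    (.leaf (lf 1024 0 0 181 196 (-303) 75 0 45 255 255 255)))))))
    (by decide +kernel)

def goodS0A_9 :
    Check.Good noCone cfS0A (reach cfS0A ⟨litS0A, 1, fsS0A⟩
      [(2, false), (1, true), (0, true), (0, true), (0, false), (0, false)]) :=
  Check.check_sound
    (.node 0
    (.node 1
    (.node 0
    (.leaf (lf 352 527 1024 0 501 (-38) 0 0 81 255 255 255))
    (.node 1
    (.leaf (lf 1024 0 0 171 205 (-291) 66 0 36 255 255 255))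
    (.leaf (lf 1024 0 0 314 210 (-301) 68 0 38 255 255 255))))
    (.node 0
    (.node 0
    (.leaf (lf 1024 0 0 487 225 (-305) 50 0 35 255 255 255))
    (.leaf (lf 1024 0 0 566 234 (-327) 52 0 40 255 255 255)))
    (.node 0
    (.node 1
    (.leaf (lf 1024 0 0 492 227 (-325) 61 0 41 255 255 255))
    (.leaf (lf 1024 0 0 789 226 (-327) 45 0 42 255 255 255)))
    (.leaf (lf 1024 0 0 725 464 0 54 (-43) 29 255 255 255)))))
    (.node 1
    (.node 0
    (.node 1
    (.leaf (lf 1024 0 0 243 193 (-289) 75 0 40 255 255 255))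
    (.leaf (lf 1024 0 0 413 224 (-339) 77 0 48 255 255 255)))
    (.node 1
    (.leaf (lf 1024 0 0 315 197 (-309) 85 0 47 255 255 255))
    (.leaf (lf 1024 0 0 512 249 (-395) 86 0 61 255 255 255))))
    (.node 0
    (.node 1
    (.leaf (lf 1024 0 0 666 268 (-409) 67 0 59 255 255 255))
    (.leaf (lf 1024 0 0 1024 265 (-408) 41 0 60 255 255 255)))
    (.node 1
    (.leaf (lf 1024 0 0 802 304 (-485) 71 0 77 255 255 255))
    (.leaf (lf 866 0 0 1024 250 (-402) 31 0 65 255 255 255))))))
    (by decide +kernel)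

def goodS0A_10 :
    Check.Good noCone cfS0A (reach cfS0A ⟨litS0A, 1, fsS0A⟩
      [(2, true), (1, true), (0, true), (0, true), (0, false), (0, false)]) :=
  Check.check_sound
    (.node 0
    (.node 1
    (.node 0
    (.leaf (lf 1024 0 0 155 265 (-351) 58 0 40 255 255 255))
    (.node 1
    (.leaf (lf 1024 0 0 166 229 (-321) 65 0 40 255 255 255))
    (.leaf (lf 1024 0 0 307 233 (-330) 68 0 42 255 255 255))))
    (.node 0
    (.node 0
    (.leaf (lf 1024 0 0 480 253 (-338) 50 0 39 255 255 255))
    (.leaf (lf 1024 0 0 558 257 (-354) 51 0 43 255 255 255)))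
    (.node 0
    (.leaf (lf 1024 0 0 636 264 (-376) 53 0 48 232 255 143))
    (.leaf (lf 1024 0 0 716 487 0 53 (-44) 30 255 255 255)))))
    (.node 1
    (.node 0
    (.node 1
    (.leaf (lf 1024 0 0 237 212 (-314) 75 0 43 255 255 255))
    (.leaf (lf 1024 0 0 404 240 (-360) 77 0 50 255 255 255)))
    (.node 1
    (.leaf (lf 1024 0 0 307 210 (-327) 85 0 49 255 255 255))
    (.leaf (lf 1024 0 0 502 260 (-409) 86 0 63 255 255 255))))
    (.node 0
    (.node 1
    (.leaf (lf 1024 0 0 656 281 (-425) 67 0 61 255 255 255))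
    (.leaf (lf 1024 0 0 1014 276 (-421) 41 0 62 255 255 255)))
    (.node 1
    (.leaf (lf 1024 0 0 791 312 (-496) 71 0 78 255 255 255))
    (.leaf (lf 873 0 0 1024 258 (-413) 31 0 67 255 255 255))))))
    (by decide +kernel)

def goodS0A_8 :
    Check.Good noCone cfS0A (reach cfS0A ⟨litS0A, 1, fsS0A⟩
      [(1, true), (0, true), (0, true), (0, false), (0, false)]) :=
  Check.good_node (a := 2) (by decide +kernel)
    goodS0A_9 goodS0A_10

def goodS0A_6 :
    Check.Good noCone cfS0A (reach cfS0A ⟨litS0A, 1, fsS0A⟩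
      [(0, true), (0, true), (0, false), (0, false)]) :=
  Check.good_node (a := 1) (by decide +kernel)
    goodS0A_7 goodS0A_8

def goodS0A_4 :
    Check.Good noCone cfS0A (reach cfS0A ⟨litS0A, 1, fsS0A⟩
      [(0, true), (0, false), (0, false)]) :=
  Check.good_node (a := 0) (by decide +kernel)
    goodS0A_5 goodS0A_6

def goodS0A_2 :
    Check.Good noCone cfS0A (reach cfS0A ⟨litS0A, 1, fsS0A⟩
      [(0, false), (0, false)]) :=
  Check.good_node (a := 0) (by decide +kernel)
    goodS0A_3 goodS0A_4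

def goodS0A_16 :
    Check.Good noCone cfS0A (reach cfS0A ⟨litS0A, 1, fsS0A⟩
      [(1, false), (2, false), (1, false), (0, false), (0, false), (0, true), (0, false)]) :=
  Check.check_sound
    (.node 1
    (.node 1
    (.leaf (lf 1024 0 0 21 191 (-318) 8 0 59 255 255 255))
    (.leaf (lf 1024 0 0 62 189 (-315) 24 0 59 255 255 255)))
    (.node 0
    (.leaf (lf 756 1024 997 0 533 (-322) 0 0 112 255 255 255))
    (.node 1
    (.leaf (lf 1024 0 0 105 169 (-297) 47 0 60 255 255 255))
    (.leaf (lf 1024 0 0 151 163 (-287) 65 0 58 255 255 255)))))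
    (by decide +kernel)

def goodS0A_17 :
    Check.Good noCone cfS0A (reach cfS0A ⟨litS0A, 1, fsS0A⟩
      [(1, true), (2, false), (1, false), (0, false), (0, false), (0, true), (0, false)]) :=
  Check.check_sound
    (.node 0
    (.node 1
    (.node 0
    (.leaf (lf 1024 0 0 139 184 (-297) 66 0 48 255 255 255))
    (.node 1
    (.leaf (lf 1024 0 0 149 163 (-275) 69 0 49 255 255 255))
    (.leaf (lf 1024 0 0 196 158 (-266) 81 0 47 255 255 255))))
    (.node 0
    (.node 0
    (.leaf (lf 1024 0 0 221 173 (-280) 83 0 45 255 255 255))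
    (.leaf (lf 1024 0 0 246 173 (-285) 88 0 48 255 255 255)))
    (.node 1
    (.leaf (lf 1024 0 0 252 161 (-273) 92 0 49 255 255 255))
    (.leaf (lf 1024 0 0 320 178 (-302) 101 0 55 255 255 255)))))
    (.node 1
    (.node 0
    (.node 1
    (.leaf (lf 1024 0 0 180 156 (-271) 78 0 53 255 255 255))
    (.leaf (lf 1024 0 0 234 156 (-272) 92 0 53 255 255 255)))
    (.node 1
    (.leaf (lf 1024 0 0 210 155 (-279) 88 0 59 255 255 255))
    (.leaf (lf 1024 0 0 271 161 (-291) 104 0 62 255 255 255))))
    (.node 0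
    (.node 1
    (.leaf (lf 1024 0 0 298 168 (-294) 104 0 58 255 255 255))
    (.leaf (lf 1024 0 0 375 193 (-339) 114 0 67 255 255 255)))
    (.leaf (lf 1024 0 0 387 432 0 122 (-71) 39 241 128 255)))))
    (by decide +kernel)

def goodS0A_15 :
    Check.Good noCone cfS0A (reach cfS0A ⟨litS0A, 1, fsS0A⟩
      [(2, false), (1, false), (0, false), (0, false), (0, true), (0, false)]) :=
  Check.good_node (a := 1) (by decide +kernel)
    goodS0A_16 goodS0A_17

def goodS0A_19 :
    Check.Good noCone cfS0A (reach cfS0A ⟨litS0A, 1, fsS0A⟩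
      [(1, false), (2, true), (1, false), (0, false), (0, false), (0, true), (0, false)]) :=
  Check.check_sound
    (.node 1
    (.node 1
    (.leaf (lf 1024 0 0 20 193 (-318) 8 0 59 255 255 255))
    (.leaf (lf 1024 0 0 62 191 (-316) 24 0 59 255 255 255)))
    (.node 0
    (.leaf (lf 16384 0 0 1382 3293 (-5336) 694 0 899 255 255 255))
    (.node 1
    (.leaf (lf 1024 0 0 104 170 (-295) 47 0 59 255 255 255))
    (.leaf (lf 16384 0 0 2395 2631 (-4589) 1033 0 922 255 255 255)))))
    (by decide +kernel)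

def goodS0A_20 :
    Check.Good noCone cfS0A (reach cfS0A ⟨litS0A, 1, fsS0A⟩
      [(1, true), (2, true), (1, false), (0, false), (0, false), (0, true), (0, false)]) :=
  Check.check_sound
    (.node 0
    (.node 1
    (.node 0
    (.leaf (lf 1024 0 0 135 192 (-308) 66 0 50 255 255 255))
    (.node 1
    (.leaf (lf 1024 0 0 146 169 (-281) 68 0 50 255 255 255))
    (.leaf (lf 1024 0 0 192 164 (-274) 81 0 49 255 255 255))))
    (.node 0
    (.leaf (lf 16384 0 0 3702 5646 0 1363 (-667) 413 242 129 255))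
    (.node 1
    (.leaf (lf 1024 0 0 247 168 (-282) 92 0 50 255 255 255))
    (.leaf (lf 1024 0 0 314 184 (-311) 101 0 56 255 255 255)))))
    (.node 1
    (.node 0
    (.node 1
    (.leaf (lf 1024 0 0 177 159 (-274) 77 0 53 255 255 255))
    (.leaf (lf 1024 0 0 230 159 (-276) 92 0 54 255 255 255)))
    (.node 1
    (.leaf (lf 1024 0 0 208 156 (-279) 87 0 58 255 255 255))
    (.leaf (lf 1024 0 0 268 163 (-291) 103 0 62 255 255 255))))
    (.node 0
    (.node 1
    (.leaf (lf 1024 0 0 293 172 (-298) 104 0 58 255 255 255))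
    (.leaf (lf 1024 0 0 369 197 (-343) 114 0 67 255 255 255)))
    (.leaf (lf 16384 0 0 6108 6923 0 1953 (-1127) 627 243 133 255)))))
    (by decide +kernel)

def goodS0A_18 :
    Check.Good noCone cfS0A (reach cfS0A ⟨litS0A, 1, fsS0A⟩
      [(2, true), (1, false), (0, false), (0, false), (0, true), (0, false)]) :=
  Check.good_node (a := 1) (by decide +kernel)
    goodS0A_19 goodS0A_20

def goodS0A_14 :
    Check.Good noCone cfS0A (reach cfS0A ⟨litS0A, 1, fsS0A⟩
      [(1, false), (0, false), (0, false), (0, true), (0, false)]) :=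
  Check.good_node (a := 2) (by decide +kernel)
    goodS0A_15 goodS0A_18

def goodS0A_22 :
    Check.Good noCone cfS0A (reach cfS0A ⟨litS0A, 1, fsS0A⟩
      [(2, false), (1, true), (0, false), (0, false), (0, true), (0, false)]) :=
  Check.check_sound
    (.node 0
    (.node 1
    (.node 0
    (.node 1
    (.leaf (lf 1024 0 0 386 212 (-348) 96 0 58 255 255 255))
    (.leaf (lf 1024 0 0 610 280 (-464) 95 0 79 255 255 255)))
    (.node 1
    (.leaf (lf 1024 0 0 456 234 (-399) 108 0 73 255 255 255))
    (.leaf (lf 1024 0 0 708 315 (-541) 104 0 101 255 255 255))))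
    (.node 0
    (.node 1
    (.leaf (lf 1024 0 0 938 342 (-569) 74 0 99 255 255 255))
    (.leaf (lf 749 0 0 1024 240 (-400) 21 0 72 255 255 255)))
    (.node 1
    (.leaf (lf 975 0 0 1024 364 (-627) 73 0 120 255 255 255))
    (.leaf (lf 658 0 0 1024 232 (-399) 11 0 79 255 234 193)))))
    (.node 1
    (.node 0
    (.node 1
    (.leaf (lf 1024 0 0 527 260 (-460) 121 0 92 255 255 255))
    (.leaf (lf 1024 0 0 807 351 (-623) 113 0 128 255 255 255)))
    (.node 1
    (.leaf (lf 1024 0 0 596 289 (-526) 134 0 115 255 255 255))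
    (.leaf (lf 1024 0 0 905 389 (-710) 123 0 159 255 255 255))))
    (.node 0
    (.node 1
    (.leaf (lf 863 0 0 1024 357 (-634) 65 0 133 255 255 255))
    (.leaf (lf 587 0 0 1024 225 (-398) 1 0 86 255 223 200)))
    (.node 1
    (.leaf (lf 774 0 0 1024 351 (-641) 58 0 147 255 255 255))
    (.leaf (lf 528 0 0 1024 219 (-397) (-8) 0 94 255 206 213))))))
    (by decide +kernel)

def goodS0A_23 :
    Check.Good noCone cfS0A (reach cfS0A ⟨litS0A, 1, fsS0A⟩
      [(2, true), (1, true), (0, false), (0, false), (0, true), (0, false)]) :=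
  Check.check_sound
    (.node 0
    (.node 1
    (.node 0
    (.node 1
    (.leaf (lf 1024 0 0 378 221 (-360) 96 0 60 255 255 255))
    (.leaf (lf 1024 0 0 600 288 (-473) 95 0 80 255 255 255)))
    (.node 1
    (.leaf (lf 1024 0 0 448 240 (-406) 108 0 74 255 255 255))
    (.leaf (lf 1024 0 0 698 320 (-547) 104 0 101 255 255 255))))
    (.node 0
    (.node 1
    (.leaf (lf 1024 0 0 927 349 (-577) 74 0 100 255 255 255))
    (.leaf (lf 753 0 0 1024 245 (-406) 21 0 72 255 240 183)))
    (.node 1
    (.leaf (lf 985 0 0 1024 372 (-639) 74 0 121 255 255 255))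
    (.leaf (lf 661 0 0 1024 235 (-403) 11 0 79 255 232 193)))))
    (.node 1
    (.node 0
    (.node 1
    (.leaf (lf 1024 0 0 518 264 (-463) 121 0 92 255 255 255))
    (.leaf (lf 1024 0 0 796 355 (-627) 114 0 127 255 255 255)))
    (.node 1
    (.leaf (lf 1024 0 0 588 291 (-526) 135 0 114 255 255 255))
    (.leaf (lf 1024 0 0 894 391 (-711) 124 0 158 255 255 255))))
    (.node 0
    (.node 1
    (.leaf (lf 871 0 0 1024 363 (-643) 66 0 134 255 255 255))
    (.leaf (lf 588 0 0 1024 227 (-401) 2 0 86 255 214 206)))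
    (.node 1
    (.leaf (lf 780 0 0 1024 356 (-649) 59 0 148 255 255 255))
    (.leaf (lf 529 0 0 1024 220 (-400) (-8) 0 94 255 203 212))))))
    (by decide +kernel)

def goodS0A_21 :
    Check.Good noCone cfS0A (reach cfS0A ⟨litS0A, 1, fsS0A⟩
      [(1, true), (0, false), (0, false), (0, true), (0, false)]) :=
  Check.good_node (a := 2) (by decide +kernel)
    goodS0A_22 goodS0A_23

def goodS0A_13 :
    Check.Good noCone cfS0A (reach cfS0A ⟨litS0A, 1, fsS0A⟩
      [(0, false), (0, false), (0, true), (0, false)]) :=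
  Check.good_node (a := 1) (by decide +kernel)
    goodS0A_14 goodS0A_21

def goodS0A_27 :
    Check.Good noCone cfS0A (reach cfS0A ⟨litS0A, 1, fsS0A⟩
      [(1, false), (2, false), (1, false), (0, true), (0, false), (0, true), (0, false)]) :=
  Check.check_sound
    (.node 1
    (.node 1
    (.leaf (lf 1024 0 0 34 179 (-336) 13 0 87 255 255 255))
    (.leaf (lf 803 1024 569 0 402 (-371) 0 0 132 255 255 255)))
    (.node 0
    (.node 1
    (.leaf (lf 1024 0 0 138 167 (-311) 59 0 74 255 255 255))
    (.node 0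
    (.leaf (lf 1024 0 0 179 159 (-294) 78 0 67 255 255 255))
    (.leaf (lf 1024 0 0 202 165 (-314) 87 0 78 255 255 255))))
    (.node 1
    (.leaf (lf 1024 0 0 170 181 (-354) 73 0 98 255 255 255))
    (.leaf (lf 1024 0 0 243 183 (-359) 101 0 100 255 255 255)))))
    (by decide +kernel)

def goodS0A_28 :
    Check.Good noCone cfS0A (reach cfS0A ⟨litS0A, 1, fsS0A⟩
      [(1, true), (2, false), (1, false), (0, true), (0, false), (0, true), (0, false)]) :=
  Check.check_sound
    (.node 0
    (.node 1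
    (.node 0
    (.node 1
    (.leaf (lf 1024 0 0 240 160 (-297) 98 0 68 255 255 255))
    (.leaf (lf 1024 0 0 308 172 (-319) 116 0 74 255 255 255)))
    (.node 1
    (.leaf (lf 1024 0 0 269 170 (-323) 110 0 81 255 255 255))
    (.leaf (lf 1024 0 0 345 186 (-354) 129 0 89 255 255 255))))
    (.node 0
    (.leaf (lf 1024 0 0 436 228 (-426) 137 0 99 255 255 255))
    (.leaf (lf 1024 0 0 484 250 (-477) 152 0 121 255 255 255))))
    (.node 1
    (.node 0
    (.node 1
    (.leaf (lf 1024 0 0 299 182 (-355) 122 0 96 255 255 255))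
    (.leaf (lf 1024 0 0 381 202 (-394) 144 0 107 255 255 255)))
    (.leaf (lf 1024 0 0 374 504 0 147 (-117) 59 242 107 255)))
    (.node 0
    (.leaf (lf 1024 0 0 532 272 (-532) 168 0 146 255 255 255))
    (.leaf (lf 1024 0 0 580 295 (-589) 186 0 174 255 255 255)))))
    (by decide +kernel)

def goodS0A_26 :
    Check.Good noCone cfS0A (reach cfS0A ⟨litS0A, 1, fsS0A⟩
      [(2, false), (1, false), (0, true), (0, false), (0, true), (0, false)]) :=
  Check.good_node (a := 1) (by decide +kernel)
    goodS0A_27 goodS0A_28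

def goodS0A_30 :
    Check.Good noCone cfS0A (reach cfS0A ⟨litS0A, 1, fsS0A⟩
      [(1, false), (2, true), (1, false), (0, true), (0, false), (0, true), (0, false)]) :=
  Check.check_sound
    (.node 1
    (.node 1
    (.leaf (lf 1024 0 0 34 177 (-330) 13 0 85 255 255 255))
    (.leaf (lf 799 1024 579 0 401 (-361) 0 0 129 255 255 255)))
    (.node 0
    (.node 1
    (.leaf (lf 1024 0 0 137 165 (-305) 59 0 72 255 255 255))
    (.node 0
    (.leaf (lf 1024 0 0 179 158 (-290) 78 0 66 255 255 255))
    (.leaf (lf 1024 0 0 202 164 (-308) 87 0 76 255 255 255))))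
    (.node 1
    (.leaf (lf 1024 0 0 171 179 (-346) 73 0 96 255 255 255))
    (.leaf (lf 1024 0 0 244 182 (-351) 100 0 97 255 255 255)))))
    (by decide +kernel)

def goodS0A_31 :
    Check.Good noCone cfS0A (reach cfS0A ⟨litS0A, 1, fsS0A⟩
      [(1, true), (2, true), (1, false), (0, true), (0, false), (0, true), (0, false)]) :=
  Check.check_sound
    (.node 0
    (.node 1
    (.node 0
    (.node 1
    (.leaf (lf 1024 0 0 238 160 (-294) 98 0 67 255 255 255))
    (.leaf (lf 1024 0 0 306 172 (-317) 116 0 73 255 255 255)))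
    (.node 1
    (.leaf (lf 1024 0 0 269 169 (-318) 109 0 79 255 255 255))
    (.leaf (lf 1024 0 0 343 185 (-349) 129 0 87 255 255 255))))
    (.node 0
    (.leaf (lf 1024 0 0 431 228 (-423) 136 0 98 255 255 255))
    (.leaf (lf 1024 0 0 480 249 (-472) 152 0 119 255 255 255))))
    (.node 1
    (.node 0
    (.node 1
    (.leaf (lf 1024 0 0 299 180 (-348) 121 0 93 255 255 255))
    (.leaf (lf 1024 0 0 380 200 (-386) 143 0 104 255 255 255)))
    (.node 1
    (.leaf (lf 1024 0 0 328 194 (-382) 134 0 110 255 255 255))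
    (.leaf (lf 1024 0 0 416 217 (-427) 158 0 124 255 255 255))))
    (.node 0
    (.leaf (lf 1024 0 0 529 270 (-524) 168 0 143 255 255 255))
    (.leaf (lf 1024 0 0 577 292 (-578) 186 0 170 255 255 255)))))
    (by decide +kernel)

def goodS0A_29 :
    Check.Good noCone cfS0A (reach cfS0A ⟨litS0A, 1, fsS0A⟩
      [(2, true), (1, false), (0, true), (0, false), (0, true), (0, false)]) :=
  Check.good_node (a := 1) (by decide +kernel)
    goodS0A_30 goodS0A_31

def goodS0A_25 :
    Check.Good noCone cfS0A (reach cfS0A ⟨litS0A, 1, fsS0A⟩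
      [(1, false), (0, true), (0, false), (0, true), (0, false)]) :=
  Check.good_node (a := 2) (by decide +kernel)
    goodS0A_26 goodS0A_29

def goodS0A_33 :
    Check.Good noCone cfS0A (reach cfS0A ⟨litS0A, 1, fsS0A⟩
      [(2, false), (1, true), (0, true), (0, false), (0, true), (0, false)]) :=
  Check.check_sound
    (.node 0
    (.node 1
    (.node 0
    (.leaf (lf 1024 0 0 843 402 (-752) 139 0 181 255 255 255))
    (.leaf (lf 1024 0 0 928 437 (-837) 152 0 219 255 255 255)))
    (.node 0
    (.node 1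
    (.leaf (lf 701 0 0 1024 347 (-648) 51 0 162 255 255 255))
    (.leaf (lf 480 0 0 1024 214 (-396) (-19) 0 102 255 198 214)))
    (.node 1
    (.leaf (lf 640 0 0 1024 344 (-654) 44 0 178 255 255 255))
    (.leaf (lf 439 0 0 1024 210 (-395) (-29) 0 111 255 184 222)))))
    (.node 1
    (.node 0
    (.leaf (lf 1024 0 0 1012 472 (-924) 164 0 261 255 255 255))
    (.leaf (lf 956 0 0 1024 475 (-946) 165 0 289 255 255 255)))
    (.node 0
    (.node 1
    (.leaf (lf 589 0 0 1024 341 (-660) 37 0 194 255 255 255))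
    (.leaf (lf 404 0 0 1024 207 (-393) (-40) 0 120 255 149 196)))
    (.node 1
    (.leaf (lf 544 0 0 1024 339 (-665) 30 0 212 255 255 255))
    (.leaf (lf 374 0 0 1024 203 (-391) (-52) 0 129 255 141 196))))))
    (by decide +kernel)

def goodS0A_34 :
    Check.Good noCone cfS0A (reach cfS0A ⟨litS0A, 1, fsS0A⟩
      [(2, true), (1, true), (0, true), (0, false), (0, true), (0, false)]) :=
  Check.check_sound
    (.node 0
    (.node 1
    (.node 0
    (.leaf (lf 1024 0 0 833 402 (-750) 140 0 179 255 255 255))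
    (.leaf (lf 1024 0 0 917 437 (-833) 152 0 216 255 255 255)))
    (.node 0
    (.node 1
    (.leaf (lf 706 0 0 1024 351 (-655) 52 0 162 255 255 255))
    (.leaf (lf 480 0 0 1024 215 (-398) (-19) 0 102 255 194 215)))
    (.node 1
    (.leaf (lf 645 0 0 1024 347 (-660) 46 0 178 255 255 255))
    (.leaf (lf 439 0 0 1024 211 (-396) (-29) 0 110 255 153 191)))))
    (.node 1
    (.node 0
    (.leaf (lf 1024 0 0 1001 472 (-918) 165 0 257 255 255 255))
    (.leaf (lf 966 0 0 1024 479 (-948) 169 0 287 255 255 255)))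
    (.node 0
    (.node 1
    (.leaf (lf 593 0 0 1024 344 (-666) 39 0 194 255 255 255))
    (.leaf (lf 404 0 0 1024 207 (-394) (-40) 0 119 255 143 194)))
    (.node 1
    (.leaf (lf 548 0 0 1024 342 (-670) 32 0 212 255 255 255))
    (.leaf (lf 374 0 0 1024 204 (-392) (-52) 0 128 255 136 193))))))
    (by decide +kernel)

def goodS0A_32 :
    Check.Good noCone cfS0A (reach cfS0A ⟨litS0A, 1, fsS0A⟩
      [(1, true), (0, true), (0, false), (0, true), (0, false)]) :=
  Check.good_node (a := 2) (by decide +kernel)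
    goodS0A_33 goodS0A_34

def goodS0A_24 :
    Check.Good noCone cfS0A (reach cfS0A ⟨litS0A, 1, fsS0A⟩
      [(0, true), (0, false), (0, true), (0, false)]) :=
  Check.good_node (a := 1) (by decide +kernel)
    goodS0A_25 goodS0A_32

def goodS0A_12 :
    Check.Good noCone cfS0A (reach cfS0A ⟨litS0A, 1, fsS0A⟩
      [(0, false), (0, true), (0, false)]) :=
  Check.good_node (a := 0) (by decide +kernel)
    goodS0A_13 goodS0A_24

def goodS0A_38 :
    Check.Good noCone cfS0A (reach cfS0A ⟨litS0A, 1, fsS0A⟩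
      [(2, false), (1, false), (1, false), (0, true), (0, true), (0, false)]) :=
  Check.check_sound
    (.node 0
    (.node 1
    (.node 1
    (.leaf (lf 1024 0 0 46 217 (-444) 19 0 154 255 255 255))
    (.leaf (lf 782 1024 476 0 483 (-497) 0 0 221 255 255 255)))
    (.node 0
    (.node 1
    (.leaf (lf 1024 0 0 202 203 (-413) 90 0 133 255 255 255))
    (.leaf (lf 1024 0 0 287 208 (-424) 123 0 137 255 255 255)))
    (.node 1
    (.leaf (lf 1024 0 0 233 228 (-481) 108 0 178 255 255 255))
    (.leaf (lf 1024 0 0 331 236 (-497) 149 0 184 255 255 255)))))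
    (.node 1
    (.node 1
    (.leaf (lf 1024 0 0 59 269 (-581) 27 0 261 255 255 255))
    (.leaf (lf 1024 0 0 176 270 (-584) 82 0 262 255 255 255)))
    (.node 0
    (.node 1
    (.leaf (lf 1024 0 0 264 255 (-553) 129 0 233 255 255 255))
    (.leaf (lf 1024 0 0 373 264 (-572) 178 0 242 255 255 255)))
    (.node 1
    (.leaf (lf 1024 0 0 294 282 (-625) 153 0 298 255 255 255))
    (.leaf (lf 1024 0 0 415 292 (-647) 211 0 310 255 255 255))))))
    (by decide +kernel)

def goodS0A_39 :
    Check.Good noCone cfS0A (reach cfS0A ⟨litS0A, 1, fsS0A⟩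
      [(2, true), (1, false), (1, false), (0, true), (0, true), (0, false)]) :=
  Check.check_sound
    (.node 0
    (.node 1
    (.node 1
    (.leaf (lf 1024 0 0 47 218 (-437) 19 0 151 255 255 255))
    (.node 0
    (.leaf (lf 1024 0 0 121 202 (-404) 54 0 129 255 255 255))
    (.leaf (lf 1024 0 0 141 228 (-469) 64 0 172 255 255 255))))
    (.node 0
    (.node 1
    (.leaf (lf 1024 0 0 204 202 (-405) 88 0 130 255 255 255))
    (.leaf (lf 1024 0 0 290 207 (-415) 122 0 133 255 255 255)))
    (.node 1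
    (.leaf (lf 1024 0 0 236 228 (-471) 106 0 174 255 255 255))
    (.leaf (lf 1024 0 0 334 235 (-485) 147 0 179 255 255 255)))))
    (.node 1
    (.node 1
    (.leaf (lf 1024 0 0 60 272 (-571) 27 0 256 255 255 255))
    (.leaf (lf 1024 0 0 179 272 (-572) 80 0 257 255 255 255)))
    (.node 0
    (.node 1
    (.leaf (lf 1024 0 0 268 256 (-540) 127 0 227 255 255 255))
    (.leaf (lf 1024 0 0 378 263 (-556) 175 0 235 255 255 255)))
    (.node 1
    (.leaf (lf 1024 0 0 299 284 (-609) 150 0 290 255 255 255))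
    (.leaf (lf 1024 0 0 421 291 (-626) 207 0 299 255 255 255))))))
    (by decide +kernel)

def goodS0A_37 :
    Check.Good noCone cfS0A (reach cfS0A ⟨litS0A, 1, fsS0A⟩
      [(1, false), (1, false), (0, true), (0, true), (0, false)]) :=
  Check.good_node (a := 2) (by decide +kernel)
    goodS0A_38 goodS0A_39

def goodS0A_41 :
    Check.Good noCone cfS0A (reach cfS0A ⟨litS0A, 1, fsS0A⟩
      [(2, false), (1, true), (1, false), (0, true), (0, true), (0, false)]) :=
  Check.check_sound
    (.node 0
    (.node 0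
    (.node 1
    (.node 0
    (.leaf (lf 1024 0 0 406 549 0 162 (-139) 68 242 104 255))
    (.leaf (lf 1024 0 0 438 260 (-537) 179 0 181 255 255 255)))
    (.node 0
    (.leaf (lf 1024 0 0 627 318 (-647) 205 0 206 255 255 255))
    (.leaf (lf 1024 0 0 673 341 (-706) 225 0 242 255 255 255))))
    (.node 1
    (.node 1
    (.leaf (lf 1024 0 0 434 253 (-535) 187 0 199 255 255 255))
    (.leaf (lf 1024 0 0 547 286 (-603) 221 0 227 255 255 255)))
    (.leaf (lf 1024 0 0 753 381 (-803) 255 0 305 255 255 255))))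
    (.node 0
    (.node 1
    (.node 1
    (.leaf (lf 1024 0 0 489 285 (-616) 224 0 262 255 255 255))
    (.leaf (lf 1024 0 0 614 321 (-696) 264 0 298 255 255 255)))
    (.leaf (lf 1024 0 0 842 427 (-923) 304 0 400 255 255 255)))
    (.node 1
    (.node 1
    (.leaf (lf 1024 0 0 541 316 (-698) 266 0 336 255 255 255))
    (.leaf (lf 1024 0 0 679 357 (-788) 313 0 382 255 255 255)))
    (.leaf (lf 1006 0 0 913 466 (-1024) 354 0 504 255 255 255)))))
    (by decide +kernel)

def goodS0A_42 :
    Check.Good noCone cfS0A (reach cfS0A ⟨litS0A, 1, fsS0A⟩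
      [(2, true), (1, true), (1, false), (0, true), (0, true), (0, false)]) :=
  Check.check_sound
    (.node 0
    (.node 0
    (.node 1
    (.node 0
    (.leaf (lf 1024 0 0 407 240 (-482) 161 0 150 237 255 93))
    (.leaf (lf 1024 0 0 439 257 (-524) 177 0 176 236 255 92)))
    (.node 0
    (.leaf (lf 1024 0 0 624 315 (-633) 204 0 200 255 255 255))
    (.leaf (lf 1024 0 0 671 337 (-689) 224 0 234 255 255 255))))
    (.node 1
    (.node 1
    (.leaf (lf 1024 0 0 438 251 (-520) 185 0 193 255 255 255))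
    (.leaf (lf 1024 0 0 549 282 (-585) 218 0 219 255 255 255)))
    (.leaf (lf 1024 0 0 751 376 (-781) 254 0 295 255 255 255))))
    (.node 0
    (.node 1
    (.node 1
    (.leaf (lf 1024 0 0 493 282 (-596) 221 0 253 255 255 255))
    (.leaf (lf 1024 0 0 617 317 (-670) 261 0 286 255 255 255)))
    (.leaf (lf 1024 0 0 840 421 (-890) 303 0 385 255 255 255)))
    (.node 1
    (.node 1
    (.leaf (lf 1024 0 0 547 312 (-670) 261 0 322 255 255 255))
    (.leaf (lf 1024 0 0 683 351 (-754) 309 0 365 255 255 255)))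
    (.leaf (lf 1024 0 0 926 466 (-999) 359 0 490 255 255 255)))))
    (by decide +kernel)

def goodS0A_40 :
    Check.Good noCone cfS0A (reach cfS0A ⟨litS0A, 1, fsS0A⟩
      [(1, true), (1, false), (0, true), (0, true), (0, false)]) :=
  Check.good_node (a := 2) (by decide +kernel)
    goodS0A_41 goodS0A_42

def goodS0A_36 :
    Check.Good noCone cfS0A (reach cfS0A ⟨litS0A, 1, fsS0A⟩
      [(1, false), (0, true), (0, true), (0, false)]) :=
  Check.good_node (a := 1) (by decide +kernel)
    goodS0A_37 goodS0A_40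

def goodS0A_45 :
    Check.Good noCone cfS0A (reach cfS0A ⟨litS0A, 1, fsS0A⟩
      [(2, false), (0, false), (1, true), (0, true), (0, true), (0, false)]) :=
  Check.check_sound
    (.node 0
    (.node 1
    (.node 1
    (.leaf (lf 1024 0 0 984 463 (-946) 222 0 319 255 255 255))
    (.leaf (lf 718 0 0 1024 427 (-864) 121 0 299 255 255 255)))
    (.node 0
    (.node 1
    (.leaf (lf 506 0 0 1024 337 (-669) 22 0 230 255 255 255))
    (.leaf (lf 348 0 0 1024 201 (-388) (-64) 0 138 255 131 197)))
    (.node 1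
    (.leaf (lf 473 0 0 1024 336 (-673) 15 0 249 255 255 255))
    (.leaf (lf 364 0 (-189) 922 250 (-1024) 0 0 210 240 100 255)))))
    (.node 1
    (.leaf (lf 747 0 0 1024 469 (-976) 162 0 384 255 255 255))
    (.node 0
    (.node 1
    (.leaf (lf 443 0 0 1024 335 (-676) 7 0 269 255 255 255))
    (.leaf (lf 325 0 (-185) 857 240 (-1024) 0 0 222 208 89 255)))
    (.node 1
    (.leaf (lf 417 0 0 1024 335 (-678) (-2) 0 289 255 255 255))
    (.leaf (lf 293 0 (-180) 804 232 (-1024) 0 0 235 179 80 255))))))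
    (by decide +kernel)

def goodS0A_46 :
    Check.Good noCone cfS0A (reach cfS0A ⟨litS0A, 1, fsS0A⟩
      [(2, true), (0, false), (1, true), (0, true), (0, true), (0, false)]) :=
  Check.check_sound
    (.node 0
    (.node 1
    (.node 1
    (.leaf (lf 1024 0 0 975 460 (-931) 223 0 312 255 255 255))
    (.leaf (lf 726 0 0 1024 430 (-866) 124 0 298 255 255 255)))
    (.node 0
    (.node 1
    (.leaf (lf 510 0 0 1024 340 (-674) 24 0 230 255 255 255))
    (.leaf (lf 413 0 (-192) 998 263 (-1024) 0 0 198 223 122 255)))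
    (.node 1
    (.leaf (lf 476 0 0 1024 339 (-678) 17 0 249 255 255 255))
    (.leaf (lf 364 0 (-188) 919 250 (-1024) 0 0 209 233 99 255)))))
    (.node 1
    (.leaf (lf 756 0 0 1024 472 (-972) 166 0 380 255 255 255))
    (.node 0
    (.node 1
    (.leaf (lf 447 0 0 1024 338 (-681) 9 0 269 255 255 255))
    (.leaf (lf 325 0 (-184) 856 241 (-1024) 0 0 221 201 87 255)))
    (.node 1
    (.leaf (lf 421 0 0 1024 338 (-683) 1 0 289 255 255 255))
    (.leaf (lf 294 0 (-179) 805 234 (-1024) 0 0 235 178 79 255))))))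
    (by decide +kernel)

def goodS0A_44 :
    Check.Good noCone cfS0A (reach cfS0A ⟨litS0A, 1, fsS0A⟩
      [(0, false), (1, true), (0, true), (0, true), (0, false)]) :=
  Check.good_node (a := 2) (by decide +kernel)
    goodS0A_45 goodS0A_46

def goodS0A_49 :
    Check.Good noCone cfS0A (reach cfS0A ⟨litS0A, 1, fsS0A⟩
      [(1, false), (2, false), (0, true), (1, true), (0, true), (0, true), (0, false)]) :=
  Check.check_sound
    (.node 0
    (.leaf (lf 667 0 0 1024 469 (-992) 163 0 447 255 255 255))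
    (.leaf (lf 603 0 0 1024 471 (-1006) 165 0 514 255 255 255)))
    (by decide +kernel)

def goodS0A_51 :
    Check.Good noCone cfS0A (reach cfS0A ⟨litS0A, 1, fsS0A⟩
      [(0, false), (1, true), (2, false), (0, true), (1, true), (0, true), (0, true), (0, false)]) :=
  Check.check_sound
    (.node 0
    (.node 1
    (.leaf (lf 394 0 0 1024 335 (-680) (-11) 0 311 255 255 255))
    (.leaf (lf 267 0 (-175) 759 227 (-1024) 0 0 250 168 85 255)))
    (.node 1
    (.leaf (lf 373 0 0 1024 335 (-682) (-20) 0 333 255 255 255))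
    (.node 0
    (.node 2
    (.leaf (lf 250 0 (-171) 731 223 (-1024) 0 0 262 156 71 255))
    (.node 1
    (.leaf (lf 289 0 0 1024 240 (-471) (-100) 0 233 255 255 255))
    (.leaf (lf 242 0 0 1024 144 (-275) (-150) 0 139 255 88 206))))
    (.node 2
    (.node 1
    (.leaf (lf 281 0 0 1024 239 (-469) (-107) 0 240 255 255 255))
    (.leaf (lf 172 0 (-191) 525 155 (-1024) 0 0 231 202 68 255)))
    (.node 1
    (.leaf (lf 281 0 0 1024 240 (-470) (-107) 0 240 255 255 255))
    (.leaf (lf 172 0 (-190) 526 156 (-1024) 0 0 231 205 67 255)))))))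
    (by decide +kernel)

def goodS0A_53 :
    Check.Good noCone cfS0A (reach cfS0A ⟨litS0A, 1, fsS0A⟩
      [(0, false), (0, true), (1, true), (2, false), (0, true), (1, true), (0, true), (0, true), (0, false)]) :=
  Check.check_sound
    (.node 1
    (.leaf (lf 355 0 0 1024 336 (-683) (-29) 0 355 255 255 255))
    (.node 0
    (.node 2
    (.node 1
    (.leaf (lf 274 0 0 1024 239 (-468) (-114) 0 247 255 255 255))
    (.leaf (lf 165 0 (-187) 513 154 (-1024) 0 0 239 202 64 255)))
    (.node 1
    (.leaf (lf 274 0 0 1024 240 (-469) (-113) 0 247 255 255 255))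
    (.leaf (lf 165 0 (-187) 514 155 (-1024) 0 0 239 203 64 255))))
    (.node 2
    (.node 1
    (.leaf (lf 267 0 0 1024 239 (-467) (-121) 0 255 255 255 255))
    (.node 0
    (.node 1
    (.leaf (lf 237 0 0 1024 173 (-329) (-159) 0 181 255 255 255))
    (.leaf (lf 218 0 0 1024 107 (-201) (-183) 0 112 255 255 255)))
    (.node 1
    (.leaf (lf 234 0 0 1024 173 (-328) (-162) 0 184 255 255 255))
    (.leaf (lf 215 0 0 1024 107 (-200) (-188) 0 113 255 255 255)))))
    (.node 1
    (.leaf (lf 268 0 0 1024 240 (-469) (-120) 0 255 255 255 255))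
    (.node 0
    (.node 1
    (.leaf (lf 237 0 0 1024 173 (-330) (-158) 0 181 255 255 255))
    (.leaf (lf 218 0 0 1024 108 (-202) (-183) 0 112 255 255 255)))
    (.node 1
    (.leaf (lf 234 0 0 1024 173 (-330) (-162) 0 184 255 255 255))
    (.leaf (lf 215 0 0 1024 108 (-201) (-187) 0 113 255 255 255))))))))
    (by decide +kernel)

def goodS0A_55 :
    Check.Good noCone cfS0A (reach cfS0A ⟨litS0A, 1, fsS0A⟩
      [(1, false), (0, true), (0, true), (1, true), (2, false), (0, true), (1, true), (0, true), (0, true), (0, false)]) :=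
  Check.check_sound
    (.leaf (lf 338 0 0 1024 337 (-683) (-39) 0 378 255 255 255))
    (by decide +kernel)

def goodS0A_57 :
    Check.Good noCone cfS0A (reach cfS0A ⟨litS0A, 1, fsS0A⟩
      [(0, false), (1, true), (0, true), (0, true), (1, true), (2, false), (0, true), (1, true), (0, true), (0, true), (0, false)]) :=
  Check.check_sound
    (.node 2
    (.node 1
    (.leaf (lf 261 0 0 1024 240 (-466) (-128) 0 262 255 255 255))
    (.node 0
    (.node 1
    (.leaf (lf 231 0 0 1024 173 (-327) (-166) 0 186 255 255 255))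
    (.leaf (lf 213 0 0 1024 107 (-199) (-192) 0 114 255 29 61)))
    (.node 1
    (.leaf (lf 229 0 0 1024 173 (-327) (-170) 0 189 255 255 255))
    (.leaf (lf 211 0 0 1024 106 (-198) (-196) 0 115 255 30 59)))))
    (.node 1
    (.leaf (lf 262 0 0 1024 241 (-468) (-127) 0 263 255 255 255))
    (.node 0
    (.node 1
    (.leaf (lf 231 0 0 1024 173 (-329) (-166) 0 187 255 255 255))
    (.leaf (lf 213 0 0 1024 107 (-200) (-191) 0 115 255 255 255)))
    (.node 1
    (.leaf (lf 229 0 0 1024 174 (-328) (-170) 0 189 255 255 255))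
    (.leaf (lf 211 0 0 1024 107 (-199) (-196) 0 116 255 29 56))))))
    (by decide +kernel)

def goodS0A_58 :
    Check.Good noCone cfS0A (reach cfS0A ⟨litS0A, 1, fsS0A⟩
      [(0, true), (1, true), (0, true), (0, true), (1, true), (2, false), (0, true), (1, true), (0, true), (0, true), (0, false)]) :=
  Check.check_sound
    (.node 2
    (.node 1
    (.leaf (lf 255 0 0 1024 240 (-465) (-135) 0 270 255 255 255))
    (.node 0
    (.node 1
    (.leaf (lf 226 0 0 1024 173 (-326) (-174) 0 191 255 255 255))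
    (.leaf (lf 208 0 0 1024 106 (-197) (-200) 0 117 255 26 54)))
    (.node 1
    (.leaf (lf 224 0 0 1024 173 (-325) (-178) 0 194 255 255 255))
    (.leaf (lf 206 0 0 1024 106 (-196) (-204) 0 118 255 90 242)))))
    (.node 1
    (.leaf (lf 256 0 0 1024 241 (-467) (-134) 0 271 255 255 255))
    (.node 0
    (.node 1
    (.leaf (lf 226 0 0 1024 174 (-328) (-174) 0 192 255 255 255))
    (.leaf (lf 208 0 0 1024 107 (-198) (-200) 0 117 255 255 255)))
    (.node 1
    (.leaf (lf 224 0 0 1024 174 (-327) (-178) 0 194 255 255 255))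
    (.leaf (lf 206 0 0 1024 107 (-197) (-204) 0 119 255 27 56))))))
    (by decide +kernel)

def goodS0A_56 :
    Check.Good noCone cfS0A (reach cfS0A ⟨litS0A, 1, fsS0A⟩
      [(1, true), (0, true), (0, true), (1, true), (2, false), (0, true), (1, true), (0, true), (0, true), (0, false)]) :=
  Check.good_node (a := 0) (by decide +kernel)
    goodS0A_57 goodS0A_58

def goodS0A_54 :
    Check.Good noCone cfS0A (reach cfS0A ⟨litS0A, 1, fsS0A⟩
      [(0, true), (0, true), (1, true), (2, false), (0, true), (1, true), (0, true), (0, true), (0, false)]) :=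
  Check.good_node (a := 1) (by decide +kernel)
    goodS0A_55 goodS0A_56

def goodS0A_52 :
    Check.Good noCone cfS0A (reach cfS0A ⟨litS0A, 1, fsS0A⟩
      [(0, true), (1, true), (2, false), (0, true), (1, true), (0, true), (0, true), (0, false)]) :=
  Check.good_node (a := 0) (by decide +kernel)
    goodS0A_53 goodS0A_54

def goodS0A_50 :
    Check.Good noCone cfS0A (reach cfS0A ⟨litS0A, 1, fsS0A⟩
      [(1, true), (2, false), (0, true), (1, true), (0, true), (0, true), (0, false)]) :=
  Check.good_node (a := 0) (by decide +kernel)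
    goodS0A_51 goodS0A_52

def goodS0A_48 :
    Check.Good noCone cfS0A (reach cfS0A ⟨litS0A, 1, fsS0A⟩
      [(2, false), (0, true), (1, true), (0, true), (0, true), (0, false)]) :=
  Check.good_node (a := 1) (by decide +kernel)
    goodS0A_49 goodS0A_50

def goodS0A_60 :
    Check.Good noCone cfS0A (reach cfS0A ⟨litS0A, 1, fsS0A⟩
      [(1, false), (2, true), (0, true), (1, true), (0, true), (0, true), (0, false)]) :=
  Check.check_sound
    (.node 0
    (.leaf (lf 677 0 0 1024 472 (-986) 170 0 441 255 255 255))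
    (.leaf (lf 613 0 0 1024 474 (-998) 174 0 508 255 255 255)))
    (by decide +kernel)

def goodS0A_62 :
    Check.Good noCone cfS0A (reach cfS0A ⟨litS0A, 1, fsS0A⟩
      [(0, false), (1, true), (2, true), (0, true), (1, true), (0, true), (0, true), (0, false)]) :=
  Check.check_sound
    (.node 0
    (.node 1
    (.leaf (lf 398 0 0 1024 339 (-686) (-7) 0 311 255 255 255))
    (.leaf (lf 4292 0 (-2782) 12203 3666 (-16384) 0 0 3991 169 85 255)))
    (.node 1
    (.leaf (lf 378 0 0 1024 340 (-687) (-15) 0 333 255 255 255))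
    (.node 0
    (.node 2
    (.node 1
    (.leaf (lf 289 0 0 1024 241 (-474) (-99) 0 233 255 255 255))
    (.leaf (lf 242 0 0 1024 145 (-277) (-149) 0 139 255 89 205)))
    (.node 1
    (.leaf (lf 290 0 0 1024 244 (-478) (-97) 0 233 255 255 255))
    (.leaf (lf 242 0 0 1024 146 (-279) (-149) 0 139 255 86 204))))
    (.node 2
    (.node 1
    (.leaf (lf 282 0 0 1024 242 (-473) (-105) 0 240 255 255 255))
    (.leaf (lf 173 0 (-190) 528 157 (-1024) 0 0 231 203 67 255)))
    (.node 1
    (.leaf (lf 283 0 0 1024 244 (-477) (-104) 0 241 255 255 255))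
    (.leaf (lf 174 0 (-189) 530 159 (-1024) 0 0 230 202 74 255)))))))
    (by decide +kernel)

def goodS0A_64 :
    Check.Good noCone cfS0A (reach cfS0A ⟨litS0A, 1, fsS0A⟩
      [(0, false), (0, true), (1, true), (2, true), (0, true), (1, true), (0, true), (0, true), (0, false)]) :=
  Check.check_sound
    (.node 1
    (.leaf (lf 359 0 0 1024 341 (-689) (-24) 0 356 255 255 255))
    (.node 0
    (.node 2
    (.node 1
    (.leaf (lf 275 0 0 1024 242 (-472) (-112) 0 248 255 255 255))
    (.leaf (lf 166 0 (-187) 516 156 (-1024) 0 0 239 203 69 255)))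
    (.node 1
    (.leaf (lf 276 0 0 1024 245 (-477) (-110) 0 249 255 255 255))
    (.leaf (lf 167 0 (-186) 519 158 (-1024) 0 0 239 203 68 255))))
    (.node 2
    (.node 1
    (.leaf (lf 269 0 0 1024 242 (-472) (-119) 0 256 255 255 255))
    (.node 0
    (.leaf (lf 161 0 (-184) 507 156 (-1024) 0 0 245 206 61 255))
    (.node 1
    (.leaf (lf 234 0 0 1024 175 (-332) (-161) 0 185 255 255 255))
    (.leaf (lf 215 0 0 1024 109 (-203) (-187) 0 114 255 255 255)))))
    (.node 1
    (.leaf (lf 270 0 0 1024 245 (-477) (-117) 0 257 255 255 255))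
    (.leaf (lf 161 0 (-182) 509 158 (-1024) 0 0 247 202 70 255))))))
    (by decide +kernel)

def goodS0A_66 :
    Check.Good noCone cfS0A (reach cfS0A ⟨litS0A, 1, fsS0A⟩
      [(1, false), (0, true), (0, true), (1, true), (2, true), (0, true), (1, true), (0, true), (0, true), (0, false)]) :=
  Check.check_sound
    (.leaf (lf 343 0 0 1024 343 (-689) (-33) 0 379 255 255 255))
    (by decide +kernel)

def goodS0A_68 :
    Check.Good noCone cfS0A (reach cfS0A ⟨litS0A, 1, fsS0A⟩
      [(0, false), (1, true), (0, true), (0, true), (1, true), (2, true), (0, true), (1, true), (0, true), (0, true), (0, false)]) :=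
  Check.check_sound
    (.node 2
    (.node 1
    (.leaf (lf 262 0 0 1024 243 (-471) (-125) 0 264 255 255 255))
    (.node 0
    (.node 1
    (.leaf (lf 232 0 0 1024 175 (-332) (-165) 0 187 255 255 255))
    (.leaf (lf 213 0 0 1024 109 (-203) (-191) 0 116 255 255 255)))
    (.node 1
    (.leaf (lf 229 0 0 1024 175 (-331) (-169) 0 190 255 255 255))
    (.leaf (lf 211 0 0 1024 109 (-202) (-195) 0 117 255 29 61)))))
    (.node 1
    (.leaf (lf 264 0 0 1024 246 (-476) (-123) 0 265 255 255 255))
    (.leaf (lf 156 0 (-179) 500 158 (-1024) 0 0 256 200 65 255))))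
    (by decide +kernel)

def goodS0A_69 :
    Check.Good noCone cfS0A (reach cfS0A ⟨litS0A, 1, fsS0A⟩
      [(0, true), (1, true), (0, true), (0, true), (1, true), (2, true), (0, true), (1, true), (0, true), (0, true), (0, false)]) :=
  Check.check_sound
    (.node 2
    (.node 1
    (.leaf (lf 257 0 0 1024 243 (-470) (-132) 0 272 255 255 255))
    (.node 0
    (.node 1
    (.leaf (lf 227 0 0 1024 175 (-331) (-173) 0 193 255 255 255))
    (.leaf (lf 209 0 0 1024 109 (-201) (-199) 0 119 255 30 59)))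
    (.node 1
    (.leaf (lf 224 0 0 1024 176 (-330) (-177) 0 196 255 255 255))
    (.leaf (lf 206 0 0 1024 109 (-200) (-203) 0 120 255 255 255)))))
    (.node 1
    (.leaf (lf 258 0 0 1024 247 (-476) (-130) 0 273 255 255 255))
    (.node 0
    (.node 1
    (.leaf (lf 227 0 0 1024 178 (-335) (-171) 0 194 255 255 255))
    (.leaf (lf 209 0 0 1024 111 (-205) (-198) 0 120 255 255 255)))
    (.node 1
    (.leaf (lf 225 0 0 1024 178 (-335) (-175) 0 197 255 255 255))
    (.leaf (lf 206 0 0 1024 111 (-205) (-202) 0 122 255 255 255))))))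
    (by decide +kernel)

def goodS0A_67 :
    Check.Good noCone cfS0A (reach cfS0A ⟨litS0A, 1, fsS0A⟩
      [(1, true), (0, true), (0, true), (1, true), (2, true), (0, true), (1, true), (0, true), (0, true), (0, false)]) :=
  Check.good_node (a := 0) (by decide +kernel)
    goodS0A_68 goodS0A_69

def goodS0A_65 :
    Check.Good noCone cfS0A (reach cfS0A ⟨litS0A, 1, fsS0A⟩
      [(0, true), (0, true), (1, true), (2, true), (0, true), (1, true), (0, true), (0, true), (0, false)]) :=
  Check.good_node (a := 1) (by decide +kernel)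
    goodS0A_66 goodS0A_67

def goodS0A_63 :
    Check.Good noCone cfS0A (reach cfS0A ⟨litS0A, 1, fsS0A⟩
      [(0, true), (1, true), (2, true), (0, true), (1, true), (0, true), (0, true), (0, false)]) :=
  Check.good_node (a := 0) (by decide +kernel)
    goodS0A_64 goodS0A_65

def goodS0A_61 :
    Check.Good noCone cfS0A (reach cfS0A ⟨litS0A, 1, fsS0A⟩
      [(1, true), (2, true), (0, true), (1, true), (0, true), (0, true), (0, false)]) :=
  Check.good_node (a := 0) (by decide +kernel)
    goodS0A_62 goodS0A_63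

def goodS0A_59 :
    Check.Good noCone cfS0A (reach cfS0A ⟨litS0A, 1, fsS0A⟩
      [(2, true), (0, true), (1, true), (0, true), (0, true), (0, false)]) :=
  Check.good_node (a := 1) (by decide +kernel)
    goodS0A_60 goodS0A_61

def goodS0A_47 :
    Check.Good noCone cfS0A (reach cfS0A ⟨litS0A, 1, fsS0A⟩
      [(0, true), (1, true), (0, true), (0, true), (0, false)]) :=
  Check.good_node (a := 2) (by decide +kernel)
    goodS0A_48 goodS0A_59

def goodS0A_43 :
    Check.Good noCone cfS0A (reach cfS0A ⟨litS0A, 1, fsS0A⟩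
      [(1, true), (0, true), (0, true), (0, false)]) :=
  Check.good_node (a := 0) (by decide +kernel)
    goodS0A_44 goodS0A_47

def goodS0A_35 :
    Check.Good noCone cfS0A (reach cfS0A ⟨litS0A, 1, fsS0A⟩
      [(0, true), (0, true), (0, false)]) :=
  Check.good_node (a := 1) (by decide +kernel)
    goodS0A_36 goodS0A_43

def goodS0A_11 :
    Check.Good noCone cfS0A (reach cfS0A ⟨litS0A, 1, fsS0A⟩
      [(0, true), (0, false)]) :=
  Check.good_node (a := 0) (by decide +kernel)
    goodS0A_12 goodS0A_35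

def goodS0A_1 :
    Check.Good noCone cfS0A (reach cfS0A ⟨litS0A, 1, fsS0A⟩
      [(0, false)]) :=
  Check.good_node (a := 0) (by decide +kernel)
    goodS0A_2 goodS0A_11

end

end Vale.Agent.P211.Cert.Interior.Data
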