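import Vale.Agent.P211.Cert.Interior.Data.S0Xr

/-!
P211, a part of a cell of the interior family (generated).
-/

namespace Vale.Agent.P211.Cert.Interior.Data

open Vale.Agent.P098.Check6 (ofChunks eqList reach St Cfg Face)
open Vale.Agent.P098.Cert6.Kron (RootPar parOK)

set_option linter.defProp false

noncomputable section

def goodS0X_484 :
    Check.Good noCone cfS0X (reach cfS0X ⟨litS0X, 1, fsS0X⟩
      [(1, false), (0, false), (2, false), (0, false), (2, true), (1, true), (2, false), (0, false), (2, false), (0, true), (2, false)]) :=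
  Check.check_sound
    (.node 1
    (.node 2
    (.node 0
    (.node 2
    (.leaf (lf 1024 0 0 120 83 (-135) 33 0 24 255 255 255))
    (.leaf (lf 1024 0 0 108 86 (-136) 32 0 22 255 255 255)))
    (.node 2
    (.leaf (lf 1024 0 0 142 86 (-146) 37 0 28 255 255 255))
    (.leaf (lf 1024 0 0 129 88 (-144) 36 0 26 255 255 255))))
    (.node 0
    (.leaf (lf 1024 0 0 92 97 (-145) 30 0 22 255 255 255))
    (.leaf (lf 1024 0 0 113 94 (-148) 34 0 24 255 255 255))))
    (.node 2
    (.node 0
    (.leaf (lf 1024 0 0 182 106 (-173) 32 0 30 255 255 255))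
    (.leaf (lf 1024 0 0 213 113 (-192) 35 0 36 255 255 255)))
    (.node 0
    (.leaf (lf 1024 0 0 153 112 (-170) 30 0 26 255 255 255))
    (.leaf (lf 1024 0 0 182 115 (-183) 33 0 31 255 255 255)))))
    (by decide +kernel)

def goodS0X_485 :
    Check.Good noCone cfS0X (reach cfS0X ⟨litS0X, 1, fsS0X⟩
      [(1, true), (0, false), (2, false), (0, false), (2, true), (1, true), (2, false), (0, false), (2, false), (0, true), (2, false)]) :=
  Check.check_sound
    (.node 1
    (.node 2
    (.node 0
    (.leaf (lf 1024 0 0 288 125 (-206) 25 0 36 255 255 255))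
    (.leaf (lf 1024 0 0 331 134 (-231) 26 0 45 255 255 255)))
    (.node 0
    (.leaf (lf 1024 0 0 249 127 (-196) 25 0 31 255 255 255))
    (.leaf (lf 1024 0 0 291 133 (-217) 27 0 37 255 255 255))))
    (.node 2
    (.node 0
    (.leaf (lf 1024 0 0 445 225 0 8 (-30) 18 255 255 255))
    (.leaf (lf 1024 0 0 510 247 0 4 (-37) 21 255 226 122)))
    (.node 0
    (.leaf (lf 1024 0 0 393 223 0 12 (-25) 16 255 255 255))
    (.leaf (lf 1024 0 0 456 240 0 10 (-31) 18 255 255 255)))))
    (by decide +kernel)

def goodS0X_483 :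
    Check.Good noCone cfS0X (reach cfS0X ⟨litS0X, 1, fsS0X⟩
      [(0, false), (2, false), (0, false), (2, true), (1, true), (2, false), (0, false), (2, false), (0, true), (2, false)]) :=
  Check.good_node (a := 1) (by decide +kernel)
    goodS0X_484 goodS0X_485

def goodS0X_487 :
    Check.Good noCone cfS0X (reach cfS0X ⟨litS0X, 1, fsS0X⟩
      [(1, false), (0, true), (2, false), (0, false), (2, true), (1, true), (2, false), (0, false), (2, false), (0, true), (2, false)]) :=
  Check.check_sound
    (.node 1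
    (.node 2
    (.node 0
    (.node 2
    (.leaf (lf 1024 0 0 164 92 (-161) 42 0 34 255 255 255))
    (.leaf (lf 1024 0 0 152 91 (-156) 40 0 31 255 255 255)))
    (.leaf (lf 16384 0 0 2899 1571 (-2791) 722 0 617 255 250 151)))
    (.node 0
    (.leaf (lf 1024 0 0 135 95 (-155) 38 0 28 255 253 158))
    (.leaf (lf 1024 0 0 157 98 (-166) 42 0 32 255 254 143))))
    (.node 2
    (.node 0
    (.leaf (lf 1024 0 0 244 122 (-214) 39 0 44 255 255 255))
    (.leaf (lf 1024 0 0 275 132 (-238) 42 0 53 255 255 255)))
    (.node 0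
    (.leaf (lf 1024 0 0 213 121 (-201) 37 0 36 255 255 255))
    (.leaf (lf 1024 0 0 243 128 (-221) 41 0 44 255 255 255)))))
    (by decide +kernel)

def goodS0X_488 :
    Check.Good noCone cfS0X (reach cfS0X ⟨litS0X, 1, fsS0X⟩
      [(1, true), (0, true), (2, false), (0, false), (2, true), (1, true), (2, false), (0, false), (2, false), (0, true), (2, false)]) :=
  Check.check_sound
    (.node 1
    (.node 2
    (.leaf (lf 1024 0 0 403 154 (-277) 25 0 61 255 255 255))
    (.leaf (lf 1024 0 0 362 150 (-258) 28 0 50 255 255 255)))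
    (.node 2
    (.node 0
    (.node 2
    (.leaf (lf 1024 0 0 591 275 0 (-5) (-48) 26 255 225 82))
    (.node 0
    (.leaf (lf 1024 0 0 545 128 (-228) 2 0 47 255 162 204))
    (.leaf (lf 1024 0 0 578 132 (-239) (-1) 0 51 255 156 207))))
    (.leaf (lf 1024 0 0 642 296 0 (-9) (-54) 29 255 216 94)))
    (.node 0
    (.leaf (lf 1024 0 0 521 260 0 6 (-37) 21 255 230 116))
    (.leaf (lf 16384 0 0 9384 4528 0 19 (-711) 400 255 224 99)))))
    (by decide +kernel)

def goodS0X_486 :
    Check.Good noCone cfS0X (reach cfS0X ⟨litS0X, 1, fsS0X⟩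
      [(0, true), (2, false), (0, false), (2, true), (1, true), (2, false), (0, false), (2, false), (0, true), (2, false)]) :=
  Check.good_node (a := 1) (by decide +kernel)
    goodS0X_487 goodS0X_488

def goodS0X_482 :
    Check.Good noCone cfS0X (reach cfS0X ⟨litS0X, 1, fsS0X⟩
      [(2, false), (0, false), (2, true), (1, true), (2, false), (0, false), (2, false), (0, true), (2, false)]) :=
  Check.good_node (a := 0) (by decide +kernel)
    goodS0X_483 goodS0X_486

def goodS0X_490 :
    Check.Good noCone cfS0X (reach cfS0X ⟨litS0X, 1, fsS0X⟩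
      [(0, false), (2, true), (0, false), (2, true), (1, true), (2, false), (0, false), (2, false), (0, true), (2, false)]) :=
  Check.check_sound
    (.node 1
    (.node 1
    (.leaf (lf 516 736 1024 0 299 (-78) 0 0 49 183 123 255))
    (.leaf (lf 487 823 1024 0 369 (-46) 0 0 54 255 255 255)))
    (.node 1
    (.leaf (lf 491 1024 962 0 493 (-23) 0 0 57 255 255 255))
    (.node 2
    (.node 0
    (.leaf (lf 16384 0 0 5542 2044 (-3032) 242 0 439 255 241 189))
    (.leaf (lf 1024 0 0 407 129 (-202) 14 0 32 255 226 203)))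
    (.leaf (lf 16384 0 0 5399 3990 0 260 (-373) 261 255 255 255)))))
    (by decide +kernel)

def goodS0X_491 :
    Check.Good noCone cfS0X (reach cfS0X ⟨litS0X, 1, fsS0X⟩
      [(0, true), (2, true), (0, false), (2, true), (1, true), (2, false), (0, false), (2, false), (0, true), (2, false)]) :=
  Check.check_sound
    (.node 1
    (.node 1
    (.node 2
    (.node 0
    (.leaf (lf 1024 0 0 112 104 (-160) 35 0 26 255 255 255))
    (.leaf (lf 1024 0 0 134 103 (-165) 39 0 29 255 255 255)))
    (.leaf (lf 1024 0 0 106 119 (-177) 35 0 27 250 255 151)))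
    (.node 2
    (.node 0
    (.leaf (lf 1024 0 0 184 124 (-196) 35 0 32 255 255 255))
    (.leaf (lf 1024 0 0 213 129 (-211) 39 0 37 255 255 255)))
    (.leaf (lf 1024 0 0 176 136 (-208) 35 0 32 255 255 255))))
    (.node 1
    (.node 2
    (.leaf (lf 1024 0 0 323 150 (-245) 29 0 43 255 255 255))
    (.leaf (lf 1024 0 0 287 153 (-239) 29 0 38 255 255 255)))
    (.node 2
    (.node 0
    (.leaf (lf 1024 0 0 469 256 0 12 (-32) 19 255 255 255))
    (.leaf (lf 1024 0 0 533 275 0 8 (-38) 22 255 231 113)))
    (.node 0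
    (.leaf (lf 1024 0 0 421 139 (-217) 15 0 34 255 232 199))
    (.leaf (lf 1024 0 0 484 143 (-232) 13 0 39 255 216 213))))))
    (by decide +kernel)

def goodS0X_489 :
    Check.Good noCone cfS0X (reach cfS0X ⟨litS0X, 1, fsS0X⟩
      [(2, true), (0, false), (2, true), (1, true), (2, false), (0, false), (2, false), (0, true), (2, false)]) :=
  Check.good_node (a := 0) (by decide +kernel)
    goodS0X_490 goodS0X_491

def goodS0X_481 :
    Check.Good noCone cfS0X (reach cfS0X ⟨litS0X, 1, fsS0X⟩
      [(0, false), (2, true), (1, true), (2, false), (0, false), (2, false), (0, true), (2, false)]) :=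
  Check.good_node (a := 2) (by decide +kernel)
    goodS0X_482 goodS0X_489

def goodS0X_495 :
    Check.Good noCone cfS0X (reach cfS0X ⟨litS0X, 1, fsS0X⟩
      [(2, false), (0, false), (2, false), (0, true), (2, true), (1, true), (2, false), (0, false), (2, false), (0, true), (2, false)]) :=
  Check.check_sound
    (.node 1
    (.node 0
    (.node 1
    (.leaf (lf 1024 0 0 203 105 (-191) 50 0 46 255 249 150))
    (.leaf (lf 1024 0 0 305 142 (-262) 46 0 64 255 255 255)))
    (.node 1
    (.leaf (lf 1024 0 0 226 113 (-209) 55 0 55 255 246 152))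
    (.leaf (lf 1024 0 0 335 153 (-287) 50 0 77 255 255 255))))
    (.node 0
    (.node 2
    (.node 1
    (.leaf (lf 1024 0 0 475 172 (-326) 25 0 85 255 255 255))
    (.leaf (lf 1024 0 0 725 326 0 (-21) (-69) 36 255 204 63)))
    (.node 1
    (.leaf (lf 1024 0 0 454 168 (-314) 27 0 76 255 255 255))
    (.leaf (lf 1024 0 0 696 318 0 (-14) (-62) 33 255 219 64))))
    (.node 2
    (.node 1
    (.leaf (lf 1024 0 0 519 185 (-357) 24 0 102 255 255 255))
    (.node 0
    (.node 2
    (.leaf (lf 1024 0 (-358) 673 170 (-583) 0 0 102 231 105 255))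
    (.leaf (lf 1024 0 (-323) 671 166 (-547) 0 0 94 237 110 255)))
    (.node 2
    (.leaf (lf 1024 0 (-394) 691 177 (-635) 0 0 113 225 101 255))
    (.leaf (lf 1024 0 (-360) 689 174 (-599) 0 0 105 232 104 255)))))
    (.node 1
    (.leaf (lf 1024 0 0 499 181 (-344) 27 0 91 255 255 255))
    (.leaf (lf 1024 0 0 763 345 0 (-24) (-73) 38 255 208 60))))))
    (by decide +kernel)

def goodS0X_496 :
    Check.Good noCone cfS0X (reach cfS0X ⟨litS0X, 1, fsS0X⟩
      [(2, true), (0, false), (2, false), (0, true), (2, true), (1, true), (2, false), (0, false), (2, false), (0, true), (2, false)]) :=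
  Check.check_sound
    (.node 1
    (.node 0
    (.node 1
    (.leaf (lf 1024 0 0 179 103 (-179) 47 0 38 255 252 152))
    (.leaf (lf 1024 0 0 274 137 (-243) 44 0 52 255 255 255)))
    (.node 1
    (.leaf (lf 1024 0 0 202 109 (-195) 51 0 44 255 249 135))
    (.leaf (lf 1024 0 0 304 147 (-267) 48 0 62 255 255 255))))
    (.node 0
    (.node 2
    (.node 1
    (.leaf (lf 1024 0 0 433 165 (-302) 29 0 68 255 255 255))
    (.leaf (lf 1024 0 0 668 311 0 (-8) (-56) 30 255 224 68)))
    (.node 1
    (.leaf (lf 1024 0 0 413 163 (-292) 30 0 62 255 255 255))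
    (.leaf (lf 16384 0 (-765) 10046 2350 (-4750) 0 0 933 255 157 205))))
    (.node 2
    (.node 1
    (.leaf (lf 1024 0 0 478 178 (-332) 29 0 82 255 255 255))
    (.leaf (lf 1024 0 0 735 337 0 (-16) (-66) 35 255 223 60)))
    (.node 1
    (.leaf (lf 1024 0 0 457 175 (-322) 30 0 74 255 255 255))
    (.leaf (lf 16384 0 (-2364) 10653 2520 (-6282) 0 0 1121 255 145 232))))))
    (by decide +kernel)

def goodS0X_494 :
    Check.Good noCone cfS0X (reach cfS0X ⟨litS0X, 1, fsS0X⟩
      [(0, false), (2, false), (0, true), (2, true), (1, true), (2, false), (0, false), (2, false), (0, true), (2, false)]) :=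
  Check.good_node (a := 2) (by decide +kernel)
    goodS0X_495 goodS0X_496

def goodS0X_499 :
    Check.Good noCone cfS0X (reach cfS0X ⟨litS0X, 1, fsS0X⟩
      [(1, false), (2, false), (0, true), (2, false), (0, true), (2, true), (1, true), (2, false), (0, false), (2, false), (0, true), (2, false)]) :=
  Check.check_sound
    (.node 0
    (.node 1
    (.leaf (lf 1024 0 0 247 121 (-227) 61 0 65 255 255 255))
    (.leaf (lf 1024 0 0 365 163 (-313) 54 0 91 255 255 255)))
    (.node 1
    (.leaf (lf 1024 0 0 268 129 (-245) 67 0 75 255 255 255))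
    (.leaf (lf 1024 0 0 394 175 (-338) 58 0 106 255 255 255))))
    (by decide +kernel)

def goodS0X_501 :
    Check.Good noCone cfS0X (reach cfS0X ⟨litS0X, 1, fsS0X⟩
      [(0, false), (1, true), (2, false), (0, true), (2, false), (0, true), (2, true), (1, true), (2, false), (0, false), (2, false), (0, true), (2, false)]) :=
  Check.check_sound
    (.node 2
    (.node 1
    (.leaf (lf 1024 0 0 563 199 (-388) 23 0 120 255 255 255))
    (.node 0
    (.node 2
    (.leaf (lf 1024 0 (-426) 708 186 (-687) 0 0 125 220 84 255))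
    (.leaf (lf 1024 0 (-394) 706 182 (-651) 0 0 116 224 100 255)))
    (.node 2
    (.leaf (lf 1024 0 (-455) 726 194 (-738) 0 0 138 220 93 255))
    (.leaf (lf 1024 0 (-426) 724 190 (-703) 0 0 128 219 83 255)))))
    (.node 1
    (.leaf (lf 1024 0 0 542 194 (-375) 26 0 107 255 255 255))
    (.node 0
    (.node 2
    (.leaf (lf 1024 0 (-363) 704 178 (-616) 0 0 108 231 104 255))
    (.leaf (lf 256 1024 (-340) 0 746 (-599) 0 0 104 107 246 255)))
    (.node 2
    (.leaf (lf 1024 0 (-396) 722 186 (-668) 0 0 119 242 87 255))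
    (.leaf (lf 1024 0 (-365) 720 183 (-634) 0 0 111 230 101 255))))))
    (by decide +kernel)

def goodS0X_502 :
    Check.Good noCone cfS0X (reach cfS0X ⟨litS0X, 1, fsS0X⟩
      [(0, true), (1, true), (2, false), (0, true), (2, false), (0, true), (2, true), (1, true), (2, false), (0, false), (2, false), (0, true), (2, false)]) :=
  Check.check_sound
    (.node 2
    (.node 1
    (.leaf (lf 1024 0 0 606 213 (-419) 21 0 141 255 255 255))
    (.node 2
    (.node 0
    (.node 1
    (.leaf (lf 1024 0 0 817 204 (-401) (-32) 0 138 255 255 255))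
    (.leaf (lf 1024 0 0 1005 150 (-292) (-85) 0 102 255 109 191)))
    (.node 1
    (.leaf (lf 1024 0 0 846 211 (-415) (-38) 0 149 255 255 255))
    (.leaf (lf 1008 0 0 1024 152 (-297) (-93) 0 108 255 104 192))))
    (.node 0
    (.leaf (lf 1024 0 (-455) 742 199 (-754) 0 0 141 222 92 255))
    (.node 1
    (.leaf (lf 1024 0 0 834 208 (-410) (-33) 0 141 255 255 255))
    (.leaf (lf 1021 0 0 1024 152 (-298) (-86) 0 104 255 104 193))))))
    (.node 1
    (.leaf (lf 1024 0 0 586 208 (-406) 24 0 126 255 255 255))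
    (.node 0
    (.node 2
    (.leaf (lf 1024 0 (-426) 740 195 (-720) 0 0 131 216 81 255))
    (.leaf (lf 1024 0 (-397) 738 191 (-685) 0 0 122 237 86 255)))
    (.node 2
    (.leaf (lf 1024 0 (-454) 757 203 (-771) 0 0 144 220 92 255))
    (.leaf (lf 1024 0 (-427) 755 199 (-737) 0 0 135 220 81 255))))))
    (by decide +kernel)

def goodS0X_500 :
    Check.Good noCone cfS0X (reach cfS0X ⟨litS0X, 1, fsS0X⟩
      [(1, true), (2, false), (0, true), (2, false), (0, true), (2, true), (1, true), (2, false), (0, false), (2, false), (0, true), (2, false)]) :=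
  Check.good_node (a := 0) (by decide +kernel)
    goodS0X_501 goodS0X_502

def goodS0X_498 :
    Check.Good noCone cfS0X (reach cfS0X ⟨litS0X, 1, fsS0X⟩
      [(2, false), (0, true), (2, false), (0, true), (2, true), (1, true), (2, false), (0, false), (2, false), (0, true), (2, false)]) :=
  Check.good_node (a := 1) (by decide +kernel)
    goodS0X_499 goodS0X_500

def goodS0X_504 :
    Check.Good noCone cfS0X (reach cfS0X ⟨litS0X, 1, fsS0X⟩
      [(1, false), (2, true), (0, true), (2, false), (0, true), (2, true), (1, true), (2, false), (0, false), (2, false), (0, true), (2, false)]) :=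
  Check.check_sound
    (.node 0
    (.node 1
    (.leaf (lf 1024 0 0 224 116 (-211) 56 0 52 255 255 255))
    (.leaf (lf 1024 0 0 335 157 (-291) 52 0 73 255 255 255)))
    (.node 1
    (.leaf (lf 1024 0 0 246 123 (-228) 62 0 61 255 255 255))
    (.leaf (lf 1024 0 0 365 167 (-316) 56 0 86 255 255 255))))
    (by decide +kernel)

def goodS0X_506 :
    Check.Good noCone cfS0X (reach cfS0X ⟨litS0X, 1, fsS0X⟩
      [(0, false), (1, true), (2, true), (0, true), (2, false), (0, true), (2, true), (1, true), (2, false), (0, false), (2, false), (0, true), (2, false)]) :=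
  Check.check_sound
    (.node 2
    (.node 1
    (.leaf (lf 1024 0 0 522 190 (-363) 28 0 97 255 255 255))
    (.node 0
    (.node 2
    (.leaf (lf 252 1024 (-306) 0 742 (-564) 0 0 97 112 250 255))
    (.leaf (lf 249 1024 (-272) 0 739 (-530) 0 0 91 116 254 255)))
    (.node 2
    (.leaf (lf 256 1024 (-344) 0 763 (-618) 0 0 107 107 247 255))
    (.leaf (lf 253 1024 (-312) 0 759 (-583) 0 0 100 111 249 255)))))
    (.node 1
    (.leaf (lf 1024 0 0 502 187 (-352) 30 0 88 255 255 255))
    (.leaf (lf 1024 0 0 775 356 0 (-18) (-71) 38 255 210 57))))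
    (by decide +kernel)

def goodS0X_507 :
    Check.Good noCone cfS0X (reach cfS0X ⟨litS0X, 1, fsS0X⟩
      [(0, true), (1, true), (2, true), (0, true), (2, false), (0, true), (2, true), (1, true), (2, false), (0, false), (2, false), (0, true), (2, false)]) :=
  Check.check_sound
    (.node 2
    (.node 1
    (.leaf (lf 1024 0 0 566 204 (-394) 27 0 113 255 255 255))
    (.node 0
    (.node 2
    (.leaf (lf 1024 0 (-368) 736 188 (-651) 0 0 114 229 99 255))
    (.leaf (lf 257 1024 (-349) 0 780 (-637) 0 0 111 102 245 255)))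
    (.node 2
    (.leaf (lf 1024 0 (-399) 753 196 (-703) 0 0 126 241 85 255))
    (.leaf (lf 16384 0 (-5936) 12022 3075 (-10717) 0 0 1887 228 97 255)))))
    (.node 1
    (.leaf (lf 1024 0 0 546 200 (-382) 29 0 103 255 255 255))
    (.node 0
    (.node 2
    (.leaf (lf 254 1024 (-317) 0 776 (-603) 0 0 104 107 254 255))
    (.leaf (lf 251 1024 (-285) 0 773 (-569) 0 0 98 108 255 250)))
    (.node 2
    (.node 1
    (.leaf (lf 1024 0 0 772 198 (-384) (-12) 0 109 255 255 255))
    (.leaf (lf 1024 0 0 957 147 (-285) (-54) 0 82 255 112 198)))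
    (.leaf (lf 255 1024 (-323) 0 793 (-623) 0 0 107 108 249 255))))))
    (by decide +kernel)

def goodS0X_505 :
    Check.Good noCone cfS0X (reach cfS0X ⟨litS0X, 1, fsS0X⟩
      [(1, true), (2, true), (0, true), (2, false), (0, true), (2, true), (1, true), (2, false), (0, false), (2, false), (0, true), (2, false)]) :=
  Check.good_node (a := 0) (by decide +kernel)
    goodS0X_506 goodS0X_507

def goodS0X_503 :
    Check.Good noCone cfS0X (reach cfS0X ⟨litS0X, 1, fsS0X⟩
      [(2, true), (0, true), (2, false), (0, true), (2, true), (1, true), (2, false), (0, false), (2, false), (0, true), (2, false)]) :=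
  Check.good_node (a := 1) (by decide +kernel)
    goodS0X_504 goodS0X_505

def goodS0X_497 :
    Check.Good noCone cfS0X (reach cfS0X ⟨litS0X, 1, fsS0X⟩
      [(0, true), (2, false), (0, true), (2, true), (1, true), (2, false), (0, false), (2, false), (0, true), (2, false)]) :=
  Check.good_node (a := 2) (by decide +kernel)
    goodS0X_498 goodS0X_503

def goodS0X_493 :
    Check.Good noCone cfS0X (reach cfS0X ⟨litS0X, 1, fsS0X⟩
      [(2, false), (0, true), (2, true), (1, true), (2, false), (0, false), (2, false), (0, true), (2, false)]) :=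
  Check.good_node (a := 0) (by decide +kernel)
    goodS0X_494 goodS0X_497

def goodS0X_509 :
    Check.Good noCone cfS0X (reach cfS0X ⟨litS0X, 1, fsS0X⟩
      [(0, false), (2, true), (0, true), (2, true), (1, true), (2, false), (0, false), (2, false), (0, true), (2, false)]) :=
  Check.check_sound
    (.node 1
    (.node 1
    (.node 2
    (.node 0
    (.leaf (lf 1024 0 0 156 104 (-174) 44 0 33 255 255 255))
    (.leaf (lf 1024 0 0 178 108 (-186) 48 0 38 255 255 255)))
    (.node 0
    (.leaf (lf 1024 0 0 134 111 (-177) 41 0 30 255 255 255))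
    (.leaf (lf 1024 0 0 156 112 (-184) 46 0 34 255 255 255))))
    (.node 2
    (.node 0
    (.leaf (lf 1024 0 0 244 135 (-230) 43 0 44 255 255 255))
    (.leaf (lf 1024 0 0 274 143 (-251) 46 0 52 255 255 255)))
    (.node 0
    (.leaf (lf 1024 0 0 215 137 (-223) 41 0 39 255 255 255))
    (.leaf (lf 1024 0 0 245 143 (-240) 45 0 45 255 255 255)))))
    (.node 1
    (.node 2
    (.leaf (lf 1024 0 0 410 168 (-296) 31 0 60 255 255 255))
    (.leaf (lf 1024 0 0 372 167 (-282) 32 0 52 255 255 255)))
    (.node 2
    (.node 0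
    (.leaf (lf 1024 0 0 599 297 0 4 (-45) 25 255 228 106))
    (.leaf (lf 1024 0 0 666 320 0 (-2) (-53) 29 255 222 86)))
    (.node 0
    (.leaf (lf 1024 0 0 548 291 0 10 (-39) 23 255 236 114))
    (.leaf (lf 1024 0 0 614 312 0 6 (-46) 26 255 231 105))))))
    (by decide +kernel)

def goodS0X_510 :
    Check.Good noCone cfS0X (reach cfS0X ⟨litS0X, 1, fsS0X⟩
      [(0, true), (2, true), (0, true), (2, true), (1, true), (2, false), (0, false), (2, false), (0, true), (2, false)]) :=
  Check.check_sound
    (.node 1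
    (.node 1
    (.node 2
    (.node 0
    (.leaf (lf 1024 0 0 201 113 (-200) 53 0 44 255 255 255))
    (.leaf (lf 1024 0 0 223 119 (-215) 58 0 51 255 255 255)))
    (.node 0
    (.leaf (lf 1024 0 0 178 114 (-194) 50 0 38 255 255 255))
    (.leaf (lf 1024 0 0 200 118 (-206) 55 0 44 255 255 255))))
    (.node 2
    (.leaf (lf 1024 0 0 325 159 (-288) 51 0 67 255 255 255))
    (.leaf (lf 1024 0 0 295 157 (-274) 50 0 57 255 255 255))))
    (.node 1
    (.leaf (lf 1024 0 0 480 390 0 33 (-67) 37 255 255 255))
    (.node 2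
    (.node 0
    (.leaf (lf 1024 0 0 734 345 0 (-9) (-62) 34 255 217 71))
    (.leaf (lf 1024 0 0 802 371 0 (-18) (-73) 39 255 200 71)))
    (.node 0
    (.leaf (lf 1024 0 0 681 335 0 0 (-54) 30 255 222 82))
    (.leaf (lf 1024 0 0 749 359 0 (-6) (-63) 34 255 217 77))))))
    (by decide +kernel)

def goodS0X_508 :
    Check.Good noCone cfS0X (reach cfS0X ⟨litS0X, 1, fsS0X⟩
      [(2, true), (0, true), (2, true), (1, true), (2, false), (0, false), (2, false), (0, true), (2, false)]) :=
  Check.good_node (a := 0) (by decide +kernel)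
    goodS0X_509 goodS0X_510

def goodS0X_492 :
    Check.Good noCone cfS0X (reach cfS0X ⟨litS0X, 1, fsS0X⟩
      [(0, true), (2, true), (1, true), (2, false), (0, false), (2, false), (0, true), (2, false)]) :=
  Check.good_node (a := 2) (by decide +kernel)
    goodS0X_493 goodS0X_508

def goodS0X_480 :
    Check.Good noCone cfS0X (reach cfS0X ⟨litS0X, 1, fsS0X⟩
      [(2, true), (1, true), (2, false), (0, false), (2, false), (0, true), (2, false)]) :=
  Check.good_node (a := 0) (by decide +kernel)
    goodS0X_481 goodS0X_492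

end

end Vale.Agent.P211.Cert.Interior.Data
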