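import Vale.Agent.P211.Cert.Interior.Data.S0Xr

/-!
P211, a part of a cell of the interior family (generated).
-/

namespace Vale.Agent.P211.Cert.Interior.Data

open Vale.Agent.P098.Check6 (ofChunks eqList reach St Cfg Face)
open Vale.Agent.P098.Cert6.Kron (RootPar parOK)

set_option linter.defProp false

noncomputable section

def goodS0X_513 :
    Check.Good noCone cfS0X (reach cfS0X ⟨litS0X, 1, fsS0X⟩
      [(0, false), (1, false), (2, true), (0, false), (2, false), (0, true), (2, false)]) :=
  Check.check_sound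
    (.node 2
    (.node 1
    (.leaf (lf 1024 0 0 4 227 (-254) 7 0 31 255 187 211))
    (.node 2
    (.node 0
    (.leaf (lf 1024 0 0 12 196 (-230) 18 0 28 255 255 255))
    (.node 1
    (.leaf (lf 1024 0 0 22 153 (-201) 20 0 27 255 255 255))
    (.leaf (lf 1024 0 0 43 149 (-199) 27 0 27 255 255 255))))
    (.leaf (lf 1024 0 0 12 242 (-266) 18 0 32 255 255 255))))
    (.leaf (lf 1024 0 0 (-4) 371 (-333) 10 0 37 255 255 255)))
    (by decide +kernel)

def goodS0X_515 :
    Check.Good noCone cfS0X (reach cfS0X ⟨litS0X, 1, fsS0X⟩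
      [(2, false), (0, true), (1, false), (2, true), (0, false), (2, false), (0, true), (2, false)]) :=
  Check.check_sound
    (.node 1
    (.node 1
    (.node 2
    (.leaf (lf 1024 0 0 11 110 (-159) 6 0 26 255 255 255))
    (.leaf (lf 1024 0 0 7 159 (-211) 5 0 31 255 255 255)))
    (.node 2
    (.node 0
    (.leaf (lf 1024 0 0 22 122 (-174) 16 0 27 255 255 255))
    (.node 1
    (.leaf (lf 1024 0 0 30 92 (-140) 16 0 24 255 255 255))
    (.leaf (lf 1024 0 0 43 91 (-140) 23 0 24 255 255 255))))
    (.leaf (lf 1024 0 0 21 157 (-210) 16 0 31 255 255 255))))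
    (.node 0
    (.node 2
    (.node 1
    (.leaf (lf 16384 0 0 679 1911 (-2750) 413 0 424 255 255 255))
    (.leaf (lf 459 692 1024 0 283 (-72) 0 0 56 212 129 255)))
    (.leaf (lf 1024 0 0 34 176 (-231) 27 0 32 255 255 255)))
    (.node 2
    (.node 1
    (.leaf (lf 445 722 1024 0 238 (-58) 0 0 53 247 161 255))
    (.node 2
    (.node 0
    (.leaf (lf 1024 0 0 99 97 (-155) 42 0 28 255 255 255))
    (.leaf (lf 1024 0 0 116 94 (-154) 46 0 29 252 255 153)))
    (.leaf (lf 1024 0 0 94 110 (-171) 41 0 29 249 255 146))))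
    (.node 1
    (.leaf (lf 1024 0 0 43 136 (-194) 29 0 30 255 255 255))
    (.leaf (lf 1024 0 0 73 139 (-201) 38 0 31 255 255 255))))))
    (by decide +kernel)

def goodS0X_516 :
    Check.Good noCone cfS0X (reach cfS0X ⟨litS0X, 1, fsS0X⟩
      [(2, true), (0, true), (1, false), (2, true), (0, false), (2, false), (0, true), (2, false)]) :=
  Check.check_sound
    (.node 1
    (.leaf (lf 1024 0 0 4 258 (-295) 9 0 38 255 255 255))
    (.leaf (lf 1024 0 0 25 251 (-294) 25 0 38 255 255 255)))
    (by decide +kernel)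

def goodS0X_514 :
    Check.Good noCone cfS0X (reach cfS0X ⟨litS0X, 1, fsS0X⟩
      [(0, true), (1, false), (2, true), (0, false), (2, false), (0, true), (2, false)]) :=
  Check.good_node (a := 2) (by decide +kernel)
    goodS0X_515 goodS0X_516

def goodS0X_512 :
    Check.Good noCone cfS0X (reach cfS0X ⟨litS0X, 1, fsS0X⟩
      [(1, false), (2, true), (0, false), (2, false), (0, true), (2, false)]) :=
  Check.good_node (a := 0) (by decide +kernel)
    goodS0X_513 goodS0X_514

def goodS0X_518 :
    Check.Good noCone cfS0X (reach cfS0X ⟨litS0X, 1, fsS0X⟩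
      [(0, false), (1, true), (2, true), (0, false), (2, false), (0, true), (2, false)]) :=
  Check.check_sound
    (.node 2
    (.node 0
    (.node 2
    (.node 1
    (.leaf (lf 1024 0 0 68 185 (-226) 25 0 28 255 255 255))
    (.leaf (lf 587 1024 846 0 518 (-83) 0 0 51 255 255 255)))
    (.leaf (lf 1024 0 0 108 248 (-273) 21 0 31 255 255 255)))
    (.node 2
    (.node 1
    (.leaf (lf 544 803 1024 0 392 (-97) 0 0 61 255 255 255))
    (.node 1
    (.leaf (lf 1024 0 0 238 170 (-242) 29 0 34 255 255 255))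
    (.node 0
    (.leaf (lf 1024 0 0 357 159 (-227) 18 0 32 255 237 186))
    (.leaf (lf 1024 0 0 415 283 0 18 (-29) 19 255 255 255)))))
    (.leaf (lf 747 1024 961 0 574 (-184) 0 0 68 255 255 255))))
    (.node 0
    (.leaf (lf 1024 0 0 66 360 (-325) 18 0 36 255 255 255))
    (.node 2
    (.leaf (lf 1024 0 0 126 269 (-304) 25 0 36 255 255 255))
    (.leaf (lf 1024 0 0 94 332 (-336) 23 0 38 255 255 255)))))
    (by decide +kernel)

def goodS0X_521 :
    Check.Good noCone cfS0X (reach cfS0X ⟨litS0X, 1, fsS0X⟩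
      [(0, false), (2, false), (0, true), (1, true), (2, true), (0, false), (2, false), (0, true), (2, false)]) :=
  Check.check_sound
    (.node 2
    (.node 1
    (.node 1
    (.leaf (lf 406 701 1024 0 338 (-39) 0 0 64 255 255 255))
    (.leaf (lf 16384 0 0 3123 2460 (-3764) 641 0 598 255 249 151)))
    (.node 1
    (.leaf (lf 1024 0 0 318 173 (-271) 33 0 44 255 255 255))
    (.node 2
    (.node 0
    (.leaf (lf 1024 0 0 499 152 (-247) 14 0 41 255 221 211))
    (.leaf (lf 16384 0 0 9018 2509 (-4238) 183 0 754 255 180 197)))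
    (.node 0
    (.leaf (lf 1024 0 0 454 160 (-248) 18 0 38 255 225 212))
    (.leaf (lf 1024 0 0 516 162 (-263) 16 0 43 255 212 219))))))
    (.node 1
    (.leaf (lf 1024 0 0 116 181 (-249) 36 0 35 254 255 153))
    (.node 1
    (.leaf (lf 1024 0 0 255 193 (-276) 33 0 39 255 255 255))
    (.node 0
    (.leaf (lf 1024 0 0 392 181 (-260) 21 0 37 255 238 189))
    (.leaf (lf 1024 0 0 450 177 (-268) 20 0 40 255 229 206))))))
    (by decide +kernel)

def goodS0X_522 :
    Check.Good noCone cfS0X (reach cfS0X ⟨litS0X, 1, fsS0X⟩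
      [(0, true), (2, false), (0, true), (1, true), (2, true), (0, false), (2, false), (0, true), (2, false)]) :=
  Check.check_sound
    (.node 2
    (.node 1
    (.node 1
    (.node 2
    (.leaf (lf 16384 0 0 2731 1959 (-3229) 793 0 604 250 255 133))
    (.leaf (lf 1024 0 0 149 130 (-206) 47 0 36 247 255 130)))
    (.node 2
    (.leaf (lf 1024 0 0 266 157 (-264) 49 0 50 255 255 255))
    (.leaf (lf 1024 0 0 239 160 (-260) 47 0 46 255 255 255))))
    (.node 1
    (.leaf (lf 1024 0 0 403 186 (-314) 36 0 58 255 255 255))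
    (.node 2
    (.node 0
    (.leaf (lf 1024 0 140 669 164 (-199) 0 0 55 255 147 184))
    (.leaf (lf 1024 0 0 697 350 0 2 (-55) 30 255 225 83)))
    (.node 0
    (.leaf (lf 1024 0 0 580 166 (-280) 13 0 49 255 179 199))
    (.leaf (lf 1024 0 0 646 172 (-299) 9 0 56 255 167 200))))))
    (.node 1
    (.node 1
    (.leaf (lf 1024 0 0 121 151 (-224) 44 0 35 255 255 255))
    (.leaf (lf 1024 0 0 201 173 (-264) 45 0 42 255 255 255)))
    (.node 1
    (.leaf (lf 1024 0 0 334 194 (-303) 38 0 49 255 255 255))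
    (.node 0
    (.leaf (lf 16384 0 0 8162 2832 (-4480) 298 0 711 255 217 216))
    (.leaf (lf 1024 0 0 573 345 0 16 (-43) 26 255 231 135))))))
    (by decide +kernel)

def goodS0X_520 :
    Check.Good noCone cfS0X (reach cfS0X ⟨litS0X, 1, fsS0X⟩
      [(2, false), (0, true), (1, true), (2, true), (0, false), (2, false), (0, true), (2, false)]) :=
  Check.good_node (a := 0) (by decide +kernel)
    goodS0X_521 goodS0X_522

def goodS0X_523 :
    Check.Good noCone cfS0X (reach cfS0X ⟨litS0X, 1, fsS0X⟩
      [(2, true), (0, true), (1, true), (2, true), (0, false), (2, false), (0, true), (2, false)]) :=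
  Check.check_sound
    (.node 0
    (.node 2
    (.leaf (lf 741 1024 962 0 635 (-208) 0 0 77 255 255 255))
    (.leaf (lf 1024 0 0 143 289 (-335) 28 0 41 255 255 255)))
    (.node 2
    (.node 1
    (.leaf (lf 1024 0 0 122 201 (-277) 41 0 39 255 255 255))
    (.node 1
    (.leaf (lf 1024 0 0 272 215 (-310) 38 0 45 255 255 255))
    (.node 0
    (.leaf (lf 1024 0 0 428 201 (-293) 23 0 42 255 236 199))
    (.leaf (lf 1024 0 0 486 197 (-302) 23 0 45 255 225 211)))))
    (.leaf (lf 732 1024 967 0 695 (-229) 0 0 88 255 255 255))))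
    (by decide +kernel)

def goodS0X_519 :
    Check.Good noCone cfS0X (reach cfS0X ⟨litS0X, 1, fsS0X⟩
      [(0, true), (1, true), (2, true), (0, false), (2, false), (0, true), (2, false)]) :=
  Check.good_node (a := 2) (by decide +kernel)
    goodS0X_520 goodS0X_523

def goodS0X_517 :
    Check.Good noCone cfS0X (reach cfS0X ⟨litS0X, 1, fsS0X⟩
      [(1, true), (2, true), (0, false), (2, false), (0, true), (2, false)]) :=
  Check.good_node (a := 0) (by decide +kernel)
    goodS0X_518 goodS0X_519

def goodS0X_511 :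
    Check.Good noCone cfS0X (reach cfS0X ⟨litS0X, 1, fsS0X⟩
      [(2, true), (0, false), (2, false), (0, true), (2, false)]) :=
  Check.good_node (a := 1) (by decide +kernel)
    goodS0X_512 goodS0X_517

end

end Vale.Agent.P211.Cert.Interior.Data
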