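import Vale.Agent.P211.Cert.Interior.Data.S0Xr

/-!
P211, a part of a cell of the interior family (generated).
-/

namespace Vale.Agent.P211.Cert.Interior.Data

open Vale.Agent.P098.Check6 (ofChunks eqList reach St Cfg Face)
open Vale.Agent.P098.Cert6.Kron (RootPar parOK)

set_option linter.defProp false

noncomputable section

def goodS0X_531 :
    Check.Good noCone cfS0X (reach cfS0X ⟨litS0X, 1, fsS0X⟩
      [(1, false), (0, false), (1, false), (2, false), (2, false), (1, false), (2, false), (0, true), (2, false), (0, true), (2, false)]) :=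
  Check.check_sound
    (.node 0
    (.node 2
    (.node 1
    (.leaf (lf 16384 6200 1375 0 1535 (-2717) 0 0 2582 210 238 255))
    (.leaf (lf 917 1024 327 0 171 (-195) 0 0 211 191 173 255)))
    (.node 1
    (.leaf (lf 1024 0 0 18 81 (-157) 9 0 101 255 255 255))
    (.leaf (lf 1024 0 271 95 83 (-141) 0 0 107 227 252 255))))
    (.node 2
    (.node 1
    (.leaf (lf 16384 0 1272 546 1463 (-2719) 0 0 3033 255 255 255))
    (.leaf (lf 928 1024 327 0 186 (-209) 0 0 266 185 171 255)))
    (.node 1
    (.leaf (lf 1024 0 0 20 90 (-171) 11 0 129 255 255 255))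
    (.leaf (lf 1024 0 0 59 89 (-169) 32 0 128 255 255 255)))))
    (by decide +kernel)

def goodS0X_532 :
    Check.Good noCone cfS0X (reach cfS0X ⟨litS0X, 1, fsS0X⟩
      [(1, true), (0, false), (1, false), (2, false), (2, false), (1, false), (2, false), (0, true), (2, false), (0, true), (2, false)]) :=
  Check.check_sound
    (.node 0
    (.node 2
    (.node 2
    (.node 1
    (.leaf (lf 1024 0 417 158 89 (-125) 0 0 204 213 255 243))
    (.leaf (lf 444 1024 631 0 261 (-100) 0 0 255 255 150 208)))
    (.node 1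
    (.leaf (lf 1024 0 431 158 88 (-123) 0 0 162 214 255 224))
    (.leaf (lf 441 1024 652 0 261 (-97) 0 0 203 255 165 203))))
    (.node 2
    (.node 1
    (.leaf (lf 1024 0 0 88 80 (-158) 49 0 112 255 255 255))
    (.leaf (lf 438 1024 680 0 260 (-91) 0 0 168 255 162 193)))
    (.node 1
    (.leaf (lf 1024 0 0 86 78 (-154) 43 0 93 255 255 255))
    (.leaf (lf 1024 0 0 120 79 (-154) 60 0 93 255 245 180)))))
    (.node 2
    (.node 2
    (.node 1
    (.leaf (lf 1024 0 421 169 96 (-131) 0 0 254 211 255 240))
    (.leaf (lf 447 1024 641 0 281 (-103) 0 0 318 255 149 212)))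
    (.node 1
    (.leaf (lf 1024 0 0 98 88 (-172) 72 0 172 255 255 255))
    (.leaf (lf 444 1024 651 0 281 (-101) 0 0 253 255 151 196))))
    (.node 2
    (.node 1
    (.leaf (lf 1024 0 0 97 88 (-170) 60 0 141 255 255 255))
    (.leaf (lf 1024 0 0 134 88 (-170) 85 0 141 255 243 195)))
    (.node 1
    (.leaf (lf 1024 0 0 95 87 (-168) 52 0 118 255 255 255))
    (.leaf (lf 1024 0 0 133 86 (-167) 74 0 118 255 245 186))))))
    (by decide +kernel)

def goodS0X_530 :
    Check.Good noCone cfS0X (reach cfS0X ⟨litS0X, 1, fsS0X⟩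
      [(0, false), (1, false), (2, false), (2, false), (1, false), (2, false), (0, true), (2, false), (0, true), (2, false)]) :=
  Check.good_node (a := 1) (by decide +kernel)
    goodS0X_531 goodS0X_532

def goodS0X_534 :
    Check.Good noCone cfS0X (reach cfS0X ⟨litS0X, 1, fsS0X⟩
      [(1, false), (0, true), (1, false), (2, false), (2, false), (1, false), (2, false), (0, true), (2, false), (0, true), (2, false)]) :=
  Check.check_sound
    (.node 0
    (.node 2
    (.node 1
    (.leaf (lf 1024 0 0 22 98 (-181) 18 0 231 255 255 255))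
    (.leaf (lf 936 1024 329 0 200 (-221) 0 0 327 181 172 255)))
    (.leaf (lf 1024 708 190 0 156 (-229) 0 0 213 255 255 255)))
    (.node 2
    (.node 1
    (.leaf (lf 1024 0 0 24 105 (-189) 22 0 279 255 255 255))
    (.leaf (lf 942 1024 334 0 213 (-230) 0 0 395 179 172 255)))
    (.leaf (lf 1024 699 188 0 167 (-241) 0 0 257 255 255 255))))
    (by decide +kernel)

def goodS0X_535 :
    Check.Good noCone cfS0X (reach cfS0X ⟨litS0X, 1, fsS0X⟩
      [(1, true), (0, true), (1, false), (2, false), (2, false), (1, false), (2, false), (0, true), (2, false), (0, true), (2, false)]) :=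
  Check.check_sound
    (.node 0
    (.node 2
    (.node 2
    (.node 1
    (.leaf (lf 1024 0 427 181 103 (-135) 0 0 310 208 255 243))
    (.leaf (lf 449 1024 655 0 300 (-103) 0 0 390 255 150 214)))
    (.node 1
    (.leaf (lf 1024 0 0 106 95 (-181) 88 0 210 255 255 255))
    (.leaf (lf 1024 0 603 252 110 (-95) 0 0 284 211 255 254))))
    (.node 2
    (.node 1
    (.leaf (lf 1024 0 0 105 95 (-181) 74 0 174 255 255 255))
    (.leaf (lf 1024 0 0 145 94 (-180) 104 0 173 255 255 255)))
    (.node 1
    (.leaf (lf 1024 0 0 104 94 (-179) 64 0 147 255 255 255))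
    (.leaf (lf 1024 0 0 144 93 (-178) 89 0 146 255 255 255)))))
    (.node 2
    (.node 2
    (.node 1
    (.leaf (lf 1024 0 0 112 100 (-185) 134 0 315 255 255 255))
    (.leaf (lf 452 1024 672 0 318 (-101) 0 0 472 255 152 216)))
    (.node 1
    (.leaf (lf 1024 0 0 113 101 (-188) 107 0 253 255 255 255))
    (.leaf (lf 1024 0 0 155 101 (-187) 151 0 252 255 255 255))))
    (.node 2
    (.node 1
    (.leaf (lf 1024 0 0 113 102 (-189) 89 0 210 255 255 255))
    (.leaf (lf 1024 0 0 156 100 (-188) 126 0 209 255 255 255)))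
    (.node 1
    (.leaf (lf 1024 0 0 112 102 (-189) 76 0 178 255 255 255))
    (.leaf (lf 1024 0 0 155 100 (-187) 108 0 177 255 255 255))))))
    (by decide +kernel)

def goodS0X_533 :
    Check.Good noCone cfS0X (reach cfS0X ⟨litS0X, 1, fsS0X⟩
      [(0, true), (1, false), (2, false), (2, false), (1, false), (2, false), (0, true), (2, false), (0, true), (2, false)]) :=
  Check.good_node (a := 1) (by decide +kernel)
    goodS0X_534 goodS0X_535

def goodS0X_529 :
    Check.Good noCone cfS0X (reach cfS0X ⟨litS0X, 1, fsS0X⟩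
      [(1, false), (2, false), (2, false), (1, false), (2, false), (0, true), (2, false), (0, true), (2, false)]) :=
  Check.good_node (a := 0) (by decide +kernel)
    goodS0X_530 goodS0X_533

def goodS0X_540 :
    Check.Good noCone cfS0X (reach cfS0X ⟨litS0X, 1, fsS0X⟩
      [(2, false), (1, false), (2, false), (0, false), (1, true), (2, false), (2, false), (1, false), (2, false), (0, true), (2, false), (0, true), (2, false)]) :=
  Check.check_sound
    (.node 0
    (.node 2
    (.node 0
    (.node 1
    (.leaf (lf 1024 0 0 154 86 (-172) 134 0 193 255 255 255))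
    (.leaf (lf 1024 0 0 189 97 (-196) 162 0 220 255 255 255)))
    (.leaf (lf 1024 0 0 179 101 (-200) 166 0 244 255 248 166)))
    (.node 0
    (.leaf (lf 1024 0 0 172 95 (-191) 130 0 188 255 251 158))
    (.leaf (lf 1024 0 0 179 99 (-198) 146 0 211 255 251 157))))
    (.node 2
    (.node 1
    (.leaf (lf 1024 0 0 171 95 (-185) 178 0 255 255 255 255))
    (.leaf (lf 1024 0 0 210 110 (-212) 214 0 294 255 255 255)))
    (.node 1
    (.leaf (lf 1024 0 0 172 94 (-184) 156 0 221 255 255 255))
    (.leaf (lf 1024 0 0 210 107 (-209) 188 0 253 255 255 255)))))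
    (by decide +kernel)

def goodS0X_541 :
    Check.Good noCone cfS0X (reach cfS0X ⟨litS0X, 1, fsS0X⟩
      [(2, true), (1, false), (2, false), (0, false), (1, true), (2, false), (2, false), (1, false), (2, false), (0, true), (2, false), (0, true), (2, false)]) :=
  Check.check_sound
    (.node 0
    (.node 2
    (.node 0
    (.leaf (lf 1024 0 0 171 93 (-189) 116 0 165 255 255 148))
    (.leaf (lf 1024 0 0 178 98 (-195) 131 0 185 255 254 151)))
    (.node 0
    (.leaf (lf 1024 0 0 170 92 (-186) 106 0 146 254 255 145))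
    (.leaf (lf 1024 0 0 178 96 (-192) 118 0 164 254 255 144))))
    (.node 2
    (.node 1
    (.leaf (lf 1024 0 0 172 93 (-182) 139 0 195 255 255 255))
    (.leaf (lf 1024 0 0 210 105 (-205) 168 0 221 255 255 255)))
    (.node 1
    (.leaf (lf 1024 0 0 171 92 (-181) 125 0 174 255 255 255))
    (.leaf (lf 1024 0 0 209 103 (-202) 151 0 196 255 255 255)))))
    (by decide +kernel)

def goodS0X_539 :
    Check.Good noCone cfS0X (reach cfS0X ⟨litS0X, 1, fsS0X⟩
      [(1, false), (2, false), (0, false), (1, true), (2, false), (2, false), (1, false), (2, false), (0, true), (2, false), (0, true), (2, false)]) :=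
  Check.good_node (a := 2) (by decide +kernel)
    goodS0X_540 goodS0X_541

def goodS0X_542 :
    Check.Good noCone cfS0X (reach cfS0X ⟨litS0X, 1, fsS0X⟩
      [(1, true), (2, false), (0, false), (1, true), (2, false), (2, false), (1, false), (2, false), (0, true), (2, false), (0, true), (2, false)]) :=
  Check.check_sound
    (.node 2
    (.node 0
    (.node 2
    (.leaf (lf 1024 0 0 259 140 (-274) 198 0 327 255 241 165))
    (.leaf (lf 1024 0 0 258 135 (-267) 175 0 279 255 244 158)))
    (.node 2
    (.leaf (lf 1024 0 0 278 154 (-294) 250 0 414 255 241 165))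
    (.leaf (lf 1024 0 0 277 149 (-287) 221 0 353 255 243 159))))
    (.node 0
    (.node 2
    (.leaf (lf 1024 0 0 256 131 (-260) 157 0 242 255 247 150))
    (.leaf (lf 1024 0 0 254 127 (-254) 143 0 212 255 249 146)))
    (.node 2
    (.leaf (lf 1024 0 0 276 144 (-280) 198 0 306 255 246 153))
    (.leaf (lf 1024 0 0 275 140 (-274) 179 0 269 255 248 147)))))
    (by decide +kernel)

def goodS0X_538 :
    Check.Good noCone cfS0X (reach cfS0X ⟨litS0X, 1, fsS0X⟩
      [(2, false), (0, false), (1, true), (2, false), (2, false), (1, false), (2, false), (0, true), (2, false), (0, true), (2, false)]) :=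
  Check.good_node (a := 1) (by decide +kernel)
    goodS0X_539 goodS0X_542

def goodS0X_544 :
    Check.Good noCone cfS0X (reach cfS0X ⟨litS0X, 1, fsS0X⟩
      [(1, false), (2, true), (0, false), (1, true), (2, false), (2, false), (1, false), (2, false), (0, true), (2, false), (0, true), (2, false)]) :=
  Check.check_sound
    (.node 0
    (.node 2
    (.node 0
    (.node 2
    (.leaf (lf 1024 0 0 168 91 (-183) 97 0 131 252 255 137))
    (.leaf (lf 1024 0 0 167 90 (-180) 90 0 118 251 255 135)))
    (.node 2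
    (.leaf (lf 1024 0 0 176 95 (-190) 108 0 147 253 255 136))
    (.leaf (lf 1024 0 0 175 94 (-187) 100 0 133 251 255 133))))
    (.node 0
    (.node 1
    (.leaf (lf 1024 0 0 148 79 (-156) 73 0 91 255 255 255))
    (.leaf (lf 1024 0 0 181 86 (-172) 88 0 101 255 255 255)))
    (.node 1
    (.leaf (lf 1024 0 0 156 83 (-163) 82 0 103 255 255 255))
    (.leaf (lf 1024 0 0 191 91 (-180) 98 0 114 255 255 255)))))
    (.node 2
    (.node 1
    (.leaf (lf 383 1024 802 0 344 (-55) 0 0 243 255 145 196))
    (.leaf (lf 360 1024 860 0 411 (-33) 0 0 285 255 132 199)))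
    (.node 1
    (.leaf (lf 1024 0 0 169 89 (-174) 94 0 123 255 247 182))
    (.leaf (lf 1024 0 0 207 98 (-191) 113 0 137 255 248 184)))))
    (by decide +kernel)

def goodS0X_545 :
    Check.Good noCone cfS0X (reach cfS0X ⟨litS0X, 1, fsS0X⟩
      [(1, true), (2, true), (0, false), (1, true), (2, false), (2, false), (1, false), (2, false), (0, true), (2, false), (0, true), (2, false)]) :=
  Check.check_sound
    (.node 0
    (.node 2
    (.node 0
    (.leaf (lf 1024 0 0 244 119 (-238) 120 0 165 255 241 177))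
    (.leaf (lf 1024 0 0 255 125 (-249) 134 0 188 255 241 178)))
    (.node 0
    (.leaf (lf 1024 0 0 239 114 (-228) 105 0 135 255 246 168))
    (.leaf (lf 1024 0 0 251 120 (-239) 117 0 153 255 255 255))))
    (.node 2
    (.node 2
    (.leaf (lf 1024 0 0 273 137 (-269) 164 0 239 255 249 142))
    (.leaf (lf 1024 0 0 272 134 (-263) 152 0 215 255 252 141)))
    (.node 0
    (.leaf (lf 1024 0 0 262 126 (-249) 130 0 173 255 255 255))
    (.leaf (lf 1024 0 0 273 132 (-259) 144 0 194 255 255 255)))))
    (by decide +kernel)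

def goodS0X_543 :
    Check.Good noCone cfS0X (reach cfS0X ⟨litS0X, 1, fsS0X⟩
      [(2, true), (0, false), (1, true), (2, false), (2, false), (1, false), (2, false), (0, true), (2, false), (0, true), (2, false)]) :=
  Check.good_node (a := 1) (by decide +kernel)
    goodS0X_544 goodS0X_545

def goodS0X_537 :
    Check.Good noCone cfS0X (reach cfS0X ⟨litS0X, 1, fsS0X⟩
      [(0, false), (1, true), (2, false), (2, false), (1, false), (2, false), (0, true), (2, false), (0, true), (2, false)]) :=
  Check.good_node (a := 2) (by decide +kernel)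
    goodS0X_538 goodS0X_543

def goodS0X_548 :
    Check.Good noCone cfS0X (reach cfS0X ⟨litS0X, 1, fsS0X⟩
      [(1, false), (2, false), (0, true), (1, true), (2, false), (2, false), (1, false), (2, false), (0, true), (2, false), (0, true), (2, false)]) :=
  Check.check_sound
    (.node 2
    (.node 0
    (.node 2
    (.node 1
    (.leaf (lf 1024 0 0 183 102 (-193) 221 0 309 255 255 255))
    (.leaf (lf 1024 0 0 223 118 (-223) 267 0 360 255 255 255)))
    (.node 1
    (.leaf (lf 1024 0 0 183 101 (-192) 193 0 269 255 255 255))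
    (.leaf (lf 1024 0 0 224 116 (-220) 233 0 310 255 255 255))))
    (.node 2
    (.node 1
    (.leaf (lf 1024 0 0 193 108 (-200) 271 0 370 255 255 255))
    (.leaf (lf 1024 0 0 236 127 (-233) 327 0 435 255 255 255)))
    (.node 1
    (.leaf (lf 1024 0 0 194 107 (-199) 236 0 322 255 255 255))
    (.leaf (lf 1024 0 0 237 124 (-229) 286 0 373 255 255 255)))))
    (.node 0
    (.node 2
    (.node 1
    (.leaf (lf 1024 0 0 184 100 (-191) 172 0 237 255 255 255))
    (.leaf (lf 1024 0 0 224 113 (-216) 208 0 271 255 255 255)))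
    (.node 1
    (.leaf (lf 1024 0 0 184 99 (-190) 154 0 212 255 255 255))
    (.leaf (lf 1024 0 0 224 111 (-213) 187 0 240 255 255 255))))
    (.node 2
    (.node 1
    (.leaf (lf 1024 0 0 195 106 (-198) 209 0 284 255 255 255))
    (.leaf (lf 1024 0 0 238 121 (-226) 254 0 326 255 255 255)))
    (.node 1
    (.leaf (lf 1024 0 0 196 105 (-197) 188 0 254 255 255 255))
    (.leaf (lf 1024 0 0 238 119 (-223) 228 0 289 255 255 255))))))
    (by decide +kernel)

def goodS0X_549 :
    Check.Good noCone cfS0X (reach cfS0X ⟨litS0X, 1, fsS0X⟩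
      [(1, true), (2, false), (0, true), (1, true), (2, false), (2, false), (1, false), (2, false), (0, true), (2, false), (0, true), (2, false)]) :=
  Check.check_sound
    (.node 2
    (.node 0
    (.node 2
    (.leaf (lf 1024 0 0 297 170 (-313) 311 0 513 255 239 167))
    (.leaf (lf 1024 0 0 296 163 (-306) 274 0 437 255 242 159)))
    (.node 2
    (.leaf (lf 1024 0 0 315 186 (-331) 380 0 627 255 237 165))
    (.leaf (lf 1024 0 0 313 178 (-323) 336 0 534 255 241 158))))
    (.node 0
    (.node 2
    (.leaf (lf 1024 0 0 295 158 (-299) 246 0 379 255 245 154))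
    (.leaf (lf 1024 0 0 294 153 (-292) 222 0 333 255 247 148)))
    (.node 2
    (.leaf (lf 1024 0 0 313 172 (-316) 301 0 463 255 244 154))
    (.leaf (lf 1024 0 0 312 167 (-309) 272 0 407 255 247 148)))))
    (by decide +kernel)

def goodS0X_547 :
    Check.Good noCone cfS0X (reach cfS0X ⟨litS0X, 1, fsS0X⟩
      [(2, false), (0, true), (1, true), (2, false), (2, false), (1, false), (2, false), (0, true), (2, false), (0, true), (2, false)]) :=
  Check.good_node (a := 1) (by decide +kernel)
    goodS0X_548 goodS0X_549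

def goodS0X_550 :
    Check.Good noCone cfS0X (reach cfS0X ⟨litS0X, 1, fsS0X⟩
      [(2, true), (0, true), (1, true), (2, false), (2, false), (1, false), (2, false), (0, true), (2, false), (0, true), (2, false)]) :=
  Check.check_sound
    (.node 1
    (.node 0
    (.node 2
    (.node 1
    (.leaf (lf 1024 0 0 185 98 (-187) 133 0 181 255 244 197))
    (.leaf (lf 1024 0 0 225 109 (-208) 161 0 203 255 244 198)))
    (.node 1
    (.leaf (lf 1024 0 0 184 96 (-184) 115 0 152 255 247 188))
    (.leaf (lf 1024 0 0 224 106 (-203) 139 0 168 255 255 255))))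
    (.node 2
    (.node 1
    (.leaf (lf 1024 0 0 198 104 (-195) 162 0 218 255 244 201))
    (.leaf (lf 1024 0 0 240 116 (-218) 197 0 245 255 255 255)))
    (.node 1
    (.leaf (lf 1024 0 0 197 103 (-193) 139 0 183 255 255 255))
    (.leaf (lf 1024 0 0 240 113 (-213) 168 0 203 255 255 255)))))
    (.node 0
    (.node 2
    (.node 2
    (.leaf (lf 1024 0 0 293 150 (-287) 203 0 297 255 249 144))
    (.leaf (lf 1024 0 0 292 146 (-281) 187 0 266 255 255 255)))
    (.node 0
    (.leaf (lf 1024 0 0 284 138 (-268) 159 0 216 255 255 255))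
    (.leaf (lf 1024 0 0 294 144 (-276) 176 0 240 255 255 255))))
    (.node 2
    (.node 2
    (.leaf (lf 1024 0 0 312 162 (-303) 248 0 362 255 249 144))
    (.leaf (lf 1024 0 0 311 159 (-298) 228 0 325 255 255 255)))
    (.node 2
    (.leaf (lf 1024 0 0 310 155 (-293) 211 0 294 255 255 255))
    (.leaf (lf 1024 0 0 310 152 (-288) 197 0 268 255 255 255))))))
    (by decide +kernel)

def goodS0X_546 :
    Check.Good noCone cfS0X (reach cfS0X ⟨litS0X, 1, fsS0X⟩
      [(0, true), (1, true), (2, false), (2, false), (1, false), (2, false), (0, true), (2, false), (0, true), (2, false)]) :=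
  Check.good_node (a := 2) (by decide +kernel)
    goodS0X_547 goodS0X_550

def goodS0X_536 :
    Check.Good noCone cfS0X (reach cfS0X ⟨litS0X, 1, fsS0X⟩
      [(1, true), (2, false), (2, false), (1, false), (2, false), (0, true), (2, false), (0, true), (2, false)]) :=
  Check.good_node (a := 0) (by decide +kernel)
    goodS0X_537 goodS0X_546

def goodS0X_528 :
    Check.Good noCone cfS0X (reach cfS0X ⟨litS0X, 1, fsS0X⟩
      [(2, false), (2, false), (1, false), (2, false), (0, true), (2, false), (0, true), (2, false)]) :=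
  Check.good_node (a := 1) (by decide +kernel)
    goodS0X_529 goodS0X_536

def goodS0X_554 :
    Check.Good noCone cfS0X (reach cfS0X ⟨litS0X, 1, fsS0X⟩
      [(1, false), (0, false), (1, false), (2, true), (2, false), (1, false), (2, false), (0, true), (2, false), (0, true), (2, false)]) :=
  Check.check_sound
    (.node 0
    (.node 1
    (.leaf (lf 1024 430 118 0 88 (-146) 0 0 65 201 225 255))
    (.node 2
    (.leaf (lf 1024 0 0 50 76 (-146) 22 0 72 255 255 255))
    (.leaf (lf 1024 0 0 47 71 (-133) 19 0 53 255 255 255))))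
    (.node 1
    (.leaf (lf 1024 410 106 0 98 (-165) 0 0 85 188 222 255))
    (.leaf (lf 877 1024 392 0 176 (-180) 0 0 111 250 219 255))))
    (by decide +kernel)

def goodS0X_555 :
    Check.Good noCone cfS0X (reach cfS0X ⟨litS0X, 1, fsS0X⟩
      [(1, true), (0, false), (1, false), (2, true), (2, false), (1, false), (2, false), (0, true), (2, false), (0, true), (2, false)]) :=
  Check.check_sound
    (.node 0
    (.node 2
    (.node 1
    (.leaf (lf 552 1024 588 0 202 (-116) 0 0 101 255 170 202))
    (.node 2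
    (.leaf (lf 1024 0 0 117 77 (-149) 54 0 79 255 247 172))
    (.leaf (lf 1024 0 0 114 74 (-143) 49 0 67 255 250 163))))
    (.node 1
    (.node 2
    (.leaf (lf 1024 0 0 79 72 (-136) 32 0 57 255 255 255))
    (.leaf (lf 1024 0 0 76 69 (-130) 30 0 49 255 255 255)))
    (.node 2
    (.leaf (lf 1024 0 0 110 72 (-137) 45 0 58 255 252 153))
    (.leaf (lf 1024 0 0 106 69 (-130) 42 0 50 255 255 147)))))
    (.node 2
    (.node 1
    (.leaf (lf 1024 0 483 169 93 (-116) 0 0 113 220 255 247))
    (.node 2
    (.leaf (lf 1024 0 0 130 85 (-163) 65 0 101 255 255 255))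
    (.leaf (lf 1024 0 0 128 83 (-159) 59 0 87 255 255 255))))
    (.node 1
    (.leaf (lf 16384 0 0 1423 1284 (-2408) 591 0 1117 255 242 201))
    (.node 2
    (.leaf (lf 1024 0 0 125 81 (-154) 54 0 75 255 255 255))
    (.leaf (lf 1024 0 0 121 79 (-148) 50 0 66 255 255 255))))))
    (by decide +kernel)

def goodS0X_553 :
    Check.Good noCone cfS0X (reach cfS0X ⟨litS0X, 1, fsS0X⟩
      [(0, false), (1, false), (2, true), (2, false), (1, false), (2, false), (0, true), (2, false), (0, true), (2, false)]) :=
  Check.good_node (a := 1) (by decide +kernel)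
    goodS0X_554 goodS0X_555

def goodS0X_556 :
    Check.Good noCone cfS0X (reach cfS0X ⟨litS0X, 1, fsS0X⟩
      [(0, true), (1, false), (2, true), (2, false), (1, false), (2, false), (0, true), (2, false), (0, true), (2, false)]) :=
  Check.check_sound
    (.node 1
    (.node 0
    (.node 1
    (.leaf (lf 1024 0 0 21 94 (-171) 9 0 100 255 255 255))
    (.leaf (lf 905 1024 372 0 195 (-203) 0 0 142 190 168 255)))
    (.node 1
    (.leaf (lf 1024 0 0 23 104 (-185) 11 0 124 255 255 255))
    (.leaf (lf 928 1024 360 0 212 (-222) 0 0 177 182 167 255))))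
    (.node 0
    (.node 2
    (.node 1
    (.leaf (lf 1024 0 0 103 93 (-174) 52 0 116 255 255 255))
    (.leaf (lf 441 1024 707 0 300 (-89) 0 0 176 255 147 207)))
    (.node 1
    (.leaf (lf 1024 0 0 99 90 (-167) 44 0 89 255 255 255))
    (.leaf (lf 437 1024 769 0 298 (-76) 0 0 143 255 159 202))))
    (.node 2
    (.node 1
    (.leaf (lf 1024 0 0 112 101 (-186) 62 0 142 255 255 255))
    (.leaf (lf 444 1024 695 0 320 (-95) 0 0 213 255 152 208)))
    (.node 1
    (.leaf (lf 1024 0 0 109 99 (-181) 52 0 111 255 255 255))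
    (.leaf (lf 16384 0 0 2421 1548 (-2855) 1165 0 1759 255 242 205))))))
    (by decide +kernel)

def goodS0X_552 :
    Check.Good noCone cfS0X (reach cfS0X ⟨litS0X, 1, fsS0X⟩
      [(1, false), (2, true), (2, false), (1, false), (2, false), (0, true), (2, false), (0, true), (2, false)]) :=
  Check.good_node (a := 0) (by decide +kernel)
    goodS0X_553 goodS0X_556

def goodS0X_560 :
    Check.Good noCone cfS0X (reach cfS0X ⟨litS0X, 1, fsS0X⟩
      [(1, false), (2, false), (0, false), (1, true), (2, true), (2, false), (1, false), (2, false), (0, true), (2, false), (0, true), (2, false)]) :=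
  Check.check_sound
    (.node 0
    (.node 2
    (.node 0
    (.node 1
    (.leaf (lf 1024 0 0 144 76 (-150) 66 0 76 255 255 255))
    (.leaf (lf 1024 0 0 177 84 (-165) 79 0 84 255 255 255)))
    (.node 1
    (.leaf (lf 1024 0 0 152 80 (-158) 73 0 87 255 255 255))
    (.leaf (lf 1024 0 0 187 88 (-173) 87 0 96 255 255 255))))
    (.node 0
    (.node 1
    (.leaf (lf 1024 0 0 139 74 (-143) 60 0 65 255 255 255))
    (.leaf (lf 1024 0 0 172 81 (-158) 71 0 71 255 255 255)))
    (.node 1
    (.leaf (lf 1024 0 0 148 78 (-152) 66 0 74 255 255 255))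
    (.leaf (lf 1024 0 0 182 85 (-167) 79 0 82 255 255 255)))))
    (.node 2
    (.node 1
    (.leaf (lf 1024 0 0 167 87 (-169) 83 0 105 255 250 171))
    (.leaf (lf 1024 0 0 204 95 (-186) 100 0 116 255 251 173)))
    (.node 1
    (.leaf (lf 1024 0 0 163 85 (-164) 75 0 90 255 253 161))
    (.leaf (lf 1024 0 0 200 93 (-180) 91 0 99 255 252 170)))))
    (by decide +kernel)

def goodS0X_561 :
    Check.Good noCone cfS0X (reach cfS0X ⟨litS0X, 1, fsS0X⟩
      [(1, true), (2, false), (0, false), (1, true), (2, true), (2, false), (1, false), (2, false), (0, true), (2, false), (0, true), (2, false)]) :=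
  Check.check_sound
    (.node 0
    (.node 2
    (.node 0
    (.leaf (lf 1024 0 0 233 110 (-219) 94 0 113 255 250 159))
    (.leaf (lf 1024 0 0 246 116 (-230) 104 0 128 255 255 255)))
    (.node 0
    (.leaf (lf 1024 0 0 227 107 (-210) 85 0 96 255 255 255))
    (.leaf (lf 1024 0 0 240 112 (-221) 94 0 110 255 255 255))))
    (.node 2
    (.node 0
    (.leaf (lf 1024 0 0 258 122 (-240) 115 0 145 255 255 255))
    (.leaf (lf 1024 0 0 269 128 (-250) 127 0 163 255 255 255)))
    (.node 0
    (.leaf (lf 1024 0 0 253 118 (-232) 104 0 124 255 255 255))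
    (.leaf (lf 1024 0 0 265 124 (-242) 115 0 139 255 255 255)))))
    (by decide +kernel)

def goodS0X_559 :
    Check.Good noCone cfS0X (reach cfS0X ⟨litS0X, 1, fsS0X⟩
      [(2, false), (0, false), (1, true), (2, true), (2, false), (1, false), (2, false), (0, true), (2, false), (0, true), (2, false)]) :=
  Check.good_node (a := 1) (by decide +kernel)
    goodS0X_560 goodS0X_561

def goodS0X_563 :
    Check.Good noCone cfS0X (reach cfS0X ⟨litS0X, 1, fsS0X⟩
      [(1, false), (2, true), (0, false), (1, true), (2, true), (2, false), (1, false), (2, false), (0, true), (2, false), (0, true), (2, false)]) :=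
  Check.check_sound
    (.node 0
    (.node 2
    (.node 0
    (.node 1
    (.leaf (lf 1024 0 0 135 71 (-137) 55 0 55 255 255 255))
    (.leaf (lf 1024 0 0 166 78 (-151) 66 0 61 255 255 255)))
    (.node 1
    (.leaf (lf 1024 0 0 144 76 (-146) 61 0 64 255 255 255))
    (.leaf (lf 1024 0 0 177 83 (-160) 73 0 70 255 255 255))))
    (.node 0
    (.node 1
    (.leaf (lf 1024 0 0 130 68 (-130) 51 0 48 255 255 255))
    (.leaf (lf 1024 0 0 160 75 (-144) 61 0 53 255 255 255)))
    (.node 1
    (.leaf (lf 1024 0 0 139 73 (-139) 56 0 55 255 255 255))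
    (.leaf (lf 1024 0 0 172 80 (-153) 68 0 61 255 255 255)))))
    (.node 2
    (.node 1
    (.leaf (lf 1024 0 0 160 83 (-159) 69 0 78 255 253 158))
    (.leaf (lf 1024 0 0 196 91 (-174) 83 0 86 255 254 161)))
    (.node 1
    (.leaf (lf 1024 0 0 156 81 (-154) 64 0 69 254 255 150))
    (.leaf (lf 1024 0 0 191 88 (-168) 77 0 75 255 255 155)))))
    (by decide +kernel)

def goodS0X_564 :
    Check.Good noCone cfS0X (reach cfS0X ⟨litS0X, 1, fsS0X⟩
      [(1, true), (2, true), (0, false), (1, true), (2, true), (2, false), (1, false), (2, false), (0, true), (2, false), (0, true), (2, false)]) :=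
  Check.check_sound
    (.node 0
    (.node 2
    (.node 0
    (.leaf (lf 1024 0 0 220 103 (-202) 79 0 83 254 255 144))
    (.leaf (lf 1024 0 0 234 109 (-213) 87 0 95 255 255 255)))
    (.node 0
    (.leaf (lf 1024 0 0 212 100 (-194) 73 0 72 253 255 130))
    (.leaf (lf 1024 0 0 227 106 (-205) 81 0 83 255 255 255))))
    (.node 2
    (.node 0
    (.leaf (lf 1024 0 0 247 115 (-224) 96 0 107 255 255 255))
    (.leaf (lf 1024 0 0 260 120 (-234) 105 0 121 255 255 255)))
    (.node 0
    (.leaf (lf 1024 0 0 241 112 (-216) 89 0 94 255 255 255))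
    (.leaf (lf 1024 0 0 254 117 (-227) 97 0 106 255 255 255)))))
    (by decide +kernel)

def goodS0X_562 :
    Check.Good noCone cfS0X (reach cfS0X ⟨litS0X, 1, fsS0X⟩
      [(2, true), (0, false), (1, true), (2, true), (2, false), (1, false), (2, false), (0, true), (2, false), (0, true), (2, false)]) :=
  Check.good_node (a := 1) (by decide +kernel)
    goodS0X_563 goodS0X_564

def goodS0X_558 :
    Check.Good noCone cfS0X (reach cfS0X ⟨litS0X, 1, fsS0X⟩
      [(0, false), (1, true), (2, true), (2, false), (1, false), (2, false), (0, true), (2, false), (0, true), (2, false)]) :=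
  Check.good_node (a := 2) (by decide +kernel)
    goodS0X_559 goodS0X_562

def goodS0X_566 :
    Check.Good noCone cfS0X (reach cfS0X ⟨litS0X, 1, fsS0X⟩
      [(2, false), (0, true), (1, true), (2, true), (2, false), (1, false), (2, false), (0, true), (2, false), (0, true), (2, false)]) :=
  Check.check_sound
    (.node 1
    (.node 0
    (.node 2
    (.node 1
    (.leaf (lf 1024 0 0 182 95 (-181) 101 0 130 255 255 255))
    (.leaf (lf 1024 0 0 222 103 (-198) 122 0 143 255 255 255)))
    (.node 1
    (.leaf (lf 1024 0 0 180 93 (-177) 91 0 112 255 255 255))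
    (.leaf (lf 1024 0 0 219 101 (-193) 110 0 123 255 255 255))))
    (.node 2
    (.node 1
    (.leaf (lf 1024 0 0 196 102 (-190) 122 0 157 255 255 255))
    (.leaf (lf 1024 0 0 239 111 (-209) 148 0 173 255 255 255)))
    (.node 1
    (.leaf (lf 1024 0 0 195 100 (-188) 109 0 137 255 255 255))
    (.leaf (lf 1024 0 0 237 109 (-204) 132 0 150 255 255 255)))))
    (.node 0
    (.node 2
    (.node 0
    (.leaf (lf 1024 0 0 281 133 (-259) 141 0 182 255 255 255))
    (.leaf (lf 1024 0 0 292 139 (-268) 155 0 202 255 255 255)))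
    (.node 0
    (.leaf (lf 1024 0 0 277 129 (-251) 127 0 156 255 255 255))
    (.leaf (lf 1024 0 0 288 135 (-260) 139 0 173 255 255 255))))
    (.node 2
    (.leaf (lf 1024 0 0 309 149 (-281) 178 0 235 255 247 162))
    (.leaf (lf 1024 0 0 307 144 (-273) 159 0 202 255 250 156)))))
    (by decide +kernel)

def goodS0X_567 :
    Check.Good noCone cfS0X (reach cfS0X ⟨litS0X, 1, fsS0X⟩
      [(2, true), (0, true), (1, true), (2, true), (2, false), (1, false), (2, false), (0, true), (2, false), (0, true), (2, false)]) :=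
  Check.check_sound
    (.node 1
    (.node 0
    (.node 2
    (.node 1
    (.leaf (lf 1024 0 0 177 91 (-173) 83 0 98 255 255 255))
    (.leaf (lf 1024 0 0 216 99 (-188) 100 0 108 255 255 255)))
    (.node 1
    (.leaf (lf 1024 0 0 174 89 (-168) 76 0 87 255 255 255))
    (.leaf (lf 1024 0 0 212 97 (-183) 92 0 95 255 255 255))))
    (.node 2
    (.node 1
    (.leaf (lf 1024 0 0 193 99 (-184) 99 0 120 255 255 255))
    (.leaf (lf 1024 0 0 235 106 (-200) 119 0 131 255 255 255)))
    (.node 1
    (.leaf (lf 1024 0 0 190 97 (-181) 91 0 107 255 255 255))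
    (.leaf (lf 1024 0 0 232 104 (-196) 110 0 116 255 255 255)))))
    (.node 0
    (.node 2
    (.node 0
    (.leaf (lf 1024 0 0 272 126 (-243) 116 0 135 255 255 255))
    (.leaf (lf 1024 0 0 284 131 (-252) 127 0 150 255 255 255)))
    (.node 0
    (.leaf (lf 1024 0 0 268 123 (-236) 107 0 119 255 255 255))
    (.leaf (lf 1024 0 0 280 128 (-245) 117 0 132 255 255 255))))
    (.node 2
    (.leaf (lf 1024 0 0 304 140 (-266) 144 0 176 255 253 149))
    (.leaf (lf 1024 0 0 300 137 (-259) 132 0 155 255 255 143)))))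
    (by decide +kernel)

def goodS0X_565 :
    Check.Good noCone cfS0X (reach cfS0X ⟨litS0X, 1, fsS0X⟩
      [(0, true), (1, true), (2, true), (2, false), (1, false), (2, false), (0, true), (2, false), (0, true), (2, false)]) :=
  Check.good_node (a := 2) (by decide +kernel)
    goodS0X_566 goodS0X_567

def goodS0X_557 :
    Check.Good noCone cfS0X (reach cfS0X ⟨litS0X, 1, fsS0X⟩
      [(1, true), (2, true), (2, false), (1, false), (2, false), (0, true), (2, false), (0, true), (2, false)]) :=
  Check.good_node (a := 0) (by decide +kernel)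
    goodS0X_558 goodS0X_565

def goodS0X_551 :
    Check.Good noCone cfS0X (reach cfS0X ⟨litS0X, 1, fsS0X⟩
      [(2, true), (2, false), (1, false), (2, false), (0, true), (2, false), (0, true), (2, false)]) :=
  Check.good_node (a := 1) (by decide +kernel)
    goodS0X_552 goodS0X_557

def goodS0X_527 :
    Check.Good noCone cfS0X (reach cfS0X ⟨litS0X, 1, fsS0X⟩
      [(2, false), (1, false), (2, false), (0, true), (2, false), (0, true), (2, false)]) :=
  Check.good_node (a := 2) (by decide +kernel)
    goodS0X_528 goodS0X_551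

def goodS0X_571 :
    Check.Good noCone cfS0X (reach cfS0X ⟨litS0X, 1, fsS0X⟩
      [(1, false), (0, false), (1, false), (2, true), (1, false), (2, false), (0, true), (2, false), (0, true), (2, false)]) :=
  Check.check_sound
    (.node 1
    (.node 0
    (.leaf (lf 1024 494 184 0 77 (-112) 0 0 31 166 202 255))
    (.node 2
    (.leaf (lf 1024 0 0 17 74 (-133) 6 0 48 255 255 255))
    (.leaf (lf 1024 0 0 14 65 (-112) 5 0 31 255 255 255))))
    (.node 0
    (.leaf (lf 777 1024 619 0 142 (-105) 0 0 42 220 169 255))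
    (.node 2
    (.leaf (lf 805 1024 499 0 162 (-144) 0 0 69 255 179 226))
    (.leaf (lf 754 1024 641 0 151 (-112) 0 0 48 255 255 255)))))
    (by decide +kernel)

def goodS0X_573 :
    Check.Good noCone cfS0X (reach cfS0X ⟨litS0X, 1, fsS0X⟩
      [(2, false), (1, true), (0, false), (1, false), (2, true), (1, false), (2, false), (0, true), (2, false), (0, true), (2, false)]) :=
  Check.check_sound
    (.node 0
    (.node 2
    (.node 1
    (.node 0
    (.leaf (lf 1024 0 0 68 62 (-114) 26 0 37 255 255 255))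
    (.leaf (lf 1024 0 0 74 67 (-124) 29 0 43 255 255 255)))
    (.node 0
    (.leaf (lf 1024 0 0 95 62 (-115) 37 0 37 255 252 187))
    (.leaf (lf 1024 0 0 103 67 (-124) 40 0 43 255 255 255))))
    (.node 1
    (.node 0
    (.leaf (lf 1024 0 0 61 58 (-103) 24 0 29 255 255 255))
    (.leaf (lf 1024 0 0 67 62 (-112) 26 0 33 255 255 255)))
    (.node 0
    (.leaf (lf 1024 0 0 86 58 (-104) 33 0 29 253 255 167))
    (.leaf (lf 1024 0 0 94 62 (-112) 36 0 34 255 255 172)))))
    (.node 2
    (.node 1
    (.leaf (lf 1024 0 0 84 75 (-139) 33 0 54 255 244 189))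
    (.node 2
    (.leaf (lf 1024 0 0 118 76 (-142) 47 0 58 255 255 255))
    (.leaf (lf 1024 0 0 114 74 (-136) 44 0 51 255 255 255))))
    (.node 1
    (.leaf (lf 1024 0 0 78 70 (-127) 29 0 42 255 248 164))
    (.node 0
    (.leaf (lf 1024 0 0 103 67 (-121) 40 0 39 255 255 255))
    (.leaf (lf 1024 0 0 112 72 (-131) 43 0 45 255 255 255))))))
    (by decide +kernel)

def goodS0X_574 :
    Check.Good noCone cfS0X (reach cfS0X ⟨litS0X, 1, fsS0X⟩
      [(2, true), (1, true), (0, false), (1, false), (2, true), (1, false), (2, false), (0, true), (2, false), (0, true), (2, false)]) :=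
  Check.check_sound
    (.node 0
    (.node 1
    (.node 2
    (.node 0
    (.leaf (lf 1024 0 0 54 56 (-97) 22 0 24 255 255 255))
    (.leaf (lf 1024 0 0 61 59 (-103) 24 0 27 255 255 255)))
    (.leaf (lf 1024 0 0 52 60 (-101) 22 0 23 255 254 168)))
    (.node 2
    (.node 0
    (.leaf (lf 1024 0 0 77 56 (-98) 31 0 24 252 255 170))
    (.leaf (lf 1024 0 0 86 59 (-104) 34 0 28 255 255 177)))
    (.node 0
    (.leaf (lf 1024 0 0 67 60 (-101) 29 0 22 255 255 255))
    (.leaf (lf 1024 0 0 76 59 (-101) 31 0 24 247 255 147)))))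
    (.node 1
    (.node 2
    (.leaf (lf 1024 0 0 72 65 (-116) 27 0 34 255 253 159))
    (.leaf (lf 16384 0 0 1046 995 (-1723) 406 0 454 253 255 155)))
    (.node 2
    (.node 0
    (.leaf (lf 1024 0 0 95 62 (-111) 37 0 32 253 255 176))
    (.leaf (lf 1024 0 0 103 67 (-120) 40 0 36 255 255 255)))
    (.node 0
    (.leaf (lf 1024 0 0 86 60 (-105) 34 0 27 255 255 255))
    (.leaf (lf 1024 0 0 95 63 (-111) 37 0 30 255 255 255))))))
    (by decide +kernel)

def goodS0X_572 :
    Check.Good noCone cfS0X (reach cfS0X ⟨litS0X, 1, fsS0X⟩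
      [(1, true), (0, false), (1, false), (2, true), (1, false), (2, false), (0, true), (2, false), (0, true), (2, false)]) :=
  Check.good_node (a := 2) (by decide +kernel)
    goodS0X_573 goodS0X_574

def goodS0X_570 :
    Check.Good noCone cfS0X (reach cfS0X ⟨litS0X, 1, fsS0X⟩
      [(0, false), (1, false), (2, true), (1, false), (2, false), (0, true), (2, false), (0, true), (2, false)]) :=
  Check.good_node (a := 1) (by decide +kernel)
    goodS0X_571 goodS0X_572

def goodS0X_576 :
    Check.Good noCone cfS0X (reach cfS0X ⟨litS0X, 1, fsS0X⟩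
      [(1, false), (0, true), (1, false), (2, true), (1, false), (2, false), (0, true), (2, false), (0, true), (2, false)]) :=
  Check.check_sound
    (.node 1
    (.node 0
    (.node 2
    (.leaf (lf 1024 0 0 19 86 (-153) 7 0 63 255 255 255))
    (.leaf (lf 1024 0 0 17 75 (-130) 6 0 41 255 255 255)))
    (.node 2
    (.leaf (lf 1024 0 0 21 97 (-172) 8 0 81 255 255 255))
    (.leaf (lf 1024 0 0 19 86 (-151) 7 0 54 255 255 255))))
    (.node 0
    (.node 2
    (.leaf (lf 16384 0 0 907 2779 0 340 (-872) 485 202 147 255))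
    (.leaf (lf 776 1024 567 0 168 (-135) 0 0 61 255 195 230)))
    (.node 2
    (.leaf (lf 1024 0 0 63 95 (-170) 25 0 80 255 255 255))
    (.leaf (lf 1024 0 0 57 85 (-149) 21 0 54 255 255 255)))))
    (by decide +kernel)

def goodS0X_578 :
    Check.Good noCone cfS0X (reach cfS0X ⟨litS0X, 1, fsS0X⟩
      [(2, false), (1, true), (0, true), (1, false), (2, true), (1, false), (2, false), (0, true), (2, false), (0, true), (2, false)]) :=
  Check.check_sound
    (.node 0
    (.node 2
    (.node 1
    (.leaf (lf 1024 0 0 95 85 (-157) 38 0 70 255 255 255))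
    (.leaf (lf 433 1024 850 0 296 (-60) 0 0 121 255 157 203)))
    (.node 1
    (.leaf (lf 1024 0 0 90 80 (-146) 35 0 56 255 255 255))
    (.leaf (lf 1024 0 0 125 80 (-145) 48 0 56 255 250 172))))
    (.node 2
    (.node 1
    (.leaf (lf 1024 0 0 105 95 (-173) 45 0 89 255 255 255))
    (.leaf (lf 1024 0 0 146 93 (-171) 63 0 88 255 255 255)))
    (.node 1
    (.leaf (lf 1024 0 0 101 91 (-164) 40 0 72 255 255 255))
    (.leaf (lf 1024 0 0 141 89 (-162) 56 0 71 255 255 255)))))
    (by decide +kernel)

def goodS0X_579 :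
    Check.Good noCone cfS0X (reach cfS0X ⟨litS0X, 1, fsS0X⟩
      [(2, true), (1, true), (0, true), (1, false), (2, true), (1, false), (2, false), (0, true), (2, false), (0, true), (2, false)]) :=
  Check.check_sound
    (.node 0
    (.node 1
    (.node 2
    (.leaf (lf 1024 0 0 84 75 (-134) 32 0 45 255 255 255))
    (.leaf (lf 1024 0 0 79 70 (-123) 29 0 37 254 255 150)))
    (.node 2
    (.leaf (lf 1024 0 0 118 75 (-134) 44 0 45 255 252 163))
    (.node 0
    (.leaf (lf 1024 0 0 104 67 (-118) 40 0 35 255 255 255))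
    (.leaf (lf 1024 0 0 113 72 (-127) 43 0 40 255 255 255)))))
    (.node 1
    (.node 2
    (.leaf (lf 1024 0 0 96 86 (-153) 37 0 59 255 255 255))
    (.leaf (lf 1024 0 0 91 81 (-142) 34 0 49 255 255 255)))
    (.node 2
    (.leaf (lf 1024 0 0 134 85 (-152) 51 0 59 255 252 166))
    (.leaf (lf 1024 0 0 127 80 (-141) 47 0 49 255 255 157)))))
    (by decide +kernel)

def goodS0X_577 :
    Check.Good noCone cfS0X (reach cfS0X ⟨litS0X, 1, fsS0X⟩
      [(1, true), (0, true), (1, false), (2, true), (1, false), (2, false), (0, true), (2, false), (0, true), (2, false)]) :=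
  Check.good_node (a := 2) (by decide +kernel)
    goodS0X_578 goodS0X_579

def goodS0X_575 :
    Check.Good noCone cfS0X (reach cfS0X ⟨litS0X, 1, fsS0X⟩
      [(0, true), (1, false), (2, true), (1, false), (2, false), (0, true), (2, false), (0, true), (2, false)]) :=
  Check.good_node (a := 1) (by decide +kernel)
    goodS0X_576 goodS0X_577

def goodS0X_569 :
    Check.Good noCone cfS0X (reach cfS0X ⟨litS0X, 1, fsS0X⟩
      [(1, false), (2, true), (1, false), (2, false), (0, true), (2, false), (0, true), (2, false)]) :=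
  Check.good_node (a := 0) (by decide +kernel)
    goodS0X_570 goodS0X_575

def goodS0X_584 :
    Check.Good noCone cfS0X (reach cfS0X ⟨litS0X, 1, fsS0X⟩
      [(1, false), (0, false), (2, false), (0, false), (1, true), (2, true), (1, false), (2, false), (0, true), (2, false), (0, true), (2, false)]) :=
  Check.check_sound
    (.node 2
    (.node 0
    (.node 2
    (.node 1
    (.leaf (lf 1024 0 0 124 66 (-123) 48 0 42 255 255 255))
    (.leaf (lf 1024 0 0 154 72 (-137) 58 0 46 255 255 255)))
    (.node 1
    (.leaf (lf 1024 0 0 119 63 (-117) 46 0 37 255 255 255))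
    (.leaf (lf 1024 0 0 147 70 (-130) 55 0 41 255 255 255))))
    (.node 2
    (.node 1
    (.leaf (lf 1024 0 0 135 70 (-133) 53 0 48 255 255 255))
    (.leaf (lf 1024 0 0 166 77 (-147) 63 0 54 255 255 255)))
    (.node 1
    (.leaf (lf 1024 0 0 130 68 (-126) 50 0 43 255 255 255))
    (.leaf (lf 1024 0 0 160 75 (-140) 60 0 47 255 255 255)))))
    (.node 0
    (.node 1
    (.node 2
    (.leaf (lf 1024 0 0 113 61 (-112) 44 0 32 255 255 255))
    (.leaf (lf 1024 0 0 108 60 (-107) 42 0 29 255 255 255)))
    (.leaf (lf 16384 0 0 2213 1079 (-1963) 811 0 552 254 255 173)))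
    (.node 1
    (.leaf (lf 1024 0 0 122 65 (-118) 46 0 36 255 254 175))
    (.leaf (lf 1024 0 0 151 72 (-132) 55 0 40 254 255 167)))))
    (by decide +kernel)

def goodS0X_585 :
    Check.Good noCone cfS0X (reach cfS0X ⟨litS0X, 1, fsS0X⟩
      [(1, true), (0, false), (2, false), (0, false), (1, true), (2, true), (1, false), (2, false), (0, true), (2, false), (0, true), (2, false)]) :=
  Check.check_sound
    (.node 2
    (.node 0
    (.node 2
    (.leaf (lf 1024 0 0 205 97 (-186) 69 0 64 249 255 130))
    (.leaf (lf 1024 0 0 197 95 (-179) 66 0 57 248 255 134)))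
    (.node 2
    (.leaf (lf 1024 0 0 220 103 (-198) 76 0 73 255 255 255))
    (.leaf (lf 1024 0 0 212 100 (-191) 72 0 65 255 255 255))))
    (.node 0
    (.node 2
    (.leaf (lf 1024 0 0 189 92 (-172) 63 0 51 246 255 132))
    (.leaf (lf 1024 0 0 180 91 (-166) 60 0 46 245 255 125)))
    (.node 2
    (.leaf (lf 1024 0 0 205 98 (-184) 68 0 58 248 255 120))
    (.leaf (lf 1024 0 0 197 96 (-178) 65 0 53 245 255 119)))))
    (by decide +kernel)

def goodS0X_583 :
    Check.Good noCone cfS0X (reach cfS0X ⟨litS0X, 1, fsS0X⟩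
      [(0, false), (2, false), (0, false), (1, true), (2, true), (1, false), (2, false), (0, true), (2, false), (0, true), (2, false)]) :=
  Check.good_node (a := 1) (by decide +kernel)
    goodS0X_584 goodS0X_585

def goodS0X_586 :
    Check.Good noCone cfS0X (reach cfS0X ⟨litS0X, 1, fsS0X⟩
      [(0, true), (2, false), (0, false), (1, true), (2, true), (1, false), (2, false), (0, true), (2, false), (0, true), (2, false)]) :=
  Check.check_sound
    (.node 1
    (.node 2
    (.node 1
    (.node 2
    (.leaf (lf 1024 0 0 151 79 (-148) 60 0 60 255 255 146))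
    (.leaf (lf 1024 0 0 147 76 (-142) 57 0 53 254 255 146)))
    (.node 2
    (.leaf (lf 1024 0 0 186 86 (-162) 72 0 67 252 255 149))
    (.leaf (lf 1024 0 0 181 83 (-156) 68 0 59 250 255 144))))
    (.node 1
    (.node 0
    (.leaf (lf 1024 0 0 133 69 (-127) 50 0 41 254 255 170))
    (.leaf (lf 1024 0 0 144 74 (-136) 55 0 47 255 255 255)))
    (.node 0
    (.leaf (lf 1024 0 0 164 76 (-141) 60 0 46 255 255 255))
    (.leaf (lf 1024 0 0 177 81 (-150) 66 0 52 255 255 255)))))
    (.node 2
    (.node 2
    (.node 0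
    (.leaf (lf 1024 0 0 234 109 (-209) 83 0 83 255 255 255))
    (.leaf (lf 1024 0 0 248 114 (-220) 91 0 94 255 255 255)))
    (.node 0
    (.leaf (lf 1024 0 0 227 106 (-202) 79 0 74 255 255 255))
    (.leaf (lf 1024 0 0 242 112 (-213) 86 0 84 255 255 255))))
    (.node 0
    (.node 2
    (.leaf (lf 1024 0 0 220 103 (-195) 75 0 67 247 255 130))
    (.leaf (lf 1024 0 0 213 101 (-189) 71 0 60 255 255 255)))
    (.node 2
    (.leaf (lf 1024 0 0 235 109 (-206) 81 0 75 255 255 255))
    (.leaf (lf 1024 0 0 228 107 (-200) 78 0 68 255 255 255))))))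
    (by decide +kernel)

def goodS0X_582 :
    Check.Good noCone cfS0X (reach cfS0X ⟨litS0X, 1, fsS0X⟩
      [(2, false), (0, false), (1, true), (2, true), (1, false), (2, false), (0, true), (2, false), (0, true), (2, false)]) :=
  Check.good_node (a := 0) (by decide +kernel)
    goodS0X_583 goodS0X_586

def goodS0X_588 :
    Check.Good noCone cfS0X (reach cfS0X ⟨litS0X, 1, fsS0X⟩
      [(0, false), (2, true), (0, false), (1, true), (2, true), (1, false), (2, false), (0, true), (2, false), (0, true), (2, false)]) :=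
  Check.check_sound
    (.node 1
    (.node 2
    (.node 0
    (.node 1
    (.leaf (lf 1024 0 0 100 59 (-104) 39 0 26 251 255 164))
    (.leaf (lf 1024 0 0 124 66 (-116) 47 0 29 253 255 167)))
    (.node 1
    (.leaf (lf 1024 0 0 111 62 (-109) 43 0 29 251 255 170))
    (.leaf (lf 1024 0 0 138 69 (-123) 51 0 33 252 255 163))))
    (.node 0
    (.node 1
    (.leaf (lf 1024 0 0 88 62 (-105) 37 0 23 255 255 255))
    (.leaf (lf 1024 0 0 110 67 (-115) 44 0 26 251 255 165)))
    (.node 1
    (.leaf (lf 1024 0 0 100 62 (-106) 40 0 25 252 255 163))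
    (.leaf (lf 1024 0 0 124 68 (-118) 48 0 28 255 255 255)))))
    (.node 2
    (.node 0
    (.node 2
    (.leaf (lf 1024 0 0 172 89 (-161) 58 0 42 243 255 128))
    (.leaf (lf 1024 0 0 163 88 (-158) 56 0 38 244 255 122)))
    (.node 2
    (.leaf (lf 1024 0 0 188 94 (-172) 63 0 48 243 255 121))
    (.leaf (lf 1024 0 0 180 93 (-167) 61 0 44 242 255 125))))
    (.node 0
    (.node 1
    (.leaf (lf 1024 0 0 136 77 (-134) 50 0 30 255 255 255))
    (.leaf (lf 1024 0 0 165 92 (-160) 56 0 36 255 255 255)))
    (.node 1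
    (.leaf (lf 1024 0 0 152 79 (-139) 55 0 33 255 255 255))
    (.leaf (lf 1024 0 0 183 95 (-169) 61 0 41 255 255 255))))))
    (by decide +kernel)

def goodS0X_589 :
    Check.Good noCone cfS0X (reach cfS0X ⟨litS0X, 1, fsS0X⟩
      [(0, true), (2, true), (0, false), (1, true), (2, true), (1, false), (2, false), (0, true), (2, false), (0, true), (2, false)]) :=
  Check.check_sound
    (.node 1
    (.node 2
    (.node 1
    (.node 0
    (.leaf (lf 1024 0 0 122 65 (-117) 46 0 33 251 255 156))
    (.leaf (lf 1024 0 0 133 69 (-125) 50 0 38 251 255 160)))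
    (.node 0
    (.leaf (lf 1024 0 0 151 72 (-130) 56 0 37 255 255 255))
    (.leaf (lf 1024 0 0 165 76 (-139) 60 0 43 255 255 255))))
    (.node 1
    (.node 0
    (.leaf (lf 1024 0 0 111 63 (-110) 43 0 28 247 255 151))
    (.leaf (lf 1024 0 0 123 66 (-117) 47 0 32 248 255 160)))
    (.node 0
    (.leaf (lf 1024 0 0 138 70 (-124) 52 0 32 249 255 161))
    (.leaf (lf 1024 0 0 152 73 (-130) 56 0 36 255 255 255)))))
    (.node 2
    (.node 0
    (.node 2
    (.leaf (lf 1024 0 0 205 99 (-183) 68 0 55 255 255 255))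
    (.leaf (lf 1024 0 0 197 97 (-178) 66 0 50 242 255 117)))
    (.node 2
    (.leaf (lf 1024 0 0 221 104 (-194) 74 0 62 255 255 255))
    (.leaf (lf 1024 0 0 213 102 (-188) 72 0 57 243 255 124))))
    (.node 0
    (.node 1
    (.leaf (lf 1024 0 0 168 82 (-146) 59 0 38 255 255 255))
    (.leaf (lf 1024 0 0 201 99 (-179) 66 0 46 255 255 255)))
    (.node 1
    (.leaf (lf 1024 0 0 184 86 (-154) 64 0 43 255 255 255))
    (.leaf (lf 1024 0 0 219 104 (-189) 71 0 52 255 255 255))))))
    (by decide +kernel)

def goodS0X_587 :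
    Check.Good noCone cfS0X (reach cfS0X ⟨litS0X, 1, fsS0X⟩
      [(2, true), (0, false), (1, true), (2, true), (1, false), (2, false), (0, true), (2, false), (0, true), (2, false)]) :=
  Check.good_node (a := 0) (by decide +kernel)
    goodS0X_588 goodS0X_589

def goodS0X_581 :
    Check.Good noCone cfS0X (reach cfS0X ⟨litS0X, 1, fsS0X⟩
      [(0, false), (1, true), (2, true), (1, false), (2, false), (0, true), (2, false), (0, true), (2, false)]) :=
  Check.good_node (a := 2) (by decide +kernel)
    goodS0X_582 goodS0X_587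

def goodS0X_592 :
    Check.Good noCone cfS0X (reach cfS0X ⟨litS0X, 1, fsS0X⟩
      [(0, false), (2, false), (0, true), (1, true), (2, true), (1, false), (2, false), (0, true), (2, false), (0, true), (2, false)]) :=
  Check.check_sound
    (.node 1
    (.node 2
    (.node 1
    (.node 2
    (.leaf (lf 1024 0 0 170 87 (-163) 71 0 77 255 255 255))
    (.leaf (lf 1024 0 0 166 85 (-158) 67 0 69 255 255 255)))
    (.node 2
    (.leaf (lf 1024 0 0 208 94 (-178) 86 0 84 255 255 255))
    (.leaf (lf 1024 0 0 204 92 (-172) 80 0 75 255 255 255))))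
    (.node 1
    (.node 0
    (.leaf (lf 1024 0 0 154 78 (-144) 59 0 54 255 255 255))
    (.leaf (lf 1024 0 0 164 83 (-153) 64 0 61 255 255 255)))
    (.node 0
    (.leaf (lf 1024 0 0 189 85 (-158) 71 0 59 255 255 255))
    (.leaf (lf 1024 0 0 201 90 (-166) 77 0 67 255 255 255)))))
    (.node 2
    (.node 2
    (.leaf (lf 1024 0 0 271 124 (-236) 103 0 113 252 255 136))
    (.node 0
    (.leaf (lf 1024 0 0 256 117 (-223) 94 0 94 255 255 255))
    (.leaf (lf 1024 0 0 270 122 (-232) 102 0 105 255 255 255))))
    (.node 0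
    (.node 2
    (.leaf (lf 1024 0 0 250 114 (-216) 89 0 85 255 255 255))
    (.leaf (lf 1024 0 0 243 112 (-210) 84 0 77 255 255 255)))
    (.leaf (lf 1024 0 0 262 119 (-223) 93 0 90 255 251 161)))))
    (by decide +kernel)

def goodS0X_593 :
    Check.Good noCone cfS0X (reach cfS0X ⟨litS0X, 1, fsS0X⟩
      [(0, true), (2, false), (0, true), (1, true), (2, true), (1, false), (2, false), (0, true), (2, false), (0, true), (2, false)]) :=
  Check.check_sound
    (.node 1
    (.node 2
    (.node 1
    (.leaf (lf 379 1024 978 0 391 (-7) 0 0 173 255 139 202))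
    (.node 2
    (.leaf (lf 1024 0 0 229 102 (-191) 102 0 103 255 255 255))
    (.leaf (lf 1024 0 0 225 100 (-186) 95 0 93 255 255 255))))
    (.node 1
    (.leaf (lf 16384 0 0 2883 1450 (-2649) 1147 0 1171 255 251 177))
    (.node 2
    (.leaf (lf 1024 0 0 221 98 (-182) 89 0 84 255 255 255))
    (.leaf (lf 1024 0 0 217 96 (-177) 85 0 76 255 255 255)))))
    (.node 2
    (.node 2
    (.leaf (lf 1024 0 0 297 134 (-253) 123 0 138 254 255 141))
    (.leaf (lf 1024 0 0 292 131 (-247) 115 0 124 252 255 136)))
    (.node 2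
    (.leaf (lf 1024 0 0 287 128 (-241) 108 0 112 250 255 130))
    (.leaf (lf 1024 0 0 282 126 (-235) 103 0 102 248 255 130)))))
    (by decide +kernel)

def goodS0X_591 :
    Check.Good noCone cfS0X (reach cfS0X ⟨litS0X, 1, fsS0X⟩
      [(2, false), (0, true), (1, true), (2, true), (1, false), (2, false), (0, true), (2, false), (0, true), (2, false)]) :=
  Check.good_node (a := 0) (by decide +kernel)
    goodS0X_592 goodS0X_593

def goodS0X_595 :
    Check.Good noCone cfS0X (reach cfS0X ⟨litS0X, 1, fsS0X⟩
      [(0, false), (2, true), (0, true), (1, true), (2, true), (1, false), (2, false), (0, true), (2, false), (0, true), (2, false)]) :=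
  Check.check_sound
    (.node 1
    (.node 2
    (.node 1
    (.node 0
    (.leaf (lf 1024 0 0 144 74 (-133) 54 0 44 255 255 255))
    (.leaf (lf 1024 0 0 155 78 (-142) 59 0 50 255 255 255)))
    (.node 0
    (.leaf (lf 1024 0 0 178 81 (-147) 65 0 48 255 255 255))
    (.leaf (lf 1024 0 0 190 85 (-156) 71 0 55 255 255 255))))
    (.node 1
    (.node 0
    (.leaf (lf 1024 0 0 134 70 (-124) 51 0 36 255 255 255))
    (.leaf (lf 1024 0 0 145 74 (-132) 54 0 41 255 255 255)))
    (.node 0
    (.leaf (lf 1024 0 0 165 77 (-138) 61 0 40 255 255 255))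
    (.leaf (lf 1024 0 0 179 81 (-146) 65 0 46 255 255 255)))))
    (.node 2
    (.node 0
    (.node 2
    (.leaf (lf 1024 0 0 237 110 (-204) 81 0 70 255 255 255))
    (.leaf (lf 1024 0 0 229 107 (-199) 78 0 64 255 255 255)))
    (.leaf (lf 1024 0 0 249 114 (-211) 85 0 75 255 255 155)))
    (.node 0
    (.node 1
    (.leaf (lf 1024 0 0 199 90 (-163) 70 0 48 255 255 255))
    (.leaf (lf 1024 0 0 237 109 (-199) 77 0 59 255 255 255)))
    (.leaf (lf 1024 0 0 235 110 (-201) 79 0 63 252 255 146)))))
    (by decide +kernel)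

def goodS0X_596 :
    Check.Good noCone cfS0X (reach cfS0X ⟨litS0X, 1, fsS0X⟩
      [(0, true), (2, true), (0, true), (1, true), (2, true), (1, false), (2, false), (0, true), (2, false), (0, true), (2, false)]) :=
  Check.check_sound
    (.node 1
    (.node 2
    (.node 1
    (.leaf (lf 1024 0 0 172 86 (-156) 65 0 60 255 254 164))
    (.node 0
    (.leaf (lf 1024 0 0 203 90 (-164) 76 0 61 255 255 255))
    (.leaf (lf 1024 0 0 215 94 (-171) 82 0 69 255 255 255))))
    (.node 1
    (.leaf (lf 1024 0 0 163 82 (-146) 60 0 50 253 255 153))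
    (.node 0
    (.leaf (lf 1024 0 0 192 85 (-154) 70 0 51 255 255 255))
    (.leaf (lf 1024 0 0 205 90 (-162) 76 0 57 255 255 255)))))
    (.node 2
    (.node 0
    (.leaf (lf 1024 0 0 264 119 (-221) 92 0 83 255 254 154))
    (.leaf (lf 1024 0 0 279 124 (-230) 99 0 93 255 254 155)))
    (.node 0
    (.leaf (lf 1024 0 0 251 115 (-210) 85 0 71 253 255 149))
    (.leaf (lf 1024 0 0 266 120 (-219) 92 0 78 253 255 150)))))
    (by decide +kernel)

def goodS0X_594 :
    Check.Good noCone cfS0X (reach cfS0X ⟨litS0X, 1, fsS0X⟩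
      [(2, true), (0, true), (1, true), (2, true), (1, false), (2, false), (0, true), (2, false), (0, true), (2, false)]) :=
  Check.good_node (a := 0) (by decide +kernel)
    goodS0X_595 goodS0X_596

def goodS0X_590 :
    Check.Good noCone cfS0X (reach cfS0X ⟨litS0X, 1, fsS0X⟩
      [(0, true), (1, true), (2, true), (1, false), (2, false), (0, true), (2, false), (0, true), (2, false)]) :=
  Check.good_node (a := 2) (by decide +kernel)
    goodS0X_591 goodS0X_594

def goodS0X_580 :
    Check.Good noCone cfS0X (reach cfS0X ⟨litS0X, 1, fsS0X⟩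
      [(1, true), (2, true), (1, false), (2, false), (0, true), (2, false), (0, true), (2, false)]) :=
  Check.good_node (a := 0) (by decide +kernel)
    goodS0X_581 goodS0X_590

def goodS0X_568 :
    Check.Good noCone cfS0X (reach cfS0X ⟨litS0X, 1, fsS0X⟩
      [(2, true), (1, false), (2, false), (0, true), (2, false), (0, true), (2, false)]) :=
  Check.good_node (a := 1) (by decide +kernel)
    goodS0X_569 goodS0X_580

def goodS0X_526 :
    Check.Good noCone cfS0X (reach cfS0X ⟨litS0X, 1, fsS0X⟩
      [(1, false), (2, false), (0, true), (2, false), (0, true), (2, false)]) :=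
  Check.good_node (a := 2) (by decide +kernel)
    goodS0X_527 goodS0X_568

end

end Vale.Agent.P211.Cert.Interior.Data
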