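import Vale.Agent.P211.Cert.Interior.Data.S0Xr

/-!
P211, a part of a cell of the interior family (generated).
-/

namespace Vale.Agent.P211.Cert.Interior.Data

open Vale.Agent.P098.Check6 (ofChunks eqList reach St Cfg Face)
open Vale.Agent.P098.Cert6.Kron (RootPar parOK)

set_option linter.defProp false

noncomputable section

def goodS0X_602 :
    Check.Good noCone cfS0X (reach cfS0X ⟨litS0X, 1, fsS0X⟩
      [(2, false), (2, false), (0, false), (2, false), (2, false), (1, true), (2, false), (0, true), (2, false), (0, true), (2, false)]) :=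
  Check.check_sound
    (.node 1
    (.node 0
    (.node 2
    (.leaf (lf 1024 0 0 479 258 (-472) 130 0 589 255 218 188))
    (.leaf (lf 1024 0 0 471 247 (-464) 123 0 505 255 223 180)))
    (.leaf (lf 1024 0 0 516 577 0 151 (-595) 338 255 220 194)))
    (.node 0
    (.node 2
    (.node 0
    (.leaf (lf 1024 0 0 996 330 (-499) (-315) 0 651 255 103 185))
    (.leaf (lf 1015 0 0 1024 351 (-511) (-353) 0 728 255 107 195)))
    (.node 0
    (.node 1
    (.leaf (lf 1024 0 0 806 320 (-547) (-105) 0 602 255 255 255))
    (.leaf (lf 918 0 0 1024 254 (-385) (-360) 0 446 255 116 220)))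
    (.leaf (lf 1016 0 0 1024 336 (-519) (-304) 0 640 255 104 189))))
    (.node 2
    (.leaf (lf 965 0 0 1024 372 (-506) (-397) 0 821 255 101 181))
    (.node 0
    (.leaf (lf 981 0 0 1024 347 (-517) (-330) 0 694 255 104 190))
    (.leaf (lf 948 0 0 1024 359 (-515) (-357) 0 751 255 105 198))))))
    (by decide +kernel)

def goodS0X_604 :
    Check.Good noCone cfS0X (reach cfS0X ⟨litS0X, 1, fsS0X⟩
      [(1, false), (2, true), (2, false), (0, false), (2, false), (2, false), (1, true), (2, false), (0, true), (2, false), (0, true), (2, false)]) :=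
  Check.check_sound
    (.node 0
    (.node 2
    (.leaf (lf 1024 0 271 584 246 (-333) 0 0 470 255 255 255))
    (.node 0
    (.leaf (lf 1024 0 0 443 222 (-435) 107 0 361 255 255 255))
    (.leaf (lf 1024 0 0 463 236 (-456) 118 0 411 255 255 255))))
    (.node 2
    (.leaf (lf 1024 0 0 503 268 (-495) 142 0 561 255 255 255))
    (.leaf (lf 1024 0 0 496 259 (-486) 135 0 495 255 228 170))))
    (by decide +kernel)

def goodS0X_605 :
    Check.Good noCone cfS0X (reach cfS0X ⟨litS0X, 1, fsS0X⟩
      [(1, true), (2, true), (2, false), (0, false), (2, false), (2, false), (1, true), (2, false), (0, true), (2, false), (0, true), (2, false)]) :=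
  Check.check_sound
    (.node 0
    (.node 2
    (.node 0
    (.node 1
    (.leaf (lf 1024 0 0 796 308 (-545) (-83) 0 530 255 255 255))
    (.leaf (lf 919 0 0 1024 243 (-387) (-316) 0 395 255 101 194)))
    (.node 1
    (.leaf (lf 1024 0 0 832 330 (-568) (-98) 0 602 255 255 255))
    (.leaf (lf 884 0 0 1024 252 (-388) (-345) 0 433 255 113 222))))
    (.node 0
    (.node 1
    (.leaf (lf 1024 0 0 786 297 (-541) (-65) 0 472 255 255 255))
    (.leaf (lf 789 0 (-622) 614 255 (-1024) 0 0 493 201 104 255)))
    (.node 1
    (.leaf (lf 1024 0 0 822 318 (-566) (-78) 0 537 255 255 255))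
    (.leaf (lf 885 0 0 1024 243 (-391) (-306) 0 388 255 98 196)))))
    (.node 2
    (.node 0
    (.leaf (lf 15730 0 0 16384 5342 (-8398) (-4600) 0 9922 255 102 187))
    (.leaf (lf 949 0 0 1024 344 (-523) (-312) 0 671 255 101 186)))
    (.node 0
    (.node 1
    (.leaf (lf 1024 0 0 857 340 (-589) (-93) 0 606 255 255 255))
    (.leaf (lf 853 0 0 1024 252 (-392) (-334) 0 423 255 112 223)))
    (.node 1
    (.leaf (lf 1024 0 0 891 362 (-611) (-108) 0 681 255 255 255))
    (.leaf (lf 824 0 0 1024 261 (-393) (-361) 0 461 255 112 226))))))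
    (by decide +kernel)

def goodS0X_603 :
    Check.Good noCone cfS0X (reach cfS0X ⟨litS0X, 1, fsS0X⟩
      [(2, true), (2, false), (0, false), (2, false), (2, false), (1, true), (2, false), (0, true), (2, false), (0, true), (2, false)]) :=
  Check.good_node (a := 1) (by decide +kernel)
    goodS0X_604 goodS0X_605

def goodS0X_601 :
    Check.Good noCone cfS0X (reach cfS0X ⟨litS0X, 1, fsS0X⟩
      [(2, false), (0, false), (2, false), (2, false), (1, true), (2, false), (0, true), (2, false), (0, true), (2, false)]) :=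
  Check.good_node (a := 2) (by decide +kernel)
    goodS0X_602 goodS0X_603

def goodS0X_608 :
    Check.Good noCone cfS0X (reach cfS0X ⟨litS0X, 1, fsS0X⟩
      [(1, false), (0, false), (2, true), (0, false), (2, false), (2, false), (1, true), (2, false), (0, true), (2, false), (0, true), (2, false)]) :=
  Check.check_sound
    (.node 2
    (.node 0
    (.leaf (lf 1024 0 0 435 213 (-420) 98 0 302 255 255 255))
    (.leaf (lf 1024 0 0 455 226 (-441) 109 0 344 255 255 255)))
    (.node 0
    (.leaf (lf 1024 0 0 423 203 (-404) 90 0 247 255 255 255))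
    (.leaf (lf 1024 0 0 443 215 (-425) 100 0 282 255 255 255))))
    (by decide +kernel)

def goodS0X_610 :
    Check.Good noCone cfS0X (reach cfS0X ⟨litS0X, 1, fsS0X⟩
      [(2, false), (1, true), (0, false), (2, true), (0, false), (2, false), (2, false), (1, true), (2, false), (0, true), (2, false), (0, true), (2, false)]) :=
  Check.check_sound
    (.node 0
    (.node 2
    (.node 1
    (.leaf (lf 1024 0 0 775 288 (-536) (-50) 0 423 255 255 255))
    (.node 2
    (.leaf (lf 797 0 (-621) 620 250 (-1024) 0 0 457 202 94 255))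
    (.leaf (lf 12879 0 (-9927) 10017 3959 (-16384) 0 0 6976 201 93 255))))
    (.node 1
    (.leaf (lf 1024 0 0 764 280 (-530) (-38) 0 382 255 255 255))
    (.node 0
    (.node 1
    (.leaf (lf 1024 0 0 1005 266 (-484) (-173) 0 352 255 255 255))
    (.leaf (lf 870 0 0 1024 168 (-292) (-251) 0 217 255 119 218)))
    (.node 1
    (.leaf (lf 1019 0 0 1024 275 (-493) (-186) 0 374 255 255 255))
    (.leaf (lf 851 0 0 1024 171 (-294) (-263) 0 228 255 119 219))))))
    (.node 2
    (.node 1
    (.leaf (lf 1024 0 0 811 308 (-562) (-62) 0 482 255 255 255))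
    (.leaf (lf 765 0 (-595) 619 256 (-1024) 0 0 487 203 103 255)))
    (.node 1
    (.leaf (lf 1024 0 0 801 300 (-557) (-49) 0 436 255 255 255))
    (.node 2
    (.leaf (lf 773 0 (-594) 625 252 (-1024) 0 0 455 204 93 255))
    (.leaf (lf 780 0 (-594) 630 250 (-1024) 0 0 435 202 93 255))))))
    (by decide +kernel)

def goodS0X_612 :
    Check.Good noCone cfS0X (reach cfS0X ⟨litS0X, 1, fsS0X⟩
      [(0, false), (2, true), (1, true), (0, false), (2, true), (0, false), (2, false), (2, false), (1, true), (2, false), (0, true), (2, false), (0, true), (2, false)]) :=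
  Check.check_sound
    (.node 2
    (.node 1
    (.leaf (lf 1024 0 0 753 273 (-524) (-29) 0 348 255 255 255))
    (.node 0
    (.node 1
    (.leaf (lf 1024 0 0 994 260 (-480) (-152) 0 321 255 255 255))
    (.leaf (lf 877 0 0 1024 164 (-292) (-227) 0 200 255 116 217)))
    (.node 1
    (.leaf (lf 1024 0 0 1018 269 (-493) (-165) 0 344 255 255 255))
    (.leaf (lf 856 0 0 1024 166 (-294) (-239) 0 209 255 118 218)))))
    (.node 1
    (.leaf (lf 1024 0 0 743 267 (-517) (-20) 0 318 255 255 255))
    (.node 0
    (.node 1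
    (.leaf (lf 1024 0 0 982 253 (-476) (-134) 0 295 255 255 255))
    (.leaf (lf 884 0 0 1024 161 (-293) (-207) 0 185 255 116 218)))
    (.node 1
    (.leaf (lf 1024 0 0 1008 263 (-489) (-146) 0 316 255 255 255))
    (.leaf (lf 862 0 0 1024 163 (-294) (-218) 0 194 255 116 219))))))
    (by decide +kernel)

def goodS0X_613 :
    Check.Good noCone cfS0X (reach cfS0X ⟨litS0X, 1, fsS0X⟩
      [(0, true), (2, true), (1, true), (0, false), (2, true), (0, false), (2, false), (2, false), (1, true), (2, false), (0, true), (2, false), (0, true), (2, false)]) :=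
  Check.check_sound
    (.node 2
    (.node 1
    (.leaf (lf 1024 0 0 791 292 (-551) (-38) 0 397 255 255 255))
    (.node 0
    (.node 1
    (.leaf (lf 1006 0 0 1024 274 (-496) (-175) 0 361 255 255 255))
    (.leaf (lf 837 0 0 1024 169 (-295) (-250) 0 219 255 115 220)))
    (.node 1
    (.leaf (lf 983 0 0 1024 277 (-497) (-184) 0 376 255 255 255))
    (.leaf (lf 819 0 0 1024 172 (-296) (-262) 0 230 255 116 220)))))
    (.node 1
    (.leaf (lf 1024 0 0 780 285 (-545) (-28) 0 364 255 255 255))
    (.node 0
    (.node 1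
    (.leaf (lf 1016 0 0 1024 270 (-498) (-157) 0 335 255 255 255))
    (.leaf (lf 842 0 0 1024 166 (-295) (-229) 0 203 255 116 220)))
    (.node 1
    (.leaf (lf 992 0 0 1024 273 (-499) (-166) 0 349 255 255 255))
    (.leaf (lf 824 0 0 1024 168 (-296) (-240) 0 212 255 117 222))))))
    (by decide +kernel)

def goodS0X_611 :
    Check.Good noCone cfS0X (reach cfS0X ⟨litS0X, 1, fsS0X⟩
      [(2, true), (1, true), (0, false), (2, true), (0, false), (2, false), (2, false), (1, true), (2, false), (0, true), (2, false), (0, true), (2, false)]) :=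
  Check.good_node (a := 0) (by decide +kernel)
    goodS0X_612 goodS0X_613

def goodS0X_609 :
    Check.Good noCone cfS0X (reach cfS0X ⟨litS0X, 1, fsS0X⟩
      [(1, true), (0, false), (2, true), (0, false), (2, false), (2, false), (1, true), (2, false), (0, true), (2, false), (0, true), (2, false)]) :=
  Check.good_node (a := 2) (by decide +kernel)
    goodS0X_610 goodS0X_611

def goodS0X_607 :
    Check.Good noCone cfS0X (reach cfS0X ⟨litS0X, 1, fsS0X⟩
      [(0, false), (2, true), (0, false), (2, false), (2, false), (1, true), (2, false), (0, true), (2, false), (0, true), (2, false)]) :=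
  Check.good_node (a := 1) (by decide +kernel)
    goodS0X_608 goodS0X_609

def goodS0X_615 :
    Check.Good noCone cfS0X (reach cfS0X ⟨litS0X, 1, fsS0X⟩
      [(1, false), (0, true), (2, true), (0, false), (2, false), (2, false), (1, true), (2, false), (0, true), (2, false), (0, true), (2, false)]) :=
  Check.check_sound
    (.node 2
    (.node 1
    (.leaf (lf 1024 0 0 390 198 (-384) 159 0 333 255 255 255))
    (.leaf (lf 1024 0 0 576 276 (-518) 94 0 461 255 255 255)))
    (.node 1
    (.leaf (lf 1024 0 0 383 189 (-369) 141 0 272 255 255 255))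
    (.leaf (lf 1024 0 0 562 261 (-502) 91 0 379 255 255 255))))
    (by decide +kernel)

def goodS0X_617 :
    Check.Good noCone cfS0X (reach cfS0X ⟨litS0X, 1, fsS0X⟩
      [(2, false), (1, true), (0, true), (2, true), (0, false), (2, false), (2, false), (1, true), (2, false), (0, true), (2, false), (0, true), (2, false)]) :=
  Check.check_sound
    (.node 2
    (.node 0
    (.node 1
    (.leaf (lf 1024 0 0 847 329 (-586) (-75) 0 546 255 255 255))
    (.leaf (lf 854 0 0 1024 243 (-394) (-299) 0 384 255 98 199)))
    (.node 1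
    (.leaf (lf 1024 0 0 882 350 (-610) (-88) 0 614 255 255 255))
    (.leaf (lf 824 0 0 1024 252 (-395) (-325) 0 418 255 110 226))))
    (.node 0
    (.node 1
    (.leaf (lf 1024 0 0 837 320 (-582) (-60) 0 495 255 255 255))
    (.leaf (lf 743 0 (-571) 623 258 (-1024) 0 0 484 203 101 255)))
    (.node 1
    (.leaf (lf 1024 0 0 872 340 (-607) (-71) 0 558 255 255 255))
    (.leaf (lf 826 0 0 1024 244 (-397) (-294) 0 382 255 99 202)))))
    (by decide +kernel)

def goodS0X_618 :
    Check.Good noCone cfS0X (reach cfS0X ⟨litS0X, 1, fsS0X⟩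
      [(2, true), (1, true), (0, true), (2, true), (0, false), (2, false), (2, false), (1, true), (2, false), (0, true), (2, false), (0, true), (2, false)]) :=
  Check.check_sound
    (.node 0
    (.node 2
    (.node 1
    (.leaf (lf 1024 0 0 827 311 (-577) (-47) 0 451 255 255 255))
    (.leaf (lf 754 0 (-569) 633 253 (-1024) 0 0 445 201 100 255)))
    (.node 1
    (.leaf (lf 1024 0 0 817 304 (-572) (-37) 0 413 255 255 255))
    (.node 0
    (.node 1
    (.leaf (lf 970 0 0 1024 276 (-499) (-174) 0 364 255 255 255))
    (.leaf (lf 806 0 0 1024 171 (-298) (-251) 0 222 255 115 223)))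
    (.leaf (lf 758 0 (-563) 641 251 (-1024) 0 0 420 204 89 255)))))
    (.node 2
    (.node 1
    (.leaf (lf 1024 0 0 863 331 (-603) (-58) 0 509 255 255 255))
    (.leaf (lf 829 0 0 1024 238 (-399) (-267) 0 352 255 97 201)))
    (.node 1
    (.leaf (lf 1024 0 0 853 323 (-598) (-46) 0 467 255 255 255))
    (.leaf (lf 732 0 (-547) 636 256 (-1024) 0 0 447 202 98 255)))))
    (by decide +kernel)

def goodS0X_616 :
    Check.Good noCone cfS0X (reach cfS0X ⟨litS0X, 1, fsS0X⟩
      [(1, true), (0, true), (2, true), (0, false), (2, false), (2, false), (1, true), (2, false), (0, true), (2, false), (0, true), (2, false)]) :=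
  Check.good_node (a := 2) (by decide +kernel)
    goodS0X_617 goodS0X_618

def goodS0X_614 :
    Check.Good noCone cfS0X (reach cfS0X ⟨litS0X, 1, fsS0X⟩
      [(0, true), (2, true), (0, false), (2, false), (2, false), (1, true), (2, false), (0, true), (2, false), (0, true), (2, false)]) :=
  Check.good_node (a := 1) (by decide +kernel)
    goodS0X_615 goodS0X_616

def goodS0X_606 :
    Check.Good noCone cfS0X (reach cfS0X ⟨litS0X, 1, fsS0X⟩
      [(2, true), (0, false), (2, false), (2, false), (1, true), (2, false), (0, true), (2, false), (0, true), (2, false)]) :=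
  Check.good_node (a := 0) (by decide +kernel)
    goodS0X_607 goodS0X_614

def goodS0X_600 :
    Check.Good noCone cfS0X (reach cfS0X ⟨litS0X, 1, fsS0X⟩
      [(0, false), (2, false), (2, false), (1, true), (2, false), (0, true), (2, false), (0, true), (2, false)]) :=
  Check.good_node (a := 2) (by decide +kernel)
    goodS0X_601 goodS0X_606

def goodS0X_620 :
    Check.Good noCone cfS0X (reach cfS0X ⟨litS0X, 1, fsS0X⟩
      [(2, false), (0, true), (2, false), (2, false), (1, true), (2, false), (0, true), (2, false), (0, true), (2, false)]) :=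
  Check.check_sound
    (.node 2
    (.node 1
    (.node 0
    (.leaf (lf 1024 0 218 668 326 (-418) 0 0 893 255 255 255))
    (.leaf (lf 961 0 198 665 340 (-418) 0 0 1024 255 255 255)))
    (.node 0
    (.node 2
    (.leaf (lf 910 0 0 1024 400 (-500) (-456) 0 954 255 108 202))
    (.leaf (lf 905 0 0 1024 378 (-511) (-399) 0 841 255 102 185)))
    (.leaf (lf 863 0 0 1024 651 0 (-478) (-787) 658 255 247 151))))
    (.node 1
    (.node 0
    (.leaf (lf 1024 0 258 671 304 (-389) 0 0 696 255 255 255))
    (.leaf (lf 1024 0 251 712 336 (-419) 0 0 854 255 255 255)))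
    (.node 0
    (.node 2
    (.node 1
    (.leaf (lf 1024 0 0 950 412 (-639) (-162) 0 897 255 255 255))
    (.leaf (lf 790 0 0 1024 292 (-391) (-450) 0 582 255 111 218)))
    (.node 0
    (.leaf (lf 920 0 0 1024 343 (-529) (-298) 0 654 255 100 184))
    (.leaf (lf 892 0 0 1024 354 (-527) (-321) 0 704 255 101 192))))
    (.leaf (lf 854 0 0 1024 379 (-520) (-376) 0 821 255 118 211)))))
    (by decide +kernel)

def goodS0X_621 :
    Check.Good noCone cfS0X (reach cfS0X ⟨litS0X, 1, fsS0X⟩
      [(2, true), (0, true), (2, false), (2, false), (1, true), (2, false), (0, true), (2, false), (0, true), (2, false)]) :=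
  Check.check_sound
    (.node 1
    (.node 1
    (.node 2
    (.node 0
    (.leaf (lf 1024 0 0 419 220 (-415) 196 0 418 255 255 255))
    (.leaf (lf 1024 0 0 447 242 (-444) 238 0 516 255 255 255)))
    (.node 0
    (.leaf (lf 1024 0 0 413 209 (-399) 172 0 341 255 255 255))
    (.leaf (lf 1024 0 0 440 230 (-428) 209 0 421 255 255 255))))
    (.node 2
    (.leaf (lf 1024 0 0 652 331 (-582) 115 0 653 255 255 255))
    (.leaf (lf 1024 0 0 639 313 (-569) 111 0 539 255 255 255))))
    (.node 1
    (.leaf (lf 1024 0 0 957 395 (-656) (-96) 0 694 255 255 255))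
    (.node 2
    (.leaf (lf 661 0 (-500) 627 302 (-1024) 0 0 674 236 164 255))
    (.node 0
    (.leaf (lf 787 0 0 1024 249 (-403) (-287) 0 383 255 102 183))
    (.leaf (lf 739 0 0 1024 265 (-406) (-333) 0 446 255 118 215))))))
    (by decide +kernel)

def goodS0X_619 :
    Check.Good noCone cfS0X (reach cfS0X ⟨litS0X, 1, fsS0X⟩
      [(0, true), (2, false), (2, false), (1, true), (2, false), (0, true), (2, false), (0, true), (2, false)]) :=
  Check.good_node (a := 2) (by decide +kernel)
    goodS0X_620 goodS0X_621

def goodS0X_599 :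
    Check.Good noCone cfS0X (reach cfS0X ⟨litS0X, 1, fsS0X⟩
      [(2, false), (2, false), (1, true), (2, false), (0, true), (2, false), (0, true), (2, false)]) :=
  Check.good_node (a := 0) (by decide +kernel)
    goodS0X_600 goodS0X_619

def goodS0X_626 :
    Check.Good noCone cfS0X (reach cfS0X ⟨litS0X, 1, fsS0X⟩
      [(1, false), (0, false), (2, false), (0, false), (2, true), (2, false), (1, true), (2, false), (0, true), (2, false), (0, true), (2, false)]) :=
  Check.check_sound
    (.node 2
    (.node 0
    (.leaf (lf 1024 0 0 411 195 (-389) 84 0 207 255 255 255))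
    (.leaf (lf 1024 0 0 432 207 (-410) 93 0 236 255 255 255)))
    (.node 0
    (.leaf (lf 1024 0 0 399 188 (-375) 79 0 176 255 255 255))
    (.leaf (lf 1024 0 0 421 200 (-396) 87 0 202 255 255 255))))
    (by decide +kernel)

def goodS0X_629 :
    Check.Good noCone cfS0X (reach cfS0X ⟨litS0X, 1, fsS0X⟩
      [(0, false), (2, false), (1, true), (0, false), (2, false), (0, false), (2, true), (2, false), (1, true), (2, false), (0, true), (2, false), (0, true), (2, false)]) :=
  Check.check_sound
    (.node 2
    (.node 1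
    (.leaf (lf 1024 0 0 732 261 (-509) (-13) 0 292 255 255 255))
    (.node 0
    (.node 1
    (.leaf (lf 1024 0 0 971 248 (-472) (-118) 0 272 255 255 255))
    (.leaf (lf 892 0 0 1024 158 (-293) (-189) 0 172 255 114 219)))
    (.node 1
    (.leaf (lf 1024 0 0 996 257 (-485) (-129) 0 291 255 255 255))
    (.leaf (lf 869 0 0 1024 161 (-294) (-199) 0 180 255 111 220)))))
    (.node 1
    (.leaf (lf 1024 0 0 722 256 (-502) (-7) 0 269 255 255 255))
    (.node 0
    (.node 1
    (.leaf (lf 1024 0 0 959 243 (-467) (-105) 0 252 255 255 255))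
    (.leaf (lf 900 0 0 1024 157 (-293) (-173) 0 161 255 95 189)))
    (.node 1
    (.leaf (lf 1024 0 0 985 252 (-481) (-115) 0 270 255 255 255))
    (.leaf (lf 877 0 0 1024 158 (-294) (-183) 0 169 255 113 219))))))
    (by decide +kernel)

def goodS0X_630 :
    Check.Good noCone cfS0X (reach cfS0X ⟨litS0X, 1, fsS0X⟩
      [(0, true), (2, false), (1, true), (0, false), (2, false), (0, false), (2, true), (2, false), (1, true), (2, false), (0, true), (2, false), (0, true), (2, false)]) :=
  Check.check_sound
    (.node 2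
    (.node 1
    (.leaf (lf 1024 0 0 770 279 (-538) (-20) 0 334 255 255 255))
    (.node 0
    (.node 1
    (.leaf (lf 1024 0 0 1022 266 (-498) (-141) 0 312 255 255 255))
    (.leaf (lf 849 0 0 1024 163 (-295) (-210) 0 189 255 117 220)))
    (.node 1
    (.leaf (lf 1002 0 0 1024 269 (-500) (-149) 0 326 255 255 255))
    (.leaf (lf 829 0 0 1024 165 (-297) (-220) 0 197 255 113 221)))))
    (.node 1
    (.leaf (lf 1024 0 0 760 273 (-531) (-14) 0 309 255 255 255))
    (.node 0
    (.node 1
    (.leaf (lf 1024 0 0 1011 261 (-494) (-125) 0 289 255 255 255))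
    (.leaf (lf 855 0 0 1024 160 (-295) (-193) 0 176 255 113 221)))
    (.node 1
    (.leaf (lf 1012 0 0 1024 267 (-501) (-135) 0 305 255 255 255))
    (.leaf (lf 835 0 0 1024 163 (-297) (-203) 0 184 255 114 221))))))
    (by decide +kernel)

def goodS0X_628 :
    Check.Good noCone cfS0X (reach cfS0X ⟨litS0X, 1, fsS0X⟩
      [(2, false), (1, true), (0, false), (2, false), (0, false), (2, true), (2, false), (1, true), (2, false), (0, true), (2, false), (0, true), (2, false)]) :=
  Check.good_node (a := 0) (by decide +kernel)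
    goodS0X_629 goodS0X_630

def goodS0X_632 :
    Check.Good noCone cfS0X (reach cfS0X ⟨litS0X, 1, fsS0X⟩
      [(0, false), (2, true), (1, true), (0, false), (2, false), (0, false), (2, true), (2, false), (1, true), (2, false), (0, true), (2, false), (0, true), (2, false)]) :=
  Check.check_sound
    (.node 2
    (.node 1
    (.leaf (lf 1024 0 0 712 251 (-495) (-2) 0 250 255 255 255))
    (.node 0
    (.node 1
    (.leaf (lf 1024 0 0 947 239 (-462) (-93) 0 234 255 255 255))
    (.leaf (lf 910 0 0 1024 155 (-294) (-159) 0 152 255 97 188)))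
    (.node 1
    (.leaf (lf 1024 0 0 973 247 (-476) (-102) 0 251 255 255 255))
    (.leaf (lf 885 0 0 1024 157 (-295) (-168) 0 158 255 93 188)))))
    (.node 1
    (.leaf (lf 1024 0 0 702 247 (-488) 2 0 232 255 255 255))
    (.node 0
    (.node 1
    (.leaf (lf 1024 0 0 935 235 (-457) (-82) 0 218 255 255 255))
    (.leaf (lf 919 0 0 1024 154 (-294) (-147) 0 143 255 98 188)))
    (.node 1
    (.leaf (lf 1024 0 0 962 243 (-471) (-91) 0 234 255 255 255))
    (.leaf (lf 894 0 0 1024 155 (-295) (-155) 0 149 255 93 189))))))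
    (by decide +kernel)

def goodS0X_633 :
    Check.Good noCone cfS0X (reach cfS0X ⟨litS0X, 1, fsS0X⟩
      [(0, true), (2, true), (1, true), (0, false), (2, false), (0, false), (2, true), (2, false), (1, true), (2, false), (0, true), (2, false), (0, true), (2, false)]) :=
  Check.check_sound
    (.node 2
    (.node 1
    (.leaf (lf 1024 0 0 751 268 (-524) (-8) 0 286 255 255 255))
    (.node 0
    (.node 1
    (.leaf (lf 1024 0 0 999 256 (-489) (-112) 0 269 255 255 255))
    (.leaf (lf 863 0 0 1024 158 (-296) (-178) 0 166 255 99 189)))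
    (.node 1
    (.leaf (lf 1023 0 0 1024 264 (-502) (-122) 0 287 255 255 255))
    (.leaf (lf 842 0 0 1024 160 (-297) (-187) 0 173 255 112 223)))))
    (.node 1
    (.leaf (lf 1024 0 0 741 263 (-517) (-3) 0 267 255 255 255))
    (.node 0
    (.node 1
    (.leaf (lf 1024 0 0 988 251 (-485) (-100) 0 251 255 255 255))
    (.leaf (lf 871 0 0 1024 157 (-296) (-164) 0 156 255 95 191)))
    (.node 1
    (.leaf (lf 1024 0 0 1014 260 (-498) (-110) 0 268 255 255 255))
    (.leaf (lf 849 0 0 1024 158 (-297) (-173) 0 163 255 96 192))))))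
    (by decide +kernel)

def goodS0X_631 :
    Check.Good noCone cfS0X (reach cfS0X ⟨litS0X, 1, fsS0X⟩
      [(2, true), (1, true), (0, false), (2, false), (0, false), (2, true), (2, false), (1, true), (2, false), (0, true), (2, false), (0, true), (2, false)]) :=
  Check.good_node (a := 0) (by decide +kernel)
    goodS0X_632 goodS0X_633

def goodS0X_627 :
    Check.Good noCone cfS0X (reach cfS0X ⟨litS0X, 1, fsS0X⟩
      [(1, true), (0, false), (2, false), (0, false), (2, true), (2, false), (1, true), (2, false), (0, true), (2, false), (0, true), (2, false)]) :=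
  Check.good_node (a := 2) (by decide +kernel)
    goodS0X_628 goodS0X_631

def goodS0X_625 :
    Check.Good noCone cfS0X (reach cfS0X ⟨litS0X, 1, fsS0X⟩
      [(0, false), (2, false), (0, false), (2, true), (2, false), (1, true), (2, false), (0, true), (2, false), (0, true), (2, false)]) :=
  Check.good_node (a := 1) (by decide +kernel)
    goodS0X_626 goodS0X_627

def goodS0X_635 :
    Check.Good noCone cfS0X (reach cfS0X ⟨litS0X, 1, fsS0X⟩
      [(1, false), (0, true), (2, false), (0, false), (2, true), (2, false), (1, true), (2, false), (0, true), (2, false), (0, true), (2, false)]) :=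
  Check.check_sound
    (.node 2
    (.node 1
    (.leaf (lf 1024 0 0 376 181 (-355) 126 0 227 255 255 255))
    (.leaf (lf 1024 0 0 548 250 (-486) 87 0 319 255 255 255)))
    (.node 1
    (.leaf (lf 1024 0 0 369 175 (-343) 115 0 194 255 255 255))
    (.leaf (lf 1024 0 0 536 240 (-471) 84 0 273 255 255 255))))
    (by decide +kernel)

def goodS0X_637 :
    Check.Good noCone cfS0X (reach cfS0X ⟨litS0X, 1, fsS0X⟩
      [(2, false), (1, true), (0, true), (2, false), (0, false), (2, true), (2, false), (1, true), (2, false), (0, true), (2, false), (0, true), (2, false)]) :=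
  Check.check_sound
    (.node 0
    (.node 2
    (.node 1
    (.leaf (lf 1024 0 0 808 297 (-566) (-28) 0 381 255 255 255))
    (.node 0
    (.node 1
    (.leaf (lf 979 0 0 1024 272 (-501) (-158) 0 340 255 255 255))
    (.leaf (lf 811 0 0 1024 168 (-298) (-231) 0 206 255 116 222)))
    (.node 1
    (.leaf (lf 957 0 0 1024 275 (-502) (-166) 0 354 255 255 255))
    (.leaf (lf 793 0 0 1024 171 (-299) (-241) 0 216 255 113 223)))))
    (.node 1
    (.leaf (lf 1024 0 0 798 291 (-559) (-20) 0 352 255 255 255))
    (.node 0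
    (.node 1
    (.leaf (lf 988 0 0 1024 269 (-502) (-143) 0 318 255 255 255))
    (.leaf (lf 816 0 0 1024 165 (-298) (-213) 0 193 255 114 223)))
    (.node 1
    (.leaf (lf 966 0 0 1024 272 (-503) (-151) 0 331 255 255 255))
    (.leaf (lf 798 0 0 1024 167 (-299) (-223) 0 201 255 113 224))))))
    (.node 2
    (.node 1
    (.leaf (lf 1024 0 0 844 316 (-593) (-36) 0 430 255 255 255))
    (.leaf (lf 743 0 (-546) 647 252 (-1024) 0 0 415 201 97 255)))
    (.node 1
    (.leaf (lf 1024 0 0 834 310 (-587) (-27) 0 398 255 255 255))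
    (.node 0
    (.node 1
    (.leaf (lf 945 0 0 1024 275 (-504) (-159) 0 345 255 255 255))
    (.leaf (lf 781 0 0 1024 170 (-301) (-233) 0 210 255 111 224)))
    (.leaf (lf 747 0 (-540) 655 250 (-1024) 0 0 396 205 87 255))))))
    (by decide +kernel)

def goodS0X_639 :
    Check.Good noCone cfS0X (reach cfS0X ⟨litS0X, 1, fsS0X⟩
      [(0, false), (2, true), (1, true), (0, true), (2, false), (0, false), (2, true), (2, false), (1, true), (2, false), (0, true), (2, false), (0, true), (2, false)]) :=
  Check.check_sound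
    (.node 2
    (.node 1
    (.leaf (lf 1024 0 0 788 286 (-553) (-14) 0 327 255 255 255))
    (.node 0
    (.node 1
    (.leaf (lf 998 0 0 1024 267 (-503) (-129) 0 299 255 255 255))
    (.leaf (lf 822 0 0 1024 162 (-298) (-197) 0 181 255 114 223)))
    (.node 1
    (.leaf (lf 975 0 0 1024 269 (-504) (-137) 0 312 255 255 255))
    (.leaf (lf 803 0 0 1024 165 (-299) (-206) 0 189 255 109 224)))))
    (.node 1
    (.leaf (lf 1024 0 0 779 280 (-546) (-8) 0 304 255 255 255))
    (.node 0
    (.node 1
    (.leaf (lf 1008 0 0 1024 265 (-504) (-118) 0 282 255 255 255))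
    (.leaf (lf 828 0 0 1024 160 (-298) (-182) 0 170 255 108 224)))
    (.node 1
    (.leaf (lf 984 0 0 1024 267 (-505) (-125) 0 294 255 255 255))
    (.leaf (lf 809 0 0 1024 162 (-299) (-191) 0 178 255 108 223))))))
    (by decide +kernel)

def goodS0X_640 :
    Check.Good noCone cfS0X (reach cfS0X ⟨litS0X, 1, fsS0X⟩
      [(0, true), (2, true), (1, true), (0, true), (2, false), (0, false), (2, true), (2, false), (1, true), (2, false), (0, true), (2, false), (0, true), (2, false)]) :=
  Check.check_sound
    (.node 2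
    (.node 1
    (.leaf (lf 1024 0 0 825 304 (-581) (-20) 0 370 255 255 255))
    (.node 0
    (.node 1
    (.leaf (lf 953 0 0 1024 272 (-505) (-144) 0 324 255 255 255))
    (.leaf (lf 786 0 0 1024 167 (-301) (-216) 0 197 255 112 225)))
    (.node 1
    (.leaf (lf 933 0 0 1024 275 (-506) (-152) 0 337 255 255 255))
    (.leaf (lf 769 0 0 1024 170 (-302) (-226) 0 206 255 111 225)))))
    (.node 1
    (.leaf (lf 1024 0 0 816 298 (-575) (-14) 0 345 255 255 255))
    (.node 0
    (.node 1
    (.leaf (lf 962 0 0 1024 269 (-506) (-132) 0 306 255 255 255))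
    (.leaf (lf 791 0 0 1024 165 (-301) (-201) 0 185 255 112 224)))
    (.node 1
    (.leaf (lf 941 0 0 1024 272 (-507) (-139) 0 318 255 255 255))
    (.leaf (lf 774 0 0 1024 167 (-302) (-210) 0 194 255 110 225))))))
    (by decide +kernel)

def goodS0X_638 :
    Check.Good noCone cfS0X (reach cfS0X ⟨litS0X, 1, fsS0X⟩
      [(2, true), (1, true), (0, true), (2, false), (0, false), (2, true), (2, false), (1, true), (2, false), (0, true), (2, false), (0, true), (2, false)]) :=
  Check.good_node (a := 0) (by decide +kernel)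
    goodS0X_639 goodS0X_640

def goodS0X_636 :
    Check.Good noCone cfS0X (reach cfS0X ⟨litS0X, 1, fsS0X⟩
      [(1, true), (0, true), (2, false), (0, false), (2, true), (2, false), (1, true), (2, false), (0, true), (2, false), (0, true), (2, false)]) :=
  Check.good_node (a := 2) (by decide +kernel)
    goodS0X_637 goodS0X_638

def goodS0X_634 :
    Check.Good noCone cfS0X (reach cfS0X ⟨litS0X, 1, fsS0X⟩
      [(0, true), (2, false), (0, false), (2, true), (2, false), (1, true), (2, false), (0, true), (2, false), (0, true), (2, false)]) :=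
  Check.good_node (a := 1) (by decide +kernel)
    goodS0X_635 goodS0X_636

def goodS0X_624 :
    Check.Good noCone cfS0X (reach cfS0X ⟨litS0X, 1, fsS0X⟩
      [(2, false), (0, false), (2, true), (2, false), (1, true), (2, false), (0, true), (2, false), (0, true), (2, false)]) :=
  Check.good_node (a := 0) (by decide +kernel)
    goodS0X_625 goodS0X_634

def goodS0X_643 :
    Check.Good noCone cfS0X (reach cfS0X ⟨litS0X, 1, fsS0X⟩
      [(1, false), (0, false), (2, true), (0, false), (2, true), (2, false), (1, true), (2, false), (0, true), (2, false), (0, true), (2, false)]) :=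
  Check.check_sound
    (.node 2
    (.node 0
    (.leaf (lf 1024 0 0 387 183 (-362) 75 0 153 255 255 255))
    (.leaf (lf 1024 0 0 410 194 (-383) 82 0 175 255 255 255)))
    (.node 0
    (.leaf (lf 1024 0 0 375 178 (-350) 72 0 134 255 255 255))
    (.leaf (lf 1024 0 0 398 188 (-371) 78 0 154 255 255 255))))
    (by decide +kernel)

def goodS0X_646 :
    Check.Good noCone cfS0X (reach cfS0X ⟨litS0X, 1, fsS0X⟩
      [(0, false), (2, false), (1, true), (0, false), (2, true), (0, false), (2, true), (2, false), (1, true), (2, false), (0, true), (2, false), (0, true), (2, false)]) :=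
  Check.check_sound
    (.node 1
    (.leaf (lf 1024 0 0 687 241 (-476) 8 0 209 255 255 255))
    (.node 2
    (.node 0
    (.node 1
    (.leaf (lf 1024 0 0 923 231 (-452) (-73) 0 204 255 255 255))
    (.leaf (lf 930 0 0 1024 153 (-295) (-136) 0 136 255 101 187)))
    (.node 1
    (.leaf (lf 1024 0 0 950 239 (-466) (-81) 0 219 255 255 255))
    (.leaf (lf 903 0 0 1024 154 (-295) (-144) 0 141 255 96 188))))
    (.node 0
    (.node 1
    (.leaf (lf 1024 0 0 911 227 (-446) (-64) 0 191 255 255 255))
    (.leaf (lf 940 0 0 1024 152 (-295) (-125) 0 129 255 95 190)))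
    (.node 1
    (.leaf (lf 1024 0 0 938 235 (-460) (-72) 0 206 255 255 255))
    (.leaf (lf 913 0 0 1024 153 (-295) (-133) 0 134 255 95 191))))))
    (by decide +kernel)

def goodS0X_647 :
    Check.Good noCone cfS0X (reach cfS0X ⟨litS0X, 1, fsS0X⟩
      [(0, true), (2, false), (1, true), (0, false), (2, true), (0, false), (2, true), (2, false), (1, true), (2, false), (0, true), (2, false), (0, true), (2, false)]) :=
  Check.check_sound
    (.node 1
    (.leaf (lf 1024 0 0 726 257 (-506) 4 0 240 255 255 255))
    (.node 2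
    (.node 0
    (.node 1
    (.leaf (lf 1024 0 0 977 247 (-480) (-89) 0 235 255 255 255))
    (.leaf (lf 879 0 0 1024 155 (-296) (-152) 0 148 255 95 190)))
    (.node 1
    (.leaf (lf 1024 0 0 1003 255 (-494) (-98) 0 251 255 255 255))
    (.leaf (lf 856 0 0 1024 157 (-297) (-161) 0 154 255 97 191))))
    (.node 0
    (.node 1
    (.leaf (lf 1024 0 0 965 243 (-475) (-80) 0 220 255 255 255))
    (.leaf (lf 888 0 0 1024 154 (-296) (-141) 0 140 255 95 192)))
    (.node 1
    (.leaf (lf 1024 0 0 992 251 (-489) (-88) 0 236 255 255 255))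
    (.leaf (lf 864 0 0 1024 156 (-297) (-149) 0 146 255 92 193))))))
    (by decide +kernel)

def goodS0X_645 :
    Check.Good noCone cfS0X (reach cfS0X ⟨litS0X, 1, fsS0X⟩
      [(2, false), (1, true), (0, false), (2, true), (0, false), (2, true), (2, false), (1, true), (2, false), (0, true), (2, false), (0, true), (2, false)]) :=
  Check.good_node (a := 0) (by decide +kernel)
    goodS0X_646 goodS0X_647

def goodS0X_649 :
    Check.Good noCone cfS0X (reach cfS0X ⟨litS0X, 1, fsS0X⟩
      [(0, false), (2, true), (1, true), (0, false), (2, true), (0, false), (2, true), (2, false), (1, true), (2, false), (0, true), (2, false), (0, true), (2, false)]) :=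
  Check.check_sound
    (.node 1
    (.leaf (lf 1024 0 0 667 234 (-463) 14 0 184 255 255 255))
    (.node 2
    (.node 0
    (.node 1
    (.leaf (lf 1024 0 0 899 224 (-441) (-57) 0 180 255 255 255))
    (.leaf (lf 951 0 0 1024 152 (-295) (-116) 0 123 255 97 189)))
    (.node 1
    (.leaf (lf 1024 0 0 926 232 (-455) (-64) 0 193 255 255 255))
    (.leaf (lf 923 0 0 1024 153 (-296) (-124) 0 128 255 99 190))))
    (.node 0
    (.node 1
    (.leaf (lf 1024 0 0 887 221 (-435) (-50) 0 169 255 255 255))
    (.leaf (lf 963 0 0 1024 152 (-296) (-108) 0 117 255 102 189)))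
    (.node 1
    (.leaf (lf 1024 0 0 914 229 (-450) (-57) 0 182 255 255 255))
    (.leaf (lf 934 0 0 1024 152 (-296) (-115) 0 122 255 99 191))))))
    (by decide +kernel)

def goodS0X_650 :
    Check.Good noCone cfS0X (reach cfS0X ⟨litS0X, 1, fsS0X⟩
      [(0, true), (2, true), (1, true), (0, false), (2, true), (0, false), (2, true), (2, false), (1, true), (2, false), (0, true), (2, false), (0, true), (2, false)]) :=
  Check.check_sound
    (.node 1
    (.leaf (lf 1024 0 0 707 249 (-493) 11 0 212 255 255 255))
    (.node 2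
    (.node 0
    (.node 1
    (.leaf (lf 1024 0 0 954 240 (-469) (-71) 0 207 255 255 255))
    (.leaf (lf 897 0 0 1024 154 (-296) (-131) 0 133 255 94 192)))
    (.node 1
    (.leaf (lf 1024 0 0 981 248 (-484) (-79) 0 222 255 255 255))
    (.leaf (lf 872 0 0 1024 155 (-297) (-139) 0 139 255 93 192))))
    (.node 0
    (.node 1
    (.leaf (lf 1024 0 0 942 236 (-464) (-64) 0 196 255 255 255))
    (.leaf (lf 906 0 0 1024 153 (-297) (-122) 0 127 255 93 191)))
    (.node 1
    (.leaf (lf 1024 0 0 969 244 (-479) (-71) 0 209 255 255 255))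
    (.leaf (lf 881 0 0 1024 154 (-297) (-130) 0 132 255 96 191))))))
    (by decide +kernel)

def goodS0X_648 :
    Check.Good noCone cfS0X (reach cfS0X ⟨litS0X, 1, fsS0X⟩
      [(2, true), (1, true), (0, false), (2, true), (0, false), (2, true), (2, false), (1, true), (2, false), (0, true), (2, false), (0, true), (2, false)]) :=
  Check.good_node (a := 0) (by decide +kernel)
    goodS0X_649 goodS0X_650

def goodS0X_644 :
    Check.Good noCone cfS0X (reach cfS0X ⟨litS0X, 1, fsS0X⟩
      [(1, true), (0, false), (2, true), (0, false), (2, true), (2, false), (1, true), (2, false), (0, true), (2, false), (0, true), (2, false)]) :=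
  Check.good_node (a := 2) (by decide +kernel)
    goodS0X_645 goodS0X_648

def goodS0X_642 :
    Check.Good noCone cfS0X (reach cfS0X ⟨litS0X, 1, fsS0X⟩
      [(0, false), (2, true), (0, false), (2, true), (2, false), (1, true), (2, false), (0, true), (2, false), (0, true), (2, false)]) :=
  Check.good_node (a := 1) (by decide +kernel)
    goodS0X_643 goodS0X_644

def goodS0X_652 :
    Check.Good noCone cfS0X (reach cfS0X ⟨litS0X, 1, fsS0X⟩
      [(1, false), (0, true), (2, true), (0, false), (2, true), (2, false), (1, true), (2, false), (0, true), (2, false), (0, true), (2, false)]) :=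
  Check.check_sound
    (.node 2
    (.node 1
    (.leaf (lf 1024 0 0 361 169 (-332) 107 0 168 255 255 255))
    (.leaf (lf 1024 0 0 524 232 (-457) 80 0 237 255 255 255)))
    (.node 1
    (.leaf (lf 1024 0 0 353 164 (-321) 100 0 148 255 255 255))
    (.leaf (lf 1024 0 0 511 226 (-444) 78 0 208 255 255 255))))
    (by decide +kernel)

def goodS0X_655 :
    Check.Good noCone cfS0X (reach cfS0X ⟨litS0X, 1, fsS0X⟩
      [(0, false), (2, false), (1, true), (0, true), (2, true), (0, false), (2, true), (2, false), (1, true), (2, false), (0, true), (2, false), (0, true), (2, false)]) :=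
  Check.check_sound
    (.node 1
    (.leaf (lf 1024 0 0 765 273 (-536) (-1) 0 274 255 255 255))
    (.node 2
    (.node 0
    (.node 1
    (.leaf (lf 1019 0 0 1024 263 (-505) (-107) 0 267 255 255 255))
    (.leaf (lf 835 0 0 1024 159 (-298) (-169) 0 161 255 94 193)))
    (.node 1
    (.leaf (lf 994 0 0 1024 265 (-506) (-114) 0 278 255 255 255))
    (.leaf (lf 815 0 0 1024 160 (-299) (-178) 0 168 255 109 224))))
    (.node 0
    (.node 1
    (.leaf (lf 1024 0 0 1018 260 (-503) (-97) 0 252 255 255 255))
    (.leaf (lf 842 0 0 1024 157 (-298) (-158) 0 152 255 97 191)))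
    (.node 1
    (.leaf (lf 1004 0 0 1024 263 (-507) (-104) 0 264 255 255 255))
    (.leaf (lf 822 0 0 1024 159 (-299) (-166) 0 159 255 96 194))))))
    (by decide +kernel)

def goodS0X_656 :
    Check.Good noCone cfS0X (reach cfS0X ⟨litS0X, 1, fsS0X⟩
      [(0, true), (2, false), (1, true), (0, true), (2, true), (0, false), (2, true), (2, false), (1, true), (2, false), (0, true), (2, false), (0, true), (2, false)]) :=
  Check.check_sound
    (.node 1
    (.leaf (lf 1024 0 0 802 291 (-564) (-5) 0 311 255 255 255))
    (.node 2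
    (.node 0
    (.node 1
    (.leaf (lf 971 0 0 1024 267 (-507) (-121) 0 290 255 255 255))
    (.leaf (lf 796 0 0 1024 163 (-301) (-187) 0 175 255 108 225)))
    (.node 1
    (.leaf (lf 949 0 0 1024 270 (-508) (-127) 0 301 255 255 255))
    (.leaf (lf 779 0 0 1024 165 (-302) (-196) 0 183 255 111 225))))
    (.node 0
    (.node 1
    (.leaf (lf 980 0 0 1024 265 (-508) (-110) 0 275 255 255 255))
    (.leaf (lf 802 0 0 1024 161 (-300) (-174) 0 166 255 105 224)))
    (.node 1
    (.leaf (lf 958 0 0 1024 268 (-509) (-117) 0 286 255 255 255))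
    (.leaf (lf 784 0 0 1024 163 (-302) (-183) 0 173 255 108 227))))))
    (by decide +kernel)

def goodS0X_654 :
    Check.Good noCone cfS0X (reach cfS0X ⟨litS0X, 1, fsS0X⟩
      [(2, false), (1, true), (0, true), (2, true), (0, false), (2, true), (2, false), (1, true), (2, false), (0, true), (2, false), (0, true), (2, false)]) :=
  Check.good_node (a := 0) (by decide +kernel)
    goodS0X_655 goodS0X_656

def goodS0X_658 :
    Check.Good noCone cfS0X (reach cfS0X ⟨litS0X, 1, fsS0X⟩
      [(0, false), (2, true), (1, true), (0, true), (2, true), (0, false), (2, true), (2, false), (1, true), (2, false), (0, true), (2, false), (0, true), (2, false)]) :=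
  Check.check_sound
    (.node 1
    (.leaf (lf 1024 0 0 747 265 (-523) 7 0 242 255 255 255))
    (.node 2
    (.node 0
    (.node 1
    (.leaf (lf 1024 0 0 1007 256 (-498) (-87) 0 238 255 255 255))
    (.leaf (lf 850 0 0 1024 156 (-298) (-147) 0 145 255 96 193)))
    (.node 1
    (.leaf (lf 1015 0 0 1024 262 (-507) (-95) 0 251 255 255 255))
    (.leaf (lf 828 0 0 1024 157 (-299) (-155) 0 151 255 94 194))))
    (.node 0
    (.node 1
    (.leaf (lf 1024 0 0 996 252 (-493) (-79) 0 224 255 255 255))
    (.leaf (lf 858 0 0 1024 155 (-298) (-137) 0 138 255 94 194)))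
    (.node 1
    (.leaf (lf 1024 0 0 1023 261 (-507) (-87) 0 239 255 255 255))
    (.leaf (lf 835 0 0 1024 156 (-299) (-145) 0 144 255 94 193))))))
    (by decide +kernel)

def goodS0X_659 :
    Check.Good noCone cfS0X (reach cfS0X ⟨litS0X, 1, fsS0X⟩
      [(0, true), (2, true), (1, true), (0, true), (2, true), (0, false), (2, true), (2, false), (1, true), (2, false), (0, true), (2, false), (0, true), (2, false)]) :=
  Check.check_sound
    (.node 1
    (.leaf (lf 1024 0 0 785 282 (-552) 3 0 275 255 255 255))
    (.node 2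
    (.node 0
    (.node 1
    (.leaf (lf 990 0 0 1024 264 (-508) (-101) 0 261 255 255 255))
    (.leaf (lf 808 0 0 1024 159 (-300) (-163) 0 157 255 94 196)))
    (.node 1
    (.leaf (lf 966 0 0 1024 266 (-510) (-107) 0 272 255 255 255))
    (.leaf (lf 790 0 0 1024 161 (-302) (-171) 0 164 255 107 227))))
    (.node 0
    (.node 1
    (.leaf (lf 1000 0 0 1024 263 (-509) (-93) 0 249 255 255 255))
    (.leaf (lf 815 0 0 1024 158 (-300) (-153) 0 150 255 96 193)))
    (.node 1
    (.leaf (lf 976 0 0 1024 264 (-510) (-99) 0 259 255 255 255))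
    (.leaf (lf 795 0 0 1024 159 (-301) (-161) 0 156 255 96 195))))))
    (by decide +kernel)

def goodS0X_657 :
    Check.Good noCone cfS0X (reach cfS0X ⟨litS0X, 1, fsS0X⟩
      [(2, true), (1, true), (0, true), (2, true), (0, false), (2, true), (2, false), (1, true), (2, false), (0, true), (2, false), (0, true), (2, false)]) :=
  Check.good_node (a := 0) (by decide +kernel)
    goodS0X_658 goodS0X_659

def goodS0X_653 :
    Check.Good noCone cfS0X (reach cfS0X ⟨litS0X, 1, fsS0X⟩
      [(1, true), (0, true), (2, true), (0, false), (2, true), (2, false), (1, true), (2, false), (0, true), (2, false), (0, true), (2, false)]) :=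
  Check.good_node (a := 2) (by decide +kernel)
    goodS0X_654 goodS0X_657

def goodS0X_651 :
    Check.Good noCone cfS0X (reach cfS0X ⟨litS0X, 1, fsS0X⟩
      [(0, true), (2, true), (0, false), (2, true), (2, false), (1, true), (2, false), (0, true), (2, false), (0, true), (2, false)]) :=
  Check.good_node (a := 1) (by decide +kernel)
    goodS0X_652 goodS0X_653

def goodS0X_641 :
    Check.Good noCone cfS0X (reach cfS0X ⟨litS0X, 1, fsS0X⟩
      [(2, true), (0, false), (2, true), (2, false), (1, true), (2, false), (0, true), (2, false), (0, true), (2, false)]) :=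
  Check.good_node (a := 0) (by decide +kernel)
    goodS0X_642 goodS0X_651

def goodS0X_623 :
    Check.Good noCone cfS0X (reach cfS0X ⟨litS0X, 1, fsS0X⟩
      [(0, false), (2, true), (2, false), (1, true), (2, false), (0, true), (2, false), (0, true), (2, false)]) :=
  Check.good_node (a := 2) (by decide +kernel)
    goodS0X_624 goodS0X_641

def goodS0X_663 :
    Check.Good noCone cfS0X (reach cfS0X ⟨litS0X, 1, fsS0X⟩
      [(1, false), (0, false), (2, false), (0, true), (2, true), (2, false), (1, true), (2, false), (0, true), (2, false), (0, true), (2, false)]) :=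
  Check.check_sound
    (.node 2
    (.node 1
    (.leaf (lf 1024 0 0 406 200 (-386) 154 0 286 255 255 255))
    (.leaf (lf 1024 0 0 594 279 (-531) 103 0 403 255 255 255)))
    (.node 1
    (.leaf (lf 1024 0 0 400 193 (-373) 140 0 244 255 255 255))
    (.leaf (lf 1024 0 0 582 268 (-516) 99 0 346 255 255 255))))
    (by decide +kernel)

def goodS0X_664 :
    Check.Good noCone cfS0X (reach cfS0X ⟨litS0X, 1, fsS0X⟩
      [(1, true), (0, false), (2, false), (0, true), (2, true), (2, false), (1, true), (2, false), (0, true), (2, false), (0, true), (2, false)]) :=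
  Check.check_sound
    (.node 2
    (.node 0
    (.node 2
    (.node 1
    (.leaf (lf 1024 0 0 879 336 (-619) (-44) 0 484 255 255 255))
    (.leaf (lf 711 0 (-525) 640 258 (-1024) 0 0 449 204 99 255)))
    (.node 1
    (.leaf (lf 1024 0 0 870 329 (-614) (-35) 0 449 255 255 255))
    (.leaf (lf 721 0 (-524) 649 255 (-1024) 0 0 420 203 97 255))))
    (.node 2
    (.node 1
    (.leaf (lf 1024 0 0 913 356 (-644) (-54) 0 542 255 255 255))
    (.leaf (lf 777 0 0 1024 243 (-406) (-264) 0 356 255 96 205)))
    (.node 1
    (.leaf (lf 1024 0 0 905 348 (-639) (-43) 0 503 255 255 255))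
    (.leaf (lf 781 0 0 1024 238 (-408) (-244) 0 333 255 98 204)))))
    (.node 0
    (.node 1
    (.leaf (lf 1024 0 0 856 319 (-604) (-23) 0 401 255 255 255))
    (.node 2
    (.leaf (lf 733 0 (-524) 660 252 (-1024) 0 0 394 201 95 255))
    (.node 0
    (.node 1
    (.leaf (lf 921 0 0 1024 275 (-508) (-146) 0 331 255 255 255))
    (.leaf (lf 758 0 0 1024 170 (-304) (-220) 0 202 255 113 228)))
    (.leaf (lf 737 0 (-519) 668 251 (-1024) 0 0 378 204 86 255)))))
    (.node 1
    (.leaf (lf 1024 0 0 891 338 (-631) (-30) 0 450 255 255 255))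
    (.node 2
    (.leaf (lf 701 0 (-505) 652 258 (-1024) 0 0 425 204 96 255))
    (.leaf (lf 711 0 (-504) 662 255 (-1024) 0 0 400 203 95 255))))))
    (by decide +kernel)

def goodS0X_662 :
    Check.Good noCone cfS0X (reach cfS0X ⟨litS0X, 1, fsS0X⟩
      [(0, false), (2, false), (0, true), (2, true), (2, false), (1, true), (2, false), (0, true), (2, false), (0, true), (2, false)]) :=
  Check.good_node (a := 1) (by decide +kernel)
    goodS0X_663 goodS0X_664

def goodS0X_665 :
    Check.Good noCone cfS0X (reach cfS0X ⟨litS0X, 1, fsS0X⟩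
      [(0, true), (2, false), (0, true), (2, true), (2, false), (1, true), (2, false), (0, true), (2, false), (0, true), (2, false)]) :=
  Check.check_sound
    (.node 1
    (.node 2
    (.leaf (lf 16384 0 5569 11456 4682 (-5345) 0 0 7978 255 255 255))
    (.node 1
    (.leaf (lf 1024 0 0 429 211 (-401) 169 0 302 255 255 255))
    (.leaf (lf 1024 0 0 626 297 (-559) 117 0 430 255 255 255))))
    (.node 2
    (.node 0
    (.node 2
    (.node 1
    (.leaf (lf 1024 0 0 947 377 (-669) (-63) 0 604 255 255 255))
    (.leaf (lf 752 0 0 1024 250 (-408) (-285) 0 385 255 98 209)))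
    (.node 1
    (.leaf (lf 1024 0 0 938 369 (-665) (-52) 0 560 255 255 255))
    (.leaf (lf 754 0 0 1024 245 (-409) (-264) 0 360 255 97 208))))
    (.node 1
    (.leaf (lf 1024 0 0 975 393 (-689) (-66) 0 644 255 255 255))
    (.leaf (lf 730 0 0 1024 256 (-411) (-294) 0 401 255 122 226))))
    (.node 0
    (.node 1
    (.leaf (lf 1024 0 0 925 358 (-657) (-37) 0 503 255 255 255))
    (.leaf (lf 759 0 0 1024 240 (-412) (-235) 0 328 255 107 199)))
    (.node 1
    (.leaf (lf 1024 0 0 959 378 (-682) (-45) 0 559 255 255 255))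
    (.leaf (lf 734 0 0 1024 246 (-414) (-253) 0 353 255 108 203))))))
    (by decide +kernel)

def goodS0X_661 :
    Check.Good noCone cfS0X (reach cfS0X ⟨litS0X, 1, fsS0X⟩
      [(2, false), (0, true), (2, true), (2, false), (1, true), (2, false), (0, true), (2, false), (0, true), (2, false)]) :=
  Check.good_node (a := 0) (by decide +kernel)
    goodS0X_662 goodS0X_665

def goodS0X_668 :
    Check.Good noCone cfS0X (reach cfS0X ⟨litS0X, 1, fsS0X⟩
      [(1, false), (0, false), (2, true), (0, true), (2, true), (2, false), (1, true), (2, false), (0, true), (2, false), (0, true), (2, false)]) :=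
  Check.check_sound
    (.node 2
    (.node 1
    (.leaf (lf 1024 0 0 393 186 (-362) 129 0 212 255 255 255))
    (.leaf (lf 1024 0 0 571 259 (-502) 95 0 301 255 255 255)))
    (.node 1
    (.leaf (lf 1024 0 0 387 181 (-351) 120 0 186 255 255 255))
    (.leaf (lf 1024 0 0 560 251 (-489) 91 0 265 255 255 255))))
    (by decide +kernel)

def goodS0X_670 :
    Check.Good noCone cfS0X (reach cfS0X ⟨litS0X, 1, fsS0X⟩
      [(2, false), (1, true), (0, false), (2, true), (0, true), (2, true), (2, false), (1, true), (2, false), (0, true), (2, false), (0, true), (2, false)]) :=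
  Check.check_sound
    (.node 0
    (.node 1
    (.leaf (lf 1024 0 0 839 308 (-592) (-11) 0 352 255 255 255))
    (.node 2
    (.node 0
    (.node 1
    (.leaf (lf 928 0 0 1024 272 (-509) (-134) 0 313 255 255 255))
    (.leaf (lf 762 0 0 1024 167 (-304) (-205) 0 190 255 109 226)))
    (.leaf (lf 750 0 (-518) 680 249 (-1024) 0 0 357 204 85 255)))
    (.node 0
    (.node 1
    (.leaf (lf 936 0 0 1024 270 (-510) (-123) 0 297 255 255 255))
    (.leaf (lf 767 0 0 1024 165 (-303) (-192) 0 180 255 111 228)))
    (.node 1
    (.leaf (lf 916 0 0 1024 273 (-511) (-130) 0 309 255 255 255))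
    (.leaf (lf 751 0 0 1024 167 (-305) (-200) 0 188 255 106 228))))))
    (.node 1
    (.leaf (lf 1024 0 0 874 326 (-620) (-16) 0 395 255 255 255))
    (.node 2
    (.leaf (lf 722 0 (-503) 672 253 (-1024) 0 0 378 202 95 255))
    (.node 0
    (.leaf (lf 744 0 (-508) 685 250 (-1024) 0 0 351 203 85 255))
    (.leaf (lf 725 0 (-499) 680 252 (-1024) 0 0 364 205 85 255))))))
    (by decide +kernel)

def goodS0X_671 :
    Check.Good noCone cfS0X (reach cfS0X ⟨litS0X, 1, fsS0X⟩
      [(2, true), (1, true), (0, false), (2, true), (0, true), (2, true), (2, false), (1, true), (2, false), (0, true), (2, false), (0, true), (2, false)]) :=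
  Check.check_sound
    (.node 0
    (.node 1
    (.leaf (lf 1024 0 0 822 299 (-580) (-1) 0 311 255 255 255))
    (.node 2
    (.node 0
    (.node 1
    (.leaf (lf 945 0 0 1024 268 (-511) (-114) 0 283 255 255 255))
    (.leaf (lf 772 0 0 1024 163 (-303) (-179) 0 171 255 104 228)))
    (.node 1
    (.leaf (lf 924 0 0 1024 271 (-512) (-120) 0 294 255 255 255))
    (.leaf (lf 755 0 0 1024 165 (-305) (-188) 0 178 255 107 228))))
    (.node 0
    (.node 1
    (.leaf (lf 953 0 0 1024 267 (-512) (-105) 0 269 255 255 255))
    (.leaf (lf 777 0 0 1024 161 (-303) (-168) 0 162 255 102 226)))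
    (.node 1
    (.leaf (lf 932 0 0 1024 269 (-513) (-111) 0 280 255 255 255))
    (.leaf (lf 760 0 0 1024 163 (-304) (-176) 0 169 255 103 229))))))
    (.node 1
    (.leaf (lf 1024 0 0 858 316 (-609) (-5) 0 350 255 255 255))
    (.node 2
    (.node 0
    (.node 1
    (.leaf (lf 904 0 0 1024 273 (-513) (-126) 0 305 255 255 255))
    (.leaf (lf 740 0 0 1024 167 (-306) (-196) 0 186 255 106 227)))
    (.leaf (lf 737 0 (-498) 691 251 (-1024) 0 0 346 205 84 255)))
    (.node 0
    (.node 1
    (.leaf (lf 912 0 0 1024 271 (-514) (-117) 0 291 255 255 255))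
    (.leaf (lf 744 0 0 1024 165 (-306) (-185) 0 176 255 109 229)))
    (.leaf (lf 750 0 (-498) 703 250 (-1024) 0 0 330 204 84 255))))))
    (by decide +kernel)

def goodS0X_669 :
    Check.Good noCone cfS0X (reach cfS0X ⟨litS0X, 1, fsS0X⟩
      [(1, true), (0, false), (2, true), (0, true), (2, true), (2, false), (1, true), (2, false), (0, true), (2, false), (0, true), (2, false)]) :=
  Check.good_node (a := 2) (by decide +kernel)
    goodS0X_670 goodS0X_671

def goodS0X_667 :
    Check.Good noCone cfS0X (reach cfS0X ⟨litS0X, 1, fsS0X⟩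
      [(0, false), (2, true), (0, true), (2, true), (2, false), (1, true), (2, false), (0, true), (2, false), (0, true), (2, false)]) :=
  Check.good_node (a := 1) (by decide +kernel)
    goodS0X_668 goodS0X_669

def goodS0X_672 :
    Check.Good noCone cfS0X (reach cfS0X ⟨litS0X, 1, fsS0X⟩
      [(0, true), (2, true), (0, true), (2, true), (2, false), (1, true), (2, false), (0, true), (2, false), (0, true), (2, false)]) :=
  Check.check_sound
    (.node 1
    (.node 2
    (.node 1
    (.leaf (lf 1024 0 0 424 204 (-390) 155 0 262 255 255 255))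
    (.leaf (lf 1024 0 0 615 287 (-545) 112 0 375 255 255 255)))
    (.node 1
    (.leaf (lf 1024 0 0 418 198 (-379) 144 0 230 255 255 255))
    (.leaf (lf 1024 0 0 604 278 (-532) 107 0 330 255 255 255))))
    (.node 2
    (.node 0
    (.node 1
    (.leaf (lf 1024 0 0 909 345 (-647) (-22) 0 442 255 255 255))
    (.node 2
    (.leaf (lf 691 0 (-485) 663 258 (-1024) 0 0 407 204 95 255))
    (.leaf (lf 701 0 (-485) 673 256 (-1024) 0 0 385 203 94 255))))
    (.node 1
    (.leaf (lf 1024 0 0 943 364 (-673) (-28) 0 491 255 255 255))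
    (.leaf (lf 669 0 (-468) 663 264 (-1024) 0 0 425 202 105 255))))
    (.node 0
    (.node 1
    (.leaf (lf 1024 0 0 893 334 (-636) (-10) 0 392 255 255 255))
    (.node 2
    (.leaf (lf 711 0 (-484) 683 254 (-1024) 0 0 366 202 94 255))
    (.leaf (lf 722 0 (-484) 693 253 (-1024) 0 0 348 201 93 255))))
    (.node 1
    (.leaf (lf 1024 0 0 927 353 (-663) (-15) 0 436 255 255 255))
    (.node 2
    (.leaf (lf 680 0 (-467) 674 260 (-1024) 0 0 393 205 94 255))
    (.leaf (lf 690 0 (-467) 683 258 (-1024) 0 0 374 204 93 255)))))))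
    (by decide +kernel)

def goodS0X_666 :
    Check.Good noCone cfS0X (reach cfS0X ⟨litS0X, 1, fsS0X⟩
      [(2, true), (0, true), (2, true), (2, false), (1, true), (2, false), (0, true), (2, false), (0, true), (2, false)]) :=
  Check.good_node (a := 0) (by decide +kernel)
    goodS0X_667 goodS0X_672

def goodS0X_660 :
    Check.Good noCone cfS0X (reach cfS0X ⟨litS0X, 1, fsS0X⟩
      [(0, true), (2, true), (2, false), (1, true), (2, false), (0, true), (2, false), (0, true), (2, false)]) :=
  Check.good_node (a := 2) (by decide +kernel)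
    goodS0X_661 goodS0X_666

def goodS0X_622 :
    Check.Good noCone cfS0X (reach cfS0X ⟨litS0X, 1, fsS0X⟩
      [(2, true), (2, false), (1, true), (2, false), (0, true), (2, false), (0, true), (2, false)]) :=
  Check.good_node (a := 0) (by decide +kernel)
    goodS0X_623 goodS0X_660

def goodS0X_598 :
    Check.Good noCone cfS0X (reach cfS0X ⟨litS0X, 1, fsS0X⟩
      [(2, false), (1, true), (2, false), (0, true), (2, false), (0, true), (2, false)]) :=
  Check.good_node (a := 2) (by decide +kernel)
    goodS0X_599 goodS0X_622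

end

end Vale.Agent.P211.Cert.Interior.Data
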