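import Vale.Agent.P211.Cert.Interior.Data.S0Xr

/-!
P211, a part of a cell of the interior family (generated).
-/

namespace Vale.Agent.P211.Cert.Interior.Data

open Vale.Agent.P098.Check6 (ofChunks eqList reach St Cfg Face)
open Vale.Agent.P098.Cert6.Kron (RootPar parOK)

set_option linter.defProp false

noncomputable section

def goodS0X_678 :
    Check.Good noCone cfS0X (reach cfS0X ⟨litS0X, 1, fsS0X⟩
      [(1, false), (2, false), (0, false), (2, false), (0, false), (2, true), (1, true), (2, false), (0, true), (2, false), (0, true), (2, false)]) :=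
  Check.check_sound
    (.node 0
    (.node 1
    (.leaf (lf 1024 0 0 289 137 (-262) 73 0 87 255 255 255))
    (.leaf (lf 1024 0 0 423 186 (-362) 62 0 123 255 255 255)))
    (.node 2
    (.leaf (lf 1024 0 0 387 184 (-360) 75 0 136 255 255 255))
    (.leaf (lf 1024 0 0 375 179 (-349) 72 0 122 255 255 255))))
    (by decide +kernel)

def goodS0X_681 :
    Check.Good noCone cfS0X (reach cfS0X ⟨litS0X, 1, fsS0X⟩
      [(2, false), (0, false), (1, true), (2, false), (0, false), (2, false), (0, false), (2, true), (1, true), (2, false), (0, true), (2, false), (0, true), (2, false)]) :=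
  Check.check_sound
    (.node 1
    (.leaf (lf 1024 0 0 648 228 (-449) 19 0 163 255 255 255))
    (.node 2
    (.node 0
    (.node 1
    (.leaf (lf 1024 0 0 874 218 (-430) (-44) 0 160 255 255 255))
    (.leaf (lf 975 0 0 1024 152 (-297) (-100) 0 112 255 101 189)))
    (.node 1
    (.leaf (lf 1024 0 0 903 226 (-445) (-50) 0 172 255 255 255))
    (.leaf (lf 944 0 0 1024 152 (-297) (-107) 0 117 255 99 192))))
    (.node 0
    (.node 1
    (.leaf (lf 1024 0 0 862 216 (-425) (-38) 0 151 255 255 255))
    (.leaf (lf 987 0 0 1024 152 (-297) (-93) 0 108 255 103 190)))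
    (.node 1
    (.leaf (lf 1024 0 0 891 223 (-439) (-44) 0 163 255 255 255))
    (.leaf (lf 956 0 0 1024 152 (-297) (-99) 0 112 255 96 194))))))
    (by decide +kernel)

def goodS0X_682 :
    Check.Good noCone cfS0X (reach cfS0X ⟨litS0X, 1, fsS0X⟩
      [(2, true), (0, false), (1, true), (2, false), (0, false), (2, false), (0, false), (2, true), (1, true), (2, false), (0, true), (2, false), (0, true), (2, false)]) :=
  Check.check_sound
    (.node 1
    (.leaf (lf 1024 0 0 628 222 (-437) 23 0 146 255 255 255))
    (.node 0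
    (.node 2
    (.node 1
    (.leaf (lf 1024 0 0 850 213 (-419) (-33) 0 144 255 255 255))
    (.leaf (lf 1000 0 0 1024 152 (-298) (-86) 0 104 255 103 192)))
    (.leaf (lf 1024 0 (-454) 773 208 (-788) 0 0 148 222 91 255)))
    (.node 2
    (.node 1
    (.leaf (lf 1024 0 0 879 220 (-434) (-39) 0 154 255 255 255))
    (.leaf (lf 967 0 0 1024 152 (-298) (-93) 0 108 255 103 191)))
    (.node 1
    (.leaf (lf 1024 0 0 867 218 (-429) (-34) 0 147 255 255 255))
    (.leaf (lf 873 0 (-725) 692 177 (-1024) 0 0 156 209 77 255))))))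
    (by decide +kernel)

def goodS0X_680 :
    Check.Good noCone cfS0X (reach cfS0X ⟨litS0X, 1, fsS0X⟩
      [(0, false), (1, true), (2, false), (0, false), (2, false), (0, false), (2, true), (1, true), (2, false), (0, true), (2, false), (0, true), (2, false)]) :=
  Check.good_node (a := 2) (by decide +kernel)
    goodS0X_681 goodS0X_682

def goodS0X_684 :
    Check.Good noCone cfS0X (reach cfS0X ⟨litS0X, 1, fsS0X⟩
      [(2, false), (0, true), (1, true), (2, false), (0, false), (2, false), (0, false), (2, true), (1, true), (2, false), (0, true), (2, false), (0, true), (2, false)]) :=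
  Check.check_sound
    (.node 1
    (.leaf (lf 1024 0 0 689 243 (-480) 16 0 188 255 255 255))
    (.node 2
    (.node 0
    (.node 1
    (.leaf (lf 1024 0 0 930 233 (-459) (-57) 0 185 255 255 255))
    (.leaf (lf 916 0 0 1024 153 (-297) (-114) 0 122 255 96 190)))
    (.node 1
    (.leaf (lf 1024 0 0 958 241 (-474) (-64) 0 198 255 255 255))
    (.leaf (lf 890 0 0 1024 153 (-297) (-121) 0 126 255 94 192))))
    (.node 0
    (.node 1
    (.leaf (lf 1024 0 0 919 230 (-454) (-50) 0 175 255 255 255))
    (.leaf (lf 927 0 0 1024 152 (-297) (-106) 0 116 255 96 192)))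
    (.node 1
    (.leaf (lf 1024 0 0 947 238 (-468) (-57) 0 187 255 255 255))
    (.leaf (lf 899 0 0 1024 153 (-298) (-113) 0 121 255 93 192))))))
    (by decide +kernel)

def goodS0X_685 :
    Check.Good noCone cfS0X (reach cfS0X ⟨litS0X, 1, fsS0X⟩
      [(2, true), (0, true), (1, true), (2, false), (0, false), (2, false), (0, false), (2, true), (1, true), (2, false), (0, true), (2, false), (0, true), (2, false)]) :=
  Check.check_sound
    (.node 1
    (.leaf (lf 1024 0 0 670 237 (-467) 21 0 169 255 255 255))
    (.node 2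
    (.node 0
    (.node 1
    (.leaf (lf 1024 0 0 907 228 (-449) (-45) 0 166 255 255 255))
    (.leaf (lf 796 0 (-706) 645 173 (-1024) 0 0 170 205 78 255)))
    (.node 1
    (.leaf (lf 1024 0 0 935 235 (-463) (-51) 0 178 255 255 255))
    (.leaf (lf 909 0 0 1024 152 (-298) (-106) 0 116 255 97 191))))
    (.node 0
    (.node 1
    (.leaf (lf 1024 0 0 895 225 (-444) (-39) 0 158 255 255 255))
    (.leaf (lf 824 0 (-708) 667 174 (-1024) 0 0 163 208 76 255)))
    (.node 1
    (.leaf (lf 1024 0 0 924 232 (-458) (-45) 0 169 255 255 255))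
    (.leaf (lf 781 0 (-692) 645 173 (-1024) 0 0 170 206 78 255))))))
    (by decide +kernel)

def goodS0X_683 :
    Check.Good noCone cfS0X (reach cfS0X ⟨litS0X, 1, fsS0X⟩
      [(0, true), (1, true), (2, false), (0, false), (2, false), (0, false), (2, true), (1, true), (2, false), (0, true), (2, false), (0, true), (2, false)]) :=
  Check.good_node (a := 2) (by decide +kernel)
    goodS0X_684 goodS0X_685

def goodS0X_679 :
    Check.Good noCone cfS0X (reach cfS0X ⟨litS0X, 1, fsS0X⟩
      [(1, true), (2, false), (0, false), (2, false), (0, false), (2, true), (1, true), (2, false), (0, true), (2, false), (0, true), (2, false)]) :=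
  Check.good_node (a := 0) (by decide +kernel)
    goodS0X_680 goodS0X_683

def goodS0X_677 :
    Check.Good noCone cfS0X (reach cfS0X ⟨litS0X, 1, fsS0X⟩
      [(2, false), (0, false), (2, false), (0, false), (2, true), (1, true), (2, false), (0, true), (2, false), (0, true), (2, false)]) :=
  Check.good_node (a := 1) (by decide +kernel)
    goodS0X_678 goodS0X_679

def goodS0X_687 :
    Check.Good noCone cfS0X (reach cfS0X ⟨litS0X, 1, fsS0X⟩
      [(1, false), (2, true), (0, false), (2, false), (0, false), (2, true), (1, true), (2, false), (0, true), (2, false), (0, true), (2, false)]) :=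
  Check.check_sound
    (.node 0
    (.node 1
    (.leaf (lf 1024 0 0 267 131 (-245) 68 0 71 255 255 255))
    (.leaf (lf 1024 0 0 394 178 (-340) 60 0 100 255 255 255)))
    (.node 1
    (.leaf (lf 1024 0 0 289 138 (-262) 74 0 81 255 255 255))
    (.leaf (lf 1024 0 0 423 189 (-365) 64 0 115 255 255 255))))
    (by decide +kernel)

def goodS0X_689 :
    Check.Good noCone cfS0X (reach cfS0X ⟨litS0X, 1, fsS0X⟩
      [(0, false), (1, true), (2, true), (0, false), (2, false), (0, false), (2, true), (1, true), (2, false), (0, true), (2, false), (0, true), (2, false)]) :=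
  Check.check_sound
    (.node 2
    (.node 1
    (.leaf (lf 1024 0 0 609 218 (-425) 26 0 132 255 255 255))
    (.node 0
    (.node 2
    (.leaf (lf 1024 0 (-428) 771 204 (-755) 0 0 138 215 79 255))
    (.leaf (lf 1024 0 (-401) 769 200 (-722) 0 0 129 231 84 255)))
    (.node 2
    (.leaf (lf 16384 0 (-7271) 12615 3399 (-12894) 0 0 2422 219 89 255))
    (.leaf (lf 1024 0 (-429) 787 209 (-773) 0 0 142 216 78 255)))))
    (.node 1
    (.leaf (lf 1024 0 0 589 213 (-413) 29 0 120 255 255 255))
    (.node 0
    (.node 2
    (.leaf (lf 16384 0 (-5987) 12273 3150 (-11018) 0 0 1945 228 96 255))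
    (.node 1
    (.leaf (lf 1024 0 0 789 203 (-394) (-13) 0 113 255 255 255))
    (.leaf (lf 1024 0 0 980 150 (-292) (-56) 0 85 255 108 199))))
    (.node 2
    (.leaf (lf 1024 0 (-404) 785 205 (-740) 0 0 133 233 81 255))
    (.leaf (lf 1024 0 (-378) 783 202 (-708) 0 0 125 227 94 255))))))
    (by decide +kernel)

def goodS0X_690 :
    Check.Good noCone cfS0X (reach cfS0X ⟨litS0X, 1, fsS0X⟩
      [(0, true), (1, true), (2, true), (0, false), (2, false), (0, false), (2, true), (1, true), (2, false), (0, true), (2, false), (0, true), (2, false)]) :=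
  Check.check_sound
    (.node 2
    (.node 1
    (.leaf (lf 1024 0 0 651 232 (-455) 24 0 152 255 255 255))
    (.node 0
    (.node 2
    (.node 1
    (.leaf (lf 1024 0 0 884 223 (-439) (-34) 0 150 255 255 255))
    (.leaf (lf 853 0 (-710) 690 177 (-1024) 0 0 156 209 77 255)))
    (.leaf (lf 1024 0 (-455) 804 217 (-824) 0 0 155 219 88 255)))
    (.node 2
    (.node 1
    (.leaf (lf 1024 0 0 912 230 (-453) (-40) 0 161 255 255 255))
    (.leaf (lf 807 0 (-694) 666 175 (-1024) 0 0 163 208 75 255)))
    (.node 1
    (.leaf (lf 1024 0 0 901 227 (-448) (-35) 0 153 255 255 255))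
    (.leaf (lf 835 0 (-696) 688 176 (-1024) 0 0 157 210 75 255))))))
    (.node 1
    (.leaf (lf 1024 0 0 632 227 (-443) 28 0 138 255 255 255))
    (.node 0
    (.node 2
    (.leaf (lf 1024 0 (-431) 802 213 (-792) 0 0 146 215 78 255))
    (.leaf (lf 1024 0 (-406) 800 210 (-759) 0 0 137 232 81 255)))
    (.node 2
    (.leaf (lf 1024 0 (-456) 820 222 (-842) 0 0 159 219 86 255))
    (.leaf (lf 1024 0 (-432) 818 218 (-811) 0 0 150 213 76 255))))))
    (by decide +kernel)

def goodS0X_688 :
    Check.Good noCone cfS0X (reach cfS0X ⟨litS0X, 1, fsS0X⟩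
      [(1, true), (2, true), (0, false), (2, false), (0, false), (2, true), (1, true), (2, false), (0, true), (2, false), (0, true), (2, false)]) :=
  Check.good_node (a := 0) (by decide +kernel)
    goodS0X_689 goodS0X_690

def goodS0X_686 :
    Check.Good noCone cfS0X (reach cfS0X ⟨litS0X, 1, fsS0X⟩
      [(2, true), (0, false), (2, false), (0, false), (2, true), (1, true), (2, false), (0, true), (2, false), (0, true), (2, false)]) :=
  Check.good_node (a := 1) (by decide +kernel)
    goodS0X_687 goodS0X_688

def goodS0X_676 :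
    Check.Good noCone cfS0X (reach cfS0X ⟨litS0X, 1, fsS0X⟩
      [(0, false), (2, false), (0, false), (2, true), (1, true), (2, false), (0, true), (2, false), (0, true), (2, false)]) :=
  Check.good_node (a := 2) (by decide +kernel)
    goodS0X_677 goodS0X_686

def goodS0X_693 :
    Check.Good noCone cfS0X (reach cfS0X ⟨litS0X, 1, fsS0X⟩
      [(1, false), (2, false), (0, true), (2, false), (0, false), (2, true), (1, true), (2, false), (0, true), (2, false), (0, true), (2, false)]) :=
  Check.check_sound
    (.node 1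
    (.node 2
    (.leaf (lf 1024 0 0 344 160 (-311) 94 0 131 255 255 255))
    (.leaf (lf 1024 0 0 335 156 (-302) 89 0 117 255 255 255)))
    (.leaf (lf 1024 0 0 494 217 (-424) 74 0 174 255 255 255)))
    (by decide +kernel)

def goodS0X_696 :
    Check.Good noCone cfS0X (reach cfS0X ⟨litS0X, 1, fsS0X⟩
      [(0, false), (2, false), (1, true), (2, false), (0, true), (2, false), (0, false), (2, true), (1, true), (2, false), (0, true), (2, false), (0, true), (2, false)]) :=
  Check.check_sound
    (.node 1
    (.leaf (lf 1024 0 0 728 258 (-510) 13 0 216 255 255 255))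
    (.node 2
    (.node 0
    (.node 1
    (.leaf (lf 1024 0 0 985 249 (-488) (-71) 0 212 255 255 255))
    (.leaf (lf 866 0 0 1024 154 (-298) (-128) 0 132 255 93 193)))
    (.node 1
    (.leaf (lf 1024 0 0 1012 257 (-502) (-78) 0 226 255 255 255))
    (.leaf (lf 843 0 0 1024 155 (-299) (-136) 0 137 255 96 193))))
    (.node 0
    (.node 1
    (.leaf (lf 1024 0 0 974 246 (-483) (-64) 0 201 255 255 255))
    (.leaf (lf 874 0 0 1024 153 (-298) (-120) 0 126 255 94 194)))
    (.node 1
    (.leaf (lf 1024 0 0 1001 254 (-498) (-71) 0 215 255 255 255))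
    (.leaf (lf 851 0 0 1024 154 (-299) (-127) 0 131 255 93 194))))))
    (by decide +kernel)

def goodS0X_697 :
    Check.Good noCone cfS0X (reach cfS0X ⟨litS0X, 1, fsS0X⟩
      [(0, true), (2, false), (1, true), (2, false), (0, true), (2, false), (0, false), (2, true), (1, true), (2, false), (0, true), (2, false), (0, true), (2, false)]) :=
  Check.check_sound
    (.node 1
    (.leaf (lf 1024 0 0 767 274 (-539) 10 0 245 255 255 255))
    (.node 2
    (.node 0
    (.node 1
    (.leaf (lf 1010 0 0 1024 262 (-510) (-85) 0 238 255 255 255))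
    (.leaf (lf 822 0 0 1024 157 (-300) (-143) 0 143 255 93 195)))
    (.node 1
    (.leaf (lf 985 0 0 1024 263 (-511) (-91) 0 248 255 255 255))
    (.leaf (lf 802 0 0 1024 158 (-301) (-151) 0 149 255 96 194))))
    (.node 0
    (.node 1
    (.leaf (lf 1020 0 0 1024 261 (-510) (-78) 0 228 255 255 255))
    (.leaf (lf 829 0 0 1024 156 (-300) (-135) 0 137 255 98 191)))
    (.node 1
    (.leaf (lf 994 0 0 1024 262 (-511) (-83) 0 237 255 255 255))
    (.leaf (lf 808 0 0 1024 157 (-301) (-142) 0 142 255 95 196))))))
    (by decide +kernel)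

def goodS0X_695 :
    Check.Good noCone cfS0X (reach cfS0X ⟨litS0X, 1, fsS0X⟩
      [(2, false), (1, true), (2, false), (0, true), (2, false), (0, false), (2, true), (1, true), (2, false), (0, true), (2, false), (0, true), (2, false)]) :=
  Check.good_node (a := 0) (by decide +kernel)
    goodS0X_696 goodS0X_697

def goodS0X_699 :
    Check.Good noCone cfS0X (reach cfS0X ⟨litS0X, 1, fsS0X⟩
      [(0, false), (2, true), (1, true), (2, false), (0, true), (2, false), (0, false), (2, true), (1, true), (2, false), (0, true), (2, false), (0, true), (2, false)]) :=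
  Check.check_sound
    (.node 1
    (.leaf (lf 1024 0 0 710 252 (-497) 18 0 194 255 255 255))
    (.node 2
    (.node 0
    (.node 1
    (.leaf (lf 1024 0 0 963 243 (-478) (-57) 0 190 255 255 255))
    (.leaf (lf 722 0 (-673) 610 171 (-1024) 0 0 185 205 79 255)))
    (.node 1
    (.leaf (lf 1024 0 0 990 251 (-493) (-64) 0 204 255 255 255))
    (.leaf (lf 859 0 0 1024 154 (-299) (-120) 0 126 255 99 191))))
    (.node 0
    (.node 1
    (.leaf (lf 1024 0 0 952 240 (-473) (-51) 0 181 255 255 255))
    (.leaf (lf 743 0 (-675) 627 172 (-1024) 0 0 177 206 76 255)))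
    (.node 1
    (.leaf (lf 1024 0 0 979 248 (-488) (-57) 0 194 255 255 255))
    (.leaf (lf 710 0 (-660) 611 171 (-1024) 0 0 184 204 78 255))))))
    (by decide +kernel)

def goodS0X_700 :
    Check.Good noCone cfS0X (reach cfS0X ⟨litS0X, 1, fsS0X⟩
      [(0, true), (2, true), (1, true), (2, false), (0, true), (2, false), (0, false), (2, true), (1, true), (2, false), (0, true), (2, false), (0, true), (2, false)]) :=
  Check.check_sound
    (.node 1
    (.leaf (lf 1024 0 0 750 267 (-527) 16 0 221 255 255 255))
    (.node 2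
    (.node 0
    (.node 1
    (.leaf (lf 1024 0 0 1017 259 (-507) (-71) 0 217 255 255 255))
    (.leaf (lf 836 0 0 1024 155 (-300) (-126) 0 131 255 91 196)))
    (.node 1
    (.leaf (lf 1004 0 0 1024 262 (-512) (-77) 0 227 255 255 255))
    (.leaf (lf 815 0 0 1024 156 (-301) (-133) 0 136 255 91 197))))
    (.node 0
    (.node 1
    (.leaf (lf 1024 0 0 1007 255 (-502) (-64) 0 207 255 255 255))
    (.leaf (lf 844 0 0 1024 154 (-300) (-119) 0 126 255 96 192)))
    (.node 1
    (.leaf (lf 1015 0 0 1024 261 (-512) (-70) 0 218 255 255 255))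
    (.leaf (lf 822 0 0 1024 155 (-301) (-126) 0 131 255 96 193))))))
    (by decide +kernel)

def goodS0X_698 :
    Check.Good noCone cfS0X (reach cfS0X ⟨litS0X, 1, fsS0X⟩
      [(2, true), (1, true), (2, false), (0, true), (2, false), (0, false), (2, true), (1, true), (2, false), (0, true), (2, false), (0, true), (2, false)]) :=
  Check.good_node (a := 0) (by decide +kernel)
    goodS0X_699 goodS0X_700

def goodS0X_694 :
    Check.Good noCone cfS0X (reach cfS0X ⟨litS0X, 1, fsS0X⟩
      [(1, true), (2, false), (0, true), (2, false), (0, false), (2, true), (1, true), (2, false), (0, true), (2, false), (0, true), (2, false)]) :=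
  Check.good_node (a := 2) (by decide +kernel)
    goodS0X_695 goodS0X_698

def goodS0X_692 :
    Check.Good noCone cfS0X (reach cfS0X ⟨litS0X, 1, fsS0X⟩
      [(2, false), (0, true), (2, false), (0, false), (2, true), (1, true), (2, false), (0, true), (2, false), (0, true), (2, false)]) :=
  Check.good_node (a := 1) (by decide +kernel)
    goodS0X_693 goodS0X_694

def goodS0X_702 :
    Check.Good noCone cfS0X (reach cfS0X ⟨litS0X, 1, fsS0X⟩
      [(1, false), (2, true), (0, true), (2, false), (0, false), (2, true), (1, true), (2, false), (0, true), (2, false), (0, true), (2, false)]) :=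
  Check.check_sound
    (.node 1
    (.leaf (lf 1024 0 0 323 152 (-289) 83 0 100 255 247 155))
    (.leaf (lf 1024 0 0 468 208 (-402) 71 0 142 255 255 255)))
    (by decide +kernel)

def goodS0X_705 :
    Check.Good noCone cfS0X (reach cfS0X ⟨litS0X, 1, fsS0X⟩
      [(2, false), (0, false), (1, true), (2, true), (0, true), (2, false), (0, false), (2, true), (1, true), (2, false), (0, true), (2, false), (0, true), (2, false)]) :=
  Check.check_sound
    (.node 1
    (.leaf (lf 1024 0 0 692 246 (-485) 23 0 175 255 255 255))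
    (.node 2
    (.node 0
    (.node 1
    (.leaf (lf 1024 0 0 940 237 (-468) (-45) 0 172 255 255 255))
    (.leaf (lf 766 0 (-678) 645 173 (-1024) 0 0 170 207 77 255)))
    (.node 1
    (.leaf (lf 1024 0 0 968 245 (-483) (-51) 0 184 255 255 255))
    (.leaf (lf 730 0 (-662) 627 172 (-1024) 0 0 177 206 76 255))))
    (.node 0
    (.node 1
    (.leaf (lf 1024 0 0 929 235 (-463) (-40) 0 164 255 255 255))
    (.leaf (lf 790 0 (-680) 664 175 (-1024) 0 0 163 208 75 255)))
    (.node 1
    (.leaf (lf 1024 0 0 957 242 (-478) (-46) 0 176 255 255 255))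
    (.leaf (lf 751 0 (-665) 644 173 (-1024) 0 0 170 207 76 255))))))
    (by decide +kernel)

def goodS0X_706 :
    Check.Good noCone cfS0X (reach cfS0X ⟨litS0X, 1, fsS0X⟩
      [(2, true), (0, false), (1, true), (2, true), (0, true), (2, false), (0, false), (2, true), (1, true), (2, false), (0, true), (2, false), (0, true), (2, false)]) :=
  Check.check_sound
    (.node 1
    (.leaf (lf 1024 0 0 674 241 (-474) 26 0 159 255 255 255))
    (.node 0
    (.node 2
    (.node 1
    (.leaf (lf 1024 0 0 918 232 (-458) (-36) 0 157 255 255 255))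
    (.leaf (lf 816 0 (-682) 685 176 (-1024) 0 0 157 209 74 255)))
    (.node 1
    (.leaf (lf 1024 0 0 906 230 (-453) (-31) 0 150 255 255 255))
    (.leaf (lf 845 0 (-684) 708 179 (-1024) 0 0 152 211 74 255))))
    (.node 2
    (.node 1
    (.leaf (lf 1024 0 0 946 240 (-473) (-41) 0 168 255 255 255))
    (.leaf (lf 774 0 (-667) 663 175 (-1024) 0 0 163 208 75 255)))
    (.node 1
    (.leaf (lf 1024 0 0 935 237 (-468) (-36) 0 161 255 255 255))
    (.leaf (lf 799 0 (-669) 683 176 (-1024) 0 0 157 208 75 255))))))
    (by decide +kernel)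

def goodS0X_704 :
    Check.Good noCone cfS0X (reach cfS0X ⟨litS0X, 1, fsS0X⟩
      [(0, false), (1, true), (2, true), (0, true), (2, false), (0, false), (2, true), (1, true), (2, false), (0, true), (2, false), (0, true), (2, false)]) :=
  Check.good_node (a := 2) (by decide +kernel)
    goodS0X_705 goodS0X_706

def goodS0X_708 :
    Check.Good noCone cfS0X (reach cfS0X ⟨litS0X, 1, fsS0X⟩
      [(2, false), (0, true), (1, true), (2, true), (0, true), (2, false), (0, false), (2, true), (1, true), (2, false), (0, true), (2, false), (0, true), (2, false)]) :=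
  Check.check_sound
    (.node 1
    (.leaf (lf 1024 0 0 732 261 (-515) 21 0 200 255 255 255))
    (.node 2
    (.node 0
    (.node 1
    (.leaf (lf 1024 0 0 996 253 (-498) (-58) 0 197 255 255 255))
    (.leaf (lf 698 0 (-647) 611 172 (-1024) 0 0 184 204 76 255)))
    (.node 1
    (.leaf (lf 1024 0 0 1023 260 (-512) (-64) 0 210 255 255 255))
    (.leaf (lf 669 0 (-632) 597 172 (-1024) 0 0 192 205 77 255))))
    (.node 0
    (.node 1
    (.leaf (lf 1024 0 0 985 250 (-493) (-52) 0 188 255 255 255))
    (.leaf (lf 716 0 (-650) 627 172 (-1024) 0 0 177 207 76 255)))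
    (.node 1
    (.leaf (lf 1024 0 0 1012 258 (-507) (-58) 0 200 255 255 255))
    (.leaf (lf 686 0 (-635) 611 172 (-1024) 0 0 184 205 75 255))))))
    (by decide +kernel)

def goodS0X_709 :
    Check.Good noCone cfS0X (reach cfS0X ⟨litS0X, 1, fsS0X⟩
      [(2, true), (0, true), (1, true), (2, true), (0, true), (2, false), (0, false), (2, true), (1, true), (2, false), (0, true), (2, false), (0, true), (2, false)]) :=
  Check.check_sound
    (.node 1
    (.leaf (lf 1024 0 0 714 256 (-504) 25 0 182 255 255 255))
    (.node 0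
    (.node 2
    (.node 1
    (.leaf (lf 1024 0 0 974 247 (-488) (-47) 0 179 255 255 255))
    (.leaf (lf 736 0 (-652) 643 173 (-1024) 0 0 170 208 73 255)))
    (.node 1
    (.leaf (lf 1024 0 0 963 245 (-483) (-42) 0 172 255 255 255))
    (.leaf (lf 758 0 (-654) 661 175 (-1024) 0 0 164 209 73 255))))
    (.node 2
    (.node 1
    (.leaf (lf 1024 0 0 1002 255 (-503) (-53) 0 192 255 255 255))
    (.leaf (lf 703 0 (-637) 626 173 (-1024) 0 0 177 207 73 255)))
    (.node 1
    (.leaf (lf 1024 0 0 991 252 (-498) (-47) 0 183 255 255 255))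
    (.leaf (lf 722 0 (-640) 642 174 (-1024) 0 0 170 207 73 255))))))
    (by decide +kernel)

def goodS0X_707 :
    Check.Good noCone cfS0X (reach cfS0X ⟨litS0X, 1, fsS0X⟩
      [(0, true), (1, true), (2, true), (0, true), (2, false), (0, false), (2, true), (1, true), (2, false), (0, true), (2, false), (0, true), (2, false)]) :=
  Check.good_node (a := 2) (by decide +kernel)
    goodS0X_708 goodS0X_709

def goodS0X_703 :
    Check.Good noCone cfS0X (reach cfS0X ⟨litS0X, 1, fsS0X⟩
      [(1, true), (2, true), (0, true), (2, false), (0, false), (2, true), (1, true), (2, false), (0, true), (2, false), (0, true), (2, false)]) :=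
  Check.good_node (a := 0) (by decide +kernel)
    goodS0X_704 goodS0X_707

def goodS0X_701 :
    Check.Good noCone cfS0X (reach cfS0X ⟨litS0X, 1, fsS0X⟩
      [(2, true), (0, true), (2, false), (0, false), (2, true), (1, true), (2, false), (0, true), (2, false), (0, true), (2, false)]) :=
  Check.good_node (a := 1) (by decide +kernel)
    goodS0X_702 goodS0X_703

def goodS0X_691 :
    Check.Good noCone cfS0X (reach cfS0X ⟨litS0X, 1, fsS0X⟩
      [(0, true), (2, false), (0, false), (2, true), (1, true), (2, false), (0, true), (2, false), (0, true), (2, false)]) :=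
  Check.good_node (a := 2) (by decide +kernel)
    goodS0X_692 goodS0X_701

def goodS0X_675 :
    Check.Good noCone cfS0X (reach cfS0X ⟨litS0X, 1, fsS0X⟩
      [(2, false), (0, false), (2, true), (1, true), (2, false), (0, true), (2, false), (0, true), (2, false)]) :=
  Check.good_node (a := 0) (by decide +kernel)
    goodS0X_676 goodS0X_691

def goodS0X_712 :
    Check.Good noCone cfS0X (reach cfS0X ⟨litS0X, 1, fsS0X⟩
      [(1, false), (0, false), (2, true), (0, false), (2, true), (1, true), (2, false), (0, true), (2, false), (0, true), (2, false)]) :=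
  Check.check_sound
    (.node 1
    (.node 2
    (.node 0
    (.leaf (lf 1024 0 0 245 126 (-231) 63 0 59 255 255 255))
    (.leaf (lf 1024 0 0 267 133 (-247) 69 0 67 255 255 255)))
    (.node 0
    (.leaf (lf 1024 0 0 223 124 (-220) 60 0 50 255 255 255))
    (.leaf (lf 1024 0 0 245 130 (-235) 65 0 57 255 255 255))))
    (.node 2
    (.leaf (lf 1024 0 0 384 179 (-335) 59 0 90 255 255 255))
    (.leaf (lf 1024 0 0 356 174 (-318) 58 0 76 255 255 255))))
    (by decide +kernel)

def goodS0X_714 :
    Check.Good noCone cfS0X (reach cfS0X ⟨litS0X, 1, fsS0X⟩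
      [(1, false), (1, true), (0, false), (2, true), (0, false), (2, true), (1, true), (2, false), (0, true), (2, false), (0, true), (2, false)]) :=
  Check.check_sound
    (.leaf (lf 1024 0 0 567 452 0 33 (-91) 48 255 255 255))
    (by decide +kernel)

def goodS0X_717 :
    Check.Good noCone cfS0X (reach cfS0X ⟨litS0X, 1, fsS0X⟩
      [(0, false), (2, false), (1, true), (1, true), (0, false), (2, true), (0, false), (2, true), (1, true), (2, false), (0, true), (2, false), (0, true), (2, false)]) :=
  Check.check_sound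
    (.node 2
    (.node 0
    (.node 2
    (.leaf (lf 256 1024 (-328) 0 810 (-643) 0 0 111 105 252 255))
    (.leaf (lf 253 1024 (-299) 0 807 (-610) 0 0 105 105 255 253)))
    (.node 2
    (.node 1
    (.leaf (lf 1024 0 0 807 208 (-404) (-14) 0 116 255 255 255))
    (.leaf (lf 1024 0 0 1003 153 (-299) (-59) 0 87 255 114 197)))
    (.node 1
    (.leaf (lf 1024 0 0 795 206 (-400) (-11) 0 111 255 255 255))
    (.leaf (lf 1024 0 0 989 153 (-296) (-53) 0 84 255 107 201)))))
    (.node 0
    (.node 2
    (.leaf (lf 251 1024 (-268) 0 804 (-577) 0 0 99 107 255 247))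
    (.leaf (lf 249 1024 (-238) 0 800 (-546) 0 0 94 109 255 241)))
    (.node 2
    (.leaf (lf 255 1024 (-305) 0 824 (-631) 0 0 109 103 255 254))
    (.leaf (lf 252 1024 (-276) 0 821 (-599) 0 0 103 105 255 248)))))
    (by decide +kernel)

def goodS0X_718 :
    Check.Good noCone cfS0X (reach cfS0X ⟨litS0X, 1, fsS0X⟩
      [(0, true), (2, false), (1, true), (1, true), (0, false), (2, true), (0, false), (2, true), (1, true), (2, false), (0, true), (2, false), (0, true), (2, false)]) :=
  Check.check_sound
    (.node 2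
    (.node 0
    (.node 2
    (.node 1
    (.leaf (lf 1024 0 0 836 214 (-419) (-18) 0 125 255 255 255))
    (.leaf (lf 1000 0 (-712) 801 189 (-1024) 0 0 137 226 80 255)))
    (.node 1
    (.leaf (lf 1024 0 0 824 213 (-414) (-15) 0 120 255 255 255))
    (.leaf (lf 1024 0 (-697) 818 190 (-1004) 0 0 131 225 79 255))))
    (.node 2
    (.leaf (lf 1024 0 (-409) 816 215 (-779) 0 0 141 228 79 255))
    (.node 1
    (.leaf (lf 1024 0 0 854 219 (-429) (-19) 0 128 255 255 255))
    (.leaf (lf 971 0 (-698) 793 188 (-1024) 0 0 138 226 77 255)))))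
    (.node 0
    (.node 2
    (.node 1
    (.leaf (lf 1024 0 0 812 211 (-410) (-11) 0 115 255 255 255))
    (.leaf (lf 1024 0 (-664) 816 186 (-959) 0 0 122 173 62 255)))
    (.leaf (lf 4092 16384 (-4986) 0 13463 (-10441) 0 0 1803 102 255 255)))
    (.node 2
    (.node 1
    (.leaf (lf 1024 0 0 842 218 (-424) (-15) 0 123 255 255 255))
    (.leaf (lf 1013 0 (-697) 825 192 (-1024) 0 0 134 226 80 255)))
    (.node 1
    (.leaf (lf 1024 0 0 830 216 (-420) (-12) 0 118 255 255 255))
    (.leaf (lf 1024 0 (-673) 832 191 (-991) 0 0 127 171 60 255))))))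
    (by decide +kernel)

def goodS0X_716 :
    Check.Good noCone cfS0X (reach cfS0X ⟨litS0X, 1, fsS0X⟩
      [(2, false), (1, true), (1, true), (0, false), (2, true), (0, false), (2, true), (1, true), (2, false), (0, true), (2, false), (0, true), (2, false)]) :=
  Check.good_node (a := 0) (by decide +kernel)
    goodS0X_717 goodS0X_718

def goodS0X_719 :
    Check.Good noCone cfS0X (reach cfS0X ⟨litS0X, 1, fsS0X⟩
      [(2, true), (1, true), (1, true), (0, false), (2, true), (0, false), (2, true), (1, true), (2, false), (0, true), (2, false), (0, true), (2, false)]) :=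
  Check.check_sound
    (.node 0
    (.leaf (lf 1024 0 0 817 385 0 (-14) (-73) 39 255 202 64))
    (.node 2
    (.node 0
    (.node 2
    (.leaf (lf 253 1024 (-284) 0 838 (-621) 0 0 107 103 255 250))
    (.leaf (lf 251 1024 (-255) 0 835 (-589) 0 0 102 103 255 245)))
    (.node 2
    (.node 1
    (.leaf (lf 1024 0 0 818 215 (-416) (-9) 0 114 255 255 255))
    (.leaf (lf 1024 0 0 1023 159 (-308) (-53) 0 86 255 104 201)))
    (.node 1
    (.leaf (lf 1024 0 0 807 213 (-411) (-6) 0 109 255 255 255))
    (.leaf (lf 1024 0 (-606) 828 184 (-903) 0 0 112 202 67 255)))))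
    (.node 0
    (.node 2
    (.leaf (lf 249 1024 (-226) 0 831 (-558) 0 0 97 106 255 239))
    (.leaf (lf 3965 16384 (-3155) 0 13250 (-8444) 0 0 1483 106 255 234)))
    (.node 2
    (.node 1
    (.leaf (lf 1024 0 0 795 212 (-407) (-4) 0 105 255 255 255))
    (.leaf (lf 1024 0 (-572) 826 180 (-860) 0 0 105 255 255 255)))
    (.node 1
    (.leaf (lf 1024 0 0 783 211 (-403) (-1) 0 102 255 255 255))
    (.leaf (lf 1024 0 0 982 157 (-302) (-41) 0 77 255 119 203)))))))
    (by decide +kernel)

def goodS0X_715 :
    Check.Good noCone cfS0X (reach cfS0X ⟨litS0X, 1, fsS0X⟩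
      [(1, true), (1, true), (0, false), (2, true), (0, false), (2, true), (1, true), (2, false), (0, true), (2, false), (0, true), (2, false)]) :=
  Check.good_node (a := 2) (by decide +kernel)
    goodS0X_716 goodS0X_719

def goodS0X_713 :
    Check.Good noCone cfS0X (reach cfS0X ⟨litS0X, 1, fsS0X⟩
      [(1, true), (0, false), (2, true), (0, false), (2, true), (1, true), (2, false), (0, true), (2, false), (0, true), (2, false)]) :=
  Check.good_node (a := 1) (by decide +kernel)
    goodS0X_714 goodS0X_715

def goodS0X_711 :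
    Check.Good noCone cfS0X (reach cfS0X ⟨litS0X, 1, fsS0X⟩
      [(0, false), (2, true), (0, false), (2, true), (1, true), (2, false), (0, true), (2, false), (0, true), (2, false)]) :=
  Check.good_node (a := 1) (by decide +kernel)
    goodS0X_712 goodS0X_713

def goodS0X_721 :
    Check.Good noCone cfS0X (reach cfS0X ⟨litS0X, 1, fsS0X⟩
      [(1, false), (0, true), (2, true), (0, false), (2, true), (1, true), (2, false), (0, true), (2, false), (0, true), (2, false)]) :=
  Check.check_sound
    (.node 1
    (.node 2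
    (.leaf (lf 1024 0 0 303 146 (-274) 77 0 83 255 250 143))
    (.leaf (lf 1024 0 0 282 142 (-260) 73 0 71 255 254 142)))
    (.node 2
    (.leaf (lf 1024 0 0 442 200 (-382) 68 0 118 255 255 255))
    (.leaf (lf 1024 0 0 415 194 (-364) 66 0 100 255 255 255))))
    (by decide +kernel)

def goodS0X_723 :
    Check.Good noCone cfS0X (reach cfS0X ⟨litS0X, 1, fsS0X⟩
      [(1, false), (1, true), (0, true), (2, true), (0, false), (2, true), (1, true), (2, false), (0, true), (2, false), (0, true), (2, false)]) :=
  Check.check_sound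
    (.leaf (lf 1024 0 0 652 239 (-458) 32 0 136 255 255 255))
    (by decide +kernel)

def goodS0X_726 :
    Check.Good noCone cfS0X (reach cfS0X ⟨litS0X, 1, fsS0X⟩
      [(0, false), (2, false), (1, true), (1, true), (0, true), (2, true), (0, false), (2, true), (1, true), (2, false), (0, true), (2, false), (0, true), (2, false)]) :=
  Check.check_sound
    (.node 2
    (.node 0
    (.node 2
    (.leaf (lf 1024 0 (-434) 834 223 (-830) 0 0 154 223 88 255))
    (.leaf (lf 1024 0 (-411) 832 220 (-799) 0 0 145 223 78 255)))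
    (.node 2
    (.node 1
    (.leaf (lf 1024 0 0 924 235 (-464) (-32) 0 154 255 255 255))
    (.leaf (lf 825 0 (-670) 704 178 (-1024) 0 0 152 210 74 255)))
    (.leaf (lf 1024 0 (-436) 849 228 (-849) 0 0 158 222 87 255))))
    (.node 0
    (.node 2
    (.node 1
    (.leaf (lf 1024 0 0 872 224 (-439) (-19) 0 132 255 255 255))
    (.leaf (lf 944 0 (-685) 786 187 (-1024) 0 0 138 227 79 255)))
    (.node 1
    (.leaf (lf 1024 0 0 860 223 (-435) (-16) 0 127 255 255 255))
    (.leaf (lf 983 0 (-684) 816 191 (-1024) 0 0 135 225 77 255))))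
    (.node 2
    (.leaf (lf 1024 0 (-414) 847 225 (-819) 0 0 149 219 77 255))
    (.node 1
    (.leaf (lf 1024 0 0 889 229 (-450) (-20) 0 136 255 255 255))
    (.leaf (lf 918 0 (-672) 779 187 (-1024) 0 0 139 215 73 255))))))
    (by decide +kernel)

def goodS0X_728 :
    Check.Good noCone cfS0X (reach cfS0X ⟨litS0X, 1, fsS0X⟩
      [(2, false), (0, true), (2, false), (1, true), (1, true), (0, true), (2, true), (0, false), (2, true), (1, true), (2, false), (0, true), (2, false), (0, true), (2, false)]) :=
  Check.check_sound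
    (.node 0
    (.node 2
    (.node 1
    (.leaf (lf 1024 0 0 952 242 (-478) (-37) 0 164 255 255 255))
    (.leaf (lf 781 0 (-656) 680 176 (-1024) 0 0 158 209 72 255)))
    (.node 1
    (.leaf (lf 1024 0 0 941 240 (-474) (-33) 0 158 255 255 255))
    (.node 0
    (.leaf (lf 818 0 (-661) 707 179 (-1024) 0 0 151 215 72 255))
    (.leaf (lf 795 0 (-654) 695 178 (-1024) 0 0 154 214 70 255)))))
    (.node 2
    (.node 1
    (.leaf (lf 1024 0 0 980 250 (-493) (-42) 0 175 255 255 255))
    (.leaf (lf 743 0 (-642) 659 175 (-1024) 0 0 164 207 72 255)))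
    (.node 1
    (.leaf (lf 1024 0 0 969 248 (-489) (-38) 0 168 255 255 255))
    (.node 0
    (.node 2
    (.leaf (lf 12294 0 (-10349) 10846 2818 (-16384) 0 0 2535 214 65 255))
    (.leaf (lf 12481 0 (-10362) 11002 2832 (-16384) 0 0 2493 215 65 255)))
    (.node 2
    (.node 1
    (.leaf (lf 910 0 0 1024 186 (-368) (-79) 0 130 255 255 255))
    (.leaf (lf 817 0 0 1024 115 (-226) (-102) 0 81 255 106 239)))
    (.node 1
    (.leaf (lf 915 0 0 1024 187 (-368) (-77) 0 128 255 255 255))
    (.leaf (lf 820 0 0 1024 115 (-226) (-100) 0 79 255 108 238))))))))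
    (by decide +kernel)

def goodS0X_729 :
    Check.Good noCone cfS0X (reach cfS0X ⟨litS0X, 1, fsS0X⟩
      [(2, true), (0, true), (2, false), (1, true), (1, true), (0, true), (2, true), (0, false), (2, true), (1, true), (2, false), (0, true), (2, false), (0, true), (2, false)]) :=
  Check.check_sound
    (.node 0
    (.node 2
    (.leaf (lf 16384 0 (-7000) 13837 3735 (-13907) 0 0 2597 220 85 255))
    (.leaf (lf 1024 0 (-416) 863 230 (-839) 0 0 154 221 75 255)))
    (.node 2
    (.node 1
    (.leaf (lf 1024 0 0 958 245 (-484) (-33) 0 161 255 255 255))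
    (.node 0
    (.node 2
    (.leaf (lf 12675 0 (-10373) 11163 2847 (-16384) 0 0 2453 216 65 255))
    (.leaf (lf 805 0 (-649) 708 179 (-1024) 0 0 151 216 65 255)))
    (.node 2
    (.node 1
    (.leaf (lf 919 0 0 1024 187 (-368) (-74) 0 126 255 255 255))
    (.leaf (lf 824 0 0 1024 115 (-226) (-97) 0 78 255 108 242)))
    (.node 1
    (.leaf (lf 924 0 0 1024 187 (-369) (-72) 0 124 255 255 255))
    (.leaf (lf 828 0 0 1024 115 (-226) (-95) 0 77 255 113 242))))))
    (.node 1
    (.leaf (lf 1024 0 0 947 243 (-480) (-29) 0 155 255 255 255))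
    (.node 0
    (.node 2
    (.leaf (lf 818 0 (-649) 719 180 (-1024) 0 0 149 217 65 255))
    (.leaf (lf 831 0 (-650) 730 181 (-1024) 0 0 146 217 67 255)))
    (.node 2
    (.node 1
    (.leaf (lf 929 0 0 1024 187 (-369) (-70) 0 123 255 255 255))
    (.leaf (lf 833 0 0 1024 115 (-226) (-92) 0 76 255 105 241)))
    (.leaf (lf 12927 0 (-10294) 11465 2878 (-16384) 0 0 2385 216 64 255)))))))
    (by decide +kernel)

def goodS0X_727 :
    Check.Good noCone cfS0X (reach cfS0X ⟨litS0X, 1, fsS0X⟩
      [(0, true), (2, false), (1, true), (1, true), (0, true), (2, true), (0, false), (2, true), (1, true), (2, false), (0, true), (2, false), (0, true), (2, false)]) :=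
  Check.good_node (a := 2) (by decide +kernel)
    goodS0X_728 goodS0X_729

def goodS0X_725 :
    Check.Good noCone cfS0X (reach cfS0X ⟨litS0X, 1, fsS0X⟩
      [(2, false), (1, true), (1, true), (0, true), (2, true), (0, false), (2, true), (1, true), (2, false), (0, true), (2, false), (0, true), (2, false)]) :=
  Check.good_node (a := 0) (by decide +kernel)
    goodS0X_726 goodS0X_727

def goodS0X_731 :
    Check.Good noCone cfS0X (reach cfS0X ⟨litS0X, 1, fsS0X⟩
      [(0, false), (2, true), (1, true), (1, true), (0, true), (2, true), (0, false), (2, true), (1, true), (2, false), (0, true), (2, false), (0, true), (2, false)]) :=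
  Check.check_sound
    (.node 2
    (.node 0
    (.node 2
    (.node 1
    (.leaf (lf 1024 0 0 848 221 (-430) (-13) 0 122 255 255 255))
    (.leaf (lf 1024 0 (-682) 848 195 (-1023) 0 0 132 226 78 255)))
    (.node 1
    (.leaf (lf 1024 0 0 836 220 (-426) (-10) 0 117 255 255 255))
    (.leaf (lf 1024 0 (-650) 846 192 (-980) 0 0 124 181 62 255))))
    (.node 2
    (.node 1
    (.leaf (lf 1024 0 0 878 228 (-445) (-17) 0 131 255 255 255))
    (.leaf (lf 954 0 (-671) 807 190 (-1024) 0 0 136 225 75 255)))
    (.node 1
    (.leaf (lf 1024 0 0 866 226 (-441) (-14) 0 126 255 255 255))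
    (.leaf (lf 993 0 (-670) 839 194 (-1024) 0 0 133 227 76 255)))))
    (.node 0
    (.node 2
    (.node 1
    (.leaf (lf 1024 0 0 825 218 (-422) (-7) 0 113 255 255 255))
    (.leaf (lf 1024 0 (-618) 844 188 (-936) 0 0 116 193 64 255)))
    (.node 1
    (.leaf (lf 1024 0 0 813 217 (-418) (-4) 0 109 255 255 255))
    (.leaf (lf 1024 0 (-584) 842 185 (-893) 0 0 109 255 255 255))))
    (.node 2
    (.node 1
    (.leaf (lf 1024 0 0 854 225 (-437) (-11) 0 121 255 255 255))
    (.leaf (lf 1024 0 (-660) 863 197 (-1013) 0 0 129 174 59 255)))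
    (.node 1
    (.leaf (lf 1024 0 0 843 223 (-432) (-8) 0 117 255 255 255))
    (.leaf (lf 1024 0 (-629) 860 193 (-969) 0 0 121 189 63 255))))))
    (by decide +kernel)

def goodS0X_732 :
    Check.Good noCone cfS0X (reach cfS0X ⟨litS0X, 1, fsS0X⟩
      [(0, true), (2, true), (1, true), (1, true), (0, true), (2, true), (0, false), (2, true), (1, true), (2, false), (0, true), (2, false), (0, true), (2, false)]) :=
  Check.check_sound
    (.node 2
    (.node 0
    (.node 2
    (.node 1
    (.leaf (lf 1024 0 0 907 234 (-460) (-21) 0 140 255 255 255))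
    (.leaf (lf 893 0 (-660) 772 186 (-1024) 0 0 140 215 70 255)))
    (.node 1
    (.leaf (lf 1024 0 0 896 233 (-456) (-18) 0 135 255 255 255))
    (.leaf (lf 927 0 (-659) 799 189 (-1024) 0 0 137 217 73 255))))
    (.node 2
    (.leaf (lf 1024 0 (-419) 879 235 (-859) 0 0 158 222 86 255))
    (.leaf (lf 1024 0 (-398) 877 232 (-829) 0 0 150 230 76 255))))
    (.node 0
    (.node 2
    (.node 1
    (.leaf (lf 1024 0 0 884 231 (-451) (-15) 0 130 255 255 255))
    (.leaf (lf 963 0 (-658) 828 193 (-1024) 0 0 133 226 77 255)))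
    (.node 1
    (.leaf (lf 1024 0 0 873 230 (-447) (-12) 0 125 255 255 255))
    (.leaf (lf 1003 0 (-656) 860 197 (-1024) 0 0 131 225 76 255))))
    (.node 2
    (.node 1
    (.leaf (lf 1024 0 0 913 238 (-466) (-19) 0 138 255 255 255))
    (.leaf (lf 901 0 (-647) 791 188 (-1024) 0 0 137 216 72 255)))
    (.node 1
    (.leaf (lf 1024 0 0 902 236 (-462) (-15) 0 134 255 255 255))
    (.leaf (lf 935 0 (-646) 819 192 (-1024) 0 0 134 218 73 255))))))
    (by decide +kernel)

def goodS0X_730 :
    Check.Good noCone cfS0X (reach cfS0X ⟨litS0X, 1, fsS0X⟩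
      [(2, true), (1, true), (1, true), (0, true), (2, true), (0, false), (2, true), (1, true), (2, false), (0, true), (2, false), (0, true), (2, false)]) :=
  Check.good_node (a := 0) (by decide +kernel)
    goodS0X_731 goodS0X_732

def goodS0X_724 :
    Check.Good noCone cfS0X (reach cfS0X ⟨litS0X, 1, fsS0X⟩
      [(1, true), (1, true), (0, true), (2, true), (0, false), (2, true), (1, true), (2, false), (0, true), (2, false), (0, true), (2, false)]) :=
  Check.good_node (a := 2) (by decide +kernel)
    goodS0X_725 goodS0X_730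

def goodS0X_722 :
    Check.Good noCone cfS0X (reach cfS0X ⟨litS0X, 1, fsS0X⟩
      [(1, true), (0, true), (2, true), (0, false), (2, true), (1, true), (2, false), (0, true), (2, false), (0, true), (2, false)]) :=
  Check.good_node (a := 1) (by decide +kernel)
    goodS0X_723 goodS0X_724

def goodS0X_720 :
    Check.Good noCone cfS0X (reach cfS0X ⟨litS0X, 1, fsS0X⟩
      [(0, true), (2, true), (0, false), (2, true), (1, true), (2, false), (0, true), (2, false), (0, true), (2, false)]) :=
  Check.good_node (a := 1) (by decide +kernel)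
    goodS0X_721 goodS0X_722

def goodS0X_710 :
    Check.Good noCone cfS0X (reach cfS0X ⟨litS0X, 1, fsS0X⟩
      [(2, true), (0, false), (2, true), (1, true), (2, false), (0, true), (2, false), (0, true), (2, false)]) :=
  Check.good_node (a := 0) (by decide +kernel)
    goodS0X_711 goodS0X_720

def goodS0X_674 :
    Check.Good noCone cfS0X (reach cfS0X ⟨litS0X, 1, fsS0X⟩
      [(0, false), (2, true), (1, true), (2, false), (0, true), (2, false), (0, true), (2, false)]) :=
  Check.good_node (a := 2) (by decide +kernel)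
    goodS0X_675 goodS0X_710

end

end Vale.Agent.P211.Cert.Interior.Data
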