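import Vale.Agent.P211.Cert.Interior.Data.S0Xr

/-!
P211, a part of a cell of the interior family (generated).
-/

namespace Vale.Agent.P211.Cert.Interior.Data

open Vale.Agent.P098.Check6 (ofChunks eqList reach St Cfg Face)
open Vale.Agent.P098.Cert6.Kron (RootPar parOK)

set_option linter.defProp false

noncomputable section

def goodS0X_737 :
    Check.Good noCone cfS0X (reach cfS0X ⟨litS0X, 1, fsS0X⟩
      [(1, false), (2, false), (0, false), (2, false), (0, true), (2, true), (1, true), (2, false), (0, true), (2, false), (0, true), (2, false)]) :=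
  Check.check_sound
    (.node 1
    (.leaf (lf 1024 0 0 377 175 (-336) 108 0 156 255 241 167))
    (.leaf (lf 1024 0 0 544 241 (-469) 86 0 221 255 255 255)))
    (by decide +kernel)

def goodS0X_740 :
    Check.Good noCone cfS0X (reach cfS0X ⟨litS0X, 1, fsS0X⟩
      [(0, false), (2, false), (1, true), (2, false), (0, false), (2, false), (0, true), (2, true), (1, true), (2, false), (0, true), (2, false), (0, true), (2, false)]) :=
  Check.check_sound
    (.node 1
    (.leaf (lf 1024 0 0 805 291 (-568) 7 0 278 255 255 255))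
    (.node 2
    (.node 0
    (.node 1
    (.leaf (lf 962 0 0 1024 265 (-512) (-96) 0 257 255 255 255))
    (.leaf (lf 783 0 0 1024 160 (-303) (-158) 0 155 255 92 199)))
    (.node 1
    (.leaf (lf 940 0 0 1024 267 (-513) (-102) 0 267 255 255 255))
    (.leaf (lf 765 0 0 1024 162 (-304) (-166) 0 161 255 104 229))))
    (.node 0
    (.node 1
    (.leaf (lf 971 0 0 1024 264 (-513) (-89) 0 246 255 255 255))
    (.leaf (lf 789 0 0 1024 158 (-302) (-149) 0 148 255 94 197)))
    (.node 1
    (.leaf (lf 948 0 0 1024 266 (-514) (-94) 0 256 255 255 255))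
    (.leaf (lf 771 0 0 1024 160 (-304) (-156) 0 154 255 92 200))))))
    (by decide +kernel)

def goodS0X_741 :
    Check.Good noCone cfS0X (reach cfS0X ⟨litS0X, 1, fsS0X⟩
      [(0, true), (2, false), (1, true), (2, false), (0, false), (2, false), (0, true), (2, true), (1, true), (2, false), (0, true), (2, false), (0, true), (2, false)]) :=
  Check.check_sound
    (.node 1
    (.leaf (lf 1024 0 0 841 308 (-597) 3 0 313 255 255 255))
    (.node 2
    (.node 0
    (.node 1
    (.leaf (lf 919 0 0 1024 269 (-515) (-108) 0 277 255 255 255))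
    (.leaf (lf 749 0 0 1024 164 (-306) (-174) 0 168 255 108 230)))
    (.node 1
    (.leaf (lf 900 0 0 1024 272 (-516) (-114) 0 288 255 255 255))
    (.leaf (lf 733 0 0 1024 166 (-308) (-182) 0 175 255 107 230))))
    (.node 0
    (.node 1
    (.leaf (lf 927 0 0 1024 268 (-515) (-100) 0 266 255 255 255))
    (.leaf (lf 754 0 0 1024 162 (-305) (-164) 0 160 255 107 230)))
    (.node 1
    (.leaf (lf 907 0 0 1024 270 (-517) (-106) 0 276 255 255 255))
    (.leaf (lf 738 0 0 1024 164 (-307) (-172) 0 167 255 110 230))))))
    (by decide +kernel)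

def goodS0X_739 :
    Check.Good noCone cfS0X (reach cfS0X ⟨litS0X, 1, fsS0X⟩
      [(2, false), (1, true), (2, false), (0, false), (2, false), (0, true), (2, true), (1, true), (2, false), (0, true), (2, false), (0, true), (2, false)]) :=
  Check.good_node (a := 0) (by decide +kernel)
    goodS0X_740 goodS0X_741

def goodS0X_743 :
    Check.Good noCone cfS0X (reach cfS0X ⟨litS0X, 1, fsS0X⟩
      [(0, false), (2, true), (1, true), (2, false), (0, false), (2, false), (0, true), (2, true), (1, true), (2, false), (0, true), (2, false), (0, true), (2, false)]) :=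
  Check.check_sound
    (.node 1
    (.leaf (lf 1024 0 0 788 283 (-557) 13 0 250 255 255 255))
    (.node 2
    (.node 0
    (.node 1
    (.leaf (lf 980 0 0 1024 263 (-513) (-82) 0 236 255 255 255))
    (.leaf (lf 795 0 0 1024 157 (-302) (-140) 0 142 255 91 196)))
    (.node 1
    (.leaf (lf 957 0 0 1024 265 (-514) (-87) 0 245 255 255 255))
    (.leaf (lf 776 0 0 1024 159 (-304) (-148) 0 147 255 94 195))))
    (.node 0
    (.node 1
    (.leaf (lf 989 0 0 1024 262 (-513) (-75) 0 227 255 255 255))
    (.leaf (lf 801 0 0 1024 156 (-302) (-133) 0 136 255 96 195)))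
    (.node 1
    (.leaf (lf 965 0 0 1024 264 (-515) (-81) 0 236 255 255 255))
    (.leaf (lf 782 0 0 1024 158 (-303) (-139) 0 141 255 90 199))))))
    (by decide +kernel)

def goodS0X_744 :
    Check.Good noCone cfS0X (reach cfS0X ⟨litS0X, 1, fsS0X⟩
      [(0, true), (2, true), (1, true), (2, false), (0, false), (2, false), (0, true), (2, true), (1, true), (2, false), (0, true), (2, false), (0, true), (2, false)]) :=
  Check.check_sound
    (.node 1
    (.leaf (lf 1024 0 0 825 300 (-586) 10 0 281 255 255 255))
    (.node 2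
    (.node 0
    (.node 1
    (.leaf (lf 935 0 0 1024 267 (-516) (-93) 0 255 255 255 255))
    (.leaf (lf 759 0 0 1024 160 (-305) (-155) 0 153 255 95 199)))
    (.node 1
    (.leaf (lf 914 0 0 1024 269 (-517) (-98) 0 264 255 255 255))
    (.leaf (lf 742 0 0 1024 162 (-307) (-162) 0 159 255 103 228))))
    (.node 0
    (.node 1
    (.leaf (lf 943 0 0 1024 266 (-516) (-86) 0 244 255 255 255))
    (.leaf (lf 764 0 0 1024 159 (-305) (-146) 0 147 255 91 201)))
    (.node 1
    (.leaf (lf 922 0 0 1024 268 (-518) (-91) 0 254 255 255 255))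
    (.leaf (lf 747 0 0 1024 161 (-306) (-153) 0 153 255 90 200))))))
    (by decide +kernel)

def goodS0X_742 :
    Check.Good noCone cfS0X (reach cfS0X ⟨litS0X, 1, fsS0X⟩
      [(2, true), (1, true), (2, false), (0, false), (2, false), (0, true), (2, true), (1, true), (2, false), (0, true), (2, false), (0, true), (2, false)]) :=
  Check.good_node (a := 0) (by decide +kernel)
    goodS0X_743 goodS0X_744

def goodS0X_738 :
    Check.Good noCone cfS0X (reach cfS0X ⟨litS0X, 1, fsS0X⟩
      [(1, true), (2, false), (0, false), (2, false), (0, true), (2, true), (1, true), (2, false), (0, true), (2, false), (0, true), (2, false)]) :=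
  Check.good_node (a := 2) (by decide +kernel)
    goodS0X_739 goodS0X_742

def goodS0X_736 :
    Check.Good noCone cfS0X (reach cfS0X ⟨litS0X, 1, fsS0X⟩
      [(2, false), (0, false), (2, false), (0, true), (2, true), (1, true), (2, false), (0, true), (2, false), (0, true), (2, false)]) :=
  Check.good_node (a := 1) (by decide +kernel)
    goodS0X_737 goodS0X_738

def goodS0X_746 :
    Check.Good noCone cfS0X (reach cfS0X ⟨litS0X, 1, fsS0X⟩
      [(1, false), (2, true), (0, false), (2, false), (0, true), (2, true), (1, true), (2, false), (0, true), (2, false), (0, true), (2, false)]) :=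
  Check.check_sound
    (.node 1
    (.leaf (lf 1024 0 0 361 167 (-319) 98 0 127 255 245 156))
    (.leaf (lf 1024 0 0 521 230 (-447) 82 0 181 255 255 255)))
    (by decide +kernel)

def goodS0X_749 :
    Check.Good noCone cfS0X (reach cfS0X ⟨litS0X, 1, fsS0X⟩
      [(0, false), (2, false), (1, true), (2, true), (0, false), (2, false), (0, true), (2, true), (1, true), (2, false), (0, true), (2, false), (0, true), (2, false)]) :=
  Check.check_sound
    (.node 1
    (.leaf (lf 1024 0 0 771 277 (-545) 18 0 226 255 255 255))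
    (.node 2
    (.node 0
    (.node 1
    (.leaf (lf 999 0 0 1024 262 (-514) (-69) 0 218 255 255 255))
    (.leaf (lf 808 0 0 1024 155 (-302) (-125) 0 130 255 92 195)))
    (.node 1
    (.leaf (lf 974 0 0 1024 263 (-515) (-74) 0 227 255 255 255))
    (.leaf (lf 788 0 0 1024 157 (-303) (-132) 0 136 255 94 195))))
    (.node 0
    (.node 1
    (.leaf (lf 1009 0 0 1024 262 (-514) (-64) 0 210 255 255 255))
    (.leaf (lf 659 0 (-621) 598 172 (-1024) 0 0 191 203 78 255)))
    (.node 1
    (.leaf (lf 983 0 0 1024 263 (-516) (-69) 0 218 255 255 255))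
    (.leaf (lf 794 0 0 1024 156 (-303) (-125) 0 130 255 94 194))))))
    (by decide +kernel)

def goodS0X_750 :
    Check.Good noCone cfS0X (reach cfS0X ⟨litS0X, 1, fsS0X⟩
      [(0, true), (2, false), (1, true), (2, true), (0, false), (2, false), (0, true), (2, true), (1, true), (2, false), (0, true), (2, false), (0, true), (2, false)]) :=
  Check.check_sound
    (.node 1
    (.leaf (lf 1024 0 0 809 293 (-574) 16 0 255 255 255 255))
    (.node 2
    (.node 0
    (.node 1
    (.leaf (lf 951 0 0 1024 265 (-517) (-79) 0 235 255 255 255))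
    (.leaf (lf 769 0 0 1024 158 (-304) (-139) 0 141 255 95 197)))
    (.node 1
    (.leaf (lf 929 0 0 1024 267 (-518) (-85) 0 244 255 255 255))
    (.leaf (lf 752 0 0 1024 160 (-306) (-145) 0 147 255 90 199))))
    (.node 0
    (.node 1
    (.leaf (lf 960 0 0 1024 264 (-517) (-74) 0 226 255 255 255))
    (.leaf (lf 775 0 0 1024 157 (-304) (-131) 0 135 255 90 197)))
    (.node 1
    (.leaf (lf 937 0 0 1024 266 (-518) (-78) 0 235 255 255 255))
    (.leaf (lf 757 0 0 1024 159 (-305) (-138) 0 141 255 93 197))))))
    (by decide +kernel)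

def goodS0X_748 :
    Check.Good noCone cfS0X (reach cfS0X ⟨litS0X, 1, fsS0X⟩
      [(2, false), (1, true), (2, true), (0, false), (2, false), (0, true), (2, true), (1, true), (2, false), (0, true), (2, false), (0, true), (2, false)]) :=
  Check.good_node (a := 0) (by decide +kernel)
    goodS0X_749 goodS0X_750

def goodS0X_752 :
    Check.Good noCone cfS0X (reach cfS0X ⟨litS0X, 1, fsS0X⟩
      [(0, false), (2, true), (1, true), (2, true), (0, false), (2, false), (0, true), (2, true), (1, true), (2, false), (0, true), (2, false), (0, true), (2, false)]) :=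
  Check.check_sound
    (.node 1
    (.leaf (lf 1024 0 0 754 271 (-534) 23 0 206 255 255 255))
    (.node 2
    (.node 0
    (.node 1
    (.leaf (lf 1019 0 0 1024 261 (-515) (-58) 0 203 255 255 255))
    (.leaf (lf 674 0 (-623) 612 172 (-1024) 0 0 184 207 75 255)))
    (.node 1
    (.leaf (lf 993 0 0 1024 262 (-516) (-63) 0 211 255 255 255))
    (.leaf (lf 648 0 (-609) 599 172 (-1024) 0 0 191 206 78 255))))
    (.node 0
    (.node 1
    (.leaf (lf 1024 0 0 1019 260 (-513) (-53) 0 195 255 255 255))
    (.leaf (lf 691 0 (-625) 626 173 (-1024) 0 0 177 207 74 255)))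
    (.node 1
    (.leaf (lf 1003 0 0 1024 262 (-517) (-58) 0 204 255 255 255))
    (.leaf (lf 663 0 (-612) 611 173 (-1024) 0 0 184 205 74 255))))))
    (by decide +kernel)

def goodS0X_753 :
    Check.Good noCone cfS0X (reach cfS0X ⟨litS0X, 1, fsS0X⟩
      [(0, true), (2, true), (1, true), (2, true), (0, false), (2, false), (0, true), (2, true), (1, true), (2, false), (0, true), (2, false), (0, true), (2, false)]) :=
  Check.check_sound
    (.node 1
    (.leaf (lf 1024 0 0 792 286 (-563) 21 0 233 255 255 255))
    (.node 2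
    (.node 0
    (.node 1
    (.leaf (lf 969 0 0 1024 264 (-517) (-68) 0 218 255 255 255))
    (.leaf (lf 625 0 (-596) 587 173 (-1024) 0 0 199 204 77 255)))
    (.node 1
    (.leaf (lf 946 0 0 1024 265 (-519) (-73) 0 227 255 255 255))
    (.leaf (lf 763 0 0 1024 158 (-305) (-131) 0 135 255 94 197))))
    (.node 0
    (.node 1
    (.leaf (lf 978 0 0 1024 263 (-518) (-63) 0 211 255 255 255))
    (.leaf (lf 638 0 (-598) 599 173 (-1024) 0 0 191 205 78 255)))
    (.node 1
    (.leaf (lf 954 0 0 1024 265 (-519) (-67) 0 219 255 255 255))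
    (.leaf (lf 615 0 (-585) 588 173 (-1024) 0 0 199 206 77 255))))))
    (by decide +kernel)

def goodS0X_751 :
    Check.Good noCone cfS0X (reach cfS0X ⟨litS0X, 1, fsS0X⟩
      [(2, true), (1, true), (2, true), (0, false), (2, false), (0, true), (2, true), (1, true), (2, false), (0, true), (2, false), (0, true), (2, false)]) :=
  Check.good_node (a := 0) (by decide +kernel)
    goodS0X_752 goodS0X_753

def goodS0X_747 :
    Check.Good noCone cfS0X (reach cfS0X ⟨litS0X, 1, fsS0X⟩
      [(1, true), (2, true), (0, false), (2, false), (0, true), (2, true), (1, true), (2, false), (0, true), (2, false), (0, true), (2, false)]) :=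
  Check.good_node (a := 2) (by decide +kernel)
    goodS0X_748 goodS0X_751

def goodS0X_745 :
    Check.Good noCone cfS0X (reach cfS0X ⟨litS0X, 1, fsS0X⟩
      [(2, true), (0, false), (2, false), (0, true), (2, true), (1, true), (2, false), (0, true), (2, false), (0, true), (2, false)]) :=
  Check.good_node (a := 1) (by decide +kernel)
    goodS0X_746 goodS0X_747

def goodS0X_735 :
    Check.Good noCone cfS0X (reach cfS0X ⟨litS0X, 1, fsS0X⟩
      [(0, false), (2, false), (0, true), (2, true), (1, true), (2, false), (0, true), (2, false), (0, true), (2, false)]) :=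
  Check.good_node (a := 2) (by decide +kernel)
    goodS0X_736 goodS0X_745

def goodS0X_756 :
    Check.Good noCone cfS0X (reach cfS0X ⟨litS0X, 1, fsS0X⟩
      [(1, false), (2, false), (0, true), (2, false), (0, true), (2, true), (1, true), (2, false), (0, true), (2, false), (0, true), (2, false)]) :=
  Check.check_sound
    (.node 1
    (.leaf (lf 1024 0 0 410 191 (-363) 129 0 193 255 239 171))
    (.leaf (lf 1024 0 0 590 266 (-512) 100 0 277 255 255 255)))
    (by decide +kernel)

def goodS0X_758 :
    Check.Good noCone cfS0X (reach cfS0X ⟨litS0X, 1, fsS0X⟩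
      [(2, false), (1, true), (2, false), (0, true), (2, false), (0, true), (2, true), (1, true), (2, false), (0, true), (2, false), (0, true), (2, false)]) :=
  Check.check_sound
    (.node 0
    (.node 1
    (.leaf (lf 1024 0 0 877 325 (-625) (-1) 0 350 255 255 255))
    (.node 2
    (.node 0
    (.leaf (lf 11896 0 (-7813) 11320 4014 (-16384) 0 0 5217 204 84 255))
    (.leaf (lf 725 0 (-479) 701 253 (-1024) 0 0 338 205 84 255)))
    (.node 0
    (.leaf (lf 756 0 (-488) 719 250 (-1024) 0 0 312 203 83 255))
    (.leaf (lf 737 0 (-479) 712 252 (-1024) 0 0 323 204 84 255)))))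
    (.node 1
    (.leaf (lf 1024 0 0 912 343 (-652) (-5) 0 391 255 255 255))
    (.node 2
    (.leaf (lf 700 0 (-466) 693 256 (-1024) 0 0 357 203 93 255))
    (.leaf (lf 710 0 (-466) 703 255 (-1024) 0 0 341 202 92 255)))))
    (by decide +kernel)

def goodS0X_759 :
    Check.Good noCone cfS0X (reach cfS0X ⟨litS0X, 1, fsS0X⟩
      [(2, true), (1, true), (2, false), (0, true), (2, false), (0, true), (2, true), (1, true), (2, false), (0, true), (2, false), (0, true), (2, false)]) :=
  Check.check_sound
    (.node 0
    (.node 1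
    (.leaf (lf 1024 0 0 861 317 (-614) 7 0 316 255 255 255))
    (.node 2
    (.node 0
    (.node 1
    (.leaf (lf 895 0 0 1024 271 (-519) (-104) 0 274 255 255 255))
    (.leaf (lf 727 0 0 1024 164 (-308) (-169) 0 166 255 103 231)))
    (.leaf (lf 749 0 (-479) 724 251 (-1024) 0 0 310 204 83 255)))
    (.node 0
    (.node 1
    (.leaf (lf 902 0 0 1024 270 (-519) (-96) 0 263 255 255 255))
    (.leaf (lf 731 0 0 1024 163 (-308) (-161) 0 159 255 96 202)))
    (.node 1
    (.leaf (lf 883 0 0 1024 272 (-520) (-102) 0 273 255 255 255))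
    (.leaf (lf 716 0 0 1024 165 (-310) (-168) 0 165 255 106 231))))))
    (.node 1
    (.leaf (lf 1024 0 0 896 334 (-642) 4 0 352 255 255 255))
    (.node 2
    (.leaf (lf 721 0 (-466) 713 254 (-1024) 0 0 326 200 92 255))
    (.node 0
    (.leaf (lf 742 0 (-470) 728 252 (-1024) 0 0 308 204 82 255))
    (.leaf (lf 723 0 (-461) 721 254 (-1024) 0 0 319 206 82 255))))))
    (by decide +kernel)

def goodS0X_757 :
    Check.Good noCone cfS0X (reach cfS0X ⟨litS0X, 1, fsS0X⟩
      [(1, true), (2, false), (0, true), (2, false), (0, true), (2, true), (1, true), (2, false), (0, true), (2, false), (0, true), (2, false)]) :=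
  Check.good_node (a := 2) (by decide +kernel)
    goodS0X_758 goodS0X_759

def goodS0X_755 :
    Check.Good noCone cfS0X (reach cfS0X ⟨litS0X, 1, fsS0X⟩
      [(2, false), (0, true), (2, false), (0, true), (2, true), (1, true), (2, false), (0, true), (2, false), (0, true), (2, false)]) :=
  Check.good_node (a := 1) (by decide +kernel)
    goodS0X_756 goodS0X_757

def goodS0X_761 :
    Check.Good noCone cfS0X (reach cfS0X ⟨litS0X, 1, fsS0X⟩
      [(1, false), (2, true), (0, true), (2, false), (0, true), (2, true), (1, true), (2, false), (0, true), (2, false), (0, true), (2, false)]) :=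
  Check.check_sound
    (.node 1
    (.leaf (lf 1024 0 0 396 182 (-347) 116 0 157 255 255 255))
    (.leaf (lf 1024 0 0 569 254 (-491) 95 0 226 255 255 255)))
    (by decide +kernel)

def goodS0X_763 :
    Check.Good noCone cfS0X (reach cfS0X ⟨litS0X, 1, fsS0X⟩
      [(2, false), (1, true), (2, true), (0, true), (2, false), (0, true), (2, true), (1, true), (2, false), (0, true), (2, false), (0, true), (2, false)]) :=
  Check.check_sound
    (.node 0
    (.node 1
    (.leaf (lf 1024 0 0 846 309 (-603) 13 0 286 255 255 255))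
    (.node 2
    (.node 0
    (.node 1
    (.leaf (lf 909 0 0 1024 268 (-519) (-90) 0 253 255 255 255))
    (.leaf (lf 736 0 0 1024 161 (-308) (-152) 0 152 255 92 200)))
    (.node 1
    (.leaf (lf 890 0 0 1024 270 (-521) (-95) 0 262 255 255 255))
    (.leaf (lf 720 0 0 1024 163 (-309) (-159) 0 158 255 102 232))))
    (.node 0
    (.node 1
    (.leaf (lf 916 0 0 1024 267 (-520) (-83) 0 244 255 255 255))
    (.leaf (lf 740 0 0 1024 160 (-307) (-144) 0 146 255 88 201)))
    (.node 1
    (.leaf (lf 897 0 0 1024 269 (-521) (-88) 0 252 255 255 255))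
    (.leaf (lf 724 0 0 1024 162 (-309) (-151) 0 152 255 89 203))))))
    (.node 1
    (.leaf (lf 1024 0 0 881 326 (-631) 11 0 320 255 255 255))
    (.node 2
    (.node 0
    (.node 1
    (.leaf (lf 872 0 0 1024 273 (-522) (-100) 0 272 255 255 255))
    (.leaf (lf 705 0 0 1024 165 (-311) (-166) 0 165 255 101 232)))
    (.leaf (lf 735 0 (-461) 732 253 (-1024) 0 0 306 204 82 255)))
    (.node 0
    (.node 1
    (.leaf (lf 878 0 0 1024 271 (-523) (-93) 0 262 255 255 255))
    (.leaf (lf 709 0 0 1024 164 (-311) (-158) 0 158 255 102 232)))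
    (.leaf (lf 746 0 (-461) 743 253 (-1024) 0 0 295 205 81 255))))))
    (by decide +kernel)

def goodS0X_765 :
    Check.Good noCone cfS0X (reach cfS0X ⟨litS0X, 1, fsS0X⟩
      [(0, false), (2, true), (1, true), (2, true), (0, true), (2, false), (0, true), (2, true), (1, true), (2, false), (0, true), (2, false), (0, true), (2, false)]) :=
  Check.check_sound
    (.node 1
    (.leaf (lf 1024 0 0 830 302 (-592) 19 0 261 255 255 255))
    (.node 2
    (.node 0
    (.node 1
    (.leaf (lf 924 0 0 1024 267 (-520) (-78) 0 235 255 255 255))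
    (.leaf (lf 745 0 0 1024 159 (-307) (-137) 0 141 255 90 201)))
    (.node 1
    (.leaf (lf 904 0 0 1024 268 (-522) (-82) 0 243 255 255 255))
    (.leaf (lf 729 0 0 1024 161 (-308) (-144) 0 146 255 93 202))))
    (.node 0
    (.node 1
    (.leaf (lf 932 0 0 1024 266 (-521) (-72) 0 227 255 255 255))
    (.leaf (lf 750 0 0 1024 158 (-306) (-130) 0 136 255 87 198)))
    (.node 1
    (.leaf (lf 911 0 0 1024 268 (-522) (-77) 0 235 255 255 255))
    (.leaf (lf 734 0 0 1024 160 (-308) (-137) 0 141 255 94 201))))))
    (by decide +kernel)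

def goodS0X_766 :
    Check.Good noCone cfS0X (reach cfS0X ⟨litS0X, 1, fsS0X⟩
      [(0, true), (2, true), (1, true), (2, true), (0, true), (2, false), (0, true), (2, true), (1, true), (2, false), (0, true), (2, false), (0, true), (2, false)]) :=
  Check.check_sound
    (.node 1
    (.leaf (lf 1024 0 0 866 319 (-621) 16 0 292 255 255 255))
    (.node 2
    (.node 0
    (.node 1
    (.leaf (lf 885 0 0 1024 270 (-523) (-87) 0 252 255 255 255))
    (.leaf (lf 714 0 0 1024 163 (-310) (-150) 0 152 255 91 205)))
    (.node 1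
    (.leaf (lf 867 0 0 1024 272 (-525) (-92) 0 261 255 255 255))
    (.leaf (lf 699 0 0 1024 164 (-312) (-157) 0 158 255 103 234))))
    (.node 0
    (.node 1
    (.leaf (lf 891 0 0 1024 269 (-524) (-81) 0 243 255 255 255))
    (.leaf (lf 718 0 0 1024 161 (-310) (-143) 0 146 255 90 201)))
    (.node 1
    (.leaf (lf 873 0 0 1024 271 (-525) (-86) 0 252 255 255 255))
    (.leaf (lf 703 0 0 1024 163 (-312) (-149) 0 152 255 87 205))))))
    (by decide +kernel)

def goodS0X_764 :
    Check.Good noCone cfS0X (reach cfS0X ⟨litS0X, 1, fsS0X⟩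
      [(2, true), (1, true), (2, true), (0, true), (2, false), (0, true), (2, true), (1, true), (2, false), (0, true), (2, false), (0, true), (2, false)]) :=
  Check.good_node (a := 0) (by decide +kernel)
    goodS0X_765 goodS0X_766

def goodS0X_762 :
    Check.Good noCone cfS0X (reach cfS0X ⟨litS0X, 1, fsS0X⟩
      [(1, true), (2, true), (0, true), (2, false), (0, true), (2, true), (1, true), (2, false), (0, true), (2, false), (0, true), (2, false)]) :=
  Check.good_node (a := 2) (by decide +kernel)
    goodS0X_763 goodS0X_764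

def goodS0X_760 :
    Check.Good noCone cfS0X (reach cfS0X ⟨litS0X, 1, fsS0X⟩
      [(2, true), (0, true), (2, false), (0, true), (2, true), (1, true), (2, false), (0, true), (2, false), (0, true), (2, false)]) :=
  Check.good_node (a := 1) (by decide +kernel)
    goodS0X_761 goodS0X_762

def goodS0X_754 :
    Check.Good noCone cfS0X (reach cfS0X ⟨litS0X, 1, fsS0X⟩
      [(0, true), (2, false), (0, true), (2, true), (1, true), (2, false), (0, true), (2, false), (0, true), (2, false)]) :=
  Check.good_node (a := 2) (by decide +kernel)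
    goodS0X_755 goodS0X_760

def goodS0X_734 :
    Check.Good noCone cfS0X (reach cfS0X ⟨litS0X, 1, fsS0X⟩
      [(2, false), (0, true), (2, true), (1, true), (2, false), (0, true), (2, false), (0, true), (2, false)]) :=
  Check.good_node (a := 0) (by decide +kernel)
    goodS0X_735 goodS0X_754

def goodS0X_769 :
    Check.Good noCone cfS0X (reach cfS0X ⟨litS0X, 1, fsS0X⟩
      [(1, false), (0, false), (2, true), (0, true), (2, true), (1, true), (2, false), (0, true), (2, false), (0, true), (2, false)]) :=
  Check.check_sound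
    (.node 1
    (.node 2
    (.leaf (lf 1024 0 0 343 161 (-304) 91 0 106 255 249 150))
    (.leaf (lf 1024 0 0 324 156 (-290) 85 0 90 255 252 140)))
    (.leaf (lf 16384 0 0 7785 3496 (-6644) 1212 0 2203 255 255 255)))
    (by decide +kernel)

def goodS0X_771 :
    Check.Good noCone cfS0X (reach cfS0X ⟨litS0X, 1, fsS0X⟩
      [(1, false), (1, true), (0, false), (2, true), (0, true), (2, true), (1, true), (2, false), (0, true), (2, false), (0, true), (2, false)]) :=
  Check.check_sound
    (.leaf (lf 1024 0 0 734 267 (-517) 30 0 175 255 255 255))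
    (by decide +kernel)

def goodS0X_776 :
    Check.Good noCone cfS0X (reach cfS0X ⟨litS0X, 1, fsS0X⟩
      [(0, false), (2, false), (0, false), (2, false), (1, true), (1, true), (0, false), (2, true), (0, true), (2, true), (1, true), (2, false), (0, true), (2, false), (0, true), (2, false)]) :=
  Check.check_sound
    (.node 2
    (.node 1
    (.leaf (lf 1024 0 0 1008 257 (-508) (-48) 0 187 255 255 255))
    (.leaf (lf 11339 0 (-10043) 10257 2781 (-16384) 0 0 2729 207 72 255)))
    (.node 1
    (.leaf (lf 1024 0 0 997 255 (-504) (-43) 0 179 255 255 255))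
    (.node 0
    (.node 2
    (.node 1
    (.leaf (lf 897 0 0 1024 187 (-368) (-82) 0 133 255 255 255))
    (.leaf (lf 805 0 0 1024 115 (-226) (-106) 0 82 255 117 241)))
    (.node 1
    (.leaf (lf 902 0 0 1024 187 (-368) (-80) 0 130 255 255 255))
    (.leaf (lf 809 0 0 1024 115 (-226) (-103) 0 81 255 112 239))))
    (.node 2
    (.node 1
    (.leaf (lf 885 0 0 1024 187 (-368) (-85) 0 135 255 255 255))
    (.leaf (lf 794 0 0 1024 115 (-226) (-109) 0 83 255 114 236)))
    (.node 1
    (.leaf (lf 889 0 0 1024 187 (-369) (-82) 0 133 255 255 255))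
    (.leaf (lf 797 0 0 1024 115 (-226) (-106) 0 82 255 106 241)))))))
    (by decide +kernel)

def goodS0X_777 :
    Check.Good noCone cfS0X (reach cfS0X ⟨litS0X, 1, fsS0X⟩
      [(0, true), (2, false), (0, false), (2, false), (1, true), (1, true), (0, false), (2, true), (0, true), (2, true), (1, true), (2, false), (0, true), (2, false), (0, true), (2, false)]) :=
  Check.check_sound
    (.node 2
    (.node 1
    (.leaf (lf 1013 0 0 1024 262 (-517) (-53) 0 197 255 255 255))
    (.leaf (lf 679 0 (-614) 625 173 (-1024) 0 0 177 205 75 255)))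
    (.node 1
    (.leaf (lf 1023 0 0 1024 262 (-518) (-49) 0 191 255 255 255))
    (.node 0
    (.node 2
    (.node 1
    (.leaf (lf 873 0 0 1024 187 (-369) (-88) 0 137 255 255 255))
    (.leaf (lf 783 0 0 1024 115 (-226) (-112) 0 85 255 113 241)))
    (.node 1
    (.leaf (lf 877 0 0 1024 187 (-369) (-85) 0 135 255 255 255))
    (.leaf (lf 787 0 0 1024 115 (-226) (-109) 0 84 255 111 236))))
    (.node 2
    (.node 1
    (.leaf (lf 861 0 0 1024 187 (-369) (-90) 0 140 255 255 255))
    (.leaf (lf 773 0 0 1024 116 (-227) (-115) 0 87 255 112 239)))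
    (.node 1
    (.leaf (lf 865 0 0 1024 187 (-369) (-88) 0 138 255 255 255))
    (.leaf (lf 776 0 0 1024 115 (-226) (-112) 0 85 255 107 243)))))))
    (by decide +kernel)

def goodS0X_775 :
    Check.Good noCone cfS0X (reach cfS0X ⟨litS0X, 1, fsS0X⟩
      [(2, false), (0, false), (2, false), (1, true), (1, true), (0, false), (2, true), (0, true), (2, true), (1, true), (2, false), (0, true), (2, false), (0, true), (2, false)]) :=
  Check.good_node (a := 0) (by decide +kernel)
    goodS0X_776 goodS0X_777

def goodS0X_780 :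
    Check.Good noCone cfS0X (reach cfS0X ⟨litS0X, 1, fsS0X⟩
      [(2, false), (0, false), (2, true), (0, false), (2, false), (1, true), (1, true), (0, false), (2, true), (0, true), (2, true), (1, true), (2, false), (0, true), (2, false), (0, true), (2, false)]) :=
  Check.check_sound
    (.node 1
    (.leaf (lf 1024 0 0 986 253 (-499) (-39) 0 172 255 255 255))
    (.node 0
    (.node 2
    (.node 1
    (.leaf (lf 906 0 0 1024 187 (-369) (-77) 0 129 255 255 255))
    (.leaf (lf 813 0 0 1024 115 (-226) (-100) 0 79 255 103 237)))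
    (.node 1
    (.leaf (lf 911 0 0 1024 187 (-369) (-75) 0 127 255 255 255))
    (.leaf (lf 816 0 0 1024 115 (-226) (-98) 0 78 255 113 239))))
    (.node 2
    (.node 1
    (.leaf (lf 893 0 0 1024 187 (-369) (-80) 0 131 255 255 255))
    (.leaf (lf 801 0 0 1024 115 (-226) (-103) 0 81 255 103 241)))
    (.node 1
    (.leaf (lf 898 0 0 1024 187 (-369) (-77) 0 129 255 255 255))
    (.leaf (lf 805 0 0 1024 115 (-226) (-101) 0 80 255 118 235))))))
    (by decide +kernel)

def goodS0X_781 :
    Check.Good noCone cfS0X (reach cfS0X ⟨litS0X, 1, fsS0X⟩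
      [(2, true), (0, false), (2, true), (0, false), (2, false), (1, true), (1, true), (0, false), (2, true), (0, true), (2, true), (1, true), (2, false), (0, true), (2, false), (0, true), (2, false)]) :=
  Check.check_sound
    (.node 1
    (.leaf (lf 1024 0 0 976 251 (-495) (-34) 0 166 255 255 255))
    (.node 0
    (.node 2
    (.node 1
    (.leaf (lf 915 0 0 1024 187 (-369) (-72) 0 125 255 255 255))
    (.leaf (lf 820 0 0 1024 115 (-226) (-95) 0 77 255 106 244)))
    (.node 1
    (.leaf (lf 920 0 0 1024 187 (-370) (-70) 0 123 255 255 255))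
    (.leaf (lf 824 0 0 1024 115 (-226) (-93) 0 76 255 114 241))))
    (.node 2
    (.node 1
    (.leaf (lf 902 0 0 1024 187 (-369) (-75) 0 127 255 255 255))
    (.leaf (lf 809 0 0 1024 115 (-226) (-98) 0 78 255 107 239)))
    (.node 1
    (.leaf (lf 907 0 0 1024 187 (-370) (-73) 0 125 255 255 255))
    (.leaf (lf 812 0 0 1024 115 (-226) (-96) 0 77 255 115 241))))))
    (by decide +kernel)

def goodS0X_779 :
    Check.Good noCone cfS0X (reach cfS0X ⟨litS0X, 1, fsS0X⟩
      [(0, false), (2, true), (0, false), (2, false), (1, true), (1, true), (0, false), (2, true), (0, true), (2, true), (1, true), (2, false), (0, true), (2, false), (0, true), (2, false)]) :=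
  Check.good_node (a := 2) (by decide +kernel)
    goodS0X_780 goodS0X_781

def goodS0X_783 :
    Check.Good noCone cfS0X (reach cfS0X ⟨litS0X, 1, fsS0X⟩
      [(2, false), (0, true), (2, true), (0, false), (2, false), (1, true), (1, true), (0, false), (2, true), (0, true), (2, true), (1, true), (2, false), (0, true), (2, false), (0, true), (2, false)]) :=
  Check.check_sound
    (.node 1
    (.leaf (lf 1024 0 0 1014 260 (-514) (-44) 0 183 255 255 255))
    (.node 0
    (.node 2
    (.node 1
    (.leaf (lf 881 0 0 1024 187 (-369) (-82) 0 133 255 255 255))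
    (.leaf (lf 790 0 0 1024 115 (-226) (-106) 0 82 255 101 241)))
    (.node 1
    (.leaf (lf 885 0 0 1024 187 (-369) (-80) 0 131 255 255 255))
    (.leaf (lf 794 0 0 1024 115 (-226) (-103) 0 81 255 105 243))))
    (.node 2
    (.node 1
    (.leaf (lf 869 0 0 1024 187 (-369) (-85) 0 136 255 255 255))
    (.leaf (lf 779 0 0 1024 115 (-226) (-109) 0 84 255 103 237)))
    (.node 1
    (.leaf (lf 873 0 0 1024 187 (-370) (-83) 0 133 255 255 255))
    (.leaf (lf 783 0 0 1024 115 (-226) (-106) 0 82 255 104 241))))))
    (by decide +kernel)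

def goodS0X_784 :
    Check.Good noCone cfS0X (reach cfS0X ⟨litS0X, 1, fsS0X⟩
      [(2, true), (0, true), (2, true), (0, false), (2, false), (1, true), (1, true), (0, false), (2, true), (0, true), (2, true), (1, true), (2, false), (0, true), (2, false), (0, true), (2, false)]) :=
  Check.check_sound
    (.node 1
    (.leaf (lf 1024 0 0 1004 258 (-510) (-39) 0 176 255 255 255))
    (.node 0
    (.node 2
    (.node 1
    (.leaf (lf 890 0 0 1024 187 (-370) (-78) 0 129 255 255 255))
    (.leaf (lf 797 0 0 1024 115 (-226) (-101) 0 80 255 105 238)))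
    (.node 1
    (.leaf (lf 894 0 0 1024 187 (-370) (-75) 0 127 255 255 255))
    (.leaf (lf 801 0 0 1024 115 (-226) (-98) 0 78 255 104 238))))
    (.node 2
    (.node 1
    (.leaf (lf 877 0 0 1024 187 (-370) (-80) 0 132 255 255 255))
    (.leaf (lf 786 0 0 1024 115 (-226) (-104) 0 81 255 107 244)))
    (.node 1
    (.leaf (lf 881 0 0 1024 187 (-370) (-78) 0 130 255 255 255))
    (.leaf (lf 790 0 0 1024 115 (-226) (-101) 0 80 255 102 241))))))
    (by decide +kernel)

def goodS0X_782 :
    Check.Good noCone cfS0X (reach cfS0X ⟨litS0X, 1, fsS0X⟩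
      [(0, true), (2, true), (0, false), (2, false), (1, true), (1, true), (0, false), (2, true), (0, true), (2, true), (1, true), (2, false), (0, true), (2, false), (0, true), (2, false)]) :=
  Check.good_node (a := 2) (by decide +kernel)
    goodS0X_783 goodS0X_784

def goodS0X_778 :
    Check.Good noCone cfS0X (reach cfS0X ⟨litS0X, 1, fsS0X⟩
      [(2, true), (0, false), (2, false), (1, true), (1, true), (0, false), (2, true), (0, true), (2, true), (1, true), (2, false), (0, true), (2, false), (0, true), (2, false)]) :=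
  Check.good_node (a := 0) (by decide +kernel)
    goodS0X_779 goodS0X_782

def goodS0X_774 :
    Check.Good noCone cfS0X (reach cfS0X ⟨litS0X, 1, fsS0X⟩
      [(0, false), (2, false), (1, true), (1, true), (0, false), (2, true), (0, true), (2, true), (1, true), (2, false), (0, true), (2, false), (0, true), (2, false)]) :=
  Check.good_node (a := 2) (by decide +kernel)
    goodS0X_775 goodS0X_778

def goodS0X_786 :
    Check.Good noCone cfS0X (reach cfS0X ⟨litS0X, 1, fsS0X⟩
      [(2, false), (0, true), (2, false), (1, true), (1, true), (0, false), (2, true), (0, true), (2, true), (1, true), (2, false), (0, true), (2, false), (0, true), (2, false)]) :=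
  Check.check_sound
    (.node 0
    (.node 2
    (.node 1
    (.leaf (lf 987 0 0 1024 263 (-519) (-58) 0 204 255 255 255))
    (.leaf (lf 652 0 (-600) 611 173 (-1024) 0 0 184 205 76 255)))
    (.node 1
    (.leaf (lf 996 0 0 1024 263 (-519) (-53) 0 198 255 255 255))
    (.leaf (lf 666 0 (-603) 624 174 (-1024) 0 0 178 207 73 255))))
    (.node 2
    (.node 1
    (.leaf (lf 963 0 0 1024 264 (-520) (-62) 0 212 255 255 255))
    (.leaf (lf 628 0 (-587) 599 173 (-1024) 0 0 192 206 75 255)))
    (.node 1
    (.leaf (lf 972 0 0 1024 264 (-520) (-58) 0 205 255 255 255))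
    (.leaf (lf 641 0 (-590) 611 173 (-1024) 0 0 185 206 75 255)))))
    (by decide +kernel)

def goodS0X_789 :
    Check.Good noCone cfS0X (reach cfS0X ⟨litS0X, 1, fsS0X⟩
      [(2, false), (0, false), (2, true), (0, true), (2, false), (1, true), (1, true), (0, false), (2, true), (0, true), (2, true), (1, true), (2, false), (0, true), (2, false), (0, true), (2, false)]) :=
  Check.check_sound
    (.node 1
    (.leaf (lf 1006 0 0 1024 263 (-520) (-49) 0 192 255 255 255))
    (.node 0
    (.node 2
    (.node 1
    (.leaf (lf 857 0 0 1024 188 (-370) (-88) 0 138 255 255 255))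
    (.leaf (lf 769 0 0 1024 115 (-227) (-112) 0 85 255 100 238)))
    (.node 1
    (.leaf (lf 861 0 0 1024 188 (-370) (-85) 0 136 255 255 255))
    (.leaf (lf 772 0 0 1024 115 (-226) (-109) 0 84 255 107 239))))
    (.node 2
    (.node 1
    (.leaf (lf 846 0 0 1024 188 (-370) (-91) 0 140 255 255 255))
    (.leaf (lf 759 0 0 1024 116 (-227) (-115) 0 87 255 100 241)))
    (.node 1
    (.leaf (lf 850 0 0 1024 188 (-370) (-88) 0 138 255 255 255))
    (.leaf (lf 762 0 0 1024 115 (-227) (-112) 0 85 255 104 238))))))
    (by decide +kernel)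

def goodS0X_790 :
    Check.Good noCone cfS0X (reach cfS0X ⟨litS0X, 1, fsS0X⟩
      [(2, true), (0, false), (2, true), (0, true), (2, false), (1, true), (1, true), (0, false), (2, true), (0, true), (2, true), (1, true), (2, false), (0, true), (2, false), (0, true), (2, false)]) :=
  Check.check_sound
    (.node 1
    (.leaf (lf 1016 0 0 1024 263 (-521) (-44) 0 186 255 255 255))
    (.node 0
    (.node 2
    (.node 1
    (.leaf (lf 865 0 0 1024 188 (-370) (-83) 0 134 255 255 255))
    (.leaf (lf 775 0 0 1024 115 (-226) (-107) 0 83 255 104 233)))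
    (.node 1
    (.leaf (lf 869 0 0 1024 188 (-371) (-81) 0 132 255 255 255))
    (.leaf (lf 779 0 0 1024 115 (-226) (-104) 0 81 255 101 243))))
    (.node 2
    (.node 1
    (.leaf (lf 854 0 0 1024 188 (-371) (-86) 0 136 255 255 255))
    (.leaf (lf 765 0 0 1024 115 (-227) (-110) 0 84 255 107 242)))
    (.node 1
    (.leaf (lf 858 0 0 1024 188 (-371) (-83) 0 134 255 255 255))
    (.leaf (lf 768 0 0 1024 115 (-227) (-107) 0 83 255 103 241))))))
    (by decide +kernel)

def goodS0X_788 :
    Check.Good noCone cfS0X (reach cfS0X ⟨litS0X, 1, fsS0X⟩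
      [(0, false), (2, true), (0, true), (2, false), (1, true), (1, true), (0, false), (2, true), (0, true), (2, true), (1, true), (2, false), (0, true), (2, false), (0, true), (2, false)]) :=
  Check.good_node (a := 2) (by decide +kernel)
    goodS0X_789 goodS0X_790

def goodS0X_792 :
    Check.Good noCone cfS0X (reach cfS0X ⟨litS0X, 1, fsS0X⟩
      [(2, false), (0, true), (2, true), (0, true), (2, false), (1, true), (1, true), (0, false), (2, true), (0, true), (2, true), (1, true), (2, false), (0, true), (2, false), (0, true), (2, false)]) :=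
  Check.check_sound
    (.node 1
    (.leaf (lf 981 0 0 1024 264 (-521) (-53) 0 199 255 255 255))
    (.node 0
    (.node 2
    (.node 1
    (.leaf (lf 835 0 0 1024 188 (-371) (-93) 0 143 255 255 255))
    (.leaf (lf 749 0 0 1024 116 (-228) (-118) 0 88 255 101 235)))
    (.node 1
    (.leaf (lf 839 0 0 1024 188 (-371) (-91) 0 141 255 255 255))
    (.leaf (lf 752 0 0 1024 116 (-227) (-115) 0 87 255 105 242))))
    (.node 2
    (.node 1
    (.leaf (lf 825 0 0 1024 189 (-371) (-96) 0 146 255 255 255))
    (.leaf (lf 740 0 0 1024 116 (-228) (-121) 0 90 255 100 243)))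
    (.node 1
    (.leaf (lf 828 0 0 1024 189 (-371) (-93) 0 143 255 255 255))
    (.leaf (lf 743 0 0 1024 116 (-228) (-118) 0 89 255 101 240))))))
    (by decide +kernel)

def goodS0X_793 :
    Check.Good noCone cfS0X (reach cfS0X ⟨litS0X, 1, fsS0X⟩
      [(2, true), (0, true), (2, true), (0, true), (2, false), (1, true), (1, true), (0, false), (2, true), (0, true), (2, true), (1, true), (2, false), (0, true), (2, false), (0, true), (2, false)]) :=
  Check.check_sound
    (.node 1
    (.leaf (lf 990 0 0 1024 264 (-522) (-49) 0 193 255 255 255))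
    (.node 0
    (.node 2
    (.node 1
    (.leaf (lf 843 0 0 1024 188 (-371) (-88) 0 139 255 255 255))
    (.leaf (lf 755 0 0 1024 116 (-227) (-113) 0 86 255 106 235)))
    (.node 1
    (.leaf (lf 846 0 0 1024 188 (-371) (-86) 0 137 255 255 255))
    (.leaf (lf 758 0 0 1024 115 (-227) (-110) 0 84 255 100 241))))
    (.node 2
    (.node 1
    (.leaf (lf 832 0 0 1024 188 (-372) (-91) 0 141 255 255 255))
    (.leaf (lf 746 0 0 1024 116 (-228) (-116) 0 87 255 111 240)))
    (.node 1
    (.leaf (lf 836 0 0 1024 188 (-372) (-88) 0 139 255 255 255))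
    (.leaf (lf 748 0 0 1024 116 (-227) (-113) 0 86 255 100 237))))))
    (by decide +kernel)

def goodS0X_791 :
    Check.Good noCone cfS0X (reach cfS0X ⟨litS0X, 1, fsS0X⟩
      [(0, true), (2, true), (0, true), (2, false), (1, true), (1, true), (0, false), (2, true), (0, true), (2, true), (1, true), (2, false), (0, true), (2, false), (0, true), (2, false)]) :=
  Check.good_node (a := 2) (by decide +kernel)
    goodS0X_792 goodS0X_793

def goodS0X_787 :
    Check.Good noCone cfS0X (reach cfS0X ⟨litS0X, 1, fsS0X⟩
      [(2, true), (0, true), (2, false), (1, true), (1, true), (0, false), (2, true), (0, true), (2, true), (1, true), (2, false), (0, true), (2, false), (0, true), (2, false)]) :=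
  Check.good_node (a := 0) (by decide +kernel)
    goodS0X_788 goodS0X_791

def goodS0X_785 :
    Check.Good noCone cfS0X (reach cfS0X ⟨litS0X, 1, fsS0X⟩
      [(0, true), (2, false), (1, true), (1, true), (0, false), (2, true), (0, true), (2, true), (1, true), (2, false), (0, true), (2, false), (0, true), (2, false)]) :=
  Check.good_node (a := 2) (by decide +kernel)
    goodS0X_786 goodS0X_787

def goodS0X_773 :
    Check.Good noCone cfS0X (reach cfS0X ⟨litS0X, 1, fsS0X⟩
      [(2, false), (1, true), (1, true), (0, false), (2, true), (0, true), (2, true), (1, true), (2, false), (0, true), (2, false), (0, true), (2, false)]) :=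
  Check.good_node (a := 0) (by decide +kernel)
    goodS0X_774 goodS0X_785

def goodS0X_797 :
    Check.Good noCone cfS0X (reach cfS0X ⟨litS0X, 1, fsS0X⟩
      [(0, false), (2, false), (0, false), (2, true), (1, true), (1, true), (0, false), (2, true), (0, true), (2, true), (1, true), (2, false), (0, true), (2, false), (0, true), (2, false)]) :=
  Check.check_sound
    (.node 2
    (.node 1
    (.leaf (lf 1024 0 0 965 249 (-490) (-30) 0 159 255 255 255))
    (.node 0
    (.node 2
    (.node 1
    (.leaf (lf 925 0 0 1024 187 (-370) (-68) 0 121 255 255 255))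
    (.leaf (lf 828 0 0 1024 115 (-226) (-90) 0 75 255 110 240)))
    (.node 1
    (.leaf (lf 930 0 0 1024 188 (-371) (-66) 0 120 255 255 255))
    (.leaf (lf 832 0 0 1024 115 (-227) (-88) 0 74 255 106 245))))
    (.node 2
    (.node 1
    (.leaf (lf 911 0 0 1024 187 (-370) (-71) 0 124 255 255 255))
    (.leaf (lf 816 0 0 1024 115 (-226) (-93) 0 76 255 106 245)))
    (.node 1
    (.leaf (lf 916 0 0 1024 188 (-371) (-68) 0 122 255 255 255))
    (.leaf (lf 820 0 0 1024 115 (-227) (-91) 0 75 255 111 240))))))
    (.leaf (lf 1024 0 (-421) 894 240 (-880) 0 0 163 222 85 255)))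
    (by decide +kernel)

def goodS0X_799 :
    Check.Good noCone cfS0X (reach cfS0X ⟨litS0X, 1, fsS0X⟩
      [(2, false), (0, true), (2, false), (0, false), (2, true), (1, true), (1, true), (0, false), (2, true), (0, true), (2, true), (1, true), (2, false), (0, true), (2, false), (0, true), (2, false)]) :=
  Check.check_sound
    (.node 1
    (.leaf (lf 1024 0 0 993 256 (-505) (-35) 0 170 255 255 255))
    (.node 0
    (.node 2
    (.node 1
    (.leaf (lf 898 0 0 1024 187 (-370) (-73) 0 126 255 255 255))
    (.leaf (lf 804 0 0 1024 115 (-226) (-96) 0 77 255 103 240)))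
    (.node 1
    (.leaf (lf 903 0 0 1024 188 (-371) (-71) 0 124 255 255 255))
    (.leaf (lf 808 0 0 1024 115 (-226) (-94) 0 76 255 113 241))))
    (.node 2
    (.node 1
    (.leaf (lf 886 0 0 1024 187 (-371) (-76) 0 128 255 255 255))
    (.leaf (lf 793 0 0 1024 115 (-226) (-99) 0 79 255 106 236)))
    (.node 1
    (.leaf (lf 890 0 0 1024 188 (-371) (-73) 0 126 255 255 255))
    (.leaf (lf 797 0 0 1024 115 (-226) (-96) 0 78 255 105 235))))))
    (by decide +kernel)

def goodS0X_800 :
    Check.Good noCone cfS0X (reach cfS0X ⟨litS0X, 1, fsS0X⟩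
      [(2, true), (0, true), (2, false), (0, false), (2, true), (1, true), (1, true), (0, false), (2, true), (0, true), (2, true), (1, true), (2, false), (0, true), (2, false), (0, true), (2, false)]) :=
  Check.check_sound
    (.node 1
    (.leaf (lf 1024 0 0 982 254 (-501) (-31) 0 163 255 255 255))
    (.node 0
    (.node 2
    (.node 1
    (.leaf (lf 908 0 0 1024 188 (-371) (-69) 0 122 255 255 255))
    (.leaf (lf 812 0 0 1024 115 (-227) (-91) 0 75 255 106 239)))
    (.node 1
    (.leaf (lf 912 0 0 1024 188 (-372) (-67) 0 121 255 255 255))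
    (.leaf (lf 816 0 0 1024 115 (-227) (-89) 0 74 255 105 240))))
    (.node 2
    (.node 1
    (.leaf (lf 895 0 0 1024 188 (-371) (-71) 0 124 255 255 255))
    (.leaf (lf 800 0 0 1024 115 (-226) (-94) 0 76 255 104 240)))
    (.node 1
    (.leaf (lf 899 0 0 1024 188 (-372) (-69) 0 123 255 255 255))
    (.leaf (lf 804 0 0 1024 115 (-227) (-92) 0 75 255 107 235))))))
    (by decide +kernel)

def goodS0X_798 :
    Check.Good noCone cfS0X (reach cfS0X ⟨litS0X, 1, fsS0X⟩
      [(0, true), (2, false), (0, false), (2, true), (1, true), (1, true), (0, false), (2, true), (0, true), (2, true), (1, true), (2, false), (0, true), (2, false), (0, true), (2, false)]) :=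
  Check.good_node (a := 2) (by decide +kernel)
    goodS0X_799 goodS0X_800

def goodS0X_796 :
    Check.Good noCone cfS0X (reach cfS0X ⟨litS0X, 1, fsS0X⟩
      [(2, false), (0, false), (2, true), (1, true), (1, true), (0, false), (2, true), (0, true), (2, true), (1, true), (2, false), (0, true), (2, false), (0, true), (2, false)]) :=
  Check.good_node (a := 0) (by decide +kernel)
    goodS0X_797 goodS0X_798

def goodS0X_801 :
    Check.Good noCone cfS0X (reach cfS0X ⟨litS0X, 1, fsS0X⟩
      [(2, true), (0, false), (2, true), (1, true), (1, true), (0, false), (2, true), (0, true), (2, true), (1, true), (2, false), (0, true), (2, false), (0, true), (2, false)]) :=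
  Check.check_sound
    (.node 0
    (.node 2
    (.leaf (lf 1024 0 (-401) 893 237 (-850) 0 0 155 228 75 255))
    (.node 1
    (.leaf (lf 1024 0 0 931 243 (-477) (-19) 0 143 255 255 255))
    (.node 0
    (.leaf (lf 890 0 (-638) 791 189 (-1024) 0 0 137 220 68 255))
    (.leaf (lf 863 0 (-633) 774 187 (-1024) 0 0 139 218 68 255)))))
    (.node 2
    (.node 1
    (.leaf (lf 1024 0 0 971 252 (-496) (-27) 0 157 255 255 255))
    (.node 0
    (.node 2
    (.node 1
    (.leaf (lf 917 0 0 1024 188 (-372) (-65) 0 119 255 255 255))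
    (.leaf (lf 820 0 0 1024 115 (-227) (-87) 0 73 255 111 240)))
    (.node 1
    (.leaf (lf 922 0 0 1024 189 (-373) (-63) 0 118 255 255 255))
    (.leaf (lf 824 0 0 1024 115 (-227) (-85) 0 72 255 116 240))))
    (.node 2
    (.node 1
    (.leaf (lf 904 0 0 1024 188 (-372) (-67) 0 121 255 255 255))
    (.leaf (lf 808 0 0 1024 115 (-227) (-90) 0 74 255 115 236)))
    (.node 1
    (.leaf (lf 908 0 0 1024 188 (-373) (-65) 0 120 255 255 255))
    (.leaf (lf 812 0 0 1024 115 (-227) (-87) 0 73 255 105 238))))))
    (.leaf (lf 1024 0 (-404) 908 242 (-872) 0 0 160 226 75 255))))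
    (by decide +kernel)

def goodS0X_795 :
    Check.Good noCone cfS0X (reach cfS0X ⟨litS0X, 1, fsS0X⟩
      [(0, false), (2, true), (1, true), (1, true), (0, false), (2, true), (0, true), (2, true), (1, true), (2, false), (0, true), (2, false), (0, true), (2, false)]) :=
  Check.good_node (a := 2) (by decide +kernel)
    goodS0X_796 goodS0X_801

def goodS0X_805 :
    Check.Good noCone cfS0X (reach cfS0X ⟨litS0X, 1, fsS0X⟩
      [(2, false), (0, false), (2, false), (0, true), (2, true), (1, true), (1, true), (0, false), (2, true), (0, true), (2, true), (1, true), (2, false), (0, true), (2, false), (0, true), (2, false)]) :=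
  Check.check_sound
    (.node 1
    (.leaf (lf 1024 0 0 1021 263 (-520) (-40) 0 181 255 255 255))
    (.node 0
    (.node 2
    (.node 1
    (.leaf (lf 873 0 0 1024 188 (-371) (-78) 0 130 255 255 255))
    (.leaf (lf 782 0 0 1024 115 (-226) (-102) 0 80 255 109 242)))
    (.node 1
    (.leaf (lf 878 0 0 1024 188 (-371) (-76) 0 128 255 255 255))
    (.leaf (lf 786 0 0 1024 115 (-226) (-99) 0 79 255 101 240))))
    (.node 2
    (.node 1
    (.leaf (lf 862 0 0 1024 188 (-371) (-81) 0 132 255 255 255))
    (.leaf (lf 772 0 0 1024 115 (-227) (-105) 0 81 255 113 235)))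
    (.node 1
    (.leaf (lf 866 0 0 1024 188 (-371) (-79) 0 130 255 255 255))
    (.leaf (lf 775 0 0 1024 115 (-226) (-102) 0 80 255 100 245))))))
    (by decide +kernel)

def goodS0X_806 :
    Check.Good noCone cfS0X (reach cfS0X ⟨litS0X, 1, fsS0X⟩
      [(2, true), (0, false), (2, false), (0, true), (2, true), (1, true), (1, true), (0, false), (2, true), (0, true), (2, true), (1, true), (2, false), (0, true), (2, false), (0, true), (2, false)]) :=
  Check.check_sound
    (.node 1
    (.leaf (lf 1024 0 0 1011 261 (-516) (-36) 0 174 255 255 255))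
    (.node 0
    (.node 2
    (.node 1
    (.leaf (lf 882 0 0 1024 188 (-371) (-74) 0 126 255 255 255))
    (.leaf (lf 789 0 0 1024 115 (-226) (-97) 0 78 255 104 236)))
    (.node 1
    (.leaf (lf 886 0 0 1024 188 (-372) (-72) 0 125 255 255 255))
    (.leaf (lf 793 0 0 1024 115 (-226) (-95) 0 77 255 115 233))))
    (.node 2
    (.node 1
    (.leaf (lf 870 0 0 1024 188 (-372) (-76) 0 129 255 255 255))
    (.leaf (lf 778 0 0 1024 115 (-226) (-100) 0 79 255 108 241)))
    (.node 1
    (.leaf (lf 874 0 0 1024 188 (-372) (-74) 0 127 255 255 255))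
    (.leaf (lf 782 0 0 1024 115 (-226) (-97) 0 78 255 102 240))))))
    (by decide +kernel)

def goodS0X_804 :
    Check.Good noCone cfS0X (reach cfS0X ⟨litS0X, 1, fsS0X⟩
      [(0, false), (2, false), (0, true), (2, true), (1, true), (1, true), (0, false), (2, true), (0, true), (2, true), (1, true), (2, false), (0, true), (2, false), (0, true), (2, false)]) :=
  Check.good_node (a := 2) (by decide +kernel)
    goodS0X_805 goodS0X_806

def goodS0X_808 :
    Check.Good noCone cfS0X (reach cfS0X ⟨litS0X, 1, fsS0X⟩
      [(2, false), (0, true), (2, false), (0, true), (2, true), (1, true), (1, true), (0, false), (2, true), (0, true), (2, true), (1, true), (2, false), (0, true), (2, false), (0, true), (2, false)]) :=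
  Check.check_sound
    (.node 1
    (.leaf (lf 1000 0 0 1024 264 (-523) (-45) 0 187 255 255 255))
    (.node 0
    (.node 2
    (.node 1
    (.leaf (lf 850 0 0 1024 188 (-371) (-83) 0 135 255 255 255))
    (.leaf (lf 761 0 0 1024 115 (-227) (-108) 0 83 255 112 241)))
    (.node 1
    (.leaf (lf 854 0 0 1024 188 (-372) (-81) 0 133 255 255 255))
    (.leaf (lf 764 0 0 1024 115 (-227) (-105) 0 82 255 101 238))))
    (.node 2
    (.node 1
    (.leaf (lf 839 0 0 1024 188 (-372) (-86) 0 137 255 255 255))
    (.leaf (lf 751 0 0 1024 115 (-227) (-110) 0 84 255 107 240)))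
    (.node 1
    (.leaf (lf 843 0 0 1024 188 (-372) (-84) 0 135 255 255 255))
    (.leaf (lf 754 0 0 1024 115 (-227) (-108) 0 83 255 101 243))))))
    (by decide +kernel)

def goodS0X_809 :
    Check.Good noCone cfS0X (reach cfS0X ⟨litS0X, 1, fsS0X⟩
      [(2, true), (0, true), (2, false), (0, true), (2, true), (1, true), (1, true), (0, false), (2, true), (0, true), (2, true), (1, true), (2, false), (0, true), (2, false), (0, true), (2, false)]) :=
  Check.check_sound
    (.node 1
    (.leaf (lf 1010 0 0 1024 265 (-524) (-41) 0 182 255 255 255))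
    (.node 0
    (.node 2
    (.node 1
    (.leaf (lf 858 0 0 1024 188 (-372) (-79) 0 131 255 255 255))
    (.leaf (lf 768 0 0 1024 115 (-227) (-103) 0 80 255 113 236)))
    (.node 1
    (.leaf (lf 862 0 0 1024 188 (-372) (-77) 0 129 255 255 255))
    (.leaf (lf 771 0 0 1024 115 (-227) (-100) 0 79 255 100 239))))
    (.node 2
    (.node 1
    (.leaf (lf 847 0 0 1024 188 (-372) (-81) 0 133 255 255 255))
    (.leaf (lf 758 0 0 1024 115 (-227) (-105) 0 82 255 101 241)))
    (.node 1
    (.leaf (lf 850 0 0 1024 188 (-373) (-79) 0 131 255 255 255))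
    (.leaf (lf 761 0 0 1024 115 (-227) (-103) 0 81 255 103 237))))))
    (by decide +kernel)

def goodS0X_807 :
    Check.Good noCone cfS0X (reach cfS0X ⟨litS0X, 1, fsS0X⟩
      [(0, true), (2, false), (0, true), (2, true), (1, true), (1, true), (0, false), (2, true), (0, true), (2, true), (1, true), (2, false), (0, true), (2, false), (0, true), (2, false)]) :=
  Check.good_node (a := 2) (by decide +kernel)
    goodS0X_808 goodS0X_809

def goodS0X_803 :
    Check.Good noCone cfS0X (reach cfS0X ⟨litS0X, 1, fsS0X⟩
      [(2, false), (0, true), (2, true), (1, true), (1, true), (0, false), (2, true), (0, true), (2, true), (1, true), (2, false), (0, true), (2, false), (0, true), (2, false)]) :=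
  Check.good_node (a := 0) (by decide +kernel)
    goodS0X_804 goodS0X_807

def goodS0X_812 :
    Check.Good noCone cfS0X (reach cfS0X ⟨litS0X, 1, fsS0X⟩
      [(2, false), (0, false), (2, true), (0, true), (2, true), (1, true), (1, true), (0, false), (2, true), (0, true), (2, true), (1, true), (2, false), (0, true), (2, false), (0, true), (2, false)]) :=
  Check.check_sound
    (.node 1
    (.leaf (lf 1024 0 0 1000 259 (-512) (-32) 0 168 255 255 255))
    (.node 0
    (.node 2
    (.node 1
    (.leaf (lf 891 0 0 1024 188 (-372) (-70) 0 123 255 255 255))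
    (.leaf (lf 796 0 0 1024 115 (-227) (-92) 0 76 255 108 239)))
    (.node 1
    (.leaf (lf 895 0 0 1024 188 (-373) (-67) 0 122 255 255 255))
    (.leaf (lf 800 0 0 1024 115 (-227) (-90) 0 75 255 102 238))))
    (.node 2
    (.node 1
    (.leaf (lf 878 0 0 1024 188 (-372) (-72) 0 125 255 255 255))
    (.leaf (lf 785 0 0 1024 115 (-227) (-95) 0 77 255 102 243)))
    (.node 1
    (.leaf (lf 882 0 0 1024 188 (-373) (-70) 0 124 255 255 255))
    (.leaf (lf 789 0 0 1024 115 (-227) (-93) 0 76 255 110 242))))))
    (by decide +kernel)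

def goodS0X_813 :
    Check.Good noCone cfS0X (reach cfS0X ⟨litS0X, 1, fsS0X⟩
      [(2, true), (0, false), (2, true), (0, true), (2, true), (1, true), (1, true), (0, false), (2, true), (0, true), (2, true), (1, true), (2, false), (0, true), (2, false), (0, true), (2, false)]) :=
  Check.check_sound
    (.node 1
    (.leaf (lf 1024 0 0 989 257 (-507) (-28) 0 162 255 255 255))
    (.node 0
    (.node 2
    (.node 1
    (.leaf (lf 900 0 0 1024 189 (-373) (-65) 0 120 255 255 255))
    (.leaf (lf 804 0 0 1024 115 (-227) (-88) 0 74 255 108 238)))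
    (.node 1
    (.leaf (lf 904 0 0 1024 189 (-374) (-64) 0 119 255 255 255))
    (.leaf (lf 808 0 0 1024 115 (-227) (-86) 0 73 255 113 238))))
    (.node 2
    (.node 1
    (.leaf (lf 887 0 0 1024 189 (-373) (-68) 0 122 255 255 255))
    (.leaf (lf 792 0 0 1024 115 (-227) (-91) 0 75 255 111 240)))
    (.node 1
    (.leaf (lf 891 0 0 1024 189 (-374) (-66) 0 121 255 255 255))
    (.leaf (lf 796 0 0 1024 115 (-227) (-88) 0 74 255 108 242))))))
    (by decide +kernel)

def goodS0X_811 :
    Check.Good noCone cfS0X (reach cfS0X ⟨litS0X, 1, fsS0X⟩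
      [(0, false), (2, true), (0, true), (2, true), (1, true), (1, true), (0, false), (2, true), (0, true), (2, true), (1, true), (2, false), (0, true), (2, false), (0, true), (2, false)]) :=
  Check.good_node (a := 2) (by decide +kernel)
    goodS0X_812 goodS0X_813

def goodS0X_815 :
    Check.Good noCone cfS0X (reach cfS0X ⟨litS0X, 1, fsS0X⟩
      [(2, false), (0, true), (2, true), (0, true), (2, true), (1, true), (1, true), (0, false), (2, true), (0, true), (2, true), (1, true), (2, false), (0, true), (2, false), (0, true), (2, false)]) :=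
  Check.check_sound
    (.node 1
    (.leaf (lf 1020 0 0 1024 265 (-525) (-37) 0 178 255 255 255))
    (.node 0
    (.node 2
    (.node 1
    (.leaf (lf 866 0 0 1024 188 (-373) (-75) 0 127 255 255 255))
    (.leaf (lf 774 0 0 1024 115 (-227) (-98) 0 78 255 103 241)))
    (.node 1
    (.leaf (lf 870 0 0 1024 188 (-373) (-72) 0 126 255 255 255))
    (.leaf (lf 778 0 0 1024 115 (-227) (-96) 0 77 255 115 242))))
    (.node 2
    (.node 1
    (.leaf (lf 854 0 0 1024 188 (-373) (-77) 0 129 255 255 255))
    (.leaf (lf 764 0 0 1024 115 (-227) (-101) 0 79 255 110 236)))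
    (.node 1
    (.leaf (lf 858 0 0 1024 188 (-373) (-75) 0 128 255 255 255))
    (.leaf (lf 767 0 0 1024 115 (-227) (-98) 0 78 255 103 239))))))
    (by decide +kernel)

def goodS0X_816 :
    Check.Good noCone cfS0X (reach cfS0X ⟨litS0X, 1, fsS0X⟩
      [(2, true), (0, true), (2, true), (0, true), (2, true), (1, true), (1, true), (0, false), (2, true), (0, true), (2, true), (1, true), (2, false), (0, true), (2, false), (0, true), (2, false)]) :=
  Check.check_sound
    (.node 1
    (.leaf (lf 1024 0 0 1017 264 (-522) (-33) 0 172 255 255 255))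
    (.node 0
    (.node 2
    (.node 1
    (.leaf (lf 874 0 0 1024 189 (-373) (-70) 0 124 255 255 255))
    (.leaf (lf 781 0 0 1024 115 (-227) (-93) 0 76 255 106 244)))
    (.node 1
    (.leaf (lf 878 0 0 1024 189 (-374) (-68) 0 123 255 255 255))
    (.leaf (lf 785 0 0 1024 115 (-227) (-91) 0 75 255 101 245))))
    (.node 2
    (.node 1
    (.leaf (lf 862 0 0 1024 189 (-374) (-73) 0 126 255 255 255))
    (.leaf (lf 770 0 0 1024 115 (-227) (-96) 0 77 255 101 240)))
    (.node 1
    (.leaf (lf 866 0 0 1024 189 (-374) (-71) 0 125 255 255 255))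
    (.leaf (lf 774 0 0 1024 115 (-227) (-94) 0 76 255 106 241))))))
    (by decide +kernel)

def goodS0X_814 :
    Check.Good noCone cfS0X (reach cfS0X ⟨litS0X, 1, fsS0X⟩
      [(0, true), (2, true), (0, true), (2, true), (1, true), (1, true), (0, false), (2, true), (0, true), (2, true), (1, true), (2, false), (0, true), (2, false), (0, true), (2, false)]) :=
  Check.good_node (a := 2) (by decide +kernel)
    goodS0X_815 goodS0X_816

def goodS0X_810 :
    Check.Good noCone cfS0X (reach cfS0X ⟨litS0X, 1, fsS0X⟩
      [(2, true), (0, true), (2, true), (1, true), (1, true), (0, false), (2, true), (0, true), (2, true), (1, true), (2, false), (0, true), (2, false), (0, true), (2, false)]) :=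
  Check.good_node (a := 0) (by decide +kernel)
    goodS0X_811 goodS0X_814

def goodS0X_802 :
    Check.Good noCone cfS0X (reach cfS0X ⟨litS0X, 1, fsS0X⟩
      [(0, true), (2, true), (1, true), (1, true), (0, false), (2, true), (0, true), (2, true), (1, true), (2, false), (0, true), (2, false), (0, true), (2, false)]) :=
  Check.good_node (a := 2) (by decide +kernel)
    goodS0X_803 goodS0X_810

def goodS0X_794 :
    Check.Good noCone cfS0X (reach cfS0X ⟨litS0X, 1, fsS0X⟩
      [(2, true), (1, true), (1, true), (0, false), (2, true), (0, true), (2, true), (1, true), (2, false), (0, true), (2, false), (0, true), (2, false)]) :=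
  Check.good_node (a := 0) (by decide +kernel)
    goodS0X_795 goodS0X_802

def goodS0X_772 :
    Check.Good noCone cfS0X (reach cfS0X ⟨litS0X, 1, fsS0X⟩
      [(1, true), (1, true), (0, false), (2, true), (0, true), (2, true), (1, true), (2, false), (0, true), (2, false), (0, true), (2, false)]) :=
  Check.good_node (a := 2) (by decide +kernel)
    goodS0X_773 goodS0X_794

def goodS0X_770 :
    Check.Good noCone cfS0X (reach cfS0X ⟨litS0X, 1, fsS0X⟩
      [(1, true), (0, false), (2, true), (0, true), (2, true), (1, true), (2, false), (0, true), (2, false), (0, true), (2, false)]) :=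
  Check.good_node (a := 1) (by decide +kernel)
    goodS0X_771 goodS0X_772

def goodS0X_768 :
    Check.Good noCone cfS0X (reach cfS0X ⟨litS0X, 1, fsS0X⟩
      [(0, false), (2, true), (0, true), (2, true), (1, true), (2, false), (0, true), (2, false), (0, true), (2, false)]) :=
  Check.good_node (a := 1) (by decide +kernel)
    goodS0X_769 goodS0X_770

def goodS0X_818 :
    Check.Good noCone cfS0X (reach cfS0X ⟨litS0X, 1, fsS0X⟩
      [(1, false), (0, true), (2, true), (0, true), (2, true), (1, true), (2, false), (0, true), (2, false), (0, true), (2, false)]) :=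
  Check.check_sound
    (.node 1
    (.node 2
    (.leaf (lf 1024 0 0 381 175 (-332) 106 0 131 255 255 255))
    (.leaf (lf 1024 0 0 364 170 (-318) 99 0 112 255 255 255)))
    (.leaf (lf 1024 0 0 539 240 (-458) 87 0 173 255 255 255)))
    (by decide +kernel)

def goodS0X_820 :
    Check.Good noCone cfS0X (reach cfS0X ⟨litS0X, 1, fsS0X⟩
      [(1, false), (1, true), (0, true), (2, true), (0, true), (2, true), (1, true), (2, false), (0, true), (2, false), (0, true), (2, false)]) :=
  Check.check_sound
    (.leaf (lf 1024 0 0 811 297 (-575) 27 0 221 255 255 255))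
    (by decide +kernel)

def goodS0X_824 :
    Check.Good noCone cfS0X (reach cfS0X ⟨litS0X, 1, fsS0X⟩
      [(2, false), (0, false), (2, false), (1, true), (1, true), (0, true), (2, true), (0, true), (2, true), (1, true), (2, false), (0, true), (2, false), (0, true), (2, false)]) :=
  Check.check_sound
    (.node 2
    (.node 0
    (.node 1
    (.leaf (lf 940 0 0 1024 265 (-521) (-67) 0 219 255 255 255))
    (.leaf (lf 606 0 (-575) 589 174 (-1024) 0 0 199 207 76 255)))
    (.node 1
    (.leaf (lf 919 0 0 1024 267 (-523) (-71) 0 227 255 255 255))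
    (.leaf (lf 739 0 0 1024 159 (-307) (-130) 0 136 255 91 200))))
    (.node 0
    (.node 1
    (.leaf (lf 948 0 0 1024 265 (-522) (-62) 0 212 255 255 255))
    (.leaf (lf 618 0 (-577) 599 174 (-1024) 0 0 192 206 74 255)))
    (.node 1
    (.leaf (lf 926 0 0 1024 266 (-523) (-66) 0 220 255 255 255))
    (.leaf (lf 597 0 (-565) 589 174 (-1024) 0 0 199 206 76 255)))))
    (by decide +kernel)

def goodS0X_825 :
    Check.Good noCone cfS0X (reach cfS0X ⟨litS0X, 1, fsS0X⟩
      [(2, true), (0, false), (2, false), (1, true), (1, true), (0, true), (2, true), (0, true), (2, true), (1, true), (2, false), (0, true), (2, false), (0, true), (2, false)]) :=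
  Check.check_sound
    (.node 0
    (.node 2
    (.node 1
    (.leaf (lf 957 0 0 1024 265 (-522) (-57) 0 206 255 255 255))
    (.leaf (lf 630 0 (-579) 611 174 (-1024) 0 0 185 208 73 255)))
    (.node 1
    (.leaf (lf 965 0 0 1024 265 (-523) (-53) 0 200 255 255 255))
    (.node 0
    (.node 2
    (.node 1
    (.leaf (lf 822 0 0 1024 189 (-372) (-94) 0 144 255 255 255))
    (.leaf (lf 736 0 0 1024 116 (-228) (-119) 0 89 255 106 239)))
    (.node 1
    (.leaf (lf 825 0 0 1024 189 (-372) (-91) 0 141 255 255 255))
    (.leaf (lf 739 0 0 1024 116 (-228) (-116) 0 87 255 100 239))))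
    (.node 2
    (.node 1
    (.leaf (lf 811 0 0 1024 189 (-373) (-96) 0 146 255 255 255))
    (.leaf (lf 727 0 0 1024 117 (-229) (-122) 0 90 255 104 236)))
    (.node 1
    (.leaf (lf 815 0 0 1024 189 (-373) (-94) 0 144 255 255 255))
    (.leaf (lf 730 0 0 1024 116 (-228) (-119) 0 89 255 103 241)))))))
    (.node 2
    (.node 1
    (.leaf (lf 934 0 0 1024 266 (-524) (-62) 0 213 255 255 255))
    (.leaf (lf 608 0 (-567) 600 174 (-1024) 0 0 192 207 75 255)))
    (.node 1
    (.leaf (lf 942 0 0 1024 266 (-524) (-57) 0 207 255 255 255))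
    (.leaf (lf 620 0 (-569) 610 174 (-1024) 0 0 186 207 73 255)))))
    (by decide +kernel)

def goodS0X_823 :
    Check.Good noCone cfS0X (reach cfS0X ⟨litS0X, 1, fsS0X⟩
      [(0, false), (2, false), (1, true), (1, true), (0, true), (2, true), (0, true), (2, true), (1, true), (2, false), (0, true), (2, false), (0, true), (2, false)]) :=
  Check.good_node (a := 2) (by decide +kernel)
    goodS0X_824 goodS0X_825

def goodS0X_826 :
    Check.Good noCone cfS0X (reach cfS0X ⟨litS0X, 1, fsS0X⟩
      [(0, true), (2, false), (1, true), (1, true), (0, true), (2, true), (0, true), (2, true), (1, true), (2, false), (0, true), (2, false), (0, true), (2, false)]) :=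
  Check.check_sound
    (.node 2
    (.node 2
    (.node 0
    (.node 1
    (.leaf (lf 898 0 0 1024 269 (-524) (-76) 0 235 255 255 255))
    (.leaf (lf 722 0 0 1024 160 (-309) (-136) 0 141 255 87 204)))
    (.node 1
    (.leaf (lf 879 0 0 1024 270 (-526) (-80) 0 244 255 255 255))
    (.leaf (lf 707 0 0 1024 162 (-311) (-143) 0 146 255 92 201))))
    (.node 0
    (.node 1
    (.leaf (lf 906 0 0 1024 268 (-525) (-71) 0 228 255 255 255))
    (.leaf (lf 579 0 (-553) 580 175 (-1024) 0 0 207 205 77 255)))
    (.node 1
    (.leaf (lf 886 0 0 1024 270 (-526) (-75) 0 236 255 255 255))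
    (.leaf (lf 711 0 0 1024 161 (-310) (-136) 0 141 255 88 204)))))
    (.node 2
    (.node 0
    (.node 1
    (.leaf (lf 913 0 0 1024 268 (-525) (-66) 0 220 255 255 255))
    (.leaf (lf 589 0 (-555) 590 175 (-1024) 0 0 200 207 76 255)))
    (.node 1
    (.leaf (lf 893 0 0 1024 269 (-527) (-70) 0 228 255 255 255))
    (.leaf (lf 716 0 0 1024 160 (-310) (-130) 0 136 255 90 200))))
    (.node 0
    (.node 1
    (.leaf (lf 920 0 0 1024 267 (-526) (-61) 0 214 255 255 255))
    (.leaf (lf 599 0 (-557) 600 175 (-1024) 0 0 193 208 73 255)))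
    (.node 1
    (.leaf (lf 900 0 0 1024 269 (-527) (-66) 0 221 255 255 255))
    (.leaf (lf 580 0 (-545) 590 175 (-1024) 0 0 200 207 76 255))))))
    (by decide +kernel)

def goodS0X_822 :
    Check.Good noCone cfS0X (reach cfS0X ⟨litS0X, 1, fsS0X⟩
      [(2, false), (1, true), (1, true), (0, true), (2, true), (0, true), (2, true), (1, true), (2, false), (0, true), (2, false), (0, true), (2, false)]) :=
  Check.good_node (a := 0) (by decide +kernel)
    goodS0X_823 goodS0X_826

def goodS0X_831 :
    Check.Good noCone cfS0X (reach cfS0X ⟨litS0X, 1, fsS0X⟩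
      [(2, false), (0, false), (2, false), (0, false), (2, true), (1, true), (1, true), (0, true), (2, true), (0, true), (2, true), (1, true), (2, false), (0, true), (2, false), (0, true), (2, false)]) :=
  Check.check_sound
    (.node 1
    (.leaf (lf 974 0 0 1024 265 (-524) (-49) 0 194 255 255 255))
    (.node 0
    (.node 2
    (.node 1
    (.leaf (lf 828 0 0 1024 189 (-372) (-89) 0 139 255 255 255))
    (.leaf (lf 742 0 0 1024 116 (-228) (-113) 0 86 255 101 244)))
    (.node 1
    (.leaf (lf 832 0 0 1024 189 (-373) (-86) 0 137 255 255 255))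
    (.leaf (lf 745 0 0 1024 115 (-227) (-111) 0 85 255 107 233))))
    (.node 2
    (.node 1
    (.leaf (lf 818 0 0 1024 189 (-373) (-91) 0 142 255 255 255))
    (.leaf (lf 733 0 0 1024 116 (-228) (-116) 0 87 255 96 239)))
    (.node 1
    (.leaf (lf 821 0 0 1024 189 (-373) (-89) 0 140 255 255 255))
    (.leaf (lf 735 0 0 1024 116 (-228) (-114) 0 86 255 105 242))))))
    (by decide +kernel)

def goodS0X_832 :
    Check.Good noCone cfS0X (reach cfS0X ⟨litS0X, 1, fsS0X⟩
      [(2, true), (0, false), (2, false), (0, false), (2, true), (1, true), (1, true), (0, true), (2, true), (0, true), (2, true), (1, true), (2, false), (0, true), (2, false), (0, true), (2, false)]) :=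
  Check.check_sound
    (.node 1
    (.leaf (lf 984 0 0 1024 265 (-525) (-45) 0 189 255 255 255))
    (.node 0
    (.node 2
    (.node 1
    (.leaf (lf 836 0 0 1024 189 (-373) (-84) 0 135 255 255 255))
    (.leaf (lf 748 0 0 1024 115 (-227) (-108) 0 83 255 99 243)))
    (.node 1
    (.leaf (lf 839 0 0 1024 189 (-373) (-82) 0 134 255 255 255))
    (.leaf (lf 751 0 0 1024 115 (-227) (-106) 0 82 255 107 243))))
    (.node 2
    (.node 1
    (.leaf (lf 825 0 0 1024 189 (-373) (-87) 0 138 255 255 255))
    (.leaf (lf 738 0 0 1024 116 (-228) (-111) 0 85 255 99 242)))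
    (.node 1
    (.leaf (lf 828 0 0 1024 189 (-373) (-84) 0 136 255 255 255))
    (.leaf (lf 741 0 0 1024 115 (-228) (-109) 0 83 255 106 235))))))
    (by decide +kernel)

def goodS0X_830 :
    Check.Good noCone cfS0X (reach cfS0X ⟨litS0X, 1, fsS0X⟩
      [(0, false), (2, false), (0, false), (2, true), (1, true), (1, true), (0, true), (2, true), (0, true), (2, true), (1, true), (2, false), (0, true), (2, false), (0, true), (2, false)]) :=
  Check.good_node (a := 2) (by decide +kernel)
    goodS0X_831 goodS0X_832

def goodS0X_834 :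
    Check.Good noCone cfS0X (reach cfS0X ⟨litS0X, 1, fsS0X⟩
      [(2, false), (0, true), (2, false), (0, false), (2, true), (1, true), (1, true), (0, true), (2, true), (0, true), (2, true), (1, true), (2, false), (0, true), (2, false), (0, true), (2, false)]) :=
  Check.check_sound
    (.node 1
    (.leaf (lf 951 0 0 1024 266 (-525) (-53) 0 201 255 255 255))
    (.node 0
    (.node 2
    (.node 1
    (.leaf (lf 808 0 0 1024 190 (-373) (-94) 0 144 255 255 255))
    (.leaf (lf 724 0 0 1024 117 (-229) (-119) 0 89 255 97 242)))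
    (.node 1
    (.leaf (lf 811 0 0 1024 189 (-374) (-91) 0 142 255 255 255))
    (.leaf (lf 726 0 0 1024 116 (-229) (-117) 0 88 255 108 242))))
    (.node 2
    (.node 1
    (.leaf (lf 798 0 0 1024 190 (-374) (-96) 0 147 255 255 255))
    (.leaf (lf 715 0 0 1024 117 (-230) (-122) 0 91 255 97 244)))
    (.node 1
    (.leaf (lf 801 0 0 1024 190 (-374) (-94) 0 145 255 255 255))
    (.leaf (lf 717 0 0 1024 117 (-229) (-120) 0 89 255 106 240))))))
    (by decide +kernel)

def goodS0X_835 :
    Check.Good noCone cfS0X (reach cfS0X ⟨litS0X, 1, fsS0X⟩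
      [(2, true), (0, true), (2, false), (0, false), (2, true), (1, true), (1, true), (0, true), (2, true), (0, true), (2, true), (1, true), (2, false), (0, true), (2, false), (0, true), (2, false)]) :=
  Check.check_sound
    (.node 1
    (.leaf (lf 959 0 0 1024 266 (-526) (-49) 0 195 255 255 255))
    (.node 0
    (.node 2
    (.node 1
    (.leaf (lf 815 0 0 1024 189 (-374) (-89) 0 140 255 255 255))
    (.leaf (lf 729 0 0 1024 116 (-228) (-114) 0 86 255 99 242)))
    (.node 1
    (.leaf (lf 818 0 0 1024 189 (-374) (-87) 0 138 255 255 255))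
    (.leaf (lf 732 0 0 1024 116 (-228) (-112) 0 85 255 114 243))))
    (.node 2
    (.node 1
    (.leaf (lf 805 0 0 1024 190 (-374) (-92) 0 143 255 255 255))
    (.leaf (lf 720 0 0 1024 116 (-229) (-117) 0 88 255 102 244)))
    (.node 1
    (.leaf (lf 808 0 0 1024 190 (-374) (-89) 0 141 255 255 255))
    (.leaf (lf 723 0 0 1024 116 (-229) (-114) 0 86 255 96 236))))))
    (by decide +kernel)

def goodS0X_833 :
    Check.Good noCone cfS0X (reach cfS0X ⟨litS0X, 1, fsS0X⟩
      [(0, true), (2, false), (0, false), (2, true), (1, true), (1, true), (0, true), (2, true), (0, true), (2, true), (1, true), (2, false), (0, true), (2, false), (0, true), (2, false)]) :=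
  Check.good_node (a := 2) (by decide +kernel)
    goodS0X_834 goodS0X_835

def goodS0X_829 :
    Check.Good noCone cfS0X (reach cfS0X ⟨litS0X, 1, fsS0X⟩
      [(2, false), (0, false), (2, true), (1, true), (1, true), (0, true), (2, true), (0, true), (2, true), (1, true), (2, false), (0, true), (2, false), (0, true), (2, false)]) :=
  Check.good_node (a := 0) (by decide +kernel)
    goodS0X_830 goodS0X_833

def goodS0X_838 :
    Check.Good noCone cfS0X (reach cfS0X ⟨litS0X, 1, fsS0X⟩
      [(2, false), (0, false), (2, true), (0, false), (2, true), (1, true), (1, true), (0, true), (2, true), (0, true), (2, true), (1, true), (2, false), (0, true), (2, false), (0, true), (2, false)]) :=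
  Check.check_sound
    (.node 1
    (.leaf (lf 993 0 0 1024 266 (-526) (-41) 0 184 255 255 255))
    (.node 0
    (.node 2
    (.node 1
    (.leaf (lf 843 0 0 1024 189 (-373) (-79) 0 132 255 255 255))
    (.leaf (lf 754 0 0 1024 115 (-227) (-103) 0 81 255 102 240)))
    (.node 1
    (.leaf (lf 847 0 0 1024 189 (-373) (-77) 0 130 255 255 255))
    (.leaf (lf 757 0 0 1024 115 (-227) (-101) 0 80 255 99 237))))
    (.node 2
    (.node 1
    (.leaf (lf 832 0 0 1024 189 (-374) (-82) 0 134 255 255 255))
    (.leaf (lf 744 0 0 1024 115 (-227) (-106) 0 82 255 100 244)))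
    (.node 1
    (.leaf (lf 836 0 0 1024 189 (-374) (-80) 0 132 255 255 255))
    (.leaf (lf 747 0 0 1024 115 (-227) (-104) 0 81 255 104 242))))))
    (by decide +kernel)

def goodS0X_839 :
    Check.Good noCone cfS0X (reach cfS0X ⟨litS0X, 1, fsS0X⟩
      [(2, true), (0, false), (2, true), (0, false), (2, true), (1, true), (1, true), (0, true), (2, true), (0, true), (2, true), (1, true), (2, false), (0, true), (2, false), (0, true), (2, false)]) :=
  Check.check_sound
    (.node 1
    (.leaf (lf 1003 0 0 1024 266 (-527) (-37) 0 179 255 255 255))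
    (.node 0
    (.node 2
    (.node 1
    (.leaf (lf 851 0 0 1024 189 (-374) (-75) 0 128 255 255 255))
    (.leaf (lf 760 0 0 1024 115 (-227) (-99) 0 78 255 104 236)))
    (.node 1
    (.leaf (lf 854 0 0 1024 189 (-374) (-73) 0 127 255 255 255))
    (.leaf (lf 763 0 0 1024 115 (-227) (-97) 0 77 255 108 237))))
    (.node 2
    (.node 1
    (.leaf (lf 839 0 0 1024 189 (-374) (-78) 0 130 255 255 255))
    (.leaf (lf 750 0 0 1024 115 (-227) (-102) 0 80 255 111 239)))
    (.node 1
    (.leaf (lf 843 0 0 1024 189 (-374) (-76) 0 129 255 255 255))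
    (.leaf (lf 753 0 0 1024 115 (-227) (-99) 0 79 255 102 238))))))
    (by decide +kernel)

def goodS0X_837 :
    Check.Good noCone cfS0X (reach cfS0X ⟨litS0X, 1, fsS0X⟩
      [(0, false), (2, true), (0, false), (2, true), (1, true), (1, true), (0, true), (2, true), (0, true), (2, true), (1, true), (2, false), (0, true), (2, false), (0, true), (2, false)]) :=
  Check.good_node (a := 2) (by decide +kernel)
    goodS0X_838 goodS0X_839

def goodS0X_841 :
    Check.Good noCone cfS0X (reach cfS0X ⟨litS0X, 1, fsS0X⟩
      [(2, false), (0, true), (2, true), (0, false), (2, true), (1, true), (1, true), (0, true), (2, true), (0, true), (2, true), (1, true), (2, false), (0, true), (2, false), (0, true), (2, false)]) :=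
  Check.check_sound
    (.node 1
    (.leaf (lf 968 0 0 1024 266 (-527) (-45) 0 190 255 255 255))
    (.node 0
    (.node 2
    (.node 1
    (.leaf (lf 821 0 0 1024 189 (-374) (-85) 0 136 255 255 255))
    (.leaf (lf 734 0 0 1024 115 (-228) (-109) 0 84 255 100 239)))
    (.node 1
    (.leaf (lf 825 0 0 1024 189 (-374) (-82) 0 134 255 255 255))
    (.leaf (lf 737 0 0 1024 115 (-228) (-107) 0 82 255 104 235))))
    (.node 2
    (.node 1
    (.leaf (lf 811 0 0 1024 189 (-375) (-87) 0 139 255 255 255))
    (.leaf (lf 725 0 0 1024 116 (-228) (-112) 0 85 255 99 244)))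
    (.node 1
    (.leaf (lf 815 0 0 1024 189 (-375) (-85) 0 137 255 255 255))
    (.leaf (lf 728 0 0 1024 116 (-228) (-109) 0 84 255 102 242))))))
    (by decide +kernel)

def goodS0X_842 :
    Check.Good noCone cfS0X (reach cfS0X ⟨litS0X, 1, fsS0X⟩
      [(2, true), (0, true), (2, true), (0, false), (2, true), (1, true), (1, true), (0, true), (2, true), (0, true), (2, true), (1, true), (2, false), (0, true), (2, false), (0, true), (2, false)]) :=
  Check.check_sound
    (.node 1
    (.leaf (lf 977 0 0 1024 267 (-527) (-41) 0 185 255 255 255))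
    (.node 0
    (.node 2
    (.node 1
    (.leaf (lf 828 0 0 1024 189 (-375) (-80) 0 133 255 255 255))
    (.leaf (lf 740 0 0 1024 115 (-227) (-104) 0 81 255 103 244)))
    (.node 1
    (.leaf (lf 832 0 0 1024 189 (-375) (-78) 0 131 255 255 255))
    (.leaf (lf 743 0 0 1024 115 (-227) (-102) 0 80 255 98 243))))
    (.node 2
    (.node 1
    (.leaf (lf 818 0 0 1024 189 (-375) (-83) 0 135 255 255 255))
    (.leaf (lf 731 0 0 1024 115 (-228) (-107) 0 83 255 98 239)))
    (.node 1
    (.leaf (lf 821 0 0 1024 189 (-375) (-80) 0 133 255 255 255))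
    (.leaf (lf 734 0 0 1024 115 (-228) (-105) 0 81 255 105 236))))))
    (by decide +kernel)

def goodS0X_840 :
    Check.Good noCone cfS0X (reach cfS0X ⟨litS0X, 1, fsS0X⟩
      [(0, true), (2, true), (0, false), (2, true), (1, true), (1, true), (0, true), (2, true), (0, true), (2, true), (1, true), (2, false), (0, true), (2, false), (0, true), (2, false)]) :=
  Check.good_node (a := 2) (by decide +kernel)
    goodS0X_841 goodS0X_842

def goodS0X_836 :
    Check.Good noCone cfS0X (reach cfS0X ⟨litS0X, 1, fsS0X⟩
      [(2, true), (0, false), (2, true), (1, true), (1, true), (0, true), (2, true), (0, true), (2, true), (1, true), (2, false), (0, true), (2, false), (0, true), (2, false)]) :=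
  Check.good_node (a := 0) (by decide +kernel)
    goodS0X_837 goodS0X_840

def goodS0X_828 :
    Check.Good noCone cfS0X (reach cfS0X ⟨litS0X, 1, fsS0X⟩
      [(0, false), (2, true), (1, true), (1, true), (0, true), (2, true), (0, true), (2, true), (1, true), (2, false), (0, true), (2, false), (0, true), (2, false)]) :=
  Check.good_node (a := 2) (by decide +kernel)
    goodS0X_829 goodS0X_836

def goodS0X_844 :
    Check.Good noCone cfS0X (reach cfS0X ⟨litS0X, 1, fsS0X⟩
      [(2, false), (0, true), (2, true), (1, true), (1, true), (0, true), (2, true), (0, true), (2, true), (1, true), (2, false), (0, true), (2, false), (0, true), (2, false)]) :=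
  Check.check_sound
    (.node 0
    (.node 2
    (.node 1
    (.leaf (lf 928 0 0 1024 267 (-526) (-57) 0 208 255 255 255))
    (.leaf (lf 610 0 (-559) 610 175 (-1024) 0 0 186 207 73 255)))
    (.node 1
    (.leaf (lf 936 0 0 1024 267 (-527) (-53) 0 202 255 255 255))
    (.node 0
    (.node 2
    (.node 1
    (.leaf (lf 795 0 0 1024 190 (-375) (-94) 0 145 255 255 255))
    (.leaf (lf 711 0 0 1024 117 (-230) (-120) 0 90 255 101 240)))
    (.node 1
    (.leaf (lf 798 0 0 1024 190 (-375) (-92) 0 143 255 255 255))
    (.leaf (lf 714 0 0 1024 116 (-229) (-117) 0 88 255 97 245))))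
    (.node 2
    (.node 1
    (.leaf (lf 786 0 0 1024 191 (-376) (-97) 0 148 255 255 255))
    (.leaf (lf 703 0 0 1024 117 (-230) (-123) 0 91 255 105 243)))
    (.node 1
    (.leaf (lf 789 0 0 1024 190 (-376) (-94) 0 145 255 255 255))
    (.leaf (lf 705 0 0 1024 117 (-230) (-120) 0 90 255 98 242)))))))
    (.node 2
    (.node 1
    (.leaf (lf 907 0 0 1024 268 (-528) (-61) 0 215 255 255 255))
    (.leaf (lf 590 0 (-547) 600 175 (-1024) 0 0 193 207 75 255)))
    (.node 1
    (.leaf (lf 915 0 0 1024 268 (-528) (-57) 0 209 255 255 255))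
    (.leaf (lf 600 0 (-549) 610 175 (-1024) 0 0 187 208 72 255)))))
    (by decide +kernel)

def goodS0X_847 :
    Check.Good noCone cfS0X (reach cfS0X ⟨litS0X, 1, fsS0X⟩
      [(2, false), (0, false), (2, true), (0, true), (2, true), (1, true), (1, true), (0, true), (2, true), (0, true), (2, true), (1, true), (2, false), (0, true), (2, false), (0, true), (2, false)]) :=
  Check.check_sound
    (.node 1
    (.leaf (lf 944 0 0 1024 267 (-528) (-49) 0 196 255 255 255))
    (.node 0
    (.node 2
    (.node 1
    (.leaf (lf 801 0 0 1024 190 (-375) (-90) 0 141 255 255 255))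
    (.leaf (lf 716 0 0 1024 116 (-229) (-115) 0 87 255 102 240)))
    (.node 1
    (.leaf (lf 804 0 0 1024 190 (-375) (-87) 0 139 255 255 255))
    (.leaf (lf 719 0 0 1024 116 (-229) (-112) 0 85 255 97 237))))
    (.node 2
    (.node 1
    (.leaf (lf 792 0 0 1024 190 (-376) (-92) 0 143 255 255 255))
    (.leaf (lf 708 0 0 1024 117 (-230) (-118) 0 88 255 108 237)))
    (.node 1
    (.leaf (lf 795 0 0 1024 190 (-376) (-90) 0 141 255 255 255))
    (.leaf (lf 710 0 0 1024 116 (-229) (-115) 0 87 255 98 243))))))
    (by decide +kernel)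

def goodS0X_848 :
    Check.Good noCone cfS0X (reach cfS0X ⟨litS0X, 1, fsS0X⟩
      [(2, true), (0, false), (2, true), (0, true), (2, true), (1, true), (1, true), (0, true), (2, true), (0, true), (2, true), (1, true), (2, false), (0, true), (2, false), (0, true), (2, false)]) :=
  Check.check_sound
    (.node 1
    (.leaf (lf 953 0 0 1024 267 (-529) (-45) 0 191 255 255 255))
    (.node 0
    (.node 2
    (.node 1
    (.leaf (lf 808 0 0 1024 190 (-375) (-85) 0 137 255 255 255))
    (.leaf (lf 722 0 0 1024 116 (-228) (-110) 0 84 255 104 244)))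
    (.node 1
    (.leaf (lf 811 0 0 1024 190 (-376) (-83) 0 135 255 255 255))
    (.leaf (lf 724 0 0 1024 115 (-228) (-108) 0 83 255 107 240))))
    (.node 2
    (.node 1
    (.leaf (lf 798 0 0 1024 190 (-376) (-88) 0 140 255 255 255))
    (.leaf (lf 713 0 0 1024 116 (-229) (-113) 0 86 255 107 238)))
    (.node 1
    (.leaf (lf 801 0 0 1024 190 (-376) (-85) 0 138 255 255 255))
    (.leaf (lf 715 0 0 1024 116 (-229) (-110) 0 84 255 101 238))))))
    (by decide +kernel)

def goodS0X_846 :
    Check.Good noCone cfS0X (reach cfS0X ⟨litS0X, 1, fsS0X⟩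
      [(0, false), (2, true), (0, true), (2, true), (1, true), (1, true), (0, true), (2, true), (0, true), (2, true), (1, true), (2, false), (0, true), (2, false), (0, true), (2, false)]) :=
  Check.good_node (a := 2) (by decide +kernel)
    goodS0X_847 goodS0X_848

def goodS0X_850 :
    Check.Good noCone cfS0X (reach cfS0X ⟨litS0X, 1, fsS0X⟩
      [(2, false), (0, true), (2, true), (0, true), (2, true), (1, true), (1, true), (0, true), (2, true), (0, true), (2, true), (1, true), (2, false), (0, true), (2, false), (0, true), (2, false)]) :=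
  Check.check_sound
    (.node 1
    (.leaf (lf 922 0 0 1024 268 (-529) (-53) 0 203 255 255 255))
    (.node 0
    (.node 2
    (.node 1
    (.leaf (lf 782 0 0 1024 191 (-376) (-95) 0 146 255 255 255))
    (.leaf (lf 699 0 0 1024 117 (-230) (-120) 0 90 255 104 244)))
    (.node 1
    (.leaf (lf 785 0 0 1024 191 (-376) (-92) 0 144 255 255 255))
    (.leaf (lf 702 0 0 1024 117 (-230) (-118) 0 89 255 100 239))))
    (.node 2
    (.node 1
    (.leaf (lf 773 0 0 1024 191 (-377) (-97) 0 148 255 255 255))
    (.leaf (lf 691 0 0 1024 118 (-231) (-123) 0 92 255 100 242)))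
    (.node 1
    (.leaf (lf 776 0 0 1024 191 (-377) (-95) 0 146 255 255 255))
    (.leaf (lf 694 0 0 1024 117 (-231) (-121) 0 90 255 105 240))))))
    (by decide +kernel)

def goodS0X_851 :
    Check.Good noCone cfS0X (reach cfS0X ⟨litS0X, 1, fsS0X⟩
      [(2, true), (0, true), (2, true), (0, true), (2, true), (1, true), (1, true), (0, true), (2, true), (0, true), (2, true), (1, true), (2, false), (0, true), (2, false), (0, true), (2, false)]) :=
  Check.check_sound
    (.node 1
    (.leaf (lf 930 0 0 1024 268 (-530) (-49) 0 198 255 255 255))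
    (.node 0
    (.node 2
    (.node 1
    (.leaf (lf 788 0 0 1024 191 (-377) (-90) 0 142 255 255 255))
    (.leaf (lf 704 0 0 1024 116 (-230) (-115) 0 87 255 102 240)))
    (.node 1
    (.leaf (lf 791 0 0 1024 190 (-377) (-88) 0 140 255 255 255))
    (.leaf (lf 707 0 0 1024 116 (-229) (-113) 0 86 255 98 242))))
    (.node 2
    (.node 1
    (.leaf (lf 779 0 0 1024 191 (-377) (-93) 0 144 255 255 255))
    (.leaf (lf 696 0 0 1024 117 (-230) (-118) 0 89 255 97 241)))
    (.node 1
    (.leaf (lf 782 0 0 1024 191 (-377) (-90) 0 142 255 255 255))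
    (.leaf (lf 698 0 0 1024 117 (-230) (-116) 0 87 255 97 238))))))
    (by decide +kernel)

def goodS0X_849 :
    Check.Good noCone cfS0X (reach cfS0X ⟨litS0X, 1, fsS0X⟩
      [(0, true), (2, true), (0, true), (2, true), (1, true), (1, true), (0, true), (2, true), (0, true), (2, true), (1, true), (2, false), (0, true), (2, false), (0, true), (2, false)]) :=
  Check.good_node (a := 2) (by decide +kernel)
    goodS0X_850 goodS0X_851

def goodS0X_845 :
    Check.Good noCone cfS0X (reach cfS0X ⟨litS0X, 1, fsS0X⟩
      [(2, true), (0, true), (2, true), (1, true), (1, true), (0, true), (2, true), (0, true), (2, true), (1, true), (2, false), (0, true), (2, false), (0, true), (2, false)]) :=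
  Check.good_node (a := 0) (by decide +kernel)
    goodS0X_846 goodS0X_849

def goodS0X_843 :
    Check.Good noCone cfS0X (reach cfS0X ⟨litS0X, 1, fsS0X⟩
      [(0, true), (2, true), (1, true), (1, true), (0, true), (2, true), (0, true), (2, true), (1, true), (2, false), (0, true), (2, false), (0, true), (2, false)]) :=
  Check.good_node (a := 2) (by decide +kernel)
    goodS0X_844 goodS0X_845

def goodS0X_827 :
    Check.Good noCone cfS0X (reach cfS0X ⟨litS0X, 1, fsS0X⟩
      [(2, true), (1, true), (1, true), (0, true), (2, true), (0, true), (2, true), (1, true), (2, false), (0, true), (2, false), (0, true), (2, false)]) :=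
  Check.good_node (a := 0) (by decide +kernel)
    goodS0X_828 goodS0X_843

def goodS0X_821 :
    Check.Good noCone cfS0X (reach cfS0X ⟨litS0X, 1, fsS0X⟩
      [(1, true), (1, true), (0, true), (2, true), (0, true), (2, true), (1, true), (2, false), (0, true), (2, false), (0, true), (2, false)]) :=
  Check.good_node (a := 2) (by decide +kernel)
    goodS0X_822 goodS0X_827

def goodS0X_819 :
    Check.Good noCone cfS0X (reach cfS0X ⟨litS0X, 1, fsS0X⟩
      [(1, true), (0, true), (2, true), (0, true), (2, true), (1, true), (2, false), (0, true), (2, false), (0, true), (2, false)]) :=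
  Check.good_node (a := 1) (by decide +kernel)
    goodS0X_820 goodS0X_821

def goodS0X_817 :
    Check.Good noCone cfS0X (reach cfS0X ⟨litS0X, 1, fsS0X⟩
      [(0, true), (2, true), (0, true), (2, true), (1, true), (2, false), (0, true), (2, false), (0, true), (2, false)]) :=
  Check.good_node (a := 1) (by decide +kernel)
    goodS0X_818 goodS0X_819

def goodS0X_767 :
    Check.Good noCone cfS0X (reach cfS0X ⟨litS0X, 1, fsS0X⟩
      [(2, true), (0, true), (2, true), (1, true), (2, false), (0, true), (2, false), (0, true), (2, false)]) :=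
  Check.good_node (a := 0) (by decide +kernel)
    goodS0X_768 goodS0X_817

def goodS0X_733 :
    Check.Good noCone cfS0X (reach cfS0X ⟨litS0X, 1, fsS0X⟩
      [(0, true), (2, true), (1, true), (2, false), (0, true), (2, false), (0, true), (2, false)]) :=
  Check.good_node (a := 2) (by decide +kernel)
    goodS0X_734 goodS0X_767

end

end Vale.Agent.P211.Cert.Interior.Data
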