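import Vale.Agent.P211.Cert.Interior.Data.S0Xr

/-!
P211, a part of a cell of the interior family (generated).
-/

namespace Vale.Agent.P211.Cert.Interior.Data

open Vale.Agent.P098.Check6 (ofChunks eqList reach St Cfg Face)
open Vale.Agent.P098.Cert6.Kron (RootPar parOK)

set_option linter.defProp false

noncomputable section

def goodS0X_855 :
    Check.Good noCone cfS0X (reach cfS0X ⟨litS0X, 1, fsS0X⟩
      [(1, false), (1, false), (1, false), (2, true), (0, true), (2, false), (0, true), (2, false)]) :=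
  Check.check_sound
    (.node 2
    (.node 0
    (.node 1
    (.leaf (lf 1024 0 0 10 85 (-130) 4 0 25 255 255 255))
    (.node 0
    (.leaf (lf 1024 0 0 23 94 (-142) 11 0 26 255 255 255))
    (.node 2
    (.leaf (lf 16384 0 0 540 1047 (-1726) 222 0 393 255 255 255))
    (.leaf (lf 1024 0 0 26 84 (-132) 13 0 26 255 255 255)))))
    (.node 1
    (.node 0
    (.leaf (lf 1024 0 0 13 70 (-114) 5 0 27 255 255 255))
    (.leaf (lf 1024 513 202 0 93 (-132) 0 0 37 220 255 253)))
    (.node 0
    (.leaf (lf 803 1024 719 0 166 (-117) 0 0 44 255 255 255))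
    (.leaf (lf 757 1024 674 0 173 (-118) 0 0 51 255 255 255)))))
    (.node 0
    (.leaf (lf 1024 0 0 10 166 (-224) 7 0 35 255 255 255))
    (.node 1
    (.leaf (lf 1024 0 0 10 104 (-154) 5 0 30 255 255 255))
    (.leaf (lf 1024 0 0 30 104 (-155) 14 0 30 255 255 255)))))
    (by decide +kernel)

def goodS0X_858 :
    Check.Good noCone cfS0X (reach cfS0X ⟨litS0X, 1, fsS0X⟩
      [(0, false), (2, false), (1, true), (1, false), (1, false), (2, true), (0, true), (2, false), (0, true), (2, false)]) :=
  Check.check_sound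
    (.node 2
    (.node 0
    (.node 1
    (.leaf (lf 1024 0 0 43 73 (-117) 20 0 23 255 255 255))
    (.leaf (lf 442 775 1024 0 197 (-42) 0 0 48 255 255 255)))
    (.node 1
    (.leaf (lf 539 950 1024 0 193 (-59) 0 0 49 255 255 255))
    (.node 2
    (.node 0
    (.leaf (lf 1024 0 0 77 62 (-105) 32 0 24 255 255 255))
    (.leaf (lf 1024 0 0 86 62 (-107) 35 0 26 255 255 255)))
    (.leaf (lf 1024 0 0 74 68 (-112) 31 0 25 246 255 144)))))
    (.node 0
    (.leaf (lf 16384 0 0 594 1757 (-2629) 340 0 454 255 255 255))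
    (.node 1
    (.leaf (lf 1024 0 0 44 84 (-132) 21 0 26 255 255 255))
    (.leaf (lf 1024 0 0 62 85 (-133) 29 0 26 255 255 255)))))
    (by decide +kernel)

def goodS0X_859 :
    Check.Good noCone cfS0X (reach cfS0X ⟨litS0X, 1, fsS0X⟩
      [(0, true), (2, false), (1, true), (1, false), (1, false), (2, true), (0, true), (2, false), (0, true), (2, false)]) :=
  Check.check_sound
    (.node 2
    (.node 0
    (.node 1
    (.node 2
    (.leaf (lf 1024 0 0 73 67 (-115) 28 0 31 255 255 158))
    (.leaf (lf 1024 0 0 66 66 (-111) 26 0 27 253 255 143)))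
    (.node 2
    (.node 0
    (.leaf (lf 1024 0 0 96 65 (-111) 37 0 29 255 255 255))
    (.leaf (lf 1024 0 0 105 68 (-118) 40 0 33 255 255 255)))
    (.node 0
    (.leaf (lf 1024 0 0 87 65 (-110) 35 0 26 255 255 255))
    (.leaf (lf 1024 0 0 96 66 (-113) 38 0 29 255 255 255)))))
    (.node 1
    (.node 2
    (.leaf (lf 1024 0 0 86 76 (-132) 32 0 41 255 255 255))
    (.leaf (lf 1024 0 0 80 72 (-123) 30 0 34 255 255 255)))
    (.node 2
    (.leaf (lf 1024 0 0 120 75 (-131) 44 0 41 251 255 150))
    (.leaf (lf 16384 0 0 1792 1149 (-1972) 670 0 555 248 255 144)))))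
    (.node 0
    (.node 1
    (.leaf (lf 552 932 1024 0 207 (-66) 0 0 52 255 255 255))
    (.node 2
    (.leaf (lf 1024 0 0 84 69 (-115) 35 0 26 247 255 147))
    (.leaf (lf 1024 0 0 76 76 (-123) 33 0 26 255 255 255))))
    (.node 1
    (.leaf (lf 498 937 1024 0 216 (-49) 0 0 58 255 160 214))
    (.node 2
    (.leaf (lf 16384 0 0 1661 1123 (-1893) 637 0 489 245 255 141))
    (.leaf (lf 1024 0 0 95 71 (-118) 38 0 28 244 255 137))))))
    (by decide +kernel)

def goodS0X_857 :
    Check.Good noCone cfS0X (reach cfS0X ⟨litS0X, 1, fsS0X⟩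
      [(2, false), (1, true), (1, false), (1, false), (2, true), (0, true), (2, false), (0, true), (2, false)]) :=
  Check.good_node (a := 0) (by decide +kernel)
    goodS0X_858 goodS0X_859

def goodS0X_860 :
    Check.Good noCone cfS0X (reach cfS0X ⟨litS0X, 1, fsS0X⟩
      [(2, true), (1, true), (1, false), (1, false), (2, true), (0, true), (2, false), (0, true), (2, false)]) :=
  Check.check_sound
    (.node 0
    (.leaf (lf 1024 0 0 30 166 (-225) 20 0 35 255 255 255))
    (.node 2
    (.node 0
    (.node 1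
    (.leaf (lf 1024 0 0 45 94 (-145) 22 0 28 255 255 255))
    (.leaf (lf 1024 0 0 64 95 (-147) 31 0 28 255 255 255)))
    (.node 1
    (.leaf (lf 1024 0 0 59 80 (-127) 26 0 27 255 255 255))
    (.leaf (lf 374 706 1024 0 220 (-18) 0 0 58 255 152 255))))
    (.node 0
    (.leaf (lf 1024 0 0 41 134 (-196) 25 0 34 255 255 255))
    (.node 1
    (.leaf (lf 1024 0 0 47 104 (-157) 24 0 30 255 255 255))
    (.leaf (lf 1024 0 0 67 105 (-160) 33 0 31 255 255 255))))))
    (by decide +kernel)

def goodS0X_856 :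
    Check.Good noCone cfS0X (reach cfS0X ⟨litS0X, 1, fsS0X⟩
      [(1, true), (1, false), (1, false), (2, true), (0, true), (2, false), (0, true), (2, false)]) :=
  Check.good_node (a := 2) (by decide +kernel)
    goodS0X_857 goodS0X_860

def goodS0X_854 :
    Check.Good noCone cfS0X (reach cfS0X ⟨litS0X, 1, fsS0X⟩
      [(1, false), (1, false), (2, true), (0, true), (2, false), (0, true), (2, false)]) :=
  Check.good_node (a := 1) (by decide +kernel)
    goodS0X_855 goodS0X_856

def goodS0X_865 :
    Check.Good noCone cfS0X (reach cfS0X ⟨litS0X, 1, fsS0X⟩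
      [(0, false), (2, false), (2, false), (0, false), (1, true), (1, false), (2, true), (0, true), (2, false), (0, true), (2, false)]) :=
  Check.check_sound
    (.node 1
    (.node 2
    (.node 0
    (.node 1
    (.leaf (lf 1024 0 0 77 70 (-114) 35 0 23 255 255 255))
    (.leaf (lf 1024 0 0 97 74 (-122) 41 0 25 255 255 255)))
    (.node 1
    (.leaf (lf 1024 0 0 88 66 (-110) 38 0 24 255 255 255))
    (.leaf (lf 1024 0 0 111 72 (-121) 45 0 26 255 255 255))))
    (.node 0
    (.leaf (lf 1024 0 0 75 89 (-141) 36 0 26 251 255 160))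
    (.node 1
    (.leaf (lf 1024 0 0 77 75 (-122) 36 0 24 255 255 255))
    (.leaf (lf 1024 0 0 97 80 (-130) 43 0 26 255 255 255)))))
    (.node 2
    (.node 0
    (.leaf (lf 1024 0 0 133 93 (-156) 50 0 32 247 255 146))
    (.leaf (lf 16384 0 0 2411 1495 (-2563) 870 0 561 246 255 142)))
    (.node 0
    (.leaf (lf 1024 0 0 116 100 (-163) 47 0 31 255 255 255))
    (.leaf (lf 1024 0 0 134 98 (-163) 52 0 33 247 255 152)))))
    (by decide +kernel)

def goodS0X_866 :
    Check.Good noCone cfS0X (reach cfS0X ⟨litS0X, 1, fsS0X⟩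
      [(0, true), (2, false), (2, false), (0, false), (1, true), (1, false), (2, true), (0, true), (2, false), (0, true), (2, false)]) :=
  Check.check_sound
    (.node 1
    (.node 2
    (.node 1
    (.node 0
    (.leaf (lf 1024 0 0 100 65 (-110) 41 0 25 255 255 255))
    (.leaf (lf 1024 0 0 112 65 (-113) 44 0 28 255 255 255)))
    (.node 0
    (.leaf (lf 1024 0 0 125 71 (-122) 49 0 28 255 255 255))
    (.leaf (lf 1024 0 0 139 72 (-126) 53 0 31 255 255 255))))
    (.node 1
    (.node 0
    (.leaf (lf 1024 0 0 89 71 (-117) 39 0 25 255 255 255))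
    (.leaf (lf 1024 0 0 101 68 (-115) 42 0 26 255 255 255)))
    (.node 0
    (.leaf (lf 1024 0 0 111 76 (-127) 46 0 27 255 255 255))
    (.leaf (lf 1024 0 0 125 75 (-127) 50 0 29 255 255 255)))))
    (.node 2
    (.node 0
    (.node 1
    (.leaf (lf 1024 0 0 152 82 (-143) 56 0 33 255 255 255))
    (.leaf (lf 1024 0 0 183 99 (-173) 62 0 41 255 255 255)))
    (.node 1
    (.leaf (lf 1024 0 0 168 85 (-149) 61 0 37 255 255 255))
    (.leaf (lf 1024 0 0 202 102 (-181) 67 0 45 255 255 255))))
    (.node 0
    (.leaf (lf 1024 0 0 151 98 (-166) 56 0 36 247 255 144))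
    (.leaf (lf 1024 0 0 169 100 (-171) 61 0 39 247 255 145)))))
    (by decide +kernel)

def goodS0X_864 :
    Check.Good noCone cfS0X (reach cfS0X ⟨litS0X, 1, fsS0X⟩
      [(2, false), (2, false), (0, false), (1, true), (1, false), (2, true), (0, true), (2, false), (0, true), (2, false)]) :=
  Check.good_node (a := 0) (by decide +kernel)
    goodS0X_865 goodS0X_866

def goodS0X_867 :
    Check.Good noCone cfS0X (reach cfS0X ⟨litS0X, 1, fsS0X⟩
      [(2, true), (2, false), (0, false), (1, true), (1, false), (2, true), (0, true), (2, false), (0, true), (2, false)]) :=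
  Check.check_sound
    (.node 0
    (.node 1
    (.leaf (lf 472 728 1024 0 267 (-76) 0 0 59 250 149 255))
    (.node 2
    (.leaf (lf 16384 0 0 1784 1788 (-2828) 750 0 512 245 255 142))
    (.leaf (lf 1024 0 0 96 126 (-192) 45 0 33 255 255 255))))
    (.node 1
    (.node 2
    (.node 1
    (.leaf (lf 1024 0 0 85 79 (-128) 38 0 26 255 255 255))
    (.leaf (lf 1024 0 0 107 85 (-138) 46 0 28 247 255 153)))
    (.node 1
    (.leaf (lf 1024 0 0 74 92 (-144) 36 0 27 255 255 255))
    (.leaf (lf 1024 0 0 94 96 (-152) 44 0 29 255 255 255))))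
    (.node 2
    (.node 0
    (.leaf (lf 1024 0 0 134 104 (-171) 54 0 34 255 255 255))
    (.leaf (lf 1024 0 0 152 103 (-173) 58 0 37 247 255 145)))
    (.node 0
    (.leaf (lf 1024 0 0 118 114 (-182) 51 0 34 255 255 255))
    (.leaf (lf 1024 0 0 136 110 (-180) 55 0 35 255 255 255))))))
    (by decide +kernel)

def goodS0X_863 :
    Check.Good noCone cfS0X (reach cfS0X ⟨litS0X, 1, fsS0X⟩
      [(2, false), (0, false), (1, true), (1, false), (2, true), (0, true), (2, false), (0, true), (2, false)]) :=
  Check.good_node (a := 2) (by decide +kernel)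
    goodS0X_864 goodS0X_867

def goodS0X_868 :
    Check.Good noCone cfS0X (reach cfS0X ⟨litS0X, 1, fsS0X⟩
      [(2, true), (0, false), (1, true), (1, false), (2, true), (0, true), (2, false), (0, true), (2, false)]) :=
  Check.check_sound
    (.node 0
    (.node 2
    (.node 1
    (.leaf (lf 1024 0 0 44 152 (-214) 31 0 33 255 255 255))
    (.leaf (lf 1024 0 0 75 155 (-223) 42 0 35 255 255 255)))
    (.leaf (lf 1024 0 0 39 209 (-274) 34 0 39 255 255 255)))
    (.node 2
    (.node 1
    (.leaf (lf 490 731 1024 0 295 (-92) 0 0 65 255 152 254))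
    (.leaf (lf 373 635 1024 0 328 (-41) 0 0 75 241 121 255)))
    (.node 1
    (.leaf (lf 1024 0 0 47 165 (-232) 35 0 36 255 255 255))
    (.leaf (lf 1024 0 0 78 170 (-244) 46 0 38 255 255 255)))))
    (by decide +kernel)

def goodS0X_862 :
    Check.Good noCone cfS0X (reach cfS0X ⟨litS0X, 1, fsS0X⟩
      [(0, false), (1, true), (1, false), (2, true), (0, true), (2, false), (0, true), (2, false)]) :=
  Check.good_node (a := 2) (by decide +kernel)
    goodS0X_863 goodS0X_868

def goodS0X_872 :
    Check.Good noCone cfS0X (reach cfS0X ⟨litS0X, 1, fsS0X⟩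
      [(0, false), (2, false), (2, false), (0, true), (1, true), (1, false), (2, true), (0, true), (2, false), (0, true), (2, false)]) :=
  Check.check_sound
    (.node 1
    (.node 2
    (.node 1
    (.node 0
    (.leaf (lf 1024 0 0 123 67 (-117) 47 0 31 244 255 142))
    (.leaf (lf 1024 0 0 135 71 (-124) 51 0 35 255 255 255)))
    (.node 0
    (.leaf (lf 1024 0 0 153 75 (-131) 57 0 35 255 255 255))
    (.leaf (lf 1024 0 0 167 78 (-138) 61 0 39 255 255 255))))
    (.node 1
    (.node 0
    (.leaf (lf 1024 0 0 113 68 (-115) 45 0 28 255 255 255))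
    (.leaf (lf 1024 0 0 125 69 (-119) 48 0 31 255 255 255)))
    (.node 0
    (.leaf (lf 1024 0 0 140 75 (-129) 54 0 31 255 255 255))
    (.leaf (lf 1024 0 0 154 77 (-133) 58 0 34 255 255 255)))))
    (.node 2
    (.node 0
    (.leaf (lf 16384 0 0 3245 1641 (-2928) 1103 0 781 247 255 140))
    (.leaf (lf 1024 0 0 220 107 (-192) 74 0 55 250 255 142)))
    (.node 0
    (.leaf (lf 1024 0 0 187 102 (-178) 65 0 43 247 255 132))
    (.leaf (lf 1024 0 0 204 105 (-185) 70 0 48 245 255 133)))))
    (by decide +kernel)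

def goodS0X_873 :
    Check.Good noCone cfS0X (reach cfS0X ⟨litS0X, 1, fsS0X⟩
      [(0, true), (2, false), (2, false), (0, true), (1, true), (1, false), (2, true), (0, true), (2, false), (0, true), (2, false)]) :=
  Check.check_sound
    (.node 1
    (.node 2
    (.node 1
    (.node 0
    (.leaf (lf 1024 0 0 147 74 (-131) 55 0 39 255 255 255))
    (.leaf (lf 1024 0 0 158 79 (-139) 59 0 44 255 255 255)))
    (.node 0
    (.leaf (lf 1024 0 0 180 82 (-145) 66 0 44 255 255 255))
    (.leaf (lf 1024 0 0 194 86 (-152) 71 0 49 255 255 255))))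
    (.node 1
    (.node 0
    (.leaf (lf 1024 0 0 137 72 (-124) 52 0 34 255 255 255))
    (.leaf (lf 1024 0 0 148 75 (-131) 55 0 38 255 255 255)))
    (.node 0
    (.leaf (lf 1024 0 0 168 79 (-139) 62 0 38 255 255 255))
    (.leaf (lf 1024 0 0 182 83 (-145) 67 0 42 255 255 255)))))
    (.node 2
    (.node 0
    (.leaf (lf 1024 0 0 237 111 (-201) 80 0 61 249 255 144))
    (.leaf (lf 1024 0 0 253 116 (-210) 86 0 68 251 255 147)))
    (.node 0
    (.leaf (lf 1024 0 0 221 109 (-193) 76 0 53 247 255 141))
    (.leaf (lf 1024 0 0 238 113 (-202) 81 0 59 247 255 136)))))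
    (by decide +kernel)

def goodS0X_871 :
    Check.Good noCone cfS0X (reach cfS0X ⟨litS0X, 1, fsS0X⟩
      [(2, false), (2, false), (0, true), (1, true), (1, false), (2, true), (0, true), (2, false), (0, true), (2, false)]) :=
  Check.good_node (a := 0) (by decide +kernel)
    goodS0X_872 goodS0X_873

def goodS0X_875 :
    Check.Good noCone cfS0X (reach cfS0X ⟨litS0X, 1, fsS0X⟩
      [(0, false), (2, true), (2, false), (0, true), (1, true), (1, false), (2, true), (0, true), (2, false), (0, true), (2, false)]) :=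
  Check.check_sound
    (.node 1
    (.node 2
    (.node 1
    (.leaf (lf 1024 0 0 109 73 (-121) 44 0 28 243 255 141))
    (.node 0
    (.leaf (lf 1024 0 0 126 79 (-132) 51 0 29 255 255 255))
    (.leaf (lf 1024 0 0 141 78 (-133) 55 0 31 255 255 255))))
    (.node 1
    (.leaf (lf 1024 0 0 98 79 (-129) 42 0 27 246 255 138))
    (.leaf (lf 1024 0 0 123 86 (-141) 51 0 30 245 255 146))))
    (.node 2
    (.node 0
    (.leaf (lf 1024 0 0 170 104 (-177) 62 0 40 245 255 134))
    (.leaf (lf 1024 0 0 188 105 (-182) 67 0 43 246 255 133)))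
    (.node 0
    (.leaf (lf 1024 0 0 153 108 (-180) 60 0 38 246 255 144))
    (.leaf (lf 1024 0 0 171 108 (-182) 64 0 40 244 255 129)))))
    (by decide +kernel)

def goodS0X_876 :
    Check.Good noCone cfS0X (reach cfS0X ⟨litS0X, 1, fsS0X⟩
      [(0, true), (2, true), (2, false), (0, true), (1, true), (1, false), (2, true), (0, true), (2, false), (0, true), (2, false)]) :=
  Check.check_sound
    (.node 1
    (.node 2
    (.node 1
    (.node 0
    (.leaf (lf 1024 0 0 126 71 (-121) 49 0 30 255 255 255))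
    (.leaf (lf 1024 0 0 138 73 (-125) 53 0 33 255 255 255)))
    (.node 0
    (.leaf (lf 1024 0 0 155 79 (-135) 59 0 34 255 255 255))
    (.leaf (lf 1024 0 0 170 81 (-140) 63 0 37 255 255 255))))
    (.node 1
    (.leaf (lf 16384 0 0 1971 1202 (-2003) 776 0 480 242 255 139))
    (.leaf (lf 1024 0 0 152 83 (-140) 58 0 34 242 255 136))))
    (.node 2
    (.node 0
    (.leaf (lf 1024 0 0 206 108 (-188) 72 0 48 246 255 139))
    (.leaf (lf 1024 0 0 223 111 (-195) 77 0 52 246 255 132)))
    (.node 0
    (.leaf (lf 1024 0 0 189 109 (-187) 69 0 44 243 255 134))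
    (.leaf (lf 1024 0 0 208 111 (-192) 74 0 48 244 255 138)))))
    (by decide +kernel)

def goodS0X_874 :
    Check.Good noCone cfS0X (reach cfS0X ⟨litS0X, 1, fsS0X⟩
      [(2, true), (2, false), (0, true), (1, true), (1, false), (2, true), (0, true), (2, false), (0, true), (2, false)]) :=
  Check.good_node (a := 0) (by decide +kernel)
    goodS0X_875 goodS0X_876

def goodS0X_870 :
    Check.Good noCone cfS0X (reach cfS0X ⟨litS0X, 1, fsS0X⟩
      [(2, false), (0, true), (1, true), (1, false), (2, true), (0, true), (2, false), (0, true), (2, false)]) :=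
  Check.good_node (a := 2) (by decide +kernel)
    goodS0X_871 goodS0X_874

def goodS0X_878 :
    Check.Good noCone cfS0X (reach cfS0X ⟨litS0X, 1, fsS0X⟩
      [(0, false), (2, true), (0, true), (1, true), (1, false), (2, true), (0, true), (2, false), (0, true), (2, false)]) :=
  Check.check_sound
    (.node 2
    (.node 1
    (.node 1
    (.leaf (lf 1024 0 0 83 98 (-152) 40 0 29 255 255 255))
    (.leaf (lf 16384 0 0 1663 1648 (-2593) 762 0 502 255 250 174)))
    (.node 2
    (.node 0
    (.leaf (lf 1024 0 0 137 116 (-188) 58 0 37 255 255 255))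
    (.leaf (lf 1024 0 0 155 114 (-187) 62 0 39 255 255 255)))
    (.leaf (lf 1024 0 0 133 127 (-201) 57 0 38 243 255 134))))
    (.node 1
    (.leaf (lf 1024 0 0 71 137 (-203) 41 0 35 255 255 255))
    (.leaf (lf 1024 0 0 110 148 (-225) 54 0 39 255 253 167))))
    (by decide +kernel)

def goodS0X_879 :
    Check.Good noCone cfS0X (reach cfS0X ⟨litS0X, 1, fsS0X⟩
      [(0, true), (2, true), (0, true), (1, true), (1, false), (2, true), (0, true), (2, false), (0, true), (2, false)]) :=
  Check.check_sound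
    (.node 2
    (.node 1
    (.node 1
    (.node 2
    (.leaf (lf 1024 0 0 112 80 (-130) 47 0 29 243 255 146))
    (.leaf (lf 1024 0 0 102 88 (-141) 45 0 30 255 255 255)))
    (.node 2
    (.leaf (lf 1024 0 0 139 88 (-144) 56 0 32 244 255 139))
    (.leaf (lf 1024 0 0 126 95 (-154) 54 0 32 255 255 255))))
    (.node 2
    (.node 0
    (.leaf (lf 1024 0 0 173 113 (-189) 66 0 41 244 255 128))
    (.leaf (lf 1024 0 0 191 113 (-191) 71 0 44 243 255 132)))
    (.node 0
    (.leaf (lf 1024 0 0 157 119 (-195) 64 0 40 255 255 255))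
    (.leaf (lf 1024 0 0 175 117 (-195) 69 0 42 255 255 255)))))
    (.node 1
    (.node 1
    (.leaf (lf 1024 0 0 86 108 (-166) 43 0 32 255 255 255))
    (.leaf (lf 1024 0 0 108 114 (-177) 51 0 34 255 255 255)))
    (.node 2
    (.leaf (lf 1024 0 0 153 128 (-206) 64 0 41 242 255 137))
    (.leaf (lf 1024 0 0 137 139 (-218) 62 0 41 255 255 255)))))
    (by decide +kernel)

def goodS0X_877 :
    Check.Good noCone cfS0X (reach cfS0X ⟨litS0X, 1, fsS0X⟩
      [(2, true), (0, true), (1, true), (1, false), (2, true), (0, true), (2, false), (0, true), (2, false)]) :=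
  Check.good_node (a := 0) (by decide +kernel)
    goodS0X_878 goodS0X_879

def goodS0X_869 :
    Check.Good noCone cfS0X (reach cfS0X ⟨litS0X, 1, fsS0X⟩
      [(0, true), (1, true), (1, false), (2, true), (0, true), (2, false), (0, true), (2, false)]) :=
  Check.good_node (a := 2) (by decide +kernel)
    goodS0X_870 goodS0X_877

def goodS0X_861 :
    Check.Good noCone cfS0X (reach cfS0X ⟨litS0X, 1, fsS0X⟩
      [(1, true), (1, false), (2, true), (0, true), (2, false), (0, true), (2, false)]) :=
  Check.good_node (a := 0) (by decide +kernel)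
    goodS0X_862 goodS0X_869

def goodS0X_853 :
    Check.Good noCone cfS0X (reach cfS0X ⟨litS0X, 1, fsS0X⟩
      [(1, false), (2, true), (0, true), (2, false), (0, true), (2, false)]) :=
  Check.good_node (a := 1) (by decide +kernel)
    goodS0X_854 goodS0X_861

end

end Vale.Agent.P211.Cert.Interior.Data
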