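import Vale.Agent.P211.Cert.Interior.Data.S0Xr

/-!
P211, a part of a cell of the interior family (generated).
-/

namespace Vale.Agent.P211.Cert.Interior.Data

open Vale.Agent.P098.Check6 (ofChunks eqList reach St Cfg Face)
open Vale.Agent.P098.Cert6.Kron (RootPar parOK)

set_option linter.defProp false

noncomputable section

def goodS0X_884 :
    Check.Good noCone cfS0X (reach cfS0X ⟨litS0X, 1, fsS0X⟩
      [(0, false), (2, false), (2, false), (0, false), (1, true), (2, true), (0, true), (2, false), (0, true), (2, false)]) :=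
  Check.check_sound
    (.node 1
    (.node 1
    (.node 2
    (.leaf (lf 1024 0 0 215 129 (-223) 59 0 48 251 255 131))
    (.leaf (lf 1024 0 0 193 131 (-220) 56 0 43 252 255 124)))
    (.node 2
    (.leaf (lf 1024 0 0 327 171 (-305) 57 0 66 255 255 255))
    (.leaf (lf 1024 0 0 298 171 (-294) 55 0 59 255 255 255))))
    (.node 1
    (.leaf (lf 1024 0 0 491 205 (-366) 38 0 78 255 255 255))
    (.node 2
    (.node 0
    (.leaf (lf 16384 0 0 12239 5990 0 (-63) (-1016) 551 255 221 72))
    (.leaf (lf 1024 0 0 833 400 0 (-11) (-73) 39 255 207 61)))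
    (.node 0
    (.leaf (lf 16384 0 0 11418 2856 (-5126) 67 0 1032 255 155 203))
    (.leaf (lf 1024 0 0 782 390 0 (-2) (-65) 35 255 221 71))))))
    (by decide +kernel)

def goodS0X_886 :
    Check.Good noCone cfS0X (reach cfS0X ⟨litS0X, 1, fsS0X⟩
      [(1, false), (0, true), (2, false), (2, false), (0, false), (1, true), (2, true), (0, true), (2, false), (0, true), (2, false)]) :=
  Check.check_sound
    (.node 1
    (.node 2
    (.leaf (lf 1024 0 0 260 139 (-250) 69 0 61 255 254 130))
    (.leaf (lf 1024 0 0 238 138 (-242) 66 0 54 253 255 125)))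
    (.node 2
    (.leaf (lf 1024 0 0 387 189 (-348) 65 0 87 255 255 255))
    (.leaf (lf 1024 0 0 359 186 (-335) 64 0 76 255 255 255))))
    (by decide +kernel)

def goodS0X_888 :
    Check.Good noCone cfS0X (reach cfS0X ⟨litS0X, 1, fsS0X⟩
      [(1, false), (1, true), (0, true), (2, false), (2, false), (0, false), (1, true), (2, true), (0, true), (2, false), (0, true), (2, false)]) :=
  Check.check_sound
    (.leaf (lf 1024 0 0 578 228 (-423) 39 0 102 255 255 255))
    (by decide +kernel)

def goodS0X_891 :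
    Check.Good noCone cfS0X (reach cfS0X ⟨litS0X, 1, fsS0X⟩
      [(0, false), (2, false), (1, true), (1, true), (0, true), (2, false), (2, false), (0, false), (1, true), (2, true), (0, true), (2, false), (0, true), (2, false)]) :=
  Check.check_sound
    (.node 2
    (.node 0
    (.node 2
    (.node 1
    (.leaf (lf 1024 0 0 801 216 (-413) (-2) 0 105 255 255 255))
    (.leaf (lf 1024 0 (-551) 839 182 (-850) 0 0 103 255 255 255)))
    (.node 1
    (.leaf (lf 1024 0 0 789 215 (-410) 0 0 102 255 255 255))
    (.leaf (lf 1024 0 0 992 160 (-308) (-39) 0 78 255 115 205))))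
    (.node 2
    (.node 1
    (.leaf (lf 1024 0 0 831 222 (-428) (-5) 0 113 255 255 255))
    (.leaf (lf 1024 0 (-597) 858 190 (-927) 0 0 114 205 65 255)))
    (.node 1
    (.leaf (lf 1024 0 0 819 221 (-424) (-3) 0 109 255 255 255))
    (.leaf (lf 1024 0 (-564) 856 187 (-884) 0 0 108 255 255 255)))))
    (.node 0
    (.node 2
    (.node 1
    (.leaf (lf 1024 0 0 777 214 (-406) 3 0 98 255 255 255))
    (.leaf (lf 1024 0 0 978 160 (-306) (-35) 0 75 255 113 210)))
    (.node 1
    (.leaf (lf 1024 0 0 765 213 (-402) 5 0 95 255 255 255))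
    (.leaf (lf 1024 0 0 965 160 (-305) (-32) 0 73 255 120 209))))
    (.node 2
    (.node 1
    (.leaf (lf 1024 0 0 807 220 (-420) 0 0 105 255 255 255))
    (.leaf (lf 1024 0 (-531) 853 184 (-842) 0 0 102 255 255 255)))
    (.node 1
    (.leaf (lf 1024 0 0 796 218 (-416) 2 0 102 255 255 255))
    (.leaf (lf 1024 0 (-497) 851 181 (-800) 0 0 96 255 255 255))))))
    (by decide +kernel)

def goodS0X_892 :
    Check.Good noCone cfS0X (reach cfS0X ⟨litS0X, 1, fsS0X⟩
      [(0, true), (2, false), (1, true), (1, true), (0, true), (2, false), (2, false), (0, false), (1, true), (2, true), (0, true), (2, false), (0, true), (2, false)]) :=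
  Check.check_sound
    (.node 2
    (.node 0
    (.node 2
    (.node 1
    (.leaf (lf 1024 0 0 861 228 (-443) (-9) 0 121 255 255 255))
    (.leaf (lf 1024 0 (-639) 877 198 (-1003) 0 0 126 182 59 255)))
    (.node 1
    (.leaf (lf 1024 0 0 849 227 (-439) (-6) 0 117 255 255 255))
    (.leaf (lf 1024 0 (-608) 874 195 (-960) 0 0 119 199 64 255))))
    (.node 2
    (.node 1
    (.leaf (lf 1024 0 0 891 235 (-458) (-12) 0 129 255 255 255))
    (.leaf (lf 971 0 (-644) 849 196 (-1024) 0 0 132 227 74 255)))
    (.node 1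
    (.leaf (lf 1024 0 0 879 233 (-454) (-9) 0 125 255 255 255))
    (.leaf (lf 1011 0 (-642) 882 201 (-1024) 0 0 129 227 75 255)))))
    (.node 0
    (.node 2
    (.node 1
    (.leaf (lf 1024 0 0 838 226 (-435) (-3) 0 113 255 255 255))
    (.leaf (lf 1024 0 (-577) 872 192 (-918) 0 0 112 255 255 255)))
    (.node 1
    (.leaf (lf 1024 0 0 826 225 (-431) (-1) 0 109 255 255 255))
    (.leaf (lf 1024 0 (-545) 870 189 (-876) 0 0 106 255 255 255))))
    (.node 2
    (.node 1
    (.leaf (lf 1024 0 0 868 232 (-450) (-7) 0 120 255 255 255))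
    (.leaf (lf 1024 0 (-620) 891 200 (-995) 0 0 124 191 60 255)))
    (.node 1
    (.leaf (lf 1024 0 0 856 231 (-446) (-4) 0 117 255 255 255))
    (.leaf (lf 1024 0 (-589) 888 197 (-953) 0 0 117 206 64 255))))))
    (by decide +kernel)

def goodS0X_890 :
    Check.Good noCone cfS0X (reach cfS0X ⟨litS0X, 1, fsS0X⟩
      [(2, false), (1, true), (1, true), (0, true), (2, false), (2, false), (0, false), (1, true), (2, true), (0, true), (2, false), (0, true), (2, false)]) :=
  Check.good_node (a := 0) (by decide +kernel)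
    goodS0X_891 goodS0X_892

def goodS0X_893 :
    Check.Good noCone cfS0X (reach cfS0X ⟨litS0X, 1, fsS0X⟩
      [(2, true), (1, true), (1, true), (0, true), (2, false), (2, false), (0, false), (1, true), (2, true), (0, true), (2, false), (0, true), (2, false)]) :=
  Check.check_sound
    (.node 0
    (.leaf (lf 1024 0 0 851 415 0 (-9) (-74) 40 255 208 59))
    (.node 2
    (.node 0
    (.node 2
    (.node 1
    (.leaf (lf 1024 0 0 814 223 (-427) 1 0 106 255 255 255))
    (.leaf (lf 1024 0 (-512) 867 186 (-834) 0 0 101 255 255 255)))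
    (.node 1
    (.leaf (lf 1024 0 0 802 223 (-424) 4 0 102 255 255 255))
    (.leaf (lf 1024 0 (-479) 865 184 (-793) 0 0 95 255 255 255))))
    (.node 2
    (.node 1
    (.leaf (lf 1024 0 0 844 230 (-442) (-2) 0 113 255 255 255))
    (.leaf (lf 1024 0 (-558) 886 194 (-911) 0 0 111 255 255 255)))
    (.node 1
    (.leaf (lf 1024 0 0 833 229 (-438) 1 0 109 255 255 255))
    (.leaf (lf 1024 0 (-526) 884 191 (-869) 0 0 105 255 255 255)))))
    (.node 0
    (.node 1
    (.leaf (lf 1024 0 0 785 221 (-418) 7 0 98 255 255 255))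
    (.leaf (lf 1024 0 0 993 166 (-317) (-31) 0 75 255 111 210)))
    (.node 1
    (.leaf (lf 1024 0 0 815 227 (-433) 4 0 105 255 255 255))
    (.leaf (lf 1024 0 (-477) 880 187 (-807) 0 0 97 255 255 255))))))
    (by decide +kernel)

def goodS0X_889 :
    Check.Good noCone cfS0X (reach cfS0X ⟨litS0X, 1, fsS0X⟩
      [(1, true), (1, true), (0, true), (2, false), (2, false), (0, false), (1, true), (2, true), (0, true), (2, false), (0, true), (2, false)]) :=
  Check.good_node (a := 2) (by decide +kernel)
    goodS0X_890 goodS0X_893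

def goodS0X_887 :
    Check.Good noCone cfS0X (reach cfS0X ⟨litS0X, 1, fsS0X⟩
      [(1, true), (0, true), (2, false), (2, false), (0, false), (1, true), (2, true), (0, true), (2, false), (0, true), (2, false)]) :=
  Check.good_node (a := 1) (by decide +kernel)
    goodS0X_888 goodS0X_889

def goodS0X_885 :
    Check.Good noCone cfS0X (reach cfS0X ⟨litS0X, 1, fsS0X⟩
      [(0, true), (2, false), (2, false), (0, false), (1, true), (2, true), (0, true), (2, false), (0, true), (2, false)]) :=
  Check.good_node (a := 1) (by decide +kernel)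
    goodS0X_886 goodS0X_887

def goodS0X_883 :
    Check.Good noCone cfS0X (reach cfS0X ⟨litS0X, 1, fsS0X⟩
      [(2, false), (2, false), (0, false), (1, true), (2, true), (0, true), (2, false), (0, true), (2, false)]) :=
  Check.good_node (a := 0) (by decide +kernel)
    goodS0X_884 goodS0X_885

def goodS0X_894 :
    Check.Good noCone cfS0X (reach cfS0X ⟨litS0X, 1, fsS0X⟩
      [(2, true), (2, false), (0, false), (1, true), (2, true), (0, true), (2, false), (0, true), (2, false)]) :=
  Check.check_sound
    (.node 0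
    (.node 1
    (.node 1
    (.node 2
    (.leaf (lf 1024 0 0 172 137 (-222) 54 0 41 247 255 129))
    (.leaf (lf 1024 0 0 152 146 (-229) 52 0 39 255 255 255)))
    (.leaf (lf 1024 0 0 258 176 (-287) 53 0 51 255 255 255)))
    (.node 1
    (.leaf (lf 1024 0 0 417 205 (-344) 41 0 63 255 255 255))
    (.node 2
    (.node 0
    (.leaf (lf 1024 0 0 664 180 (-314) 11 0 59 255 167 202))
    (.leaf (lf 1024 0 0 731 187 (-335) 6 0 67 255 155 203)))
    (.node 0
    (.leaf (lf 1024 0 0 615 185 (-311) 16 0 54 255 178 205))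
    (.leaf (lf 1024 0 0 681 189 (-330) 12 0 61 255 169 205))))))
    (.node 1
    (.node 1
    (.node 2
    (.leaf (lf 1024 0 0 217 140 (-238) 64 0 49 251 255 131))
    (.leaf (lf 1024 0 0 195 144 (-239) 61 0 46 255 255 255)))
    (.leaf (lf 1024 0 0 318 186 (-320) 61 0 65 255 255 255)))
    (.node 1
    (.leaf (lf 1024 0 0 503 222 (-394) 44 0 81 255 255 255))
    (.node 2
    (.node 0
    (.leaf (lf 1024 0 0 799 407 0 0 (-66) 36 255 226 68))
    (.leaf (lf 1024 0 0 868 432 0 (-7) (-76) 40 255 209 62)))
    (.node 0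
    (.leaf (lf 1024 0 0 749 196 (-351) 7 0 69 255 159 205))
    (.leaf (lf 1024 0 0 817 425 0 2 (-68) 37 255 229 70)))))))
    (by decide +kernel)

def goodS0X_882 :
    Check.Good noCone cfS0X (reach cfS0X ⟨litS0X, 1, fsS0X⟩
      [(2, false), (0, false), (1, true), (2, true), (0, true), (2, false), (0, true), (2, false)]) :=
  Check.good_node (a := 2) (by decide +kernel)
    goodS0X_883 goodS0X_894

def goodS0X_896 :
    Check.Good noCone cfS0X (reach cfS0X ⟨litS0X, 1, fsS0X⟩
      [(0, false), (2, true), (0, false), (1, true), (2, true), (0, true), (2, false), (0, true), (2, false)]) :=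
  Check.check_sound
    (.node 2
    (.node 1
    (.node 1
    (.leaf (lf 1024 0 0 124 169 (-249) 49 0 39 255 255 255))
    (.leaf (lf 1024 0 0 208 192 (-292) 50 0 46 255 255 255)))
    (.node 1
    (.leaf (lf 1024 0 0 349 214 (-337) 43 0 54 255 255 255))
    (.node 0
    (.leaf (lf 1024 0 0 546 197 (-313) 21 0 50 255 213 220))
    (.leaf (lf 1024 0 0 609 383 0 19 (-47) 29 255 235 127)))))
    (.node 1
    (.leaf (lf 1024 0 0 128 220 (-305) 46 0 44 255 255 255))
    (.node 1
    (.leaf (lf 1024 0 0 289 236 (-344) 42 0 50 255 255 255))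
    (.leaf (lf 16384 0 0 7944 6388 0 404 (-660) 437 255 235 156)))))
    (by decide +kernel)

def goodS0X_897 :
    Check.Good noCone cfS0X (reach cfS0X ⟨litS0X, 1, fsS0X⟩
      [(0, true), (2, true), (0, false), (1, true), (2, true), (0, true), (2, false), (0, true), (2, false)]) :=
  Check.check_sound
    (.node 2
    (.node 1
    (.node 1
    (.leaf (lf 1024 0 0 166 158 (-249) 58 0 44 255 252 162))
    (.leaf (lf 1024 0 0 264 193 (-313) 59 0 55 255 255 255)))
    (.node 1
    (.leaf (lf 1024 0 0 431 224 (-376) 47 0 68 255 255 255))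
    (.node 2
    (.node 0
    (.leaf (lf 1024 0 0 699 199 (-346) 13 0 64 255 172 204))
    (.leaf (lf 1024 0 0 767 205 (-367) 9 0 72 255 156 207)))
    (.node 0
    (.leaf (lf 1024 0 0 652 203 (-344) 18 0 60 255 182 203))
    (.leaf (lf 1024 0 0 718 208 (-363) 15 0 67 255 166 208))))))
    (.node 1
    (.leaf (lf 1024 0 0 172 205 (-306) 55 0 49 252 255 143))
    (.node 1
    (.leaf (lf 1024 0 0 364 235 (-370) 48 0 60 255 255 255))
    (.leaf (lf 1024 0 0 618 418 0 23 (-50) 31 255 233 136)))))
    (by decide +kernel)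

def goodS0X_895 :
    Check.Good noCone cfS0X (reach cfS0X ⟨litS0X, 1, fsS0X⟩
      [(2, true), (0, false), (1, true), (2, true), (0, true), (2, false), (0, true), (2, false)]) :=
  Check.good_node (a := 0) (by decide +kernel)
    goodS0X_896 goodS0X_897

def goodS0X_881 :
    Check.Good noCone cfS0X (reach cfS0X ⟨litS0X, 1, fsS0X⟩
      [(0, false), (1, true), (2, true), (0, true), (2, false), (0, true), (2, false)]) :=
  Check.good_node (a := 2) (by decide +kernel)
    goodS0X_882 goodS0X_895

end

end Vale.Agent.P211.Cert.Interior.Data
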