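import Vale.Agent.P211.Cert.Interior.Data.S0Xr

/-!
P211, a part of a cell of the interior family (generated).
-/

namespace Vale.Agent.P211.Cert.Interior.Data

open Vale.Agent.P098.Check6 (ofChunks eqList reach St Cfg Face)
open Vale.Agent.P098.Cert6.Kron (RootPar parOK)

set_option linter.defProp false

noncomputable section

def goodS0X_902 :
    Check.Good noCone cfS0X (reach cfS0X ⟨litS0X, 1, fsS0X⟩
      [(1, false), (0, false), (2, false), (2, false), (0, true), (1, true), (2, true), (0, true), (2, false), (0, true), (2, false)]) :=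
  Check.check_sound
    (.node 1
    (.node 2
    (.leaf (lf 1024 0 0 304 152 (-278) 81 0 78 255 254 139))
    (.leaf (lf 1024 0 0 283 149 (-268) 77 0 68 255 255 130)))
    (.leaf (lf 1024 0 0 433 207 (-383) 72 0 103 255 255 255)))
    (by decide +kernel)

def goodS0X_904 :
    Check.Good noCone cfS0X (reach cfS0X ⟨litS0X, 1, fsS0X⟩
      [(1, false), (1, true), (0, false), (2, false), (2, false), (0, true), (1, true), (2, true), (0, true), (2, false), (0, true), (2, false)]) :=
  Check.check_sound
    (.leaf (lf 1024 0 0 664 253 (-481) 40 0 132 255 255 255))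
    (by decide +kernel)

def goodS0X_908 :
    Check.Good noCone cfS0X (reach cfS0X ⟨litS0X, 1, fsS0X⟩
      [(2, false), (0, false), (2, false), (1, true), (1, true), (0, false), (2, false), (2, false), (0, true), (1, true), (2, true), (0, true), (2, false), (0, true), (2, false)]) :=
  Check.check_sound
    (.node 0
    (.node 2
    (.node 1
    (.leaf (lf 1024 0 0 920 241 (-473) (-16) 0 138 255 255 255))
    (.leaf (lf 908 0 (-634) 809 191 (-1024) 0 0 135 217 72 255)))
    (.node 1
    (.leaf (lf 1024 0 0 909 240 (-469) (-13) 0 133 255 255 255))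
    (.leaf (lf 942 0 (-633) 838 195 (-1024) 0 0 133 220 72 255))))
    (.node 2
    (.node 1
    (.leaf (lf 1024 0 0 949 248 (-488) (-20) 0 147 255 255 255))
    (.node 0
    (.node 2
    (.leaf (lf 858 0 (-627) 777 187 (-1024) 0 0 139 220 62 255))
    (.leaf (lf 873 0 (-627) 789 188 (-1024) 0 0 137 220 65 255)))
    (.node 2
    (.node 1
    (.leaf (lf 923 0 0 1024 190 (-374) (-59) 0 115 255 255 255))
    (.leaf (lf 824 0 0 1024 115 (-228) (-81) 0 71 255 107 243)))
    (.leaf (lf 846 0 (-621) 773 187 (-1024) 0 0 140 221 64 255)))))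
    (.node 1
    (.leaf (lf 1024 0 0 938 247 (-484) (-17) 0 142 255 255 255))
    (.node 0
    (.leaf (lf 896 0 (-626) 809 191 (-1024) 0 0 135 221 67 255))
    (.node 2
    (.leaf (lf 861 0 (-621) 785 188 (-1024) 0 0 138 220 63 255))
    (.leaf (lf 875 0 (-621) 798 190 (-1024) 0 0 136 221 64 255)))))))
    (by decide +kernel)

def goodS0X_909 :
    Check.Good noCone cfS0X (reach cfS0X ⟨litS0X, 1, fsS0X⟩
      [(2, true), (0, false), (2, false), (1, true), (1, true), (0, false), (2, false), (2, false), (0, true), (1, true), (2, true), (0, true), (2, false), (0, true), (2, false)]) :=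
  Check.check_sound
    (.node 0
    (.node 2
    (.node 1
    (.leaf (lf 1024 0 0 897 238 (-465) (-10) 0 129 255 255 255))
    (.leaf (lf 979 0 (-631) 869 199 (-1024) 0 0 130 226 73 255)))
    (.node 1
    (.leaf (lf 1024 0 0 886 237 (-461) (-8) 0 124 255 255 255))
    (.leaf (lf 1019 0 (-628) 902 204 (-1024) 0 0 128 183 59 255))))
    (.node 2
    (.node 1
    (.leaf (lf 1024 0 0 927 245 (-480) (-14) 0 137 255 255 255))
    (.leaf (lf 914 0 (-622) 827 194 (-1024) 0 0 133 218 72 255)))
    (.node 1
    (.leaf (lf 1024 0 0 916 244 (-476) (-11) 0 133 255 255 255))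
    (.leaf (lf 948 0 (-620) 857 197 (-1024) 0 0 131 221 70 255)))))
    (by decide +kernel)

def goodS0X_907 :
    Check.Good noCone cfS0X (reach cfS0X ⟨litS0X, 1, fsS0X⟩
      [(0, false), (2, false), (1, true), (1, true), (0, false), (2, false), (2, false), (0, true), (1, true), (2, true), (0, true), (2, false), (0, true), (2, false)]) :=
  Check.good_node (a := 2) (by decide +kernel)
    goodS0X_908 goodS0X_909

def goodS0X_912 :
    Check.Good noCone cfS0X (reach cfS0X ⟨litS0X, 1, fsS0X⟩
      [(0, false), (2, false), (0, true), (2, false), (1, true), (1, true), (0, false), (2, false), (2, false), (0, true), (1, true), (2, true), (0, true), (2, false), (0, true), (2, false)]) :=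
  Check.check_sound
    (.node 2
    (.leaf (lf 1024 0 (-407) 924 248 (-893) 0 0 164 223 84 255))
    (.node 1
    (.leaf (lf 1024 0 0 967 253 (-499) (-21) 0 151 255 255 255))
    (.node 0
    (.node 2
    (.node 1
    (.leaf (lf 918 0 0 1024 190 (-375) (-58) 0 114 255 255 255))
    (.leaf (lf 820 0 0 1024 116 (-228) (-80) 0 70 255 118 244)))
    (.leaf (lf 13582 0 (-9847) 12496 3003 (-16384) 0 0 2215 220 62 255)))
    (.node 2
    (.node 1
    (.leaf (lf 905 0 0 1024 190 (-375) (-60) 0 116 255 255 255))
    (.leaf (lf 807 0 0 1024 115 (-228) (-82) 0 71 255 109 242)))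
    (.node 1
    (.leaf (lf 909 0 0 1024 190 (-376) (-58) 0 115 255 255 255))
    (.leaf (lf 811 0 0 1024 115 (-228) (-80) 0 70 255 109 241)))))))
    (by decide +kernel)

def goodS0X_914 :
    Check.Good noCone cfS0X (reach cfS0X ⟨litS0X, 1, fsS0X⟩
      [(2, false), (0, true), (2, false), (0, true), (2, false), (1, true), (1, true), (0, false), (2, false), (2, false), (0, true), (1, true), (2, true), (0, true), (2, false), (0, true), (2, false)]) :=
  Check.check_sound
    (.node 1
    (.leaf (lf 1024 0 0 1007 262 (-518) (-29) 0 166 255 255 255))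
    (.node 0
    (.node 2
    (.node 1
    (.leaf (lf 883 0 0 1024 189 (-374) (-66) 0 121 255 255 255))
    (.leaf (lf 788 0 0 1024 115 (-227) (-89) 0 74 255 102 245)))
    (.node 1
    (.leaf (lf 887 0 0 1024 189 (-375) (-64) 0 120 255 255 255))
    (.leaf (lf 792 0 0 1024 115 (-227) (-87) 0 73 255 105 245))))
    (.node 2
    (.node 1
    (.leaf (lf 870 0 0 1024 189 (-374) (-69) 0 123 255 255 255))
    (.leaf (lf 777 0 0 1024 115 (-227) (-92) 0 75 255 107 241)))
    (.node 1
    (.leaf (lf 875 0 0 1024 189 (-375) (-67) 0 122 255 255 255))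
    (.leaf (lf 781 0 0 1024 115 (-227) (-90) 0 74 255 114 241))))))
    (by decide +kernel)

def goodS0X_915 :
    Check.Good noCone cfS0X (reach cfS0X ⟨litS0X, 1, fsS0X⟩
      [(2, true), (0, true), (2, false), (0, true), (2, false), (1, true), (1, true), (0, false), (2, false), (2, false), (0, true), (1, true), (2, true), (0, true), (2, false), (0, true), (2, false)]) :=
  Check.check_sound
    (.node 1
    (.leaf (lf 1024 0 0 996 261 (-514) (-26) 0 160 255 255 255))
    (.node 0
    (.node 2
    (.node 1
    (.leaf (lf 892 0 0 1024 190 (-375) (-63) 0 118 255 255 255))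
    (.leaf (lf 796 0 0 1024 115 (-228) (-85) 0 72 255 108 239)))
    (.node 1
    (.leaf (lf 896 0 0 1024 190 (-376) (-61) 0 117 255 255 255))
    (.leaf (lf 799 0 0 1024 115 (-228) (-83) 0 71 255 103 238))))
    (.node 2
    (.node 1
    (.leaf (lf 879 0 0 1024 189 (-375) (-65) 0 120 255 255 255))
    (.leaf (lf 784 0 0 1024 115 (-227) (-88) 0 73 255 113 240)))
    (.node 1
    (.leaf (lf 883 0 0 1024 190 (-376) (-63) 0 119 255 255 255))
    (.leaf (lf 788 0 0 1024 115 (-228) (-86) 0 72 255 114 234))))))
    (by decide +kernel)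

def goodS0X_913 :
    Check.Good noCone cfS0X (reach cfS0X ⟨litS0X, 1, fsS0X⟩
      [(0, true), (2, false), (0, true), (2, false), (1, true), (1, true), (0, false), (2, false), (2, false), (0, true), (1, true), (2, true), (0, true), (2, false), (0, true), (2, false)]) :=
  Check.good_node (a := 2) (by decide +kernel)
    goodS0X_914 goodS0X_915

def goodS0X_911 :
    Check.Good noCone cfS0X (reach cfS0X ⟨litS0X, 1, fsS0X⟩
      [(2, false), (0, true), (2, false), (1, true), (1, true), (0, false), (2, false), (2, false), (0, true), (1, true), (2, true), (0, true), (2, false), (0, true), (2, false)]) :=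
  Check.good_node (a := 0) (by decide +kernel)
    goodS0X_912 goodS0X_913

def goodS0X_917 :
    Check.Good noCone cfS0X (reach cfS0X ⟨litS0X, 1, fsS0X⟩
      [(0, false), (2, true), (0, true), (2, false), (1, true), (1, true), (0, false), (2, false), (2, false), (0, true), (1, true), (2, true), (0, true), (2, false), (0, true), (2, false)]) :=
  Check.check_sound
    (.node 2
    (.node 1
    (.leaf (lf 1024 0 0 956 252 (-495) (-18) 0 146 255 255 255))
    (.node 0
    (.node 2
    (.leaf (lf 863 0 (-615) 793 189 (-1024) 0 0 137 220 62 255))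
    (.leaf (lf 878 0 (-615) 806 191 (-1024) 0 0 136 222 65 255)))
    (.node 2
    (.node 1
    (.leaf (lf 914 0 0 1024 191 (-376) (-57) 0 114 255 255 255))
    (.leaf (lf 815 0 0 1024 116 (-229) (-78) 0 70 255 111 241)))
    (.leaf (lf 13620 0 (-9755) 12626 3021 (-16384) 0 0 2199 220 62 255)))))
    (.node 1
    (.leaf (lf 1024 0 0 945 250 (-491) (-15) 0 141 255 255 255))
    (.node 0
    (.leaf (lf 902 0 (-614) 827 194 (-1024) 0 0 134 224 68 255))
    (.node 2
    (.leaf (lf 866 0 (-609) 802 190 (-1024) 0 0 136 221 62 255))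
    (.leaf (lf 881 0 (-609) 815 192 (-1024) 0 0 135 222 64 255))))))
    (by decide +kernel)

def goodS0X_919 :
    Check.Good noCone cfS0X (reach cfS0X ⟨litS0X, 1, fsS0X⟩
      [(2, false), (0, true), (2, true), (0, true), (2, false), (1, true), (1, true), (0, false), (2, false), (2, false), (0, true), (1, true), (2, true), (0, true), (2, false), (0, true), (2, false)]) :=
  Check.check_sound
    (.node 1
    (.leaf (lf 1024 0 0 985 259 (-510) (-22) 0 155 255 255 255))
    (.node 0
    (.node 2
    (.node 1
    (.leaf (lf 901 0 0 1024 190 (-376) (-59) 0 116 255 255 255))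
    (.leaf (lf 803 0 0 1024 115 (-228) (-81) 0 71 255 104 236)))
    (.node 1
    (.leaf (lf 905 0 0 1024 191 (-377) (-57) 0 114 255 255 255))
    (.leaf (lf 807 0 0 1024 116 (-229) (-79) 0 70 255 104 246))))
    (.node 2
    (.node 1
    (.leaf (lf 888 0 0 1024 190 (-376) (-61) 0 117 255 255 255))
    (.leaf (lf 791 0 0 1024 115 (-228) (-84) 0 72 255 112 237)))
    (.node 1
    (.leaf (lf 892 0 0 1024 190 (-377) (-59) 0 116 255 255 255))
    (.leaf (lf 795 0 0 1024 115 (-228) (-82) 0 71 255 114 240))))))
    (by decide +kernel)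

def goodS0X_920 :
    Check.Good noCone cfS0X (reach cfS0X ⟨litS0X, 1, fsS0X⟩
      [(2, true), (0, true), (2, true), (0, true), (2, false), (1, true), (1, true), (0, false), (2, false), (2, false), (0, true), (1, true), (2, true), (0, true), (2, false), (0, true), (2, false)]) :=
  Check.check_sound
    (.node 1
    (.leaf (lf 1024 0 0 974 257 (-506) (-19) 0 150 255 255 255))
    (.node 0
    (.node 2
    (.node 1
    (.leaf (lf 910 0 0 1024 191 (-378) (-55) 0 113 255 255 255))
    (.leaf (lf 811 0 0 1024 116 (-229) (-77) 0 69 255 105 245)))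
    (.leaf (lf 854 0 (-604) 797 190 (-1024) 0 0 137 221 64 255)))
    (.node 2
    (.node 1
    (.leaf (lf 897 0 0 1024 191 (-377) (-58) 0 115 255 255 255))
    (.leaf (lf 799 0 0 1024 116 (-229) (-80) 0 70 255 98 210)))
    (.node 1
    (.leaf (lf 901 0 0 1024 191 (-378) (-56) 0 114 255 255 255))
    (.leaf (lf 803 0 0 1024 116 (-229) (-78) 0 69 255 109 240))))))
    (by decide +kernel)

def goodS0X_918 :
    Check.Good noCone cfS0X (reach cfS0X ⟨litS0X, 1, fsS0X⟩
      [(0, true), (2, true), (0, true), (2, false), (1, true), (1, true), (0, false), (2, false), (2, false), (0, true), (1, true), (2, true), (0, true), (2, false), (0, true), (2, false)]) :=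
  Check.good_node (a := 2) (by decide +kernel)
    goodS0X_919 goodS0X_920

def goodS0X_916 :
    Check.Good noCone cfS0X (reach cfS0X ⟨litS0X, 1, fsS0X⟩
      [(2, true), (0, true), (2, false), (1, true), (1, true), (0, false), (2, false), (2, false), (0, true), (1, true), (2, true), (0, true), (2, false), (0, true), (2, false)]) :=
  Check.good_node (a := 0) (by decide +kernel)
    goodS0X_917 goodS0X_918

def goodS0X_910 :
    Check.Good noCone cfS0X (reach cfS0X ⟨litS0X, 1, fsS0X⟩
      [(0, true), (2, false), (1, true), (1, true), (0, false), (2, false), (2, false), (0, true), (1, true), (2, true), (0, true), (2, false), (0, true), (2, false)]) :=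
  Check.good_node (a := 2) (by decide +kernel)
    goodS0X_911 goodS0X_916

def goodS0X_906 :
    Check.Good noCone cfS0X (reach cfS0X ⟨litS0X, 1, fsS0X⟩
      [(2, false), (1, true), (1, true), (0, false), (2, false), (2, false), (0, true), (1, true), (2, true), (0, true), (2, false), (0, true), (2, false)]) :=
  Check.good_node (a := 0) (by decide +kernel)
    goodS0X_907 goodS0X_910

def goodS0X_922 :
    Check.Good noCone cfS0X (reach cfS0X ⟨litS0X, 1, fsS0X⟩
      [(0, false), (2, true), (1, true), (1, true), (0, false), (2, false), (2, false), (0, true), (1, true), (2, true), (0, true), (2, false), (0, true), (2, false)]) :=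
  Check.check_sound
    (.node 2
    (.node 0
    (.node 2
    (.node 1
    (.leaf (lf 1024 0 0 874 236 (-457) (-5) 0 121 255 255 255))
    (.leaf (lf 1024 0 (-601) 905 202 (-987) 0 0 122 199 61 255)))
    (.node 1
    (.leaf (lf 1024 0 0 863 235 (-453) (-2) 0 117 255 255 255))
    (.leaf (lf 1024 0 (-571) 902 199 (-946) 0 0 116 218 65 255))))
    (.node 2
    (.node 1
    (.leaf (lf 1024 0 0 904 242 (-472) (-8) 0 128 255 255 255))
    (.leaf (lf 985 0 (-618) 888 202 (-1024) 0 0 129 226 71 255)))
    (.node 1
    (.leaf (lf 1024 0 0 893 241 (-468) (-6) 0 124 255 255 255))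
    (.leaf (lf 1024 0 (-613) 921 207 (-1023) 0 0 127 190 59 255)))))
    (.node 0
    (.node 1
    (.leaf (lf 1024 0 0 845 233 (-447) 1 0 112 255 255 255))
    (.leaf (lf 1024 0 (-524) 899 194 (-883) 0 0 107 255 255 255)))
    (.node 2
    (.node 1
    (.leaf (lf 1024 0 0 881 240 (-464) (-3) 0 121 255 255 255))
    (.leaf (lf 1024 0 (-584) 919 204 (-981) 0 0 121 207 63 255)))
    (.node 1
    (.leaf (lf 1024 0 0 870 239 (-460) (-1) 0 117 255 255 255))
    (.leaf (lf 1024 0 (-554) 916 201 (-940) 0 0 115 226 67 255))))))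
    (by decide +kernel)

def goodS0X_924 :
    Check.Good noCone cfS0X (reach cfS0X ⟨litS0X, 1, fsS0X⟩
      [(2, false), (0, true), (2, true), (1, true), (1, true), (0, false), (2, false), (2, false), (0, true), (1, true), (2, true), (0, true), (2, false), (0, true), (2, false)]) :=
  Check.check_sound
    (.node 0
    (.node 2
    (.node 1
    (.leaf (lf 1024 0 0 934 249 (-487) (-12) 0 137 255 255 255))
    (.leaf (lf 919 0 (-610) 845 196 (-1024) 0 0 132 220 68 255)))
    (.node 1
    (.leaf (lf 1024 0 0 922 247 (-483) (-9) 0 133 255 255 255))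
    (.leaf (lf 954 0 (-607) 875 200 (-1024) 0 0 130 226 71 255))))
    (.node 2
    (.node 1
    (.leaf (lf 1024 0 0 963 256 (-502) (-16) 0 145 255 255 255))
    (.node 0
    (.node 2
    (.leaf (lf 868 0 (-604) 810 192 (-1024) 0 0 135 221 62 255))
    (.leaf (lf 883 0 (-603) 823 193 (-1024) 0 0 134 222 62 255)))
    (.node 2
    (.node 1
    (.leaf (lf 906 0 0 1024 192 (-379) (-54) 0 112 255 255 255))
    (.leaf (lf 807 0 0 1024 116 (-230) (-76) 0 69 255 95 212)))
    (.leaf (lf 856 0 (-598) 805 191 (-1024) 0 0 136 221 62 255)))))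
    (.node 1
    (.leaf (lf 1024 0 0 952 254 (-498) (-13) 0 141 255 255 255))
    (.node 0
    (.leaf (lf 907 0 (-602) 844 196 (-1024) 0 0 132 223 65 255))
    (.node 2
    (.leaf (lf 870 0 (-598) 818 193 (-1024) 0 0 134 222 63 255))
    (.leaf (lf 885 0 (-597) 831 195 (-1024) 0 0 133 223 63 255)))))))
    (by decide +kernel)

def goodS0X_925 :
    Check.Good noCone cfS0X (reach cfS0X ⟨litS0X, 1, fsS0X⟩
      [(2, true), (0, true), (2, true), (1, true), (1, true), (0, false), (2, false), (2, false), (0, true), (1, true), (2, true), (0, true), (2, false), (0, true), (2, false)]) :=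
  Check.check_sound
    (.node 0
    (.node 2
    (.node 1
    (.leaf (lf 1024 0 0 911 246 (-479) (-7) 0 129 255 255 255))
    (.leaf (lf 991 0 (-604) 907 205 (-1024) 0 0 128 184 57 255)))
    (.node 1
    (.leaf (lf 1024 0 0 900 245 (-475) (-4) 0 125 255 255 255))
    (.leaf (lf 1024 0 (-596) 935 209 (-1016) 0 0 126 199 61 255))))
    (.node 2
    (.node 1
    (.leaf (lf 1024 0 0 941 253 (-494) (-10) 0 137 255 255 255))
    (.leaf (lf 924 0 (-598) 862 199 (-1024) 0 0 131 221 69 255)))
    (.node 1
    (.leaf (lf 1024 0 0 929 251 (-490) (-7) 0 133 255 255 255))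
    (.leaf (lf 959 0 (-595) 893 203 (-1024) 0 0 129 226 69 255)))))
    (by decide +kernel)

def goodS0X_923 :
    Check.Good noCone cfS0X (reach cfS0X ⟨litS0X, 1, fsS0X⟩
      [(0, true), (2, true), (1, true), (1, true), (0, false), (2, false), (2, false), (0, true), (1, true), (2, true), (0, true), (2, false), (0, true), (2, false)]) :=
  Check.good_node (a := 2) (by decide +kernel)
    goodS0X_924 goodS0X_925

def goodS0X_921 :
    Check.Good noCone cfS0X (reach cfS0X ⟨litS0X, 1, fsS0X⟩
      [(2, true), (1, true), (1, true), (0, false), (2, false), (2, false), (0, true), (1, true), (2, true), (0, true), (2, false), (0, true), (2, false)]) :=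
  Check.good_node (a := 0) (by decide +kernel)
    goodS0X_922 goodS0X_923

def goodS0X_905 :
    Check.Good noCone cfS0X (reach cfS0X ⟨litS0X, 1, fsS0X⟩
      [(1, true), (1, true), (0, false), (2, false), (2, false), (0, true), (1, true), (2, true), (0, true), (2, false), (0, true), (2, false)]) :=
  Check.good_node (a := 2) (by decide +kernel)
    goodS0X_906 goodS0X_921

def goodS0X_903 :
    Check.Good noCone cfS0X (reach cfS0X ⟨litS0X, 1, fsS0X⟩
      [(1, true), (0, false), (2, false), (2, false), (0, true), (1, true), (2, true), (0, true), (2, false), (0, true), (2, false)]) :=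
  Check.good_node (a := 1) (by decide +kernel)
    goodS0X_904 goodS0X_905

def goodS0X_901 :
    Check.Good noCone cfS0X (reach cfS0X ⟨litS0X, 1, fsS0X⟩
      [(0, false), (2, false), (2, false), (0, true), (1, true), (2, true), (0, true), (2, false), (0, true), (2, false)]) :=
  Check.good_node (a := 1) (by decide +kernel)
    goodS0X_902 goodS0X_903

def goodS0X_927 :
    Check.Good noCone cfS0X (reach cfS0X ⟨litS0X, 1, fsS0X⟩
      [(1, false), (0, true), (2, false), (2, false), (0, true), (1, true), (2, true), (0, true), (2, false), (0, true), (2, false)]) :=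
  Check.check_sound
    (.node 1
    (.node 2
    (.leaf (lf 1024 0 0 346 165 (-305) 93 0 97 255 255 255))
    (.leaf (lf 1024 0 0 327 161 (-294) 89 0 85 255 255 136)))
    (.leaf (lf 1024 0 0 490 227 (-426) 82 0 130 255 255 255)))
    (by decide +kernel)

def goodS0X_929 :
    Check.Good noCone cfS0X (reach cfS0X ⟨litS0X, 1, fsS0X⟩
      [(1, false), (1, true), (0, true), (2, false), (2, false), (0, true), (1, true), (2, true), (0, true), (2, false), (0, true), (2, false)]) :=
  Check.check_sound
    (.leaf (lf 1024 0 0 746 279 (-539) 39 0 167 255 255 255))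
    (by decide +kernel)

def goodS0X_935 :
    Check.Good noCone cfS0X (reach cfS0X ⟨litS0X, 1, fsS0X⟩
      [(2, false), (0, false), (2, false), (0, false), (2, false), (1, true), (1, true), (0, true), (2, false), (2, false), (0, true), (1, true), (2, true), (0, true), (2, false), (0, true), (2, false)]) :=
  Check.check_sound
    (.node 1
    (.leaf (lf 1013 0 0 1024 267 (-528) (-34) 0 175 255 255 255))
    (.node 0
    (.node 2
    (.node 1
    (.leaf (lf 858 0 0 1024 189 (-374) (-71) 0 125 255 255 255))
    (.leaf (lf 766 0 0 1024 115 (-227) (-94) 0 76 255 107 238)))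
    (.node 1
    (.leaf (lf 862 0 0 1024 189 (-375) (-69) 0 123 255 255 255))
    (.leaf (lf 770 0 0 1024 115 (-227) (-92) 0 75 255 100 239))))
    (.node 2
    (.node 1
    (.leaf (lf 847 0 0 1024 189 (-375) (-74) 0 127 255 255 255))
    (.leaf (lf 756 0 0 1024 115 (-227) (-97) 0 78 255 99 237)))
    (.node 1
    (.leaf (lf 851 0 0 1024 189 (-375) (-72) 0 126 255 255 255))
    (.leaf (lf 759 0 0 1024 115 (-227) (-95) 0 77 255 99 236))))))
    (by decide +kernel)

def goodS0X_936 :
    Check.Good noCone cfS0X (reach cfS0X ⟨litS0X, 1, fsS0X⟩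
      [(2, true), (0, false), (2, false), (0, false), (2, false), (1, true), (1, true), (0, true), (2, false), (2, false), (0, true), (1, true), (2, true), (0, true), (2, false), (0, true), (2, false)]) :=
  Check.check_sound
    (.node 1
    (.leaf (lf 1024 0 0 1024 268 (-529) (-30) 0 170 255 255 255))
    (.node 0
    (.node 2
    (.node 1
    (.leaf (lf 867 0 0 1024 189 (-375) (-67) 0 122 255 255 255))
    (.leaf (lf 773 0 0 1024 115 (-227) (-90) 0 74 255 101 239)))
    (.node 1
    (.leaf (lf 871 0 0 1024 190 (-376) (-65) 0 121 255 255 255))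
    (.leaf (lf 777 0 0 1024 115 (-228) (-88) 0 74 255 100 240))))
    (.node 2
    (.node 1
    (.leaf (lf 855 0 0 1024 189 (-375) (-70) 0 124 255 255 255))
    (.leaf (lf 763 0 0 1024 115 (-227) (-93) 0 76 255 107 236)))
    (.node 1
    (.leaf (lf 859 0 0 1024 190 (-376) (-68) 0 123 255 255 255))
    (.leaf (lf 766 0 0 1024 115 (-227) (-91) 0 75 255 107 236))))))
    (by decide +kernel)

def goodS0X_934 :
    Check.Good noCone cfS0X (reach cfS0X ⟨litS0X, 1, fsS0X⟩
      [(0, false), (2, false), (0, false), (2, false), (1, true), (1, true), (0, true), (2, false), (2, false), (0, true), (1, true), (2, true), (0, true), (2, false), (0, true), (2, false)]) :=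
  Check.good_node (a := 2) (by decide +kernel)
    goodS0X_935 goodS0X_936

def goodS0X_938 :
    Check.Good noCone cfS0X (reach cfS0X ⟨litS0X, 1, fsS0X⟩
      [(2, false), (0, true), (2, false), (0, false), (2, false), (1, true), (1, true), (0, true), (2, false), (2, false), (0, true), (1, true), (2, true), (0, true), (2, false), (0, true), (2, false)]) :=
  Check.check_sound
    (.node 1
    (.leaf (lf 987 0 0 1024 267 (-529) (-37) 0 180 255 255 255))
    (.node 0
    (.node 2
    (.node 1
    (.leaf (lf 836 0 0 1024 189 (-375) (-76) 0 129 255 255 255))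
    (.leaf (lf 746 0 0 1024 115 (-227) (-100) 0 79 255 103 241)))
    (.node 1
    (.leaf (lf 839 0 0 1024 189 (-375) (-74) 0 128 255 255 255))
    (.leaf (lf 749 0 0 1024 115 (-227) (-98) 0 78 255 107 239))))
    (.node 2
    (.node 1
    (.leaf (lf 825 0 0 1024 189 (-375) (-78) 0 131 255 255 255))
    (.leaf (lf 736 0 0 1024 115 (-228) (-103) 0 80 255 106 237)))
    (.node 1
    (.leaf (lf 828 0 0 1024 189 (-376) (-76) 0 130 255 255 255))
    (.leaf (lf 739 0 0 1024 115 (-228) (-100) 0 79 255 103 239))))))
    (by decide +kernel)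

def goodS0X_939 :
    Check.Good noCone cfS0X (reach cfS0X ⟨litS0X, 1, fsS0X⟩
      [(2, true), (0, true), (2, false), (0, false), (2, false), (1, true), (1, true), (0, true), (2, false), (2, false), (0, true), (1, true), (2, true), (0, true), (2, false), (0, true), (2, false)]) :=
  Check.check_sound
    (.node 1
    (.leaf (lf 996 0 0 1024 268 (-530) (-34) 0 176 255 255 255))
    (.node 0
    (.node 2
    (.node 1
    (.leaf (lf 843 0 0 1024 189 (-376) (-72) 0 126 255 255 255))
    (.leaf (lf 752 0 0 1024 115 (-227) (-96) 0 77 255 110 238)))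
    (.node 1
    (.leaf (lf 847 0 0 1024 190 (-376) (-70) 0 125 255 255 255))
    (.leaf (lf 755 0 0 1024 115 (-227) (-93) 0 76 255 106 240))))
    (.node 2
    (.node 1
    (.leaf (lf 832 0 0 1024 190 (-376) (-74) 0 128 255 255 255))
    (.leaf (lf 742 0 0 1024 115 (-228) (-98) 0 78 255 100 240)))
    (.node 1
    (.leaf (lf 836 0 0 1024 190 (-376) (-72) 0 127 255 255 255))
    (.leaf (lf 745 0 0 1024 115 (-228) (-96) 0 77 255 98 240))))))
    (by decide +kernel)

def goodS0X_937 :
    Check.Good noCone cfS0X (reach cfS0X ⟨litS0X, 1, fsS0X⟩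
      [(0, true), (2, false), (0, false), (2, false), (1, true), (1, true), (0, true), (2, false), (2, false), (0, true), (1, true), (2, true), (0, true), (2, false), (0, true), (2, false)]) :=
  Check.good_node (a := 2) (by decide +kernel)
    goodS0X_938 goodS0X_939

def goodS0X_933 :
    Check.Good noCone cfS0X (reach cfS0X ⟨litS0X, 1, fsS0X⟩
      [(2, false), (0, false), (2, false), (1, true), (1, true), (0, true), (2, false), (2, false), (0, true), (1, true), (2, true), (0, true), (2, false), (0, true), (2, false)]) :=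
  Check.good_node (a := 0) (by decide +kernel)
    goodS0X_934 goodS0X_937

def goodS0X_942 :
    Check.Good noCone cfS0X (reach cfS0X ⟨litS0X, 1, fsS0X⟩
      [(2, false), (0, false), (2, true), (0, false), (2, false), (1, true), (1, true), (0, true), (2, false), (2, false), (0, true), (1, true), (2, true), (0, true), (2, false), (0, true), (2, false)]) :=
  Check.check_sound
    (.node 1
    (.leaf (lf 1024 0 0 1014 266 (-525) (-27) 0 165 255 255 255))
    (.node 0
    (.node 2
    (.node 1
    (.leaf (lf 875 0 0 1024 190 (-376) (-63) 0 119 255 255 255))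
    (.leaf (lf 780 0 0 1024 115 (-228) (-86) 0 73 255 102 241)))
    (.node 1
    (.leaf (lf 879 0 0 1024 190 (-377) (-62) 0 118 255 255 255))
    (.leaf (lf 784 0 0 1024 115 (-228) (-84) 0 72 255 89 213))))
    (.node 2
    (.node 1
    (.leaf (lf 863 0 0 1024 190 (-376) (-66) 0 121 255 255 255))
    (.leaf (lf 769 0 0 1024 115 (-228) (-89) 0 74 255 94 211)))
    (.node 1
    (.leaf (lf 867 0 0 1024 190 (-377) (-64) 0 120 255 255 255))
    (.leaf (lf 773 0 0 1024 115 (-228) (-87) 0 73 255 98 213))))))
    (by decide +kernel)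

def goodS0X_943 :
    Check.Good noCone cfS0X (reach cfS0X ⟨litS0X, 1, fsS0X⟩
      [(2, true), (0, false), (2, true), (0, false), (2, false), (1, true), (1, true), (0, true), (2, false), (2, false), (0, true), (1, true), (2, true), (0, true), (2, false), (0, true), (2, false)]) :=
  Check.check_sound
    (.node 1
    (.leaf (lf 1024 0 0 1003 264 (-521) (-23) 0 160 255 255 255))
    (.node 0
    (.node 2
    (.node 1
    (.leaf (lf 884 0 0 1024 191 (-377) (-60) 0 117 255 255 255))
    (.leaf (lf 787 0 0 1024 115 (-228) (-82) 0 71 255 95 215)))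
    (.node 1
    (.leaf (lf 888 0 0 1024 191 (-378) (-58) 0 115 255 255 255))
    (.leaf (lf 791 0 0 1024 115 (-229) (-80) 0 70 255 106 239))))
    (.node 2
    (.node 1
    (.leaf (lf 871 0 0 1024 190 (-377) (-62) 0 118 255 255 255))
    (.leaf (lf 776 0 0 1024 115 (-228) (-85) 0 72 255 94 212)))
    (.node 1
    (.leaf (lf 875 0 0 1024 191 (-378) (-60) 0 117 255 255 255))
    (.leaf (lf 780 0 0 1024 115 (-228) (-83) 0 71 255 94 211))))))
    (by decide +kernel)

def goodS0X_941 :
    Check.Good noCone cfS0X (reach cfS0X ⟨litS0X, 1, fsS0X⟩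
      [(0, false), (2, true), (0, false), (2, false), (1, true), (1, true), (0, true), (2, false), (2, false), (0, true), (1, true), (2, true), (0, true), (2, false), (0, true), (2, false)]) :=
  Check.good_node (a := 2) (by decide +kernel)
    goodS0X_942 goodS0X_943

def goodS0X_945 :
    Check.Good noCone cfS0X (reach cfS0X ⟨litS0X, 1, fsS0X⟩
      [(2, false), (0, true), (2, true), (0, false), (2, false), (1, true), (1, true), (0, true), (2, false), (2, false), (0, true), (1, true), (2, true), (0, true), (2, false), (0, true), (2, false)]) :=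
  Check.check_sound
    (.node 1
    (.leaf (lf 1006 0 0 1024 268 (-531) (-31) 0 172 255 255 255))
    (.node 0
    (.node 2
    (.node 1
    (.leaf (lf 851 0 0 1024 190 (-377) (-68) 0 123 255 255 255))
    (.leaf (lf 759 0 0 1024 115 (-228) (-91) 0 75 255 89 213)))
    (.node 1
    (.leaf (lf 855 0 0 1024 190 (-377) (-66) 0 122 255 255 255))
    (.leaf (lf 762 0 0 1024 115 (-228) (-89) 0 74 255 90 212))))
    (.node 2
    (.node 1
    (.leaf (lf 840 0 0 1024 190 (-377) (-70) 0 125 255 255 255))
    (.leaf (lf 748 0 0 1024 115 (-228) (-94) 0 76 255 98 240)))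
    (.node 1
    (.leaf (lf 843 0 0 1024 190 (-377) (-69) 0 124 255 255 255))
    (.leaf (lf 752 0 0 1024 115 (-228) (-92) 0 75 255 91 208))))))
    (by decide +kernel)

def goodS0X_946 :
    Check.Good noCone cfS0X (reach cfS0X ⟨litS0X, 1, fsS0X⟩
      [(2, true), (0, true), (2, true), (0, false), (2, false), (1, true), (1, true), (0, true), (2, false), (2, false), (0, true), (1, true), (2, true), (0, true), (2, false), (0, true), (2, false)]) :=
  Check.check_sound
    (.node 1
    (.leaf (lf 1016 0 0 1024 269 (-532) (-27) 0 168 255 255 255))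
    (.node 0
    (.node 2
    (.node 1
    (.leaf (lf 859 0 0 1024 190 (-377) (-64) 0 120 255 255 255))
    (.leaf (lf 765 0 0 1024 115 (-228) (-87) 0 73 255 93 210)))
    (.node 1
    (.leaf (lf 863 0 0 1024 191 (-378) (-63) 0 119 255 255 255))
    (.leaf (lf 769 0 0 1024 115 (-228) (-85) 0 72 255 90 210))))
    (.node 2
    (.node 1
    (.leaf (lf 847 0 0 1024 190 (-378) (-67) 0 122 255 255 255))
    (.leaf (lf 755 0 0 1024 115 (-228) (-90) 0 74 255 89 207)))
    (.node 1
    (.leaf (lf 851 0 0 1024 190 (-378) (-65) 0 121 255 255 255))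
    (.leaf (lf 758 0 0 1024 115 (-228) (-88) 0 73 255 87 207))))))
    (by decide +kernel)

def goodS0X_944 :
    Check.Good noCone cfS0X (reach cfS0X ⟨litS0X, 1, fsS0X⟩
      [(0, true), (2, true), (0, false), (2, false), (1, true), (1, true), (0, true), (2, false), (2, false), (0, true), (1, true), (2, true), (0, true), (2, false), (0, true), (2, false)]) :=
  Check.good_node (a := 2) (by decide +kernel)
    goodS0X_945 goodS0X_946

def goodS0X_940 :
    Check.Good noCone cfS0X (reach cfS0X ⟨litS0X, 1, fsS0X⟩
      [(2, true), (0, false), (2, false), (1, true), (1, true), (0, true), (2, false), (2, false), (0, true), (1, true), (2, true), (0, true), (2, false), (0, true), (2, false)]) :=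
  Check.good_node (a := 0) (by decide +kernel)
    goodS0X_941 goodS0X_944

def goodS0X_932 :
    Check.Good noCone cfS0X (reach cfS0X ⟨litS0X, 1, fsS0X⟩
      [(0, false), (2, false), (1, true), (1, true), (0, true), (2, false), (2, false), (0, true), (1, true), (2, true), (0, true), (2, false), (0, true), (2, false)]) :=
  Check.good_node (a := 2) (by decide +kernel)
    goodS0X_933 goodS0X_940

def goodS0X_950 :
    Check.Good noCone cfS0X (reach cfS0X ⟨litS0X, 1, fsS0X⟩
      [(2, false), (0, false), (2, false), (0, true), (2, false), (1, true), (1, true), (0, true), (2, false), (2, false), (0, true), (1, true), (2, true), (0, true), (2, false), (0, true), (2, false)]) :=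
  Check.check_sound
    (.node 1
    (.leaf (lf 962 0 0 1024 267 (-529) (-41) 0 186 255 255 255))
    (.node 0
    (.node 2
    (.node 1
    (.leaf (lf 814 0 0 1024 190 (-376) (-81) 0 134 255 255 255))
    (.leaf (lf 727 0 0 1024 115 (-228) (-105) 0 82 255 99 239)))
    (.node 1
    (.leaf (lf 818 0 0 1024 190 (-376) (-79) 0 132 255 255 255))
    (.leaf (lf 730 0 0 1024 115 (-228) (-103) 0 81 255 98 237))))
    (.node 2
    (.node 1
    (.leaf (lf 804 0 0 1024 190 (-376) (-83) 0 136 255 255 255))
    (.leaf (lf 718 0 0 1024 116 (-229) (-108) 0 83 255 97 240)))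
    (.node 1
    (.leaf (lf 808 0 0 1024 190 (-377) (-81) 0 134 255 255 255))
    (.leaf (lf 721 0 0 1024 115 (-228) (-106) 0 82 255 107 241))))))
    (by decide +kernel)

def goodS0X_951 :
    Check.Good noCone cfS0X (reach cfS0X ⟨litS0X, 1, fsS0X⟩
      [(2, true), (0, false), (2, false), (0, true), (2, false), (1, true), (1, true), (0, true), (2, false), (2, false), (0, true), (1, true), (2, true), (0, true), (2, false), (0, true), (2, false)]) :=
  Check.check_sound
    (.node 1
    (.leaf (lf 971 0 0 1024 268 (-531) (-38) 0 182 255 255 255))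
    (.node 0
    (.node 2
    (.node 1
    (.leaf (lf 821 0 0 1024 190 (-376) (-77) 0 130 255 255 255))
    (.leaf (lf 733 0 0 1024 115 (-228) (-101) 0 79 255 103 236)))
    (.node 1
    (.leaf (lf 825 0 0 1024 190 (-377) (-75) 0 129 255 255 255))
    (.leaf (lf 736 0 0 1024 115 (-228) (-99) 0 78 255 107 236))))
    (.node 2
    (.node 1
    (.leaf (lf 811 0 0 1024 190 (-377) (-79) 0 132 255 255 255))
    (.leaf (lf 723 0 0 1024 115 (-228) (-104) 0 81 255 106 238)))
    (.node 1
    (.leaf (lf 814 0 0 1024 190 (-377) (-77) 0 131 255 255 255))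
    (.leaf (lf 726 0 0 1024 115 (-228) (-101) 0 80 255 101 239))))))
    (by decide +kernel)

def goodS0X_949 :
    Check.Good noCone cfS0X (reach cfS0X ⟨litS0X, 1, fsS0X⟩
      [(0, false), (2, false), (0, true), (2, false), (1, true), (1, true), (0, true), (2, false), (2, false), (0, true), (1, true), (2, true), (0, true), (2, false), (0, true), (2, false)]) :=
  Check.good_node (a := 2) (by decide +kernel)
    goodS0X_950 goodS0X_951

def goodS0X_953 :
    Check.Good noCone cfS0X (reach cfS0X ⟨litS0X, 1, fsS0X⟩
      [(2, false), (0, true), (2, false), (0, true), (2, false), (1, true), (1, true), (0, true), (2, false), (2, false), (0, true), (1, true), (2, true), (0, true), (2, false), (0, true), (2, false)]) :=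
  Check.check_sound
    (.node 1
    (.leaf (lf 938 0 0 1024 268 (-531) (-45) 0 193 255 255 255))
    (.node 0
    (.node 2
    (.node 1
    (.leaf (lf 794 0 0 1024 190 (-377) (-86) 0 138 255 255 255))
    (.leaf (lf 709 0 0 1024 116 (-229) (-111) 0 85 255 102 237)))
    (.node 1
    (.leaf (lf 798 0 0 1024 190 (-377) (-84) 0 136 255 255 255))
    (.leaf (lf 712 0 0 1024 116 (-229) (-108) 0 83 255 98 239))))
    (.node 2
    (.node 1
    (.leaf (lf 785 0 0 1024 191 (-377) (-88) 0 140 255 255 255))
    (.leaf (lf 701 0 0 1024 116 (-230) (-114) 0 86 255 111 240)))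
    (.node 1
    (.leaf (lf 788 0 0 1024 191 (-378) (-86) 0 139 255 255 255))
    (.leaf (lf 703 0 0 1024 116 (-229) (-111) 0 85 255 97 241))))))
    (by decide +kernel)

def goodS0X_954 :
    Check.Good noCone cfS0X (reach cfS0X ⟨litS0X, 1, fsS0X⟩
      [(2, true), (0, true), (2, false), (0, true), (2, false), (1, true), (1, true), (0, true), (2, false), (2, false), (0, true), (1, true), (2, true), (0, true), (2, false), (0, true), (2, false)]) :=
  Check.check_sound
    (.node 1
    (.leaf (lf 947 0 0 1024 268 (-532) (-42) 0 188 255 255 255))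
    (.node 0
    (.node 2
    (.node 1
    (.leaf (lf 801 0 0 1024 190 (-377) (-81) 0 135 255 255 255))
    (.leaf (lf 714 0 0 1024 115 (-229) (-106) 0 82 255 100 239)))
    (.node 1
    (.leaf (lf 804 0 0 1024 190 (-377) (-79) 0 133 255 255 255))
    (.leaf (lf 717 0 0 1024 115 (-228) (-104) 0 81 255 97 243))))
    (.node 2
    (.node 1
    (.leaf (lf 791 0 0 1024 191 (-378) (-84) 0 137 255 255 255))
    (.leaf (lf 706 0 0 1024 116 (-229) (-109) 0 84 255 101 238)))
    (.node 1
    (.leaf (lf 794 0 0 1024 191 (-378) (-82) 0 135 255 255 255))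
    (.leaf (lf 708 0 0 1024 116 (-229) (-107) 0 82 255 101 237))))))
    (by decide +kernel)

def goodS0X_952 :
    Check.Good noCone cfS0X (reach cfS0X ⟨litS0X, 1, fsS0X⟩
      [(0, true), (2, false), (0, true), (2, false), (1, true), (1, true), (0, true), (2, false), (2, false), (0, true), (1, true), (2, true), (0, true), (2, false), (0, true), (2, false)]) :=
  Check.good_node (a := 2) (by decide +kernel)
    goodS0X_953 goodS0X_954

def goodS0X_948 :
    Check.Good noCone cfS0X (reach cfS0X ⟨litS0X, 1, fsS0X⟩
      [(2, false), (0, true), (2, false), (1, true), (1, true), (0, true), (2, false), (2, false), (0, true), (1, true), (2, true), (0, true), (2, false), (0, true), (2, false)]) :=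
  Check.good_node (a := 0) (by decide +kernel)
    goodS0X_949 goodS0X_952

def goodS0X_957 :
    Check.Good noCone cfS0X (reach cfS0X ⟨litS0X, 1, fsS0X⟩
      [(2, false), (0, false), (2, true), (0, true), (2, false), (1, true), (1, true), (0, true), (2, false), (2, false), (0, true), (1, true), (2, true), (0, true), (2, false), (0, true), (2, false)]) :=
  Check.check_sound
    (.node 1
    (.leaf (lf 980 0 0 1024 269 (-532) (-34) 0 178 255 255 255))
    (.node 0
    (.node 2
    (.node 1
    (.leaf (lf 828 0 0 1024 190 (-377) (-73) 0 127 255 255 255))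
    (.leaf (lf 739 0 0 1024 115 (-228) (-97) 0 77 255 110 236)))
    (.node 1
    (.leaf (lf 832 0 0 1024 190 (-377) (-71) 0 126 255 255 255))
    (.leaf (lf 742 0 0 1024 115 (-228) (-95) 0 76 255 97 203))))
    (.node 2
    (.node 1
    (.leaf (lf 818 0 0 1024 190 (-377) (-75) 0 129 255 255 255))
    (.leaf (lf 729 0 0 1024 115 (-228) (-99) 0 79 255 98 238)))
    (.node 1
    (.leaf (lf 821 0 0 1024 190 (-378) (-73) 0 128 255 255 255))
    (.leaf (lf 732 0 0 1024 115 (-228) (-97) 0 78 255 96 237))))))
    (by decide +kernel)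

def goodS0X_958 :
    Check.Good noCone cfS0X (reach cfS0X ⟨litS0X, 1, fsS0X⟩
      [(2, true), (0, false), (2, true), (0, true), (2, false), (1, true), (1, true), (0, true), (2, false), (2, false), (0, true), (1, true), (2, true), (0, true), (2, false), (0, true), (2, false)]) :=
  Check.check_sound
    (.node 1
    (.leaf (lf 989 0 0 1024 269 (-533) (-31) 0 174 255 255 255))
    (.node 0
    (.node 2
    (.node 1
    (.leaf (lf 836 0 0 1024 190 (-378) (-69) 0 124 255 255 255))
    (.leaf (lf 745 0 0 1024 115 (-228) (-93) 0 75 255 97 202)))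
    (.node 1
    (.leaf (lf 840 0 0 1024 190 (-378) (-67) 0 123 255 255 255))
    (.leaf (lf 748 0 0 1024 115 (-228) (-91) 0 75 255 97 201))))
    (.node 2
    (.node 1
    (.leaf (lf 825 0 0 1024 190 (-378) (-71) 0 126 255 255 255))
    (.leaf (lf 735 0 0 1024 115 (-228) (-95) 0 77 255 85 207)))
    (.node 1
    (.leaf (lf 828 0 0 1024 190 (-378) (-69) 0 125 255 255 255))
    (.leaf (lf 738 0 0 1024 115 (-228) (-93) 0 76 255 85 208))))))
    (by decide +kernel)

def goodS0X_956 :
    Check.Good noCone cfS0X (reach cfS0X ⟨litS0X, 1, fsS0X⟩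
      [(0, false), (2, true), (0, true), (2, false), (1, true), (1, true), (0, true), (2, false), (2, false), (0, true), (1, true), (2, true), (0, true), (2, false), (0, true), (2, false)]) :=
  Check.good_node (a := 2) (by decide +kernel)
    goodS0X_957 goodS0X_958

def goodS0X_960 :
    Check.Good noCone cfS0X (reach cfS0X ⟨litS0X, 1, fsS0X⟩
      [(2, false), (0, true), (2, true), (0, true), (2, false), (1, true), (1, true), (0, true), (2, false), (2, false), (0, true), (1, true), (2, true), (0, true), (2, false), (0, true), (2, false)]) :=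
  Check.check_sound
    (.node 1
    (.leaf (lf 955 0 0 1024 269 (-533) (-38) 0 183 255 255 255))
    (.node 0
    (.node 2
    (.node 1
    (.leaf (lf 807 0 0 1024 190 (-378) (-77) 0 131 255 255 255))
    (.leaf (lf 720 0 0 1024 115 (-228) (-102) 0 80 255 102 241)))
    (.node 1
    (.leaf (lf 811 0 0 1024 190 (-378) (-76) 0 130 255 255 255))
    (.leaf (lf 723 0 0 1024 115 (-228) (-100) 0 79 255 93 209))))
    (.node 2
    (.node 1
    (.leaf (lf 797 0 0 1024 191 (-378) (-80) 0 133 255 255 255))
    (.leaf (lf 711 0 0 1024 115 (-229) (-105) 0 81 255 109 237)))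
    (.node 1
    (.leaf (lf 801 0 0 1024 191 (-378) (-78) 0 132 255 255 255))
    (.leaf (lf 713 0 0 1024 115 (-229) (-102) 0 80 255 102 238))))))
    (by decide +kernel)

def goodS0X_961 :
    Check.Good noCone cfS0X (reach cfS0X ⟨litS0X, 1, fsS0X⟩
      [(2, true), (0, true), (2, true), (0, true), (2, false), (1, true), (1, true), (0, true), (2, false), (2, false), (0, true), (1, true), (2, true), (0, true), (2, false), (0, true), (2, false)]) :=
  Check.check_sound
    (.node 1
    (.leaf (lf 964 0 0 1024 269 (-534) (-35) 0 179 255 255 255))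
    (.node 0
    (.node 2
    (.node 1
    (.leaf (lf 814 0 0 1024 190 (-378) (-74) 0 128 255 255 255))
    (.leaf (lf 725 0 0 1024 115 (-228) (-98) 0 78 255 90 209)))
    (.node 1
    (.leaf (lf 818 0 0 1024 191 (-379) (-72) 0 127 255 255 255))
    (.leaf (lf 728 0 0 1024 115 (-228) (-96) 0 77 255 91 209))))
    (.node 2
    (.node 1
    (.leaf (lf 804 0 0 1024 191 (-379) (-76) 0 130 255 255 255))
    (.leaf (lf 716 0 0 1024 115 (-229) (-100) 0 79 255 99 239)))
    (.node 1
    (.leaf (lf 807 0 0 1024 191 (-379) (-74) 0 129 255 255 255))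
    (.leaf (lf 719 0 0 1024 115 (-229) (-98) 0 78 255 85 208))))))
    (by decide +kernel)

def goodS0X_959 :
    Check.Good noCone cfS0X (reach cfS0X ⟨litS0X, 1, fsS0X⟩
      [(0, true), (2, true), (0, true), (2, false), (1, true), (1, true), (0, true), (2, false), (2, false), (0, true), (1, true), (2, true), (0, true), (2, false), (0, true), (2, false)]) :=
  Check.good_node (a := 2) (by decide +kernel)
    goodS0X_960 goodS0X_961

def goodS0X_955 :
    Check.Good noCone cfS0X (reach cfS0X ⟨litS0X, 1, fsS0X⟩
      [(2, true), (0, true), (2, false), (1, true), (1, true), (0, true), (2, false), (2, false), (0, true), (1, true), (2, true), (0, true), (2, false), (0, true), (2, false)]) :=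
  Check.good_node (a := 0) (by decide +kernel)
    goodS0X_956 goodS0X_959

def goodS0X_947 :
    Check.Good noCone cfS0X (reach cfS0X ⟨litS0X, 1, fsS0X⟩
      [(0, true), (2, false), (1, true), (1, true), (0, true), (2, false), (2, false), (0, true), (1, true), (2, true), (0, true), (2, false), (0, true), (2, false)]) :=
  Check.good_node (a := 2) (by decide +kernel)
    goodS0X_948 goodS0X_955

def goodS0X_931 :
    Check.Good noCone cfS0X (reach cfS0X ⟨litS0X, 1, fsS0X⟩
      [(2, false), (1, true), (1, true), (0, true), (2, false), (2, false), (0, true), (1, true), (2, true), (0, true), (2, false), (0, true), (2, false)]) :=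
  Check.good_node (a := 0) (by decide +kernel)
    goodS0X_932 goodS0X_947

def goodS0X_966 :
    Check.Good noCone cfS0X (reach cfS0X ⟨litS0X, 1, fsS0X⟩
      [(2, false), (0, false), (2, false), (0, false), (2, true), (1, true), (1, true), (0, true), (2, false), (2, false), (0, true), (1, true), (2, true), (0, true), (2, false), (0, true), (2, false)]) :=
  Check.check_sound
    (.node 1
    (.leaf (lf 1024 0 0 992 262 (-517) (-20) 0 155 255 255 255))
    (.node 0
    (.node 2
    (.node 1
    (.leaf (lf 893 0 0 1024 191 (-379) (-56) 0 114 255 255 255))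
    (.leaf (lf 795 0 0 1024 116 (-229) (-79) 0 70 255 103 202)))
    (.node 1
    (.leaf (lf 897 0 0 1024 192 (-379) (-55) 0 113 255 255 255))
    (.leaf (lf 799 0 0 1024 116 (-230) (-77) 0 69 255 103 213))))
    (.node 2
    (.node 1
    (.leaf (lf 880 0 0 1024 191 (-378) (-59) 0 116 255 255 255))
    (.leaf (lf 783 0 0 1024 115 (-229) (-81) 0 71 255 89 207)))
    (.node 1
    (.leaf (lf 884 0 0 1024 191 (-379) (-57) 0 115 255 255 255))
    (.leaf (lf 787 0 0 1024 116 (-229) (-79) 0 70 255 90 212))))))
    (by decide +kernel)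

def goodS0X_967 :
    Check.Good noCone cfS0X (reach cfS0X ⟨litS0X, 1, fsS0X⟩
      [(2, true), (0, false), (2, false), (0, false), (2, true), (1, true), (1, true), (0, true), (2, false), (2, false), (0, true), (1, true), (2, true), (0, true), (2, false), (0, true), (2, false)]) :=
  Check.check_sound
    (.node 1
    (.leaf (lf 1024 0 0 981 261 (-513) (-17) 0 150 255 255 255))
    (.node 0
    (.node 2
    (.node 1
    (.leaf (lf 902 0 0 1024 192 (-380) (-53) 0 112 255 255 255))
    (.leaf (lf 802 0 0 1024 116 (-230) (-75) 0 68 255 92 213)))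
    (.leaf (lf 858 0 (-593) 813 192 (-1024) 0 0 135 221 61 255)))
    (.node 2
    (.node 1
    (.leaf (lf 889 0 0 1024 192 (-380) (-55) 0 114 255 255 255))
    (.leaf (lf 791 0 0 1024 116 (-230) (-77) 0 69 255 91 212)))
    (.node 1
    (.leaf (lf 893 0 0 1024 192 (-380) (-54) 0 112 255 255 255))
    (.leaf (lf 794 0 0 1024 116 (-230) (-76) 0 69 255 98 201))))))
    (by decide +kernel)

def goodS0X_965 :
    Check.Good noCone cfS0X (reach cfS0X ⟨litS0X, 1, fsS0X⟩
      [(0, false), (2, false), (0, false), (2, true), (1, true), (1, true), (0, true), (2, false), (2, false), (0, true), (1, true), (2, true), (0, true), (2, false), (0, true), (2, false)]) :=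
  Check.good_node (a := 2) (by decide +kernel)
    goodS0X_966 goodS0X_967

def goodS0X_969 :
    Check.Good noCone cfS0X (reach cfS0X ⟨litS0X, 1, fsS0X⟩
      [(2, false), (0, true), (2, false), (0, false), (2, true), (1, true), (1, true), (0, true), (2, false), (2, false), (0, true), (1, true), (2, true), (0, true), (2, false), (0, true), (2, false)]) :=
  Check.check_sound
    (.node 1
    (.leaf (lf 1024 0 0 1021 270 (-532) (-24) 0 164 255 255 255))
    (.node 0
    (.node 2
    (.node 1
    (.leaf (lf 867 0 0 1024 191 (-378) (-61) 0 118 255 255 255))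
    (.leaf (lf 772 0 0 1024 115 (-228) (-84) 0 72 255 97 199)))
    (.node 1
    (.leaf (lf 871 0 0 1024 191 (-379) (-59) 0 116 255 255 255))
    (.leaf (lf 776 0 0 1024 115 (-229) (-82) 0 71 255 99 209))))
    (.node 2
    (.node 1
    (.leaf (lf 855 0 0 1024 191 (-379) (-63) 0 120 255 255 255))
    (.leaf (lf 761 0 0 1024 115 (-228) (-86) 0 73 255 88 204)))
    (.node 1
    (.leaf (lf 859 0 0 1024 191 (-379) (-61) 0 118 255 255 255))
    (.leaf (lf 765 0 0 1024 115 (-229) (-84) 0 72 255 88 214))))))
    (by decide +kernel)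

def goodS0X_970 :
    Check.Good noCone cfS0X (reach cfS0X ⟨litS0X, 1, fsS0X⟩
      [(2, true), (0, true), (2, false), (0, false), (2, true), (1, true), (1, true), (0, true), (2, false), (2, false), (0, true), (1, true), (2, true), (0, true), (2, false), (0, true), (2, false)]) :=
  Check.check_sound
    (.node 1
    (.leaf (lf 1024 0 0 1010 268 (-528) (-21) 0 159 255 255 255))
    (.node 0
    (.node 2
    (.node 1
    (.leaf (lf 876 0 0 1024 192 (-380) (-57) 0 115 255 255 255))
    (.leaf (lf 779 0 0 1024 115 (-229) (-80) 0 70 255 93 214)))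
    (.node 1
    (.leaf (lf 880 0 0 1024 192 (-380) (-56) 0 114 255 255 255))
    (.leaf (lf 783 0 0 1024 116 (-230) (-78) 0 69 255 88 206))))
    (.node 2
    (.node 1
    (.leaf (lf 863 0 0 1024 191 (-380) (-60) 0 117 255 255 255))
    (.leaf (lf 768 0 0 1024 115 (-229) (-82) 0 71 255 92 213)))
    (.node 1
    (.leaf (lf 868 0 0 1024 192 (-380) (-58) 0 116 255 255 255))
    (.leaf (lf 772 0 0 1024 115 (-229) (-81) 0 70 255 101 206))))))
    (by decide +kernel)

def goodS0X_968 :
    Check.Good noCone cfS0X (reach cfS0X ⟨litS0X, 1, fsS0X⟩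
      [(0, true), (2, false), (0, false), (2, true), (1, true), (1, true), (0, true), (2, false), (2, false), (0, true), (1, true), (2, true), (0, true), (2, false), (0, true), (2, false)]) :=
  Check.good_node (a := 2) (by decide +kernel)
    goodS0X_969 goodS0X_970

def goodS0X_964 :
    Check.Good noCone cfS0X (reach cfS0X ⟨litS0X, 1, fsS0X⟩
      [(2, false), (0, false), (2, true), (1, true), (1, true), (0, true), (2, false), (2, false), (0, true), (1, true), (2, true), (0, true), (2, false), (0, true), (2, false)]) :=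
  Check.good_node (a := 0) (by decide +kernel)
    goodS0X_965 goodS0X_968

def goodS0X_972 :
    Check.Good noCone cfS0X (reach cfS0X ⟨litS0X, 1, fsS0X⟩
      [(0, false), (2, true), (0, false), (2, true), (1, true), (1, true), (0, true), (2, false), (2, false), (0, true), (1, true), (2, true), (0, true), (2, false), (0, true), (2, false)]) :=
  Check.check_sound
    (.node 2
    (.node 1
    (.leaf (lf 1024 0 0 970 259 (-509) (-14) 0 145 255 255 255))
    (.node 0
    (.node 2
    (.leaf (lf 872 0 (-592) 826 194 (-1024) 0 0 134 223 61 255))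
    (.leaf (lf 887 0 (-591) 839 196 (-1024) 0 0 133 224 62 255)))
    (.node 2
    (.node 1
    (.leaf (lf 898 0 0 1024 193 (-381) (-52) 0 111 255 255 255))
    (.leaf (lf 798 0 0 1024 116 (-231) (-74) 0 68 255 96 215)))
    (.leaf (lf 860 0 (-587) 821 193 (-1024) 0 0 134 222 62 255)))))
    (.node 1
    (.leaf (lf 1024 0 0 959 258 (-505) (-11) 0 141 255 255 255))
    (.node 0
    (.leaf (lf 911 0 (-590) 860 199 (-1024) 0 0 131 224 64 255))
    (.leaf (lf 14112 0 (-9375) 13451 3139 (-16384) 0 0 2122 223 63 255)))))
    (by decide +kernel)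

def goodS0X_974 :
    Check.Good noCone cfS0X (reach cfS0X ⟨litS0X, 1, fsS0X⟩
      [(2, false), (0, true), (2, true), (0, false), (2, true), (1, true), (1, true), (0, true), (2, false), (2, false), (0, true), (1, true), (2, true), (0, true), (2, false), (0, true), (2, false)]) :=
  Check.check_sound
    (.node 1
    (.leaf (lf 1024 0 0 999 266 (-524) (-18) 0 154 255 255 255))
    (.node 0
    (.node 2
    (.node 1
    (.leaf (lf 885 0 0 1024 192 (-381) (-54) 0 113 255 255 255))
    (.leaf (lf 787 0 0 1024 116 (-230) (-76) 0 69 255 90 210)))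
    (.node 1
    (.leaf (lf 889 0 0 1024 193 (-382) (-52) 0 112 255 255 255))
    (.leaf (lf 790 0 0 1024 116 (-231) (-75) 0 68 255 100 209))))
    (.node 2
    (.node 1
    (.leaf (lf 872 0 0 1024 192 (-381) (-56) 0 115 255 255 255))
    (.leaf (lf 775 0 0 1024 116 (-230) (-79) 0 70 255 94 208)))
    (.node 1
    (.leaf (lf 876 0 0 1024 193 (-382) (-55) 0 114 255 255 255))
    (.leaf (lf 779 0 0 1024 116 (-230) (-77) 0 69 255 93 215))))))
    (by decide +kernel)

def goodS0X_975 :
    Check.Good noCone cfS0X (reach cfS0X ⟨litS0X, 1, fsS0X⟩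
      [(2, true), (0, true), (2, true), (0, false), (2, true), (1, true), (1, true), (0, true), (2, false), (2, false), (0, true), (1, true), (2, true), (0, true), (2, false), (0, true), (2, false)]) :=
  Check.check_sound
    (.node 1
    (.leaf (lf 1024 0 0 988 265 (-521) (-15) 0 150 255 255 255))
    (.node 0
    (.node 2
    (.node 1
    (.leaf (lf 894 0 0 1024 193 (-382) (-51) 0 111 255 255 255))
    (.leaf (lf 794 0 0 1024 117 (-231) (-73) 0 68 255 94 203)))
    (.leaf (lf 862 0 (-582) 828 195 (-1024) 0 0 134 222 63 255)))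
    (.node 2
    (.node 1
    (.leaf (lf 881 0 0 1024 193 (-382) (-53) 0 112 255 255 255))
    (.leaf (lf 782 0 0 1024 116 (-231) (-75) 0 68 255 92 207)))
    (.node 1
    (.leaf (lf 885 0 0 1024 193 (-383) (-51) 0 111 255 255 255))
    (.leaf (lf 786 0 0 1024 117 (-231) (-74) 0 68 255 100 206))))))
    (by decide +kernel)

def goodS0X_973 :
    Check.Good noCone cfS0X (reach cfS0X ⟨litS0X, 1, fsS0X⟩
      [(0, true), (2, true), (0, false), (2, true), (1, true), (1, true), (0, true), (2, false), (2, false), (0, true), (1, true), (2, true), (0, true), (2, false), (0, true), (2, false)]) :=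
  Check.good_node (a := 2) (by decide +kernel)
    goodS0X_974 goodS0X_975

def goodS0X_971 :
    Check.Good noCone cfS0X (reach cfS0X ⟨litS0X, 1, fsS0X⟩
      [(2, true), (0, false), (2, true), (1, true), (1, true), (0, true), (2, false), (2, false), (0, true), (1, true), (2, true), (0, true), (2, false), (0, true), (2, false)]) :=
  Check.good_node (a := 0) (by decide +kernel)
    goodS0X_972 goodS0X_973

def goodS0X_963 :
    Check.Good noCone cfS0X (reach cfS0X ⟨litS0X, 1, fsS0X⟩
      [(0, false), (2, true), (1, true), (1, true), (0, true), (2, false), (2, false), (0, true), (1, true), (2, true), (0, true), (2, false), (0, true), (2, false)]) :=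
  Check.good_node (a := 2) (by decide +kernel)
    goodS0X_964 goodS0X_971

def goodS0X_979 :
    Check.Good noCone cfS0X (reach cfS0X ⟨litS0X, 1, fsS0X⟩
      [(2, false), (0, false), (2, false), (0, true), (2, true), (1, true), (1, true), (0, true), (2, false), (2, false), (0, true), (1, true), (2, true), (0, true), (2, false), (0, true), (2, false)]) :=
  Check.check_sound
    (.node 1
    (.leaf (lf 999 0 0 1024 270 (-534) (-28) 0 170 255 255 255))
    (.node 0
    (.node 2
    (.node 1
    (.leaf (lf 843 0 0 1024 191 (-379) (-65) 0 121 255 255 255))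
    (.leaf (lf 751 0 0 1024 115 (-228) (-89) 0 74 255 95 203)))
    (.node 1
    (.leaf (lf 847 0 0 1024 191 (-379) (-64) 0 120 255 255 255))
    (.leaf (lf 754 0 0 1024 115 (-228) (-87) 0 73 255 93 207))))
    (.node 2
    (.node 1
    (.leaf (lf 832 0 0 1024 191 (-379) (-68) 0 123 255 255 255))
    (.leaf (lf 741 0 0 1024 115 (-228) (-91) 0 75 255 85 209)))
    (.node 1
    (.leaf (lf 836 0 0 1024 191 (-379) (-66) 0 122 255 255 255))
    (.leaf (lf 744 0 0 1024 115 (-228) (-89) 0 74 255 87 211))))))
    (by decide +kernel)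

def goodS0X_980 :
    Check.Good noCone cfS0X (reach cfS0X ⟨litS0X, 1, fsS0X⟩
      [(2, true), (0, false), (2, false), (0, true), (2, true), (1, true), (1, true), (0, true), (2, false), (2, false), (0, true), (1, true), (2, true), (0, true), (2, false), (0, true), (2, false)]) :=
  Check.check_sound
    (.node 1
    (.leaf (lf 1009 0 0 1024 271 (-536) (-25) 0 166 255 255 255))
    (.node 0
    (.node 2
    (.node 1
    (.leaf (lf 851 0 0 1024 191 (-380) (-62) 0 119 255 255 255))
    (.leaf (lf 757 0 0 1024 115 (-229) (-85) 0 72 255 89 210)))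
    (.node 1
    (.leaf (lf 855 0 0 1024 192 (-380) (-60) 0 118 255 255 255))
    (.leaf (lf 761 0 0 1024 115 (-229) (-83) 0 71 255 89 208))))
    (.node 2
    (.node 1
    (.leaf (lf 840 0 0 1024 191 (-380) (-64) 0 121 255 255 255))
    (.leaf (lf 747 0 0 1024 115 (-229) (-87) 0 73 255 89 208)))
    (.node 1
    (.leaf (lf 844 0 0 1024 191 (-380) (-62) 0 119 255 255 255))
    (.leaf (lf 750 0 0 1024 115 (-229) (-86) 0 72 255 95 203))))))
    (by decide +kernel)

def goodS0X_978 :
    Check.Good noCone cfS0X (reach cfS0X ⟨litS0X, 1, fsS0X⟩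
      [(0, false), (2, false), (0, true), (2, true), (1, true), (1, true), (0, true), (2, false), (2, false), (0, true), (1, true), (2, true), (0, true), (2, false), (0, true), (2, false)]) :=
  Check.good_node (a := 2) (by decide +kernel)
    goodS0X_979 goodS0X_980

def goodS0X_982 :
    Check.Good noCone cfS0X (reach cfS0X ⟨litS0X, 1, fsS0X⟩
      [(2, false), (0, true), (2, false), (0, true), (2, true), (1, true), (1, true), (0, true), (2, false), (2, false), (0, true), (1, true), (2, true), (0, true), (2, false), (0, true), (2, false)]) :=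
  Check.check_sound
    (.node 1
    (.leaf (lf 973 0 0 1024 270 (-535) (-31) 0 175 255 255 255))
    (.node 0
    (.node 2
    (.node 1
    (.leaf (lf 821 0 0 1024 191 (-379) (-70) 0 125 255 255 255))
    (.leaf (lf 731 0 0 1024 115 (-228) (-94) 0 76 255 92 210)))
    (.node 1
    (.leaf (lf 825 0 0 1024 191 (-380) (-68) 0 124 255 255 255))
    (.leaf (lf 734 0 0 1024 115 (-228) (-92) 0 75 255 91 212))))
    (.node 2
    (.node 1
    (.leaf (lf 811 0 0 1024 191 (-379) (-72) 0 127 255 255 255))
    (.leaf (lf 722 0 0 1024 115 (-229) (-96) 0 77 255 83 208)))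
    (.node 1
    (.leaf (lf 814 0 0 1024 191 (-380) (-70) 0 126 255 255 255))
    (.leaf (lf 724 0 0 1024 115 (-229) (-94) 0 76 255 88 205))))))
    (by decide +kernel)

def goodS0X_983 :
    Check.Good noCone cfS0X (reach cfS0X ⟨litS0X, 1, fsS0X⟩
      [(2, true), (0, true), (2, false), (0, true), (2, true), (1, true), (1, true), (0, true), (2, false), (2, false), (0, true), (1, true), (2, true), (0, true), (2, false), (0, true), (2, false)]) :=
  Check.check_sound
    (.node 1
    (.leaf (lf 983 0 0 1024 271 (-536) (-28) 0 171 255 255 255))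
    (.node 0
    (.node 2
    (.node 1
    (.leaf (lf 829 0 0 1024 191 (-380) (-66) 0 123 255 255 255))
    (.leaf (lf 737 0 0 1024 115 (-229) (-90) 0 74 255 88 206)))
    (.node 1
    (.leaf (lf 832 0 0 1024 191 (-380) (-65) 0 121 255 255 255))
    (.leaf (lf 740 0 0 1024 115 (-229) (-88) 0 73 255 84 204))))
    (.node 2
    (.node 1
    (.leaf (lf 818 0 0 1024 191 (-380) (-69) 0 124 255 255 255))
    (.leaf (lf 727 0 0 1024 115 (-229) (-92) 0 75 255 88 204)))
    (.node 1
    (.leaf (lf 821 0 0 1024 191 (-381) (-67) 0 123 255 255 255))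
    (.leaf (lf 730 0 0 1024 115 (-229) (-90) 0 75 255 91 204))))))
    (by decide +kernel)

def goodS0X_981 :
    Check.Good noCone cfS0X (reach cfS0X ⟨litS0X, 1, fsS0X⟩
      [(0, true), (2, false), (0, true), (2, true), (1, true), (1, true), (0, true), (2, false), (2, false), (0, true), (1, true), (2, true), (0, true), (2, false), (0, true), (2, false)]) :=
  Check.good_node (a := 2) (by decide +kernel)
    goodS0X_982 goodS0X_983

def goodS0X_977 :
    Check.Good noCone cfS0X (reach cfS0X ⟨litS0X, 1, fsS0X⟩
      [(2, false), (0, true), (2, true), (1, true), (1, true), (0, true), (2, false), (2, false), (0, true), (1, true), (2, true), (0, true), (2, false), (0, true), (2, false)]) :=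
  Check.good_node (a := 0) (by decide +kernel)
    goodS0X_978 goodS0X_981

def goodS0X_986 :
    Check.Good noCone cfS0X (reach cfS0X ⟨litS0X, 1, fsS0X⟩
      [(2, false), (0, false), (2, true), (0, true), (2, true), (1, true), (1, true), (0, true), (2, false), (2, false), (0, true), (1, true), (2, true), (0, true), (2, false), (0, true), (2, false)]) :=
  Check.check_sound
    (.node 1
    (.leaf (lf 1020 0 0 1024 272 (-538) (-22) 0 163 255 255 255))
    (.node 0
    (.node 2
    (.node 1
    (.leaf (lf 859 0 0 1024 192 (-381) (-58) 0 116 255 255 255))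
    (.leaf (lf 764 0 0 1024 115 (-229) (-81) 0 71 255 89 204)))
    (.node 1
    (.leaf (lf 864 0 0 1024 192 (-381) (-57) 0 115 255 255 255))
    (.leaf (lf 768 0 0 1024 116 (-230) (-79) 0 70 255 91 216))))
    (.node 2
    (.node 1
    (.leaf (lf 848 0 0 1024 192 (-381) (-61) 0 118 255 255 255))
    (.leaf (lf 754 0 0 1024 115 (-229) (-84) 0 72 255 96 202)))
    (.node 1
    (.leaf (lf 852 0 0 1024 192 (-381) (-59) 0 117 255 255 255))
    (.leaf (lf 757 0 0 1024 115 (-229) (-82) 0 71 255 91 208))))))
    (by decide +kernel)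

def goodS0X_987 :
    Check.Good noCone cfS0X (reach cfS0X ⟨litS0X, 1, fsS0X⟩
      [(2, true), (0, false), (2, true), (0, true), (2, true), (1, true), (1, true), (0, true), (2, false), (2, false), (0, true), (1, true), (2, true), (0, true), (2, false), (0, true), (2, false)]) :=
  Check.check_sound
    (.node 1
    (.leaf (lf 1024 0 0 1017 272 (-536) (-19) 0 159 255 255 255))
    (.node 0
    (.node 2
    (.node 1
    (.leaf (lf 868 0 0 1024 193 (-382) (-55) 0 114 255 255 255))
    (.leaf (lf 771 0 0 1024 116 (-230) (-78) 0 69 255 95 210)))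
    (.node 1
    (.leaf (lf 872 0 0 1024 193 (-383) (-54) 0 113 255 255 255))
    (.leaf (lf 775 0 0 1024 116 (-231) (-76) 0 69 255 92 209))))
    (.node 2
    (.node 1
    (.leaf (lf 856 0 0 1024 192 (-382) (-57) 0 116 255 255 255))
    (.leaf (lf 760 0 0 1024 115 (-230) (-80) 0 70 255 88 210)))
    (.node 1
    (.leaf (lf 860 0 0 1024 193 (-383) (-56) 0 115 255 255 255))
    (.leaf (lf 764 0 0 1024 116 (-230) (-78) 0 70 255 88 204))))))
    (by decide +kernel)

def goodS0X_985 :
    Check.Good noCone cfS0X (reach cfS0X ⟨litS0X, 1, fsS0X⟩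
      [(0, false), (2, true), (0, true), (2, true), (1, true), (1, true), (0, true), (2, false), (2, false), (0, true), (1, true), (2, true), (0, true), (2, false), (0, true), (2, false)]) :=
  Check.good_node (a := 2) (by decide +kernel)
    goodS0X_986 goodS0X_987

def goodS0X_989 :
    Check.Good noCone cfS0X (reach cfS0X ⟨litS0X, 1, fsS0X⟩
      [(2, false), (0, true), (2, true), (0, true), (2, true), (1, true), (1, true), (0, true), (2, false), (2, false), (0, true), (1, true), (2, true), (0, true), (2, false), (0, true), (2, false)]) :=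
  Check.check_sound
    (.node 1
    (.leaf (lf 992 0 0 1024 272 (-538) (-25) 0 168 255 255 255))
    (.node 0
    (.node 2
    (.node 1
    (.leaf (lf 836 0 0 1024 192 (-381) (-63) 0 120 255 255 255))
    (.leaf (lf 743 0 0 1024 115 (-229) (-86) 0 73 255 87 206)))
    (.node 1
    (.leaf (lf 840 0 0 1024 192 (-381) (-61) 0 119 255 255 255))
    (.leaf (lf 746 0 0 1024 115 (-229) (-84) 0 72 255 91 209))))
    (.node 2
    (.node 1
    (.leaf (lf 825 0 0 1024 192 (-381) (-65) 0 122 255 255 255))
    (.leaf (lf 733 0 0 1024 115 (-229) (-89) 0 74 255 92 205)))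
    (.node 1
    (.leaf (lf 829 0 0 1024 192 (-382) (-63) 0 121 255 255 255))
    (.leaf (lf 736 0 0 1024 115 (-229) (-87) 0 73 255 89 210))))))
    (by decide +kernel)

def goodS0X_990 :
    Check.Good noCone cfS0X (reach cfS0X ⟨litS0X, 1, fsS0X⟩
      [(2, true), (0, true), (2, true), (0, true), (2, true), (1, true), (1, true), (0, true), (2, false), (2, false), (0, true), (1, true), (2, true), (0, true), (2, false), (0, true), (2, false)]) :=
  Check.check_sound
    (.node 1
    (.leaf (lf 1002 0 0 1024 273 (-540) (-22) 0 165 255 255 255))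
    (.node 0
    (.node 2
    (.node 1
    (.leaf (lf 844 0 0 1024 192 (-382) (-60) 0 118 255 255 255))
    (.leaf (lf 750 0 0 1024 115 (-230) (-83) 0 71 255 98 205)))
    (.node 1
    (.leaf (lf 848 0 0 1024 193 (-383) (-58) 0 116 255 255 255))
    (.leaf (lf 753 0 0 1024 115 (-230) (-81) 0 70 255 91 204))))
    (.node 2
    (.node 1
    (.leaf (lf 832 0 0 1024 192 (-382) (-62) 0 119 255 255 255))
    (.leaf (lf 739 0 0 1024 115 (-229) (-85) 0 72 255 86 213)))
    (.node 1
    (.leaf (lf 836 0 0 1024 192 (-383) (-60) 0 118 255 255 255))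
    (.leaf (lf 743 0 0 1024 115 (-230) (-83) 0 71 255 83 205))))))
    (by decide +kernel)

def goodS0X_988 :
    Check.Good noCone cfS0X (reach cfS0X ⟨litS0X, 1, fsS0X⟩
      [(0, true), (2, true), (0, true), (2, true), (1, true), (1, true), (0, true), (2, false), (2, false), (0, true), (1, true), (2, true), (0, true), (2, false), (0, true), (2, false)]) :=
  Check.good_node (a := 2) (by decide +kernel)
    goodS0X_989 goodS0X_990

def goodS0X_984 :
    Check.Good noCone cfS0X (reach cfS0X ⟨litS0X, 1, fsS0X⟩
      [(2, true), (0, true), (2, true), (1, true), (1, true), (0, true), (2, false), (2, false), (0, true), (1, true), (2, true), (0, true), (2, false), (0, true), (2, false)]) :=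
  Check.good_node (a := 0) (by decide +kernel)
    goodS0X_985 goodS0X_988

def goodS0X_976 :
    Check.Good noCone cfS0X (reach cfS0X ⟨litS0X, 1, fsS0X⟩
      [(0, true), (2, true), (1, true), (1, true), (0, true), (2, false), (2, false), (0, true), (1, true), (2, true), (0, true), (2, false), (0, true), (2, false)]) :=
  Check.good_node (a := 2) (by decide +kernel)
    goodS0X_977 goodS0X_984

def goodS0X_962 :
    Check.Good noCone cfS0X (reach cfS0X ⟨litS0X, 1, fsS0X⟩
      [(2, true), (1, true), (1, true), (0, true), (2, false), (2, false), (0, true), (1, true), (2, true), (0, true), (2, false), (0, true), (2, false)]) :=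
  Check.good_node (a := 0) (by decide +kernel)
    goodS0X_963 goodS0X_976

def goodS0X_930 :
    Check.Good noCone cfS0X (reach cfS0X ⟨litS0X, 1, fsS0X⟩
      [(1, true), (1, true), (0, true), (2, false), (2, false), (0, true), (1, true), (2, true), (0, true), (2, false), (0, true), (2, false)]) :=
  Check.good_node (a := 2) (by decide +kernel)
    goodS0X_931 goodS0X_962

def goodS0X_928 :
    Check.Good noCone cfS0X (reach cfS0X ⟨litS0X, 1, fsS0X⟩
      [(1, true), (0, true), (2, false), (2, false), (0, true), (1, true), (2, true), (0, true), (2, false), (0, true), (2, false)]) :=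
  Check.good_node (a := 1) (by decide +kernel)
    goodS0X_929 goodS0X_930

def goodS0X_926 :
    Check.Good noCone cfS0X (reach cfS0X ⟨litS0X, 1, fsS0X⟩
      [(0, true), (2, false), (2, false), (0, true), (1, true), (2, true), (0, true), (2, false), (0, true), (2, false)]) :=
  Check.good_node (a := 1) (by decide +kernel)
    goodS0X_927 goodS0X_928

def goodS0X_900 :
    Check.Good noCone cfS0X (reach cfS0X ⟨litS0X, 1, fsS0X⟩
      [(2, false), (2, false), (0, true), (1, true), (2, true), (0, true), (2, false), (0, true), (2, false)]) :=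
  Check.good_node (a := 0) (by decide +kernel)
    goodS0X_901 goodS0X_926

def goodS0X_993 :
    Check.Good noCone cfS0X (reach cfS0X ⟨litS0X, 1, fsS0X⟩
      [(1, false), (0, false), (2, true), (2, false), (0, true), (1, true), (2, true), (0, true), (2, false), (0, true), (2, false)]) :=
  Check.check_sound
    (.node 1
    (.node 2
    (.leaf (lf 1024 0 0 262 148 (-260) 74 0 61 251 255 127))
    (.leaf (lf 1024 0 0 241 149 (-256) 71 0 56 250 255 123)))
    (.leaf (lf 1024 0 0 378 201 (-358) 70 0 82 255 255 255)))
    (by decide +kernel)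

def goodS0X_995 :
    Check.Good noCone cfS0X (reach cfS0X ⟨litS0X, 1, fsS0X⟩
      [(1, false), (1, true), (0, false), (2, true), (2, false), (0, true), (1, true), (2, true), (0, true), (2, false), (0, true), (2, false)]) :=
  Check.check_sound
    (.leaf (lf 1024 0 0 590 244 (-449) 46 0 104 255 255 255))
    (by decide +kernel)

def goodS0X_997 :
    Check.Good noCone cfS0X (reach cfS0X ⟨litS0X, 1, fsS0X⟩
      [(2, false), (1, true), (1, true), (0, false), (2, true), (2, false), (0, true), (1, true), (2, true), (0, true), (2, false), (0, true), (2, false)]) :=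
  Check.check_sound
    (.node 0
    (.node 2
    (.node 0
    (.node 1
    (.leaf (lf 1024 0 0 822 231 (-440) 5 0 105 255 255 255))
    (.leaf (lf 1024 0 (-461) 894 190 (-802) 0 0 97 255 255 255)))
    (.node 1
    (.leaf (lf 1024 0 0 852 237 (-455) 3 0 112 255 255 255))
    (.leaf (lf 1024 0 (-507) 913 197 (-877) 0 0 106 255 255 255))))
    (.node 0
    (.node 1
    (.leaf (lf 1024 0 0 798 230 (-433) 9 0 100 255 255 255))
    (.leaf (lf 1024 0 0 1016 173 (-330) (-30) 0 77 255 117 208)))
    (.node 1
    (.leaf (lf 1024 0 0 829 236 (-448) 7 0 106 255 255 255))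
    (.leaf (lf 1024 0 (-445) 907 192 (-797) 0 0 97 255 255 255)))))
    (.node 2
    (.node 0
    (.node 1
    (.leaf (lf 1024 0 0 882 243 (-470) 0 0 119 255 255 255))
    (.leaf (lf 1024 0 (-552) 931 204 (-954) 0 0 116 201 64 255)))
    (.node 1
    (.leaf (lf 1024 0 0 912 250 (-485) (-4) 0 127 255 255 255))
    (.leaf (lf 1017 0 (-589) 944 211 (-1024) 0 0 127 230 74 255))))
    (.node 0
    (.node 1
    (.leaf (lf 1024 0 0 859 241 (-463) 4 0 113 255 255 255))
    (.leaf (lf 1024 0 (-492) 926 199 (-873) 0 0 106 255 255 255)))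
    (.node 1
    (.leaf (lf 1024 0 0 889 248 (-477) 1 0 120 255 255 255))
    (.leaf (lf 1024 0 (-536) 945 207 (-949) 0 0 116 214 65 255))))))
    (by decide +kernel)

def goodS0X_998 :
    Check.Good noCone cfS0X (reach cfS0X ⟨litS0X, 1, fsS0X⟩
      [(2, true), (1, true), (1, true), (0, false), (2, true), (2, false), (0, true), (1, true), (2, true), (0, true), (2, false), (0, true), (2, false)]) :=
  Check.check_sound
    (.node 0
    (.leaf (lf 1024 0 0 887 450 0 (-5) (-78) 41 255 209 60))
    (.node 2
    (.node 0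
    (.node 1
    (.leaf (lf 1024 0 0 836 240 (-456) 8 0 107 255 255 255))
    (.leaf (lf 1024 0 (-430) 921 195 (-793) 0 0 97 255 255 255)))
    (.node 1
    (.leaf (lf 1024 0 0 866 246 (-471) 6 0 114 255 255 255))
    (.leaf (lf 1024 0 (-476) 940 202 (-869) 0 0 106 255 255 255))))
    (.node 0
    (.node 1
    (.leaf (lf 1024 0 0 812 239 (-450) 12 0 102 255 255 255))
    (.leaf (lf 1009 0 0 1024 177 (-339) (-28) 0 78 255 115 209)))
    (.node 1
    (.leaf (lf 1024 0 0 843 244 (-464) 10 0 108 255 255 255))
    (.leaf (lf 1024 0 (-416) 935 198 (-790) 0 0 97 255 255 255))))))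
    (by decide +kernel)

def goodS0X_996 :
    Check.Good noCone cfS0X (reach cfS0X ⟨litS0X, 1, fsS0X⟩
      [(1, true), (1, true), (0, false), (2, true), (2, false), (0, true), (1, true), (2, true), (0, true), (2, false), (0, true), (2, false)]) :=
  Check.good_node (a := 2) (by decide +kernel)
    goodS0X_997 goodS0X_998

def goodS0X_994 :
    Check.Good noCone cfS0X (reach cfS0X ⟨litS0X, 1, fsS0X⟩
      [(1, true), (0, false), (2, true), (2, false), (0, true), (1, true), (2, true), (0, true), (2, false), (0, true), (2, false)]) :=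
  Check.good_node (a := 1) (by decide +kernel)
    goodS0X_995 goodS0X_996

def goodS0X_992 :
    Check.Good noCone cfS0X (reach cfS0X ⟨litS0X, 1, fsS0X⟩
      [(0, false), (2, true), (2, false), (0, true), (1, true), (2, true), (0, true), (2, false), (0, true), (2, false)]) :=
  Check.good_node (a := 1) (by decide +kernel)
    goodS0X_993 goodS0X_994

def goodS0X_1000 :
    Check.Good noCone cfS0X (reach cfS0X ⟨litS0X, 1, fsS0X⟩
      [(1, false), (0, true), (2, true), (2, false), (0, true), (1, true), (2, true), (0, true), (2, false), (0, true), (2, false)]) :=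
  Check.check_sound
    (.node 1
    (.node 2
    (.leaf (lf 1024 0 0 307 158 (-285) 85 0 75 255 255 255))
    (.leaf (lf 1024 0 0 286 157 (-278) 82 0 68 255 255 255)))
    (.leaf (lf 1024 0 0 437 218 (-399) 79 0 102 255 255 255)))
    (by decide +kernel)

def goodS0X_1002 :
    Check.Good noCone cfS0X (reach cfS0X ⟨litS0X, 1, fsS0X⟩
      [(1, false), (1, true), (0, true), (2, true), (2, false), (0, true), (1, true), (2, true), (0, true), (2, false), (0, true), (2, false)]) :=
  Check.check_sound
    (.leaf (lf 1024 0 0 676 267 (-506) 47 0 132 255 255 255))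
    (by decide +kernel)

def goodS0X_1006 :
    Check.Good noCone cfS0X (reach cfS0X ⟨litS0X, 1, fsS0X⟩
      [(2, false), (0, false), (2, false), (1, true), (1, true), (0, true), (2, true), (2, false), (0, true), (1, true), (2, true), (0, true), (2, false), (0, true), (2, false)]) :=
  Check.check_sound
    (.node 0
    (.node 1
    (.leaf (lf 1024 0 0 942 256 (-500) (-7) 0 135 255 255 255))
    (.node 1
    (.leaf (lf 932 0 0 1024 197 (-386) (-42) 0 105 255 255 255))
    (.leaf (lf 827 0 0 1024 120 (-236) (-63) 0 65 255 112 228))))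
    (.node 2
    (.node 1
    (.leaf (lf 1024 0 0 977 263 (-517) (-12) 0 145 255 255 255))
    (.node 0
    (.node 2
    (.leaf (lf 876 0 (-581) 842 196 (-1024) 0 0 133 225 63 255))
    (.leaf (lf 891 0 (-580) 855 198 (-1024) 0 0 132 225 63 255)))
    (.node 2
    (.node 1
    (.leaf (lf 890 0 0 1024 194 (-384) (-50) 0 110 255 255 255))
    (.leaf (lf 790 0 0 1024 117 (-232) (-72) 0 67 255 94 212)))
    (.leaf (lf 863 0 (-576) 836 196 (-1024) 0 0 133 223 60 255)))))
    (.node 1
    (.leaf (lf 1024 0 0 966 262 (-513) (-9) 0 141 255 255 255))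
    (.node 0
    (.leaf (lf 915 0 (-578) 877 201 (-1024) 0 0 130 225 64 255))
    (.leaf (lf 14171 0 (-9193) 13702 3179 (-16384) 0 0 2106 224 62 255))))))
    (by decide +kernel)

def goodS0X_1007 :
    Check.Good noCone cfS0X (reach cfS0X ⟨litS0X, 1, fsS0X⟩
      [(2, true), (0, false), (2, false), (1, true), (1, true), (0, true), (2, true), (2, false), (0, true), (1, true), (2, true), (0, true), (2, false), (0, true), (2, false)]) :=
  Check.check_sound
    (.node 0
    (.node 1
    (.leaf (lf 1024 0 0 919 254 (-492) (-2) 0 128 255 255 255))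
    (.leaf (lf 1022 0 (-576) 962 214 (-1024) 0 0 126 231 75 255)))
    (.node 1
    (.leaf (lf 1024 0 0 949 260 (-507) (-5) 0 135 255 255 255))
    (.node 1
    (.leaf (lf 923 0 0 1024 198 (-389) (-40) 0 105 255 255 255))
    (.leaf (lf 818 0 0 1024 120 (-237) (-62) 0 64 255 98 196)))))
    (by decide +kernel)

def goodS0X_1005 :
    Check.Good noCone cfS0X (reach cfS0X ⟨litS0X, 1, fsS0X⟩
      [(0, false), (2, false), (1, true), (1, true), (0, true), (2, true), (2, false), (0, true), (1, true), (2, true), (0, true), (2, false), (0, true), (2, false)]) :=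
  Check.good_node (a := 2) (by decide +kernel)
    goodS0X_1006 goodS0X_1007

def goodS0X_1011 :
    Check.Good noCone cfS0X (reach cfS0X ⟨litS0X, 1, fsS0X⟩
      [(2, false), (0, false), (2, false), (0, true), (2, false), (1, true), (1, true), (0, true), (2, true), (2, false), (0, true), (1, true), (2, true), (0, true), (2, false), (0, true), (2, false)]) :=
  Check.check_sound
    (.node 1
    (.leaf (lf 1024 0 0 1006 270 (-532) (-16) 0 154 255 255 255))
    (.node 0
    (.node 2
    (.node 1
    (.leaf (lf 877 0 0 1024 194 (-384) (-52) 0 112 255 255 255))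
    (.leaf (lf 778 0 0 1024 116 (-231) (-74) 0 68 255 94 215)))
    (.node 1
    (.leaf (lf 881 0 0 1024 194 (-384) (-50) 0 111 255 255 255))
    (.leaf (lf 782 0 0 1024 117 (-232) (-73) 0 67 255 97 204))))
    (.node 2
    (.node 1
    (.leaf (lf 864 0 0 1024 193 (-383) (-54) 0 114 255 255 255))
    (.leaf (lf 767 0 0 1024 116 (-231) (-77) 0 69 255 97 212)))
    (.node 1
    (.leaf (lf 868 0 0 1024 194 (-384) (-53) 0 113 255 255 255))
    (.leaf (lf 771 0 0 1024 116 (-231) (-75) 0 68 255 91 212))))))
    (by decide +kernel)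

def goodS0X_1012 :
    Check.Good noCone cfS0X (reach cfS0X ⟨litS0X, 1, fsS0X⟩
      [(2, true), (0, false), (2, false), (0, true), (2, false), (1, true), (1, true), (0, true), (2, true), (2, false), (0, true), (1, true), (2, true), (0, true), (2, false), (0, true), (2, false)]) :=
  Check.check_sound
    (.node 1
    (.leaf (lf 1024 0 0 995 269 (-528) (-13) 0 150 255 255 255))
    (.node 0
    (.node 2
    (.node 1
    (.leaf (lf 885 0 0 1024 195 (-385) (-49) 0 110 255 255 255))
    (.leaf (lf 786 0 0 1024 117 (-233) (-71) 0 67 255 94 216)))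
    (.leaf (lf 865 0 (-570) 844 197 (-1024) 0 0 133 224 60 255)))
    (.node 2
    (.node 1
    (.leaf (lf 873 0 0 1024 194 (-385) (-51) 0 112 255 255 255))
    (.leaf (lf 774 0 0 1024 117 (-232) (-73) 0 68 255 93 210)))
    (.node 1
    (.leaf (lf 877 0 0 1024 195 (-386) (-49) 0 111 255 255 255))
    (.leaf (lf 778 0 0 1024 117 (-233) (-72) 0 67 255 97 208))))))
    (by decide +kernel)

def goodS0X_1010 :
    Check.Good noCone cfS0X (reach cfS0X ⟨litS0X, 1, fsS0X⟩
      [(0, false), (2, false), (0, true), (2, false), (1, true), (1, true), (0, true), (2, true), (2, false), (0, true), (1, true), (2, true), (0, true), (2, false), (0, true), (2, false)]) :=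
  Check.good_node (a := 2) (by decide +kernel)
    goodS0X_1011 goodS0X_1012

def goodS0X_1014 :
    Check.Good noCone cfS0X (reach cfS0X ⟨litS0X, 1, fsS0X⟩
      [(2, false), (0, true), (2, false), (0, true), (2, false), (1, true), (1, true), (0, true), (2, true), (2, false), (0, true), (1, true), (2, true), (0, true), (2, false), (0, true), (2, false)]) :=
  Check.check_sound
    (.node 1
    (.leaf (lf 1013 0 0 1024 274 (-541) (-19) 0 162 255 255 255))
    (.node 0
    (.node 2
    (.node 1
    (.leaf (lf 852 0 0 1024 193 (-383) (-56) 0 115 255 255 255))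
    (.leaf (lf 756 0 0 1024 116 (-230) (-79) 0 70 255 87 208)))
    (.node 1
    (.leaf (lf 856 0 0 1024 193 (-384) (-55) 0 114 255 255 255))
    (.leaf (lf 760 0 0 1024 116 (-231) (-77) 0 69 255 89 211))))
    (.node 2
    (.node 1
    (.leaf (lf 840 0 0 1024 193 (-383) (-58) 0 117 255 255 255))
    (.leaf (lf 746 0 0 1024 115 (-230) (-82) 0 71 255 99 204)))
    (.node 1
    (.leaf (lf 844 0 0 1024 193 (-384) (-57) 0 116 255 255 255))
    (.leaf (lf 749 0 0 1024 116 (-230) (-80) 0 70 255 92 212))))))
    (by decide +kernel)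

def goodS0X_1015 :
    Check.Good noCone cfS0X (reach cfS0X ⟨litS0X, 1, fsS0X⟩
      [(2, true), (0, true), (2, false), (0, true), (2, false), (1, true), (1, true), (0, true), (2, true), (2, false), (0, true), (1, true), (2, true), (0, true), (2, false), (0, true), (2, false)]) :=
  Check.check_sound
    (.node 1
    (.leaf (lf 1023 0 0 1024 276 (-543) (-17) 0 159 255 255 255))
    (.node 0
    (.node 2
    (.node 1
    (.leaf (lf 860 0 0 1024 194 (-385) (-53) 0 113 255 255 255))
    (.leaf (lf 763 0 0 1024 116 (-231) (-76) 0 69 255 93 201)))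
    (.node 1
    (.leaf (lf 864 0 0 1024 194 (-385) (-52) 0 112 255 255 255))
    (.leaf (lf 767 0 0 1024 116 (-232) (-74) 0 68 255 91 216))))
    (.node 2
    (.node 1
    (.leaf (lf 848 0 0 1024 194 (-385) (-55) 0 115 255 255 255))
    (.leaf (lf 752 0 0 1024 116 (-231) (-78) 0 69 255 86 205)))
    (.node 1
    (.leaf (lf 852 0 0 1024 194 (-385) (-54) 0 114 255 255 255))
    (.leaf (lf 756 0 0 1024 116 (-231) (-76) 0 69 255 90 209))))))
    (by decide +kernel)

def goodS0X_1013 :
    Check.Good noCone cfS0X (reach cfS0X ⟨litS0X, 1, fsS0X⟩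
      [(0, true), (2, false), (0, true), (2, false), (1, true), (1, true), (0, true), (2, true), (2, false), (0, true), (1, true), (2, true), (0, true), (2, false), (0, true), (2, false)]) :=
  Check.good_node (a := 2) (by decide +kernel)
    goodS0X_1014 goodS0X_1015

def goodS0X_1009 :
    Check.Good noCone cfS0X (reach cfS0X ⟨litS0X, 1, fsS0X⟩
      [(2, false), (0, true), (2, false), (1, true), (1, true), (0, true), (2, true), (2, false), (0, true), (1, true), (2, true), (0, true), (2, false), (0, true), (2, false)]) :=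
  Check.good_node (a := 0) (by decide +kernel)
    goodS0X_1010 goodS0X_1013

def goodS0X_1016 :
    Check.Good noCone cfS0X (reach cfS0X ⟨litS0X, 1, fsS0X⟩
      [(2, true), (0, true), (2, false), (1, true), (1, true), (0, true), (2, true), (2, false), (0, true), (1, true), (2, true), (0, true), (2, false), (0, true), (2, false)]) :=
  Check.check_sound
    (.node 0
    (.node 1
    (.leaf (lf 1024 0 0 979 267 (-523) (-9) 0 144 255 255 255))
    (.node 1
    (.leaf (lf 895 0 0 1024 197 (-388) (-45) 0 108 255 255 255))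
    (.leaf (lf 793 0 0 1024 119 (-235) (-67) 0 66 255 99 189))))
    (.node 1
    (.leaf (lf 1024 0 0 1008 274 (-538) (-12) 0 152 255 255 255))
    (.node 1
    (.leaf (lf 869 0 0 1024 196 (-387) (-49) 0 111 255 255 255))
    (.leaf (lf 770 0 0 1024 117 (-233) (-71) 0 67 255 90 194)))))
    (by decide +kernel)

def goodS0X_1008 :
    Check.Good noCone cfS0X (reach cfS0X ⟨litS0X, 1, fsS0X⟩
      [(0, true), (2, false), (1, true), (1, true), (0, true), (2, true), (2, false), (0, true), (1, true), (2, true), (0, true), (2, false), (0, true), (2, false)]) :=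
  Check.good_node (a := 2) (by decide +kernel)
    goodS0X_1009 goodS0X_1016

def goodS0X_1004 :
    Check.Good noCone cfS0X (reach cfS0X ⟨litS0X, 1, fsS0X⟩
      [(2, false), (1, true), (1, true), (0, true), (2, true), (2, false), (0, true), (1, true), (2, true), (0, true), (2, false), (0, true), (2, false)]) :=
  Check.good_node (a := 0) (by decide +kernel)
    goodS0X_1005 goodS0X_1008

def goodS0X_1018 :
    Check.Good noCone cfS0X (reach cfS0X ⟨litS0X, 1, fsS0X⟩
      [(0, false), (2, true), (1, true), (1, true), (0, true), (2, true), (2, false), (0, true), (1, true), (2, true), (0, true), (2, false), (0, true), (2, false)]) :=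
  Check.check_sound
    (.node 2
    (.node 0
    (.node 1
    (.leaf (lf 1024 0 0 896 252 (-485) 3 0 121 255 255 255))
    (.leaf (lf 1024 0 (-520) 959 209 (-945) 0 0 115 219 65 255)))
    (.node 1
    (.leaf (lf 1024 0 0 926 258 (-500) 0 0 128 255 255 255))
    (.leaf (lf 1024 0 (-562) 978 217 (-1022) 0 0 126 198 59 255))))
    (.node 0
    (.node 1
    (.leaf (lf 1024 0 0 873 250 (-479) 7 0 115 255 255 255))
    (.leaf (lf 1024 0 (-462) 954 204 (-865) 0 0 105 255 255 255)))
    (.node 1
    (.leaf (lf 1024 0 0 903 256 (-494) 4 0 122 255 255 255))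
    (.leaf (lf 1024 0 (-506) 973 212 (-941) 0 0 115 255 255 255)))))
    (by decide +kernel)

def goodS0X_1019 :
    Check.Good noCone cfS0X (reach cfS0X ⟨litS0X, 1, fsS0X⟩
      [(0, true), (2, true), (1, true), (1, true), (0, true), (2, true), (2, false), (0, true), (1, true), (2, true), (0, true), (2, false), (0, true), (2, false)]) :=
  Check.check_sound
    (.node 2
    (.node 0
    (.node 1
    (.leaf (lf 1024 0 0 956 264 (-515) (-3) 0 136 255 255 255))
    (.leaf (lf 954 0 (-560) 928 210 (-1024) 0 0 128 224 69 255)))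
    (.node 1
    (.leaf (lf 1024 0 0 986 271 (-531) (-7) 0 144 255 255 255))
    (.node 1
    (.leaf (lf 887 0 0 1024 198 (-391) (-43) 0 107 255 255 255))
    (.leaf (lf 785 0 0 1024 119 (-236) (-65) 0 65 255 94 196)))))
    (.node 0
    (.node 1
    (.leaf (lf 1024 0 0 933 262 (-509) 1 0 129 255 255 255))
    (.leaf (lf 1024 0 (-547) 992 219 (-1018) 0 0 125 200 60 255)))
    (.node 1
    (.leaf (lf 1024 0 0 963 269 (-524) (-2) 0 137 255 255 255))
    (.leaf (lf 957 0 (-548) 945 213 (-1024) 0 0 128 226 69 255)))))
    (by decide +kernel)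

def goodS0X_1017 :
    Check.Good noCone cfS0X (reach cfS0X ⟨litS0X, 1, fsS0X⟩
      [(2, true), (1, true), (1, true), (0, true), (2, true), (2, false), (0, true), (1, true), (2, true), (0, true), (2, false), (0, true), (2, false)]) :=
  Check.good_node (a := 0) (by decide +kernel)
    goodS0X_1018 goodS0X_1019

def goodS0X_1003 :
    Check.Good noCone cfS0X (reach cfS0X ⟨litS0X, 1, fsS0X⟩
      [(1, true), (1, true), (0, true), (2, true), (2, false), (0, true), (1, true), (2, true), (0, true), (2, false), (0, true), (2, false)]) :=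
  Check.good_node (a := 2) (by decide +kernel)
    goodS0X_1004 goodS0X_1017

def goodS0X_1001 :
    Check.Good noCone cfS0X (reach cfS0X ⟨litS0X, 1, fsS0X⟩
      [(1, true), (0, true), (2, true), (2, false), (0, true), (1, true), (2, true), (0, true), (2, false), (0, true), (2, false)]) :=
  Check.good_node (a := 1) (by decide +kernel)
    goodS0X_1002 goodS0X_1003

def goodS0X_999 :
    Check.Good noCone cfS0X (reach cfS0X ⟨litS0X, 1, fsS0X⟩
      [(0, true), (2, true), (2, false), (0, true), (1, true), (2, true), (0, true), (2, false), (0, true), (2, false)]) :=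
  Check.good_node (a := 1) (by decide +kernel)
    goodS0X_1000 goodS0X_1001

def goodS0X_991 :
    Check.Good noCone cfS0X (reach cfS0X ⟨litS0X, 1, fsS0X⟩
      [(2, true), (2, false), (0, true), (1, true), (2, true), (0, true), (2, false), (0, true), (2, false)]) :=
  Check.good_node (a := 0) (by decide +kernel)
    goodS0X_992 goodS0X_999

def goodS0X_899 :
    Check.Good noCone cfS0X (reach cfS0X ⟨litS0X, 1, fsS0X⟩
      [(2, false), (0, true), (1, true), (2, true), (0, true), (2, false), (0, true), (2, false)]) :=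
  Check.good_node (a := 2) (by decide +kernel)
    goodS0X_900 goodS0X_991

def goodS0X_1021 :
    Check.Good noCone cfS0X (reach cfS0X ⟨litS0X, 1, fsS0X⟩
      [(0, false), (2, true), (0, true), (1, true), (2, true), (0, true), (2, false), (0, true), (2, false)]) :=
  Check.check_sound
    (.node 2
    (.node 1
    (.node 1
    (.node 2
    (.leaf (lf 1024 0 0 219 152 (-255) 69 0 52 255 255 255))
    (.leaf (lf 1024 0 0 199 158 (-258) 67 0 49 255 255 255)))
    (.leaf (lf 1024 0 0 323 201 (-343) 68 0 68 255 255 255)))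
    (.node 1
    (.leaf (lf 1024 0 0 516 240 (-424) 50 0 86 255 255 255))
    (.node 2
    (.node 0
    (.leaf (lf 1024 0 0 836 443 0 4 (-71) 38 255 227 76))
    (.leaf (lf 1024 0 0 905 468 0 (-3) (-80) 42 255 211 58)))
    (.node 0
    (.leaf (lf 1024 0 0 785 213 (-384) 11 0 74 255 152 211))
    (.leaf (lf 1024 0 0 854 462 0 5 (-73) 40 255 227 64))))))
    (.node 1
    (.node 1
    (.leaf (lf 1024 0 0 169 173 (-270) 64 0 47 255 255 255))
    (.leaf (lf 1024 0 0 270 210 (-339) 65 0 60 255 255 255)))
    (.node 1
    (.leaf (lf 1024 0 0 445 243 (-409) 53 0 73 255 255 255))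
    (.node 0
    (.leaf (lf 16384 0 0 11379 3518 (-6067) 303 0 1080 255 169 211))
    (.leaf (lf 1024 0 0 778 458 0 15 (-65) 37 255 228 98))))))
    (by decide +kernel)

def goodS0X_1024 :
    Check.Good noCone cfS0X (reach cfS0X ⟨litS0X, 1, fsS0X⟩
      [(1, false), (2, false), (0, true), (2, true), (0, true), (1, true), (2, true), (0, true), (2, false), (0, true), (2, false)]) :=
  Check.check_sound
    (.node 1
    (.node 2
    (.leaf (lf 1024 0 0 265 158 (-273) 79 0 62 255 255 255))
    (.leaf (lf 1024 0 0 244 160 (-271) 77 0 58 255 255 255)))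
    (.leaf (lf 1024 0 0 382 213 (-378) 76 0 84 255 255 255)))
    (by decide +kernel)

def goodS0X_1026 :
    Check.Good noCone cfS0X (reach cfS0X ⟨litS0X, 1, fsS0X⟩
      [(1, false), (1, true), (2, false), (0, true), (2, true), (0, true), (1, true), (2, true), (0, true), (2, false), (0, true), (2, false)]) :=
  Check.check_sound
    (.leaf (lf 1024 0 0 603 260 (-478) 53 0 108 255 255 255))
    (by decide +kernel)

def goodS0X_1028 :
    Check.Good noCone cfS0X (reach cfS0X ⟨litS0X, 1, fsS0X⟩
      [(2, false), (1, true), (1, true), (2, false), (0, true), (2, true), (0, true), (1, true), (2, true), (0, true), (2, false), (0, true), (2, false)]) :=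
  Check.check_sound
    (.node 0
    (.node 2
    (.node 0
    (.node 1
    (.leaf (lf 1024 0 0 850 249 (-472) 11 0 109 255 255 255))
    (.leaf (lf 1024 0 (-402) 949 200 (-787) 0 0 97 255 255 255)))
    (.node 1
    (.leaf (lf 1024 0 0 880 254 (-487) 8 0 116 255 255 255))
    (.leaf (lf 1024 0 (-448) 968 207 (-862) 0 0 106 255 255 255))))
    (.node 0
    (.node 1
    (.leaf (lf 1024 0 0 827 248 (-466) 15 0 104 255 255 255))
    (.leaf (lf 1024 0 (-341) 943 197 (-712) 0 0 90 255 255 255)))
    (.node 1
    (.leaf (lf 1024 0 0 857 253 (-481) 12 0 110 255 255 255))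
    (.leaf (lf 1024 0 (-389) 963 203 (-785) 0 0 97 255 255 255)))))
    (.node 2
    (.node 0
    (.node 1
    (.leaf (lf 1024 0 0 910 260 (-502) 6 0 123 255 255 255))
    (.leaf (lf 1024 0 (-492) 987 214 (-938) 0 0 115 255 255 255)))
    (.node 1
    (.leaf (lf 1024 0 0 941 267 (-517) 3 0 130 255 255 255))
    (.leaf (lf 1024 0 (-533) 1006 222 (-1015) 0 0 125 211 60 255))))
    (.node 0
    (.node 1
    (.leaf (lf 1024 0 0 887 259 (-496) 10 0 117 255 255 255))
    (.leaf (lf 1024 0 (-435) 982 210 (-860) 0 0 106 255 255 255)))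
    (.node 1
    (.leaf (lf 1024 0 0 918 265 (-510) 7 0 124 255 255 255))
    (.leaf (lf 1024 0 (-478) 1001 217 (-936) 0 0 115 255 255 255))))))
    (by decide +kernel)

def goodS0X_1029 :
    Check.Good noCone cfS0X (reach cfS0X ⟨litS0X, 1, fsS0X⟩
      [(2, true), (1, true), (1, true), (2, false), (0, true), (2, true), (0, true), (1, true), (2, true), (0, true), (2, false), (0, true), (2, false)]) :=
  Check.check_sound
    (.node 0
    (.leaf (lf 1024 0 0 924 486 0 (-1) (-82) 44 255 214 57))
    (.node 2
    (.node 0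
    (.node 1
    (.leaf (lf 1024 0 0 864 258 (-489) 14 0 112 255 255 255))
    (.leaf (lf 1024 0 (-376) 977 206 (-783) 0 0 98 255 255 255)))
    (.node 1
    (.leaf (lf 1024 0 0 894 263 (-504) 11 0 118 255 255 255))
    (.leaf (lf 1024 0 (-422) 996 213 (-858) 0 0 106 255 255 255))))
    (.node 0
    (.node 1
    (.leaf (lf 1024 0 0 841 257 (-484) 17 0 107 255 255 255))
    (.leaf (lf 965 0 0 1024 183 (-351) (-24) 0 79 255 112 212)))
    (.node 1
    (.leaf (lf 1024 0 0 871 262 (-498) 15 0 113 255 255 255))
    (.leaf (lf 1024 0 (-364) 990 210 (-782) 0 0 99 255 255 255))))))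
    (by decide +kernel)

def goodS0X_1027 :
    Check.Good noCone cfS0X (reach cfS0X ⟨litS0X, 1, fsS0X⟩
      [(1, true), (1, true), (2, false), (0, true), (2, true), (0, true), (1, true), (2, true), (0, true), (2, false), (0, true), (2, false)]) :=
  Check.good_node (a := 2) (by decide +kernel)
    goodS0X_1028 goodS0X_1029

def goodS0X_1025 :
    Check.Good noCone cfS0X (reach cfS0X ⟨litS0X, 1, fsS0X⟩
      [(1, true), (2, false), (0, true), (2, true), (0, true), (1, true), (2, true), (0, true), (2, false), (0, true), (2, false)]) :=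
  Check.good_node (a := 1) (by decide +kernel)
    goodS0X_1026 goodS0X_1027

def goodS0X_1023 :
    Check.Good noCone cfS0X (reach cfS0X ⟨litS0X, 1, fsS0X⟩
      [(2, false), (0, true), (2, true), (0, true), (1, true), (2, true), (0, true), (2, false), (0, true), (2, false)]) :=
  Check.good_node (a := 1) (by decide +kernel)
    goodS0X_1024 goodS0X_1025

def goodS0X_1030 :
    Check.Good noCone cfS0X (reach cfS0X ⟨litS0X, 1, fsS0X⟩
      [(2, true), (0, true), (2, true), (0, true), (1, true), (2, true), (0, true), (2, false), (0, true), (2, false)]) :=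
  Check.check_sound
    (.node 1
    (.node 1
    (.leaf (lf 1024 0 0 214 169 (-275) 73 0 54 255 254 151))
    (.leaf (lf 1024 0 0 328 216 (-366) 74 0 72 255 255 255)))
    (.node 1
    (.leaf (lf 1024 0 0 529 258 (-455) 57 0 91 255 255 255))
    (.node 2
    (.node 0
    (.leaf (lf 1024 0 0 873 481 0 7 (-76) 41 255 228 69))
    (.leaf (lf 1024 0 0 942 506 0 1 (-85) 45 255 215 58)))
    (.node 0
    (.leaf (lf 1024 0 0 822 478 0 14 (-70) 39 255 236 77))
    (.leaf (lf 1024 0 0 891 501 0 9 (-79) 43 255 229 70))))))
    (by decide +kernel)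

def goodS0X_1022 :
    Check.Good noCone cfS0X (reach cfS0X ⟨litS0X, 1, fsS0X⟩
      [(0, true), (2, true), (0, true), (1, true), (2, true), (0, true), (2, false), (0, true), (2, false)]) :=
  Check.good_node (a := 2) (by decide +kernel)
    goodS0X_1023 goodS0X_1030

def goodS0X_1020 :
    Check.Good noCone cfS0X (reach cfS0X ⟨litS0X, 1, fsS0X⟩
      [(2, true), (0, true), (1, true), (2, true), (0, true), (2, false), (0, true), (2, false)]) :=
  Check.good_node (a := 0) (by decide +kernel)
    goodS0X_1021 goodS0X_1022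

def goodS0X_898 :
    Check.Good noCone cfS0X (reach cfS0X ⟨litS0X, 1, fsS0X⟩
      [(0, true), (1, true), (2, true), (0, true), (2, false), (0, true), (2, false)]) :=
  Check.good_node (a := 2) (by decide +kernel)
    goodS0X_899 goodS0X_1020

end

end Vale.Agent.P211.Cert.Interior.Data
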