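import Vale.Agent.P211.Cert.Interior.Data.S0Xr

/-!
P211, a part of a cell of the interior family (generated).
-/

namespace Vale.Agent.P211.Cert.Interior.Data

open Vale.Agent.P098.Check6 (ofChunks eqList reach St Cfg Face)
open Vale.Agent.P098.Cert6.Kron (RootPar parOK)

set_option linter.defProp false

noncomputable section

def goodS0X_29 :
    Check.Good noCone cfS0X (reach cfS0X ⟨litS0X, 1, fsS0X⟩
      [(1, false), (2, false), (0, false), (2, false), (0, false), (2, false), (1, false), (0, true), (2, false), (2, false), (0, false), (2, false)]) :=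
  Check.check_sound
    (.node 1
    (.node 2
    (.node 1
    (.leaf (lf 1024 0 0 3 39 (-60) 1 0 10 255 255 255))
    (.leaf (lf 1024 0 0 8 39 (-60) 3 0 10 255 255 255)))
    (.leaf (lf 1024 0 0 3 58 (-82) 2 0 11 255 255 255)))
    (.node 2
    (.node 0
    (.node 2
    (.leaf (lf 16384 0 0 193 602 (-938) 105 0 149 255 254 173))
    (.leaf (lf 1024 0 0 9 46 (-69) 6 0 10 255 255 255)))
    (.node 2
    (.node 1
    (.leaf (lf 1024 0 0 15 30 (-50) 7 0 9 255 255 255))
    (.leaf (lf 475 832 1024 0 80 (-23) 0 0 18 255 255 255)))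
    (.node 1
    (.leaf (lf 1024 0 0 12 36 (-58) 7 0 10 255 255 255))
    (.leaf (lf 1024 0 0 18 35 (-56) 9 0 9 255 255 255)))))
    (.leaf (lf 1024 0 0 11 56 (-79) 6 0 11 255 245 177))))
    (by decide +kernel)

def goodS0X_31 :
    Check.Good noCone cfS0X (reach cfS0X ⟨litS0X, 1, fsS0X⟩
      [(0, false), (1, true), (2, false), (0, false), (2, false), (0, false), (2, false), (1, false), (0, true), (2, false), (2, false), (0, false), (2, false)]) :=
  Check.check_sound
    (.node 2
    (.node 1
    (.leaf (lf 522 772 1024 0 95 (-34) 0 0 18 229 165 255))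
    (.node 2
    (.node 0
    (.node 1
    (.leaf (lf 1024 0 0 28 32 (-50) 12 0 8 255 255 255))
    (.leaf (lf 16384 0 0 591 522 (-815) 217 0 126 255 255 255)))
    (.node 1
    (.leaf (lf 1024 0 0 36 30 (-48) 14 0 8 255 255 255))
    (.leaf (lf 1024 0 0 46 32 (-51) 15 0 9 255 252 156))))
    (.leaf (lf 5766 9733 16384 0 1516 (-159) 0 0 300 255 132 236))))
    (.node 1
    (.leaf (lf 1024 0 0 11 58 (-80) 9 0 10 255 255 255))
    (.leaf (lf 508 681 1024 0 114 (-39) 0 0 19 204 143 255))))
    (by decide +kernel)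

def goodS0X_33 :
    Check.Good noCone cfS0X (reach cfS0X ⟨litS0X, 1, fsS0X⟩
      [(2, false), (0, true), (1, true), (2, false), (0, false), (2, false), (0, false), (2, false), (1, false), (0, true), (2, false), (2, false), (0, false), (2, false)]) :=
  Check.check_sound
    (.node 1
    (.node 2
    (.node 0
    (.node 1
    (.leaf (lf 16384 0 0 412 452 (-754) 187 0 136 255 255 255))
    (.leaf (lf 16384 0 0 538 446 (-747) 222 0 136 253 255 172)))
    (.node 1
    (.leaf (lf 1024 0 0 31 27 (-46) 13 0 9 254 255 166))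
    (.node 2
    (.leaf (lf 1024 0 0 41 27 (-47) 16 0 9 255 251 138))
    (.leaf (lf 1024 0 0 38 27 (-47) 15 0 9 255 255 255)))))
    (.node 0
    (.leaf (lf 16384 0 0 393 562 (-897) 189 0 147 250 255 168))
    (.node 1
    (.leaf (lf 1024 0 0 26 31 (-51) 12 0 9 255 255 255))
    (.leaf (lf 1024 0 0 34 30 (-50) 14 0 9 248 255 140)))))
    (.node 2
    (.node 0
    (.node 1
    (.leaf (lf 16384 0 0 689 466 (-783) 252 0 143 251 255 163))
    (.leaf (lf 1024 0 0 54 32 (-55) 17 0 10 250 255 135)))
    (.node 1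
    (.leaf (lf 16384 0 0 806 474 (-824) 283 0 164 251 255 163))
    (.leaf (lf 1024 0 0 63 34 (-60) 19 0 12 250 255 136))))
    (.node 0
    (.node 1
    (.leaf (lf 16384 0 0 581 522 (-838) 234 0 138 255 255 255))
    (.leaf (lf 1024 0 0 47 34 (-55) 16 0 9 255 255 255)))
    (.node 1
    (.leaf (lf 1024 0 0 44 31 (-52) 16 0 9 253 255 134))
    (.leaf (lf 1024 0 0 55 34 (-57) 18 0 10 252 255 149))))))
    (by decide +kernel)

def goodS0X_34 :
    Check.Good noCone cfS0X (reach cfS0X ⟨litS0X, 1, fsS0X⟩
      [(2, true), (0, true), (1, true), (2, false), (0, false), (2, false), (0, false), (2, false), (1, false), (0, true), (2, false), (2, false), (0, false), (2, false)]) :=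
  Check.check_sound
    (.node 1
    (.leaf (lf 535 770 1024 0 107 (-41) 0 0 20 233 160 255))
    (.node 0
    (.leaf (lf 364 602 1024 0 102 (-13) 0 0 20 255 255 255))
    (.node 2
    (.node 1
    (.leaf (lf 1024 0 0 37 35 (-56) 15 0 9 255 255 255))
    (.leaf (lf 1024 0 0 48 37 (-59) 17 0 10 255 255 255)))
    (.leaf (lf 1024 0 0 36 42 (-65) 15 0 10 255 255 255)))))
    (by decide +kernel)

def goodS0X_32 :
    Check.Good noCone cfS0X (reach cfS0X ⟨litS0X, 1, fsS0X⟩
      [(0, true), (1, true), (2, false), (0, false), (2, false), (0, false), (2, false), (1, false), (0, true), (2, false), (2, false), (0, false), (2, false)]) :=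
  Check.good_node (a := 2) (by decide +kernel)
    goodS0X_33 goodS0X_34

def goodS0X_30 :
    Check.Good noCone cfS0X (reach cfS0X ⟨litS0X, 1, fsS0X⟩
      [(1, true), (2, false), (0, false), (2, false), (0, false), (2, false), (1, false), (0, true), (2, false), (2, false), (0, false), (2, false)]) :=
  Check.good_node (a := 0) (by decide +kernel)
    goodS0X_31 goodS0X_32

def goodS0X_28 :
    Check.Good noCone cfS0X (reach cfS0X ⟨litS0X, 1, fsS0X⟩
      [(2, false), (0, false), (2, false), (0, false), (2, false), (1, false), (0, true), (2, false), (2, false), (0, false), (2, false)]) :=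
  Check.good_node (a := 1) (by decide +kernel)
    goodS0X_29 goodS0X_30

def goodS0X_35 :
    Check.Good noCone cfS0X (reach cfS0X ⟨litS0X, 1, fsS0X⟩
      [(2, true), (0, false), (2, false), (0, false), (2, false), (1, false), (0, true), (2, false), (2, false), (0, false), (2, false)]) :=
  Check.check_sound
    (.node 1
    (.leaf (lf 1024 0 0 2 93 (-116) 3 0 14 255 255 255))
    (.node 0
    (.leaf (lf 1024 0 0 3 92 (-111) 8 0 12 255 255 255))
    (.node 2
    (.node 1
    (.leaf (lf 1024 0 0 13 62 (-87) 10 0 11 255 255 255))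
    (.leaf (lf 1024 0 0 25 57 (-80) 13 0 11 255 249 181)))
    (.leaf (lf 1024 0 0 10 81 (-106) 10 0 13 255 255 255)))))
    (by decide +kernel)

def goodS0X_27 :
    Check.Good noCone cfS0X (reach cfS0X ⟨litS0X, 1, fsS0X⟩
      [(0, false), (2, false), (0, false), (2, false), (1, false), (0, true), (2, false), (2, false), (0, false), (2, false)]) :=
  Check.good_node (a := 2) (by decide +kernel)
    goodS0X_28 goodS0X_35

def goodS0X_38 :
    Check.Good noCone cfS0X (reach cfS0X ⟨litS0X, 1, fsS0X⟩
      [(1, false), (1, false), (0, true), (2, false), (0, false), (2, false), (1, false), (0, true), (2, false), (2, false), (0, false), (2, false)]) :=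
  Check.check_sound
    (.node 2
    (.node 1
    (.node 2
    (.node 0
    (.leaf (lf 1024 0 0 4 30 (-52) 2 0 11 255 255 255))
    (.leaf (lf 1024 0 0 5 29 (-53) 2 0 13 255 255 255)))
    (.leaf (lf 1024 0 0 4 37 (-61) 2 0 11 255 255 255)))
    (.node 2
    (.node 0
    (.leaf (lf 934 1024 656 0 66 (-62) 0 0 18 255 255 255))
    (.leaf (lf 812 1024 634 0 66 (-58) 0 0 20 255 255 255)))
    (.leaf (lf 16384 0 0 185 591 (-969) 76 0 181 255 247 189))))
    (.leaf (lf 1024 0 0 5 60 (-89) 3 0 13 255 255 255)))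
    (by decide +kernel)

def goodS0X_40 :
    Check.Good noCone cfS0X (reach cfS0X ⟨litS0X, 1, fsS0X⟩
      [(2, false), (1, true), (1, false), (0, true), (2, false), (0, false), (2, false), (1, false), (0, true), (2, false), (2, false), (0, false), (2, false)]) :=
  Check.check_sound
    (.node 2
    (.node 0
    (.node 1
    (.leaf (lf 635 1024 959 0 83 (-41) 0 0 20 255 255 255))
    (.node 2
    (.node 1
    (.leaf (lf 16384 0 0 437 418 (-746) 182 0 165 255 250 173))
    (.leaf (lf 342 739 1024 0 79 (-5) 0 0 21 255 127 252)))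
    (.leaf (lf 431 805 1024 0 84 (-19) 0 0 20 255 127 233))))
    (.node 1
    (.node 2
    (.node 1
    (.leaf (lf 1024 0 0 24 27 (-51) 10 0 13 255 255 255))
    (.leaf (lf 1024 0 0 29 27 (-51) 12 0 13 255 255 255)))
    (.leaf (lf 1024 0 0 24 29 (-52) 10 0 12 255 254 165)))
    (.node 2
    (.node 1
    (.leaf (lf 1024 0 0 35 27 (-51) 14 0 13 255 249 177))
    (.node 0
    (.leaf (lf 1024 0 0 37 26 (-49) 15 0 12 255 255 255))
    (.leaf (lf 1024 0 0 41 28 (-53) 17 0 14 255 255 255))))
    (.node 1
    (.leaf (lf 1024 0 0 31 28 (-50) 13 0 12 255 245 182))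
    (.leaf (lf 16384 0 0 580 446 (-808) 236 0 187 255 254 166))))))
    (.node 0
    (.node 1
    (.leaf (lf 1024 0 0 14 39 (-62) 7 0 11 255 255 255))
    (.leaf (lf 580 886 1024 0 98 (-41) 0 0 21 208 165 255)))
    (.node 1
    (.leaf (lf 668 1024 969 0 93 (-49) 0 0 22 255 255 255))
    (.leaf (lf 433 810 1024 0 92 (-21) 0 0 22 255 255 255)))))
    (by decide +kernel)

def goodS0X_41 :
    Check.Good noCone cfS0X (reach cfS0X ⟨litS0X, 1, fsS0X⟩
      [(2, true), (1, true), (1, false), (0, true), (2, false), (0, false), (2, false), (1, false), (0, true), (2, false), (2, false), (0, false), (2, false)]) :=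
  Check.check_sound
    (.node 0
    (.leaf (lf 1024 0 0 10 64 (-92) 7 0 13 255 255 255))
    (.node 2
    (.node 1
    (.leaf (lf 1024 0 0 15 43 (-69) 8 0 12 255 255 255))
    (.leaf (lf 1024 0 0 22 42 (-67) 11 0 11 255 255 255)))
    (.leaf (lf 1024 0 0 14 58 (-87) 9 0 13 255 255 255))))
    (by decide +kernel)

def goodS0X_39 :
    Check.Good noCone cfS0X (reach cfS0X ⟨litS0X, 1, fsS0X⟩
      [(1, true), (1, false), (0, true), (2, false), (0, false), (2, false), (1, false), (0, true), (2, false), (2, false), (0, false), (2, false)]) :=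
  Check.good_node (a := 2) (by decide +kernel)
    goodS0X_40 goodS0X_41

def goodS0X_37 :
    Check.Good noCone cfS0X (reach cfS0X ⟨litS0X, 1, fsS0X⟩
      [(1, false), (0, true), (2, false), (0, false), (2, false), (1, false), (0, true), (2, false), (2, false), (0, false), (2, false)]) :=
  Check.good_node (a := 1) (by decide +kernel)
    goodS0X_38 goodS0X_39

def goodS0X_46 :
    Check.Good noCone cfS0X (reach cfS0X ⟨litS0X, 1, fsS0X⟩
      [(0, false), (2, false), (2, false), (1, false), (1, true), (0, true), (2, false), (0, false), (2, false), (1, false), (0, true), (2, false), (2, false), (0, false), (2, false)]) :=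
  Check.check_sound
    (.node 2
    (.node 0
    (.node 1
    (.leaf (lf 283 633 1024 0 78 4 0 0 21 255 126 249))
    (.node 2
    (.leaf (lf 1024 0 0 47 27 (-50) 18 0 11 255 255 255))
    (.leaf (lf 1024 0 0 44 28 (-49) 17 0 10 255 255 255))))
    (.node 1
    (.node 2
    (.leaf (lf 1024 0 0 42 27 (-49) 17 0 12 252 255 163))
    (.leaf (lf 1024 0 0 39 27 (-49) 16 0 11 255 255 255)))
    (.node 2
    (.leaf (lf 1024 0 0 53 29 (-54) 20 0 13 255 255 255))
    (.leaf (lf 1024 0 0 50 29 (-52) 19 0 12 255 255 255)))))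
    (.node 0
    (.node 1
    (.leaf (lf 1024 0 0 31 29 (-49) 14 0 9 255 255 255))
    (.leaf (lf 1024 0 0 40 29 (-50) 16 0 10 255 255 168)))
    (.node 1
    (.leaf (lf 1024 0 0 36 28 (-49) 15 0 10 251 255 158))
    (.leaf (lf 16384 0 0 741 468 (-825) 287 0 171 249 255 161)))))
    (by decide +kernel)

def goodS0X_47 :
    Check.Good noCone cfS0X (reach cfS0X ⟨litS0X, 1, fsS0X⟩
      [(0, true), (2, false), (2, false), (1, false), (1, true), (0, true), (2, false), (0, false), (2, false), (1, false), (0, true), (2, false), (2, false), (0, false), (2, false)]) :=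
  Check.check_sound
    (.node 2
    (.node 0
    (.node 1
    (.node 2
    (.leaf (lf 1024 0 0 47 28 (-53) 19 0 14 248 255 158))
    (.leaf (lf 1024 0 0 44 28 (-52) 18 0 13 255 255 255)))
    (.leaf (lf 16384 0 0 929 497 (-932) 344 0 234 253 255 168)))
    (.node 1
    (.leaf (lf 16384 0 0 810 481 (-917) 321 0 247 254 255 173))
    (.leaf (lf 1024 0 0 64 33 (-64) 24 0 17 254 255 170))))
    (.node 0
    (.node 1
    (.leaf (lf 1024 0 0 41 28 (-51) 17 0 11 255 255 166))
    (.leaf (lf 1024 0 0 52 30 (-55) 20 0 12 253 255 161)))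
    (.node 1
    (.leaf (lf 1024 0 0 46 29 (-54) 18 0 13 247 255 141))
    (.leaf (lf 1024 0 0 59 32 (-59) 22 0 14 253 255 162)))))
    (by decide +kernel)

def goodS0X_45 :
    Check.Good noCone cfS0X (reach cfS0X ⟨litS0X, 1, fsS0X⟩
      [(2, false), (2, false), (1, false), (1, true), (0, true), (2, false), (0, false), (2, false), (1, false), (0, true), (2, false), (2, false), (0, false), (2, false)]) :=
  Check.good_node (a := 0) (by decide +kernel)
    goodS0X_46 goodS0X_47

def goodS0X_48 :
    Check.Good noCone cfS0X (reach cfS0X ⟨litS0X, 1, fsS0X⟩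
      [(2, true), (2, false), (1, false), (1, true), (0, true), (2, false), (0, false), (2, false), (1, false), (0, true), (2, false), (2, false), (0, false), (2, false)]) :=
  Check.check_sound
    (.node 0
    (.node 2
    (.node 0
    (.node 1
    (.leaf (lf 1024 0 0 26 33 (-55) 13 0 10 255 255 255))
    (.leaf (lf 1024 0 0 35 33 (-54) 15 0 9 255 255 255)))
    (.node 1
    (.leaf (lf 1024 0 0 31 31 (-53) 14 0 10 255 255 255))
    (.leaf (lf 1024 0 0 41 31 (-53) 17 0 10 255 255 255))))
    (.leaf (lf 401 693 1024 0 100 (-20) 0 0 22 255 142 232)))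
    (.node 2
    (.node 0
    (.node 1
    (.leaf (lf 1024 0 0 36 30 (-52) 16 0 10 255 255 255))
    (.leaf (lf 1024 0 0 47 31 (-54) 18 0 11 245 255 129)))
    (.node 1
    (.leaf (lf 1024 0 0 42 30 (-53) 17 0 12 255 253 169))
    (.leaf (lf 1024 0 0 53 32 (-57) 20 0 12 255 254 135))))
    (.node 0
    (.node 1
    (.leaf (lf 1024 0 0 32 33 (-56) 15 0 10 255 255 255))
    (.leaf (lf 1024 0 0 42 33 (-56) 17 0 10 255 255 135)))
    (.node 1
    (.leaf (lf 1024 0 0 37 32 (-55) 16 0 11 255 255 255))
    (.leaf (lf 1024 0 0 48 33 (-57) 19 0 11 255 255 255))))))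
    (by decide +kernel)

def goodS0X_44 :
    Check.Good noCone cfS0X (reach cfS0X ⟨litS0X, 1, fsS0X⟩
      [(2, false), (1, false), (1, true), (0, true), (2, false), (0, false), (2, false), (1, false), (0, true), (2, false), (2, false), (0, false), (2, false)]) :=
  Check.good_node (a := 2) (by decide +kernel)
    goodS0X_45 goodS0X_48

def goodS0X_49 :
    Check.Good noCone cfS0X (reach cfS0X ⟨litS0X, 1, fsS0X⟩
      [(2, true), (1, false), (1, true), (0, true), (2, false), (0, false), (2, false), (1, false), (0, true), (2, false), (2, false), (0, false), (2, false)]) :=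
  Check.check_sound
    (.node 0
    (.leaf (lf 10747 13390 16384 0 2206 (-1113) 0 0 390 192 191 255))
    (.node 2
    (.node 0
    (.leaf (lf 404 688 1024 0 107 (-22) 0 0 23 255 255 255))
    (.node 2
    (.node 1
    (.leaf (lf 1024 0 0 33 35 (-59) 15 0 11 255 255 255))
    (.leaf (lf 1024 0 0 43 35 (-59) 18 0 11 255 255 255)))
    (.leaf (lf 1024 0 0 34 42 (-68) 16 0 12 251 255 170))))
    (.leaf (lf 517 757 1024 0 127 (-46) 0 0 25 243 155 255))))
    (by decide +kernel)

def goodS0X_43 :
    Check.Good noCone cfS0X (reach cfS0X ⟨litS0X, 1, fsS0X⟩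
      [(1, false), (1, true), (0, true), (2, false), (0, false), (2, false), (1, false), (0, true), (2, false), (2, false), (0, false), (2, false)]) :=
  Check.good_node (a := 2) (by decide +kernel)
    goodS0X_44 goodS0X_49

def goodS0X_52 :
    Check.Good noCone cfS0X (reach cfS0X ⟨litS0X, 1, fsS0X⟩
      [(2, false), (2, false), (1, true), (1, true), (0, true), (2, false), (0, false), (2, false), (1, false), (0, true), (2, false), (2, false), (0, false), (2, false)]) :=
  Check.check_sound
    (.node 0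
    (.node 2
    (.node 0
    (.node 1
    (.leaf (lf 16384 0 0 924 499 (-894) 316 0 193 252 255 163))
    (.leaf (lf 1024 0 0 72 37 (-66) 22 0 14 255 255 255)))
    (.node 1
    (.leaf (lf 1024 0 0 65 33 (-61) 22 0 14 254 255 164))
    (.leaf (lf 1024 0 0 80 40 (-74) 24 0 17 255 255 255))))
    (.node 0
    (.node 1
    (.leaf (lf 16384 0 0 817 502 (-864) 293 0 167 248 255 156))
    (.leaf (lf 1024 0 0 64 36 (-62) 20 0 12 255 255 255)))
    (.node 1
    (.leaf (lf 1024 0 0 58 33 (-58) 20 0 12 251 255 137))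
    (.leaf (lf 1024 0 0 73 38 (-68) 22 0 14 255 255 255)))))
    (.node 2
    (.node 0
    (.node 1
    (.leaf (lf 1024 0 0 72 36 (-68) 24 0 17 254 255 149))
    (.leaf (lf 1024 0 0 89 43 (-82) 26 0 21 255 255 255)))
    (.node 1
    (.leaf (lf 1024 0 0 79 39 (-75) 27 0 20 255 255 255))
    (.leaf (lf 1024 0 0 97 47 (-90) 29 0 25 255 255 255))))
    (.node 0
    (.node 1
    (.leaf (lf 1024 0 0 66 35 (-63) 22 0 14 254 255 136))
    (.leaf (lf 1024 0 0 81 41 (-75) 25 0 17 255 255 255)))
    (.node 1
    (.leaf (lf 1024 0 0 73 37 (-69) 25 0 17 254 255 168))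
    (.leaf (lf 1024 0 0 90 44 (-83) 27 0 20 255 255 255))))))
    (by decide +kernel)

def goodS0X_53 :
    Check.Good noCone cfS0X (reach cfS0X ⟨litS0X, 1, fsS0X⟩
      [(2, true), (2, false), (1, true), (1, true), (0, true), (2, false), (0, false), (2, false), (1, false), (0, true), (2, false), (2, false), (0, false), (2, false)]) :=
  Check.check_sound
    (.node 0
    (.node 2
    (.node 0
    (.node 1
    (.leaf (lf 1024 0 0 45 34 (-55) 17 0 10 255 255 255))
    (.leaf (lf 1024 0 0 57 37 (-61) 19 0 11 255 255 255)))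
    (.node 1
    (.leaf (lf 1024 0 0 52 33 (-57) 19 0 11 255 255 255))
    (.leaf (lf 1024 0 0 65 38 (-65) 21 0 12 255 255 255))))
    (.node 0
    (.leaf (lf 16384 0 0 711 638 (-1018) 271 0 166 242 255 143))
    (.node 1
    (.leaf (lf 1024 0 0 46 36 (-59) 18 0 10 255 255 255))
    (.leaf (lf 1024 0 0 59 39 (-64) 20 0 11 255 255 255)))))
    (.node 2
    (.node 0
    (.node 1
    (.leaf (lf 1024 0 0 59 34 (-60) 21 0 12 255 255 255))
    (.leaf (lf 1024 0 0 74 40 (-70) 23 0 14 255 255 255)))
    (.node 1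
    (.leaf (lf 1024 0 0 67 36 (-64) 23 0 14 255 255 255))
    (.leaf (lf 1024 0 0 83 42 (-77) 25 0 17 255 255 255))))
    (.node 0
    (.node 1
    (.leaf (lf 1024 0 0 53 35 (-60) 20 0 11 255 255 255))
    (.leaf (lf 1024 0 0 67 40 (-68) 22 0 13 255 255 255)))
    (.node 1
    (.leaf (lf 1024 0 0 61 36 (-62) 22 0 13 255 255 173))
    (.leaf (lf 1024 0 0 76 41 (-73) 24 0 15 255 255 255))))))
    (by decide +kernel)

def goodS0X_51 :
    Check.Good noCone cfS0X (reach cfS0X ⟨litS0X, 1, fsS0X⟩
      [(2, false), (1, true), (1, true), (0, true), (2, false), (0, false), (2, false), (1, false), (0, true), (2, false), (2, false), (0, false), (2, false)]) :=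
  Check.good_node (a := 2) (by decide +kernel)
    goodS0X_52 goodS0X_53

def goodS0X_54 :
    Check.Good noCone cfS0X (reach cfS0X ⟨litS0X, 1, fsS0X⟩
      [(2, true), (1, true), (1, true), (0, true), (2, false), (0, false), (2, false), (1, false), (0, true), (2, false), (2, false), (0, false), (2, false)]) :=
  Check.check_sound
    (.node 0
    (.node 2
    (.node 0
    (.leaf (lf 16384 0 0 572 774 (-1164) 248 0 171 255 251 181))
    (.leaf (lf 316 579 1024 0 112 (-2) 0 0 24 255 151 249)))
    (.leaf (lf 1024 0 0 30 61 (-87) 15 0 12 255 252 184)))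
    (.node 2
    (.node 0
    (.node 2
    (.leaf (lf 16384 0 0 868 660 (-1086) 313 0 190 240 255 134))
    (.leaf (lf 1024 0 0 48 45 (-71) 19 0 12 251 255 167)))
    (.node 2
    (.leaf (lf 16384 0 0 997 664 (-1124) 344 0 210 241 255 130))
    (.leaf (lf 16384 0 0 900 695 (-1141) 328 0 199 240 255 132))))
    (.leaf (lf 344 606 1024 0 127 (-9) 0 0 26 255 136 243))))
    (by decide +kernel)

def goodS0X_50 :
    Check.Good noCone cfS0X (reach cfS0X ⟨litS0X, 1, fsS0X⟩
      [(1, true), (1, true), (0, true), (2, false), (0, false), (2, false), (1, false), (0, true), (2, false), (2, false), (0, false), (2, false)]) :=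
  Check.good_node (a := 2) (by decide +kernel)
    goodS0X_51 goodS0X_54

def goodS0X_42 :
    Check.Good noCone cfS0X (reach cfS0X ⟨litS0X, 1, fsS0X⟩
      [(1, true), (0, true), (2, false), (0, false), (2, false), (1, false), (0, true), (2, false), (2, false), (0, false), (2, false)]) :=
  Check.good_node (a := 1) (by decide +kernel)
    goodS0X_43 goodS0X_50

def goodS0X_36 :
    Check.Good noCone cfS0X (reach cfS0X ⟨litS0X, 1, fsS0X⟩
      [(0, true), (2, false), (0, false), (2, false), (1, false), (0, true), (2, false), (2, false), (0, false), (2, false)]) :=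
  Check.good_node (a := 1) (by decide +kernel)
    goodS0X_37 goodS0X_42

def goodS0X_26 :
    Check.Good noCone cfS0X (reach cfS0X ⟨litS0X, 1, fsS0X⟩
      [(2, false), (0, false), (2, false), (1, false), (0, true), (2, false), (2, false), (0, false), (2, false)]) :=
  Check.good_node (a := 0) (by decide +kernel)
    goodS0X_27 goodS0X_36

def goodS0X_55 :
    Check.Good noCone cfS0X (reach cfS0X ⟨litS0X, 1, fsS0X⟩
      [(2, true), (0, false), (2, false), (1, false), (0, true), (2, false), (2, false), (0, false), (2, false)]) :=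
  Check.check_sound
    (.node 0
    (.leaf (lf 1024 0 299 44 178 (-170) 0 0 18 255 255 255))
    (.node 1
    (.leaf (lf 16384 0 3825 586 2019 (-2359) 0 0 291 255 255 255))
    (.node 1
    (.node 2
    (.leaf (lf 1024 0 0 14 88 (-116) 11 0 15 255 255 255))
    (.leaf (lf 1024 0 0 2 128 (-150) 9 0 17 255 255 255)))
    (.node 2
    (.node 0
    (.leaf (lf 1024 0 0 16 89 (-114) 13 0 14 255 255 255))
    (.leaf (lf 527 703 1024 0 161 (-57) 0 0 28 170 150 255)))
    (.leaf (lf 1024 0 0 11 120 (-142) 12 0 16 255 255 255))))))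
    (by decide +kernel)

def goodS0X_25 :
    Check.Good noCone cfS0X (reach cfS0X ⟨litS0X, 1, fsS0X⟩
      [(0, false), (2, false), (1, false), (0, true), (2, false), (2, false), (0, false), (2, false)]) :=
  Check.good_node (a := 2) (by decide +kernel)
    goodS0X_26 goodS0X_55

def goodS0X_60 :
    Check.Good noCone cfS0X (reach cfS0X ⟨litS0X, 1, fsS0X⟩
      [(1, false), (0, false), (1, false), (2, false), (0, true), (2, false), (1, false), (0, true), (2, false), (2, false), (0, false), (2, false)]) :=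
  Check.check_sound
    (.node 2
    (.node 1
    (.node 2
    (.node 1
    (.leaf (lf 1024 0 0 4 32 (-61) 1 0 18 255 255 255))
    (.leaf (lf 1024 0 0 11 32 (-61) 4 0 18 255 255 255)))
    (.leaf (lf 1024 0 0 6 33 (-60) 2 0 15 255 255 255)))
    (.node 2
    (.node 0
    (.leaf (lf 775 1024 584 0 71 (-63) 0 0 25 255 255 255))
    (.leaf (lf 776 1024 528 0 78 (-74) 0 0 32 255 255 255)))
    (.leaf (lf 806 1024 614 0 75 (-65) 0 0 23 255 255 255))))
    (.node 1
    (.leaf (lf 1024 0 0 5 42 (-68) 2 0 13 255 255 255))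
    (.node 2
    (.leaf (lf 16384 0 0 245 586 (-1005) 99 0 210 255 248 176))
    (.leaf (lf 1024 0 0 12 45 (-73) 6 0 13 255 255 255)))))
    (by decide +kernel)

def goodS0X_63 :
    Check.Good noCone cfS0X (reach cfS0X ⟨litS0X, 1, fsS0X⟩
      [(2, false), (2, false), (1, true), (0, false), (1, false), (2, false), (0, true), (2, false), (1, false), (0, true), (2, false), (2, false), (0, false), (2, false)]) :=
  Check.check_sound
    (.node 0
    (.node 1
    (.node 2
    (.node 1
    (.leaf (lf 1024 0 0 28 30 (-59) 12 0 18 255 255 255))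
    (.leaf (lf 1024 0 0 35 30 (-59) 14 0 18 255 255 255)))
    (.leaf (lf 16384 0 0 466 489 (-920) 194 0 244 255 253 161)))
    (.node 2
    (.node 1
    (.leaf (lf 1024 0 0 42 31 (-60) 17 0 18 255 255 255))
    (.leaf (lf 1024 0 0 48 31 (-61) 19 0 18 255 250 160)))
    (.node 1
    (.leaf (lf 1024 0 0 38 30 (-56) 16 0 15 255 255 255))
    (.leaf (lf 1024 0 0 45 30 (-57) 18 0 15 255 249 175)))))
    (.node 1
    (.node 2
    (.leaf (lf 1024 0 0 37 36 (-71) 16 0 24 255 245 175))
    (.leaf (lf 1024 0 0 35 34 (-66) 14 0 20 255 252 150)))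
    (.node 2
    (.node 1
    (.leaf (lf 1024 0 0 49 35 (-70) 20 0 24 255 255 255))
    (.leaf (lf 1024 0 0 56 36 (-71) 23 0 25 255 255 255)))
    (.node 1
    (.leaf (lf 1024 0 0 45 33 (-65) 19 0 20 255 255 255))
    (.leaf (lf 1024 0 0 53 34 (-66) 21 0 20 255 255 255))))))
    (by decide +kernel)

def goodS0X_64 :
    Check.Good noCone cfS0X (reach cfS0X ⟨litS0X, 1, fsS0X⟩
      [(2, true), (2, false), (1, true), (0, false), (1, false), (2, false), (0, true), (2, false), (1, false), (0, true), (2, false), (2, false), (0, false), (2, false)]) :=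
  Check.check_sound
    (.node 0
    (.node 1
    (.leaf (lf 578 1024 981 0 96 (-40) 0 0 25 255 153 219))
    (.node 2
    (.node 1
    (.leaf (lf 1024 0 0 35 30 (-54) 15 0 13 255 255 255))
    (.leaf (lf 1024 0 0 41 30 (-55) 17 0 13 255 249 176)))
    (.leaf (lf 16384 0 0 552 505 (-899) 233 0 198 248 255 149))))
    (.node 1
    (.node 2
    (.leaf (lf 1024 0 0 32 33 (-62) 13 0 17 253 255 142))
    (.leaf (lf 1024 0 0 30 33 (-60) 13 0 15 255 252 173)))
    (.node 2
    (.node 1
    (.leaf (lf 1024 0 0 42 32 (-61) 17 0 17 255 255 255))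
    (.leaf (lf 1024 0 0 49 33 (-62) 20 0 17 255 255 255)))
    (.leaf (lf 16384 0 0 678 525 (-971) 277 0 244 249 255 147)))))
    (by decide +kernel)

def goodS0X_62 :
    Check.Good noCone cfS0X (reach cfS0X ⟨litS0X, 1, fsS0X⟩
      [(2, false), (1, true), (0, false), (1, false), (2, false), (0, true), (2, false), (1, false), (0, true), (2, false), (2, false), (0, false), (2, false)]) :=
  Check.good_node (a := 2) (by decide +kernel)
    goodS0X_63 goodS0X_64

def goodS0X_65 :
    Check.Good noCone cfS0X (reach cfS0X ⟨litS0X, 1, fsS0X⟩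
      [(2, true), (1, true), (0, false), (1, false), (2, false), (0, true), (2, false), (1, false), (0, true), (2, false), (2, false), (0, false), (2, false)]) :=
  Check.check_sound
    (.node 0
    (.node 2
    (.node 1
    (.leaf (lf 1024 0 0 21 37 (-62) 10 0 12 255 255 255))
    (.leaf (lf 442 805 1024 0 100 (-25) 0 0 24 255 255 255)))
    (.node 1
    (.leaf (lf 1024 0 0 16 47 (-75) 9 0 13 255 255 255))
    (.leaf (lf 1024 0 0 24 45 (-72) 12 0 12 255 255 255))))
    (.node 2
    (.node 1
    (.leaf (lf 592 1024 1002 0 104 (-44) 0 0 27 255 255 255))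
    (.node 2
    (.leaf (lf 1024 0 0 39 33 (-60) 16 0 14 246 255 133))
    (.leaf (lf 1024 0 0 36 35 (-61) 15 0 13 248 255 127))))
    (.node 1
    (.leaf (lf 1024 0 0 22 40 (-68) 10 0 13 255 255 255))
    (.leaf (lf 1024 0 0 32 39 (-66) 14 0 13 255 253 168)))))
    (by decide +kernel)

def goodS0X_61 :
    Check.Good noCone cfS0X (reach cfS0X ⟨litS0X, 1, fsS0X⟩
      [(1, true), (0, false), (1, false), (2, false), (0, true), (2, false), (1, false), (0, true), (2, false), (2, false), (0, false), (2, false)]) :=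
  Check.good_node (a := 2) (by decide +kernel)
    goodS0X_62 goodS0X_65

def goodS0X_59 :
    Check.Good noCone cfS0X (reach cfS0X ⟨litS0X, 1, fsS0X⟩
      [(0, false), (1, false), (2, false), (0, true), (2, false), (1, false), (0, true), (2, false), (2, false), (0, false), (2, false)]) :=
  Check.good_node (a := 1) (by decide +kernel)
    goodS0X_60 goodS0X_61

def goodS0X_67 :
    Check.Good noCone cfS0X (reach cfS0X ⟨litS0X, 1, fsS0X⟩
      [(1, false), (0, true), (1, false), (2, false), (0, true), (2, false), (1, false), (0, true), (2, false), (2, false), (0, false), (2, false)]) :=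
  Check.check_sound
    (.node 2
    (.node 1
    (.node 2
    (.node 1
    (.leaf (lf 1024 0 0 5 41 (-81) 2 0 32 255 255 255))
    (.leaf (lf 1024 0 0 14 41 (-81) 6 0 32 255 255 255)))
    (.leaf (lf 16384 0 0 134 623 (-1191) 51 0 375 255 255 255)))
    (.node 2
    (.node 0
    (.leaf (lf 791 1024 480 0 86 (-87) 0 0 41 255 255 255))
    (.leaf (lf 1024 0 346 58 46 (-79) 0 0 41 240 255 249)))
    (.node 0
    (.leaf (lf 16384 0 0 353 581 (-1109) 146 0 328 255 255 255))
    (.leaf (lf 1024 0 0 25 40 (-79) 11 0 26 255 255 255)))))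
    (.node 1
    (.node 1
    (.leaf (lf 1024 0 0 4 37 (-65) 1 0 16 255 255 255))
    (.leaf (lf 1024 0 0 11 37 (-65) 4 0 16 255 255 255)))
    (.leaf (lf 804 1024 620 0 86 (-73) 0 0 26 255 255 255))))
    (by decide +kernel)

def goodS0X_69 :
    Check.Good noCone cfS0X (reach cfS0X ⟨litS0X, 1, fsS0X⟩
      [(2, false), (1, true), (0, true), (1, false), (2, false), (0, true), (2, false), (1, false), (0, true), (2, false), (2, false), (0, false), (2, false)]) :=
  Check.check_sound
    (.node 2
    (.node 0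
    (.node 1
    (.node 2
    (.leaf (lf 1024 0 0 42 40 (-81) 19 0 32 255 246 179))
    (.leaf (lf 1024 0 0 40 38 (-76) 17 0 26 255 255 255)))
    (.node 2
    (.leaf (lf 16384 0 0 958 655 (-1336) 414 0 525 255 250 171))
    (.leaf (lf 16384 0 0 906 625 (-1247) 378 0 434 255 253 162))))
    (.node 1
    (.node 2
    (.leaf (lf 1024 0 0 48 45 (-92) 22 0 41 255 255 255))
    (.leaf (lf 1024 0 0 45 43 (-87) 20 0 34 255 255 255)))
    (.node 2
    (.leaf (lf 1024 0 0 67 46 (-94) 30 0 42 255 255 255))
    (.leaf (lf 1024 0 0 64 44 (-89) 28 0 35 255 250 170)))))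
    (.node 0
    (.node 1
    (.node 2
    (.leaf (lf 1024 0 0 38 37 (-71) 16 0 22 255 255 255))
    (.leaf (lf 1024 0 0 35 36 (-68) 15 0 19 255 255 255)))
    (.node 2
    (.leaf (lf 1024 0 0 53 37 (-73) 22 0 23 253 255 158))
    (.leaf (lf 1024 0 0 50 36 (-69) 20 0 20 252 255 141))))
    (.node 1
    (.node 2
    (.leaf (lf 1024 0 0 43 41 (-82) 18 0 29 255 255 255))
    (.leaf (lf 1024 0 0 41 40 (-77) 17 0 25 255 255 255)))
    (.node 2
    (.leaf (lf 1024 0 0 61 42 (-83) 26 0 29 255 251 167))
    (.leaf (lf 1024 0 0 58 40 (-79) 24 0 25 255 254 155))))))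
    (by decide +kernel)

def goodS0X_70 :
    Check.Good noCone cfS0X (reach cfS0X ⟨litS0X, 1, fsS0X⟩
      [(2, true), (1, true), (0, true), (1, false), (2, false), (0, true), (2, false), (1, false), (0, true), (2, false), (2, false), (0, false), (2, false)]) :=
  Check.check_sound
    (.node 0
    (.node 2
    (.node 1
    (.leaf (lf 545 1024 966 0 110 (-42) 0 0 31 255 167 214))
    (.node 2
    (.leaf (lf 1024 0 0 47 35 (-66) 19 0 17 251 255 137))
    (.leaf (lf 16384 0 0 702 560 (-1022) 291 0 248 246 255 141))))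
    (.node 1
    (.leaf (lf 1024 0 0 28 37 (-65) 12 0 14 255 251 171))
    (.leaf (lf 6042 12351 16384 0 1743 (-231) 0 0 458 255 133 233))))
    (.node 2
    (.node 1
    (.node 2
    (.leaf (lf 1024 0 0 39 38 (-73) 16 0 21 255 255 255))
    (.leaf (lf 1024 0 0 37 37 (-70) 15 0 19 255 255 255)))
    (.node 2
    (.leaf (lf 1024 0 0 55 39 (-74) 22 0 22 251 255 140))
    (.leaf (lf 1024 0 0 52 38 (-71) 21 0 19 253 255 139))))
    (.node 1
    (.leaf (lf 16384 0 0 537 598 (-1085) 226 0 265 255 251 176))
    (.node 2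
    (.leaf (lf 1024 0 0 49 37 (-69) 20 0 17 253 255 136))
    (.leaf (lf 1024 0 0 46 37 (-67) 19 0 16 243 255 131))))))
    (by decide +kernel)

def goodS0X_68 :
    Check.Good noCone cfS0X (reach cfS0X ⟨litS0X, 1, fsS0X⟩
      [(1, true), (0, true), (1, false), (2, false), (0, true), (2, false), (1, false), (0, true), (2, false), (2, false), (0, false), (2, false)]) :=
  Check.good_node (a := 2) (by decide +kernel)
    goodS0X_69 goodS0X_70

def goodS0X_66 :
    Check.Good noCone cfS0X (reach cfS0X ⟨litS0X, 1, fsS0X⟩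
      [(0, true), (1, false), (2, false), (0, true), (2, false), (1, false), (0, true), (2, false), (2, false), (0, false), (2, false)]) :=
  Check.good_node (a := 1) (by decide +kernel)
    goodS0X_67 goodS0X_68

def goodS0X_58 :
    Check.Good noCone cfS0X (reach cfS0X ⟨litS0X, 1, fsS0X⟩
      [(1, false), (2, false), (0, true), (2, false), (1, false), (0, true), (2, false), (2, false), (0, false), (2, false)]) :=
  Check.good_node (a := 0) (by decide +kernel)
    goodS0X_59 goodS0X_66

def goodS0X_75 :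
    Check.Good noCone cfS0X (reach cfS0X ⟨litS0X, 1, fsS0X⟩
      [(2, false), (2, false), (1, false), (0, false), (1, true), (2, false), (0, true), (2, false), (1, false), (0, true), (2, false), (2, false), (0, false), (2, false)]) :=
  Check.check_sound
    (.node 0
    (.node 2
    (.node 0
    (.node 1
    (.leaf (lf 1024 0 0 56 32 (-62) 22 0 18 254 255 174))
    (.leaf (lf 1024 0 0 70 36 (-70) 26 0 20 255 253 164)))
    (.node 1
    (.leaf (lf 1024 0 0 60 35 (-68) 24 0 21 255 254 165))
    (.leaf (lf 1024 0 0 76 39 (-76) 29 0 24 255 255 255))))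
    (.node 0
    (.node 1
    (.leaf (lf 1024 0 0 51 31 (-58) 20 0 15 250 255 152))
    (.leaf (lf 1024 0 0 65 34 (-64) 24 0 17 255 254 173)))
    (.node 1
    (.leaf (lf 1024 0 0 56 33 (-63) 22 0 17 255 254 155))
    (.leaf (lf 1024 0 0 71 37 (-70) 26 0 20 255 255 255)))))
    (.node 2
    (.node 1
    (.node 1
    (.leaf (lf 1024 0 0 64 37 (-74) 26 0 26 255 255 255))
    (.leaf (lf 1024 0 0 73 39 (-78) 29 0 27 255 248 185)))
    (.node 1
    (.leaf (lf 1024 0 0 81 41 (-83) 31 0 29 255 255 255))
    (.leaf (lf 1024 0 0 91 44 (-89) 34 0 31 255 250 187))))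
    (.node 1
    (.node 1
    (.leaf (lf 1024 0 0 60 35 (-68) 24 0 21 255 255 255))
    (.leaf (lf 1024 0 0 68 37 (-72) 26 0 22 255 255 255)))
    (.node 1
    (.leaf (lf 1024 0 0 76 39 (-76) 29 0 23 255 255 255))
    (.leaf (lf 1024 0 0 85 42 (-82) 31 0 25 255 255 255))))))
    (by decide +kernel)

def goodS0X_76 :
    Check.Good noCone cfS0X (reach cfS0X ⟨litS0X, 1, fsS0X⟩
      [(2, true), (2, false), (1, false), (0, false), (1, true), (2, false), (0, true), (2, false), (1, false), (0, true), (2, false), (2, false), (0, false), (2, false)]) :=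
  Check.check_sound
    (.node 0
    (.node 2
    (.node 0
    (.node 1
    (.leaf (lf 1024 0 0 47 30 (-55) 19 0 13 250 255 167))
    (.leaf (lf 1024 0 0 59 33 (-60) 22 0 14 247 255 135)))
    (.node 1
    (.leaf (lf 1024 0 0 52 32 (-59) 21 0 15 253 255 171))
    (.leaf (lf 1024 0 0 65 35 (-65) 24 0 16 252 255 133))))
    (.node 0
    (.node 1
    (.leaf (lf 1024 0 0 42 31 (-55) 18 0 12 252 255 173))
    (.leaf (lf 1024 0 0 54 33 (-59) 21 0 13 255 255 255)))
    (.node 1
    (.leaf (lf 1024 0 0 47 32 (-57) 19 0 13 255 255 255))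
    (.leaf (lf 1024 0 0 60 34 (-62) 23 0 14 255 255 255)))))
    (.node 2
    (.node 1
    (.node 1
    (.leaf (lf 1024 0 0 56 34 (-64) 22 0 18 255 255 255))
    (.leaf (lf 1024 0 0 64 35 (-67) 24 0 18 255 250 148)))
    (.node 1
    (.leaf (lf 16384 0 0 1146 594 (-1133) 426 0 314 255 255 255))
    (.leaf (lf 1024 0 0 80 40 (-76) 29 0 21 255 253 174))))
    (.node 1
    (.node 1
    (.leaf (lf 1024 0 0 52 33 (-61) 21 0 15 255 255 255))
    (.leaf (lf 1024 0 0 59 34 (-63) 23 0 16 252 255 158)))
    (.node 1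
    (.leaf (lf 1024 0 0 67 36 (-67) 25 0 17 251 255 157))
    (.leaf (lf 1024 0 0 75 38 (-71) 27 0 18 251 255 162))))))
    (by decide +kernel)

def goodS0X_74 :
    Check.Good noCone cfS0X (reach cfS0X ⟨litS0X, 1, fsS0X⟩
      [(2, false), (1, false), (0, false), (1, true), (2, false), (0, true), (2, false), (1, false), (0, true), (2, false), (2, false), (0, false), (2, false)]) :=
  Check.good_node (a := 2) (by decide +kernel)
    goodS0X_75 goodS0X_76

def goodS0X_78 :
    Check.Good noCone cfS0X (reach cfS0X ⟨litS0X, 1, fsS0X⟩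
      [(0, false), (2, true), (1, false), (0, false), (1, true), (2, false), (0, true), (2, false), (1, false), (0, true), (2, false), (2, false), (0, false), (2, false)]) :=
  Check.check_sound
    (.node 2
    (.node 2
    (.node 0
    (.node 1
    (.leaf (lf 1024 0 0 38 33 (-57) 17 0 11 255 255 255))
    (.leaf (lf 1024 0 0 49 34 (-59) 20 0 12 255 255 255)))
    (.node 1
    (.leaf (lf 1024 0 0 43 33 (-58) 18 0 12 255 255 255))
    (.leaf (lf 1024 0 0 55 34 (-61) 22 0 13 255 255 255))))
    (.node 0
    (.leaf (lf 16384 0 0 632 632 (-1058) 277 0 195 241 255 144))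
    (.node 1
    (.leaf (lf 1024 0 0 39 35 (-60) 17 0 12 255 255 255))
    (.leaf (lf 1024 0 0 51 36 (-62) 21 0 12 255 255 255)))))
    (.node 0
    (.leaf (lf 402 686 1024 0 116 (-24) 0 0 26 242 160 255))
    (.node 1
    (.leaf (lf 1024 0 0 34 41 (-68) 16 0 12 255 255 255))
    (.leaf (lf 1024 0 0 44 41 (-68) 19 0 12 255 255 255)))))
    (by decide +kernel)

def goodS0X_79 :
    Check.Good noCone cfS0X (reach cfS0X ⟨litS0X, 1, fsS0X⟩
      [(0, true), (2, true), (1, false), (0, false), (1, true), (2, false), (0, true), (2, false), (1, false), (0, true), (2, false), (2, false), (0, false), (2, false)]) :=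
  Check.check_sound
    (.node 2
    (.node 2
    (.node 1
    (.node 1
    (.leaf (lf 1024 0 0 48 33 (-59) 20 0 14 255 252 178))
    (.leaf (lf 1024 0 0 55 34 (-61) 22 0 14 255 255 255)))
    (.node 1
    (.leaf (lf 1024 0 0 62 35 (-64) 24 0 15 250 255 168))
    (.leaf (lf 1024 0 0 70 37 (-68) 25 0 16 255 255 255))))
    (.node 1
    (.leaf (lf 16384 0 0 765 558 (-986) 312 0 212 244 255 140))
    (.node 1
    (.leaf (lf 1024 0 0 58 35 (-63) 22 0 14 255 255 255))
    (.leaf (lf 1024 0 0 65 37 (-66) 24 0 14 255 255 255)))))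
    (.node 1
    (.node 0
    (.leaf (lf 1024 0 0 39 39 (-65) 17 0 12 255 255 255))
    (.leaf (lf 1024 0 0 44 37 (-64) 19 0 13 255 255 255)))
    (.node 0
    (.leaf (lf 16384 0 0 806 630 (-1062) 332 0 202 255 255 255))
    (.leaf (lf 16384 0 0 907 619 (-1068) 360 0 215 253 255 172)))))
    (by decide +kernel)

def goodS0X_77 :
    Check.Good noCone cfS0X (reach cfS0X ⟨litS0X, 1, fsS0X⟩
      [(2, true), (1, false), (0, false), (1, true), (2, false), (0, true), (2, false), (1, false), (0, true), (2, false), (2, false), (0, false), (2, false)]) :=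
  Check.good_node (a := 0) (by decide +kernel)
    goodS0X_78 goodS0X_79

def goodS0X_73 :
    Check.Good noCone cfS0X (reach cfS0X ⟨litS0X, 1, fsS0X⟩
      [(1, false), (0, false), (1, true), (2, false), (0, true), (2, false), (1, false), (0, true), (2, false), (2, false), (0, false), (2, false)]) :=
  Check.good_node (a := 2) (by decide +kernel)
    goodS0X_74 goodS0X_77

def goodS0X_82 :
    Check.Good noCone cfS0X (reach cfS0X ⟨litS0X, 1, fsS0X⟩
      [(2, false), (2, false), (1, true), (0, false), (1, true), (2, false), (0, true), (2, false), (1, false), (0, true), (2, false), (2, false), (0, false), (2, false)]) :=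
  Check.check_sound
    (.node 0
    (.node 2
    (.node 0
    (.node 1
    (.leaf (lf 1024 0 0 87 42 (-82) 30 0 24 255 255 255))
    (.leaf (lf 1024 0 0 106 51 (-99) 32 0 29 255 255 255)))
    (.node 1
    (.leaf (lf 1024 0 0 94 45 (-90) 32 0 28 255 255 255))
    (.leaf (lf 1024 0 0 114 54 (-108) 35 0 34 255 255 255))))
    (.node 0
    (.node 1
    (.leaf (lf 1024 0 0 80 40 (-75) 27 0 20 255 255 255))
    (.leaf (lf 1024 0 0 99 48 (-91) 30 0 24 255 255 255)))
    (.node 1
    (.leaf (lf 1024 0 0 87 43 (-82) 30 0 23 255 255 255))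
    (.leaf (lf 1024 0 0 107 51 (-99) 32 0 28 255 255 255)))))
    (.node 2
    (.node 0
    (.leaf (lf 1024 0 0 112 56 (-112) 37 0 38 255 252 155))
    (.leaf (lf 1024 0 0 119 59 (-120) 40 0 44 255 250 153)))
    (.node 0
    (.leaf (lf 1024 0 0 105 53 (-104) 34 0 31 255 254 144))
    (.leaf (lf 1024 0 0 113 56 (-112) 37 0 36 254 255 146)))))
    (by decide +kernel)

def goodS0X_83 :
    Check.Good noCone cfS0X (reach cfS0X ⟨litS0X, 1, fsS0X⟩
      [(2, true), (2, false), (1, true), (0, false), (1, true), (2, false), (0, true), (2, false), (1, false), (0, true), (2, false), (2, false), (0, false), (2, false)]) :=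
  Check.check_sound
    (.node 0
    (.node 2
    (.node 0
    (.node 1
    (.leaf (lf 1024 0 0 74 38 (-70) 25 0 17 255 255 255))
    (.leaf (lf 1024 0 0 91 46 (-84) 28 0 20 255 255 255)))
    (.node 1
    (.leaf (lf 1024 0 0 81 41 (-76) 28 0 19 255 255 255))
    (.leaf (lf 1024 0 0 100 49 (-92) 30 0 23 255 255 255))))
    (.node 0
    (.node 1
    (.leaf (lf 1024 0 0 68 37 (-66) 24 0 14 255 255 255))
    (.leaf (lf 1024 0 0 85 44 (-79) 26 0 17 255 255 255)))
    (.node 1
    (.leaf (lf 1024 0 0 75 39 (-72) 26 0 17 255 255 255))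
    (.leaf (lf 1024 0 0 93 47 (-86) 28 0 20 255 255 255)))))
    (.node 2
    (.node 0
    (.leaf (lf 16384 0 0 1582 808 (-1544) 504 0 419 249 255 135))
    (.leaf (lf 1024 0 0 107 54 (-104) 34 0 30 252 255 132)))
    (.node 0
    (.leaf (lf 16384 0 0 1482 776 (-1447) 473 0 358 246 255 129))
    (.leaf (lf 1024 0 0 101 52 (-98) 32 0 26 249 255 132)))))
    (by decide +kernel)

def goodS0X_81 :
    Check.Good noCone cfS0X (reach cfS0X ⟨litS0X, 1, fsS0X⟩
      [(2, false), (1, true), (0, false), (1, true), (2, false), (0, true), (2, false), (1, false), (0, true), (2, false), (2, false), (0, false), (2, false)]) :=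
  Check.good_node (a := 2) (by decide +kernel)
    goodS0X_82 goodS0X_83

def goodS0X_85 :
    Check.Good noCone cfS0X (reach cfS0X ⟨litS0X, 1, fsS0X⟩
      [(0, false), (2, true), (1, true), (0, false), (1, true), (2, false), (0, true), (2, false), (1, false), (0, true), (2, false), (2, false), (0, false), (2, false)]) :=
  Check.check_sound
    (.node 2
    (.node 2
    (.node 0
    (.node 1
    (.leaf (lf 1024 0 0 62 37 (-65) 23 0 13 255 255 255))
    (.leaf (lf 1024 0 0 78 43 (-75) 25 0 15 255 255 255)))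
    (.leaf (lf 16384 0 0 1255 715 (-1271) 411 0 271 243 255 127)))
    (.node 0
    (.leaf (lf 1024 0 0 64 44 (-74) 22 0 14 243 255 119))
    (.leaf (lf 16384 0 0 1159 714 (-1236) 391 0 245 241 255 125))))
    (.node 0
    (.node 2
    (.leaf (lf 1024 0 0 59 46 (-75) 21 0 13 242 255 115))
    (.leaf (lf 1024 0 0 53 49 (-78) 21 0 13 255 255 255)))
    (.node 2
    (.leaf (lf 1024 0 0 67 46 (-77) 23 0 14 247 255 115))
    (.leaf (lf 1024 0 0 61 48 (-78) 22 0 14 255 255 255)))))
    (by decide +kernel)

def goodS0X_86 :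
    Check.Good noCone cfS0X (reach cfS0X ⟨litS0X, 1, fsS0X⟩
      [(0, true), (2, true), (1, true), (0, false), (1, true), (2, false), (0, true), (2, false), (1, false), (0, true), (2, false), (2, false), (0, false), (2, false)]) :=
  Check.check_sound
    (.node 2
    (.node 2
    (.node 0
    (.leaf (lf 16384 0 0 1384 754 (-1370) 447 0 312 244 255 125))
    (.leaf (lf 1024 0 0 95 50 (-92) 30 0 22 250 255 119)))
    (.node 0
    (.leaf (lf 16384 0 0 1288 742 (-1315) 425 0 278 242 255 123))
    (.leaf (lf 1024 0 0 89 49 (-88) 29 0 20 245 255 135))))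
    (.node 0
    (.node 2
    (.leaf (lf 1024 0 0 75 47 (-80) 25 0 16 243 255 118))
    (.leaf (lf 1024 0 0 69 48 (-80) 24 0 15 240 255 116)))
    (.node 2
    (.leaf (lf 16384 0 0 1324 771 (-1362) 440 0 286 241 255 121))
    (.leaf (lf 1024 0 0 77 48 (-84) 26 0 17 243 255 119)))))
    (by decide +kernel)

def goodS0X_84 :
    Check.Good noCone cfS0X (reach cfS0X ⟨litS0X, 1, fsS0X⟩
      [(2, true), (1, true), (0, false), (1, true), (2, false), (0, true), (2, false), (1, false), (0, true), (2, false), (2, false), (0, false), (2, false)]) :=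
  Check.good_node (a := 0) (by decide +kernel)
    goodS0X_85 goodS0X_86

def goodS0X_80 :
    Check.Good noCone cfS0X (reach cfS0X ⟨litS0X, 1, fsS0X⟩
      [(1, true), (0, false), (1, true), (2, false), (0, true), (2, false), (1, false), (0, true), (2, false), (2, false), (0, false), (2, false)]) :=
  Check.good_node (a := 2) (by decide +kernel)
    goodS0X_81 goodS0X_84

def goodS0X_72 :
    Check.Good noCone cfS0X (reach cfS0X ⟨litS0X, 1, fsS0X⟩
      [(0, false), (1, true), (2, false), (0, true), (2, false), (1, false), (0, true), (2, false), (2, false), (0, false), (2, false)]) :=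
  Check.good_node (a := 1) (by decide +kernel)
    goodS0X_73 goodS0X_80

def goodS0X_90 :
    Check.Good noCone cfS0X (reach cfS0X ⟨litS0X, 1, fsS0X⟩
      [(2, false), (2, false), (1, false), (0, true), (1, true), (2, false), (0, true), (2, false), (1, false), (0, true), (2, false), (2, false), (0, false), (2, false)]) :=
  Check.check_sound
    (.node 0
    (.node 2
    (.node 1
    (.node 1
    (.leaf (lf 1024 0 0 73 42 (-85) 31 0 34 255 255 255))
    (.leaf (lf 1024 0 0 82 44 (-89) 34 0 35 255 255 255)))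
    (.node 1
    (.leaf (lf 1024 0 0 92 46 (-95) 37 0 38 255 255 255))
    (.leaf (lf 1024 0 0 102 50 (-102) 40 0 41 255 255 255))))
    (.node 1
    (.node 1
    (.leaf (lf 1024 0 0 69 40 (-79) 28 0 28 255 255 255))
    (.leaf (lf 1024 0 0 78 42 (-83) 31 0 29 255 255 255)))
    (.leaf (lf 1024 0 0 93 47 (-93) 35 0 33 255 252 162))))
    (.node 2
    (.node 1
    (.leaf (lf 1024 0 0 87 48 (-100) 38 0 45 255 251 169))
    (.leaf (lf 16384 0 0 1730 866 (-1798) 731 0 810 255 250 175)))
    (.node 1
    (.leaf (lf 1024 0 0 83 46 (-94) 35 0 37 255 253 164))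
    (.leaf (lf 1024 0 0 104 52 (-106) 41 0 42 255 252 158)))))
    (by decide +kernel)

def goodS0X_91 :
    Check.Good noCone cfS0X (reach cfS0X ⟨litS0X, 1, fsS0X⟩
      [(2, true), (2, false), (1, false), (0, true), (1, true), (2, false), (0, true), (2, false), (1, false), (0, true), (2, false), (2, false), (0, false), (2, false)]) :=
  Check.check_sound
    (.node 0
    (.node 2
    (.node 1
    (.node 1
    (.leaf (lf 1024 0 0 66 38 (-74) 26 0 23 255 255 255))
    (.leaf (lf 1024 0 0 74 40 (-77) 29 0 24 255 255 255)))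
    (.leaf (lf 16384 0 0 1404 711 (-1396) 522 0 441 252 255 154)))
    (.node 1
    (.node 1
    (.leaf (lf 1024 0 0 62 36 (-69) 24 0 20 255 255 255))
    (.leaf (lf 1024 0 0 70 38 (-73) 27 0 21 255 255 255)))
    (.leaf (lf 16384 0 0 1327 681 (-1309) 487 0 376 250 255 145))))
    (.node 2
    (.node 1
    (.leaf (lf 1024 0 0 79 44 (-89) 32 0 32 254 255 153))
    (.leaf (lf 1024 0 0 99 50 (-100) 38 0 36 255 255 154)))
    (.node 1
    (.leaf (lf 1024 0 0 76 43 (-84) 30 0 27 253 255 151))
    (.leaf (lf 1024 0 0 95 48 (-94) 36 0 30 255 254 160)))))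
    (by decide +kernel)

def goodS0X_89 :
    Check.Good noCone cfS0X (reach cfS0X ⟨litS0X, 1, fsS0X⟩
      [(2, false), (1, false), (0, true), (1, true), (2, false), (0, true), (2, false), (1, false), (0, true), (2, false), (2, false), (0, false), (2, false)]) :=
  Check.good_node (a := 2) (by decide +kernel)
    goodS0X_90 goodS0X_91

def goodS0X_93 :
    Check.Good noCone cfS0X (reach cfS0X ⟨litS0X, 1, fsS0X⟩
      [(2, false), (2, true), (1, false), (0, true), (1, true), (2, false), (0, true), (2, false), (1, false), (0, true), (2, false), (2, false), (0, false), (2, false)]) :=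
  Check.check_sound
    (.node 0
    (.node 2
    (.node 1
    (.node 1
    (.leaf (lf 1024 0 0 58 35 (-66) 23 0 17 255 255 255))
    (.leaf (lf 1024 0 0 66 37 (-69) 25 0 18 255 255 255)))
    (.leaf (lf 16384 0 0 1252 657 (-1235) 459 0 326 247 255 141)))
    (.node 1
    (.leaf (lf 16384 0 0 928 582 (-1065) 366 0 259 245 255 138))
    (.leaf (lf 1024 0 0 74 40 (-74) 27 0 18 246 255 133))))
    (.node 2
    (.node 1
    (.leaf (lf 1024 0 0 72 41 (-79) 28 0 23 253 255 140))
    (.leaf (lf 1024 0 0 90 46 (-89) 33 0 26 254 255 134)))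
    (.node 1
    (.leaf (lf 1024 0 0 68 40 (-75) 27 0 20 254 255 150))
    (.leaf (lf 1024 0 0 86 44 (-84) 32 0 23 247 255 148)))))
    (by decide +kernel)

def goodS0X_94 :
    Check.Good noCone cfS0X (reach cfS0X ⟨litS0X, 1, fsS0X⟩
      [(2, true), (2, true), (1, false), (0, true), (1, true), (2, false), (0, true), (2, false), (1, false), (0, true), (2, false), (2, false), (0, false), (2, false)]) :=
  Check.check_sound
    (.node 0
    (.node 1
    (.node 2
    (.leaf (lf 16384 0 0 866 585 (-1048) 349 0 238 243 255 137))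
    (.leaf (lf 1024 0 0 50 38 (-66) 21 0 14 244 255 142)))
    (.node 2
    (.leaf (lf 1024 0 0 69 40 (-71) 26 0 16 247 255 141))
    (.leaf (lf 1024 0 0 64 40 (-71) 25 0 15 245 255 140))))
    (.node 1
    (.node 2
    (.leaf (lf 1024 0 0 64 39 (-72) 25 0 18 250 255 126))
    (.leaf (lf 1024 0 0 61 39 (-70) 24 0 17 246 255 137)))
    (.node 2
    (.leaf (lf 1024 0 0 81 43 (-80) 30 0 20 251 255 133))
    (.leaf (lf 16384 0 0 1231 678 (-1236) 459 0 296 243 255 131)))))
    (by decide +kernel)

def goodS0X_92 :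
    Check.Good noCone cfS0X (reach cfS0X ⟨litS0X, 1, fsS0X⟩
      [(2, true), (1, false), (0, true), (1, true), (2, false), (0, true), (2, false), (1, false), (0, true), (2, false), (2, false), (0, false), (2, false)]) :=
  Check.good_node (a := 2) (by decide +kernel)
    goodS0X_93 goodS0X_94

def goodS0X_88 :
    Check.Good noCone cfS0X (reach cfS0X ⟨litS0X, 1, fsS0X⟩
      [(1, false), (0, true), (1, true), (2, false), (0, true), (2, false), (1, false), (0, true), (2, false), (2, false), (0, false), (2, false)]) :=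
  Check.good_node (a := 2) (by decide +kernel)
    goodS0X_89 goodS0X_92

def goodS0X_96 :
    Check.Good noCone cfS0X (reach cfS0X ⟨litS0X, 1, fsS0X⟩
      [(2, false), (1, true), (0, true), (1, true), (2, false), (0, true), (2, false), (1, false), (0, true), (2, false), (2, false), (0, false), (2, false)]) :=
  Check.check_sound
    (.node 2
    (.node 0
    (.node 2
    (.node 0
    (.leaf (lf 1024 0 0 126 62 (-128) 44 0 50 255 250 158))
    (.leaf (lf 1024 0 0 134 66 (-136) 48 0 56 255 249 155)))
    (.node 0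
    (.leaf (lf 1024 0 0 120 60 (-120) 40 0 41 255 253 141))
    (.leaf (lf 1024 0 0 128 63 (-128) 44 0 47 255 254 151))))
    (.node 2
    (.node 0
    (.leaf (lf 1024 0 0 141 69 (-144) 52 0 64 255 249 159))
    (.leaf (lf 1024 0 0 148 73 (-152) 56 0 71 255 255 255)))
    (.node 0
    (.leaf (lf 1024 0 0 135 67 (-136) 47 0 53 255 255 255))
    (.leaf (lf 1024 0 0 142 70 (-144) 51 0 60 255 255 255)))))
    (.node 0
    (.node 2
    (.node 0
    (.leaf (lf 1024 0 0 114 57 (-113) 37 0 35 252 255 132))
    (.leaf (lf 1024 0 0 122 61 (-121) 40 0 40 255 255 255)))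
    (.node 0
    (.leaf (lf 1024 0 0 108 55 (-106) 35 0 30 250 255 136))
    (.leaf (lf 1024 0 0 116 58 (-114) 38 0 34 250 255 135))))
    (.node 2
    (.node 0
    (.leaf (lf 1024 0 0 130 64 (-129) 44 0 45 253 255 141))
    (.leaf (lf 1024 0 0 137 67 (-137) 47 0 51 255 255 255)))
    (.node 0
    (.leaf (lf 1024 0 0 124 62 (-122) 41 0 39 252 255 140))
    (.leaf (lf 1024 0 0 131 65 (-130) 44 0 44 255 255 255))))))
    (by decide +kernel)

def goodS0X_97 :
    Check.Good noCone cfS0X (reach cfS0X ⟨litS0X, 1, fsS0X⟩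
      [(2, true), (1, true), (0, true), (1, true), (2, false), (0, true), (2, false), (1, false), (0, true), (2, false), (2, false), (0, false), (2, false)]) :=
  Check.check_sound
    (.node 2
    (.node 0
    (.node 2
    (.node 0
    (.leaf (lf 1024 0 0 102 53 (-100) 33 0 26 247 255 130))
    (.leaf (lf 1024 0 0 110 56 (-107) 35 0 29 252 255 115)))
    (.node 0
    (.leaf (lf 1024 0 0 97 51 (-95) 31 0 23 245 255 123))
    (.leaf (lf 1024 0 0 105 54 (-102) 34 0 26 244 255 130))))
    (.node 2
    (.node 0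
    (.leaf (lf 1024 0 0 118 59 (-115) 38 0 34 250 255 128))
    (.leaf (lf 1024 0 0 126 63 (-123) 41 0 38 255 255 255)))
    (.node 0
    (.leaf (lf 1024 0 0 113 58 (-109) 36 0 29 251 255 118))
    (.leaf (lf 1024 0 0 120 61 (-117) 39 0 33 255 255 255)))))
    (.node 0
    (.node 2
    (.node 0
    (.leaf (lf 1024 0 0 91 50 (-91) 30 0 20 246 255 125))
    (.leaf (lf 1024 0 0 99 53 (-97) 32 0 23 242 255 118)))
    (.node 0
    (.leaf (lf 16384 0 0 1363 800 (-1410) 456 0 295 240 255 119))
    (.leaf (lf 1024 0 0 93 52 (-94) 31 0 21 241 255 126))))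
    (.node 2
    (.node 0
    (.leaf (lf 1024 0 0 107 56 (-104) 35 0 26 244 255 127))
    (.leaf (lf 1024 0 0 115 59 (-111) 37 0 30 248 255 126)))
    (.node 0
    (.leaf (lf 1024 0 0 101 55 (-100) 33 0 23 250 255 114))
    (.leaf (lf 1024 0 0 109 58 (-107) 35 0 26 253 255 105))))))
    (by decide +kernel)

def goodS0X_95 :
    Check.Good noCone cfS0X (reach cfS0X ⟨litS0X, 1, fsS0X⟩
      [(1, true), (0, true), (1, true), (2, false), (0, true), (2, false), (1, false), (0, true), (2, false), (2, false), (0, false), (2, false)]) :=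
  Check.good_node (a := 2) (by decide +kernel)
    goodS0X_96 goodS0X_97

def goodS0X_87 :
    Check.Good noCone cfS0X (reach cfS0X ⟨litS0X, 1, fsS0X⟩
      [(0, true), (1, true), (2, false), (0, true), (2, false), (1, false), (0, true), (2, false), (2, false), (0, false), (2, false)]) :=
  Check.good_node (a := 1) (by decide +kernel)
    goodS0X_88 goodS0X_95

def goodS0X_71 :
    Check.Good noCone cfS0X (reach cfS0X ⟨litS0X, 1, fsS0X⟩
      [(1, true), (2, false), (0, true), (2, false), (1, false), (0, true), (2, false), (2, false), (0, false), (2, false)]) :=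
  Check.good_node (a := 0) (by decide +kernel)
    goodS0X_72 goodS0X_87

def goodS0X_57 :
    Check.Good noCone cfS0X (reach cfS0X ⟨litS0X, 1, fsS0X⟩
      [(2, false), (0, true), (2, false), (1, false), (0, true), (2, false), (2, false), (0, false), (2, false)]) :=
  Check.good_node (a := 1) (by decide +kernel)
    goodS0X_58 goodS0X_71

def goodS0X_100 :
    Check.Good noCone cfS0X (reach cfS0X ⟨litS0X, 1, fsS0X⟩
      [(0, false), (1, false), (2, true), (0, true), (2, false), (1, false), (0, true), (2, false), (2, false), (0, false), (2, false)]) :=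
  Check.check_sound
    (.node 1
    (.node 2
    (.leaf (lf 1024 0 0 6 66 (-99) 3 0 15 255 255 255))
    (.leaf (lf 1024 0 0 3 97 (-132) 3 0 18 255 255 255)))
    (.node 2
    (.node 0
    (.leaf (lf 1024 0 0 14 69 (-101) 9 0 15 255 255 255))
    (.node 2
    (.leaf (lf 16384 0 0 350 820 (-1318) 182 0 229 255 254 175))
    (.leaf (lf 1024 0 0 17 63 (-96) 11 0 15 255 255 255))))
    (.leaf (lf 1024 0 0 10 94 (-128) 9 0 17 255 255 255))))
    (by decide +kernel)

def goodS0X_101 :
    Check.Good noCone cfS0X (reach cfS0X ⟨litS0X, 1, fsS0X⟩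
      [(0, true), (1, false), (2, true), (0, true), (2, false), (1, false), (0, true), (2, false), (2, false), (0, false), (2, false)]) :=
  Check.check_sound
    (.node 1
    (.node 2
    (.node 1
    (.leaf (lf 1024 0 0 5 47 (-78) 2 0 15 255 255 255))
    (.leaf (lf 16384 0 0 253 745 (-1231) 109 0 240 255 255 255)))
    (.leaf (lf 1024 0 0 7 69 (-106) 4 0 17 255 255 255)))
    (.node 2
    (.node 0
    (.node 2
    (.node 1
    (.leaf (lf 1024 0 0 23 43 (-72) 11 0 14 255 255 255))
    (.leaf (lf 1024 0 0 34 42 (-70) 15 0 14 255 255 255)))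
    (.leaf (lf 16384 0 0 383 861 (-1389) 198 0 245 252 255 168)))
    (.node 1
    (.leaf (lf 648 1024 998 0 123 (-59) 0 0 30 255 255 255))
    (.leaf (lf 414 789 1024 0 121 (-23) 0 0 30 255 188 254))))
    (.node 0
    (.leaf (lf 1024 0 0 18 72 (-108) 11 0 17 255 255 255))
    (.node 1
    (.leaf (lf 1024 0 0 20 60 (-94) 11 0 16 255 255 255))
    (.leaf (lf 1024 0 0 29 58 (-92) 15 0 16 255 255 255))))))
    (by decide +kernel)

def goodS0X_99 :
    Check.Good noCone cfS0X (reach cfS0X ⟨litS0X, 1, fsS0X⟩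
      [(1, false), (2, true), (0, true), (2, false), (1, false), (0, true), (2, false), (2, false), (0, false), (2, false)]) :=
  Check.good_node (a := 0) (by decide +kernel)
    goodS0X_100 goodS0X_101

def goodS0X_103 :
    Check.Good noCone cfS0X (reach cfS0X ⟨litS0X, 1, fsS0X⟩
      [(0, false), (1, true), (2, true), (0, true), (2, false), (1, false), (0, true), (2, false), (2, false), (0, false), (2, false)]) :=
  Check.check_sound
    (.node 1
    (.node 2
    (.node 0
    (.leaf (lf 593 799 1024 0 151 (-66) 0 0 28 197 162 255))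
    (.leaf (lf 441 725 1024 0 138 (-34) 0 0 29 247 179 255)))
    (.leaf (lf 16384 0 0 338 1420 (-1957) 221 0 265 255 255 255)))
    (.node 2
    (.node 0
    (.leaf (lf 391 643 1024 0 149 (-22) 0 0 29 255 177 255))
    (.node 2
    (.node 0
    (.leaf (lf 16384 0 0 979 823 (-1333) 366 0 229 249 255 158))
    (.node 2
    (.leaf (lf 1024 0 0 72 50 (-83) 25 0 16 245 255 127))
    (.leaf (lf 1024 0 0 66 52 (-85) 24 0 15 255 255 255))))
    (.node 0
    (.leaf (lf 1024 0 0 51 59 (-92) 21 0 14 255 255 255))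
    (.leaf (lf 1024 0 0 59 57 (-90) 23 0 15 255 255 255)))))
    (.leaf (lf 547 736 1024 0 191 (-67) 0 0 33 231 151 255))))
    (by decide +kernel)

def goodS0X_105 :
    Check.Good noCone cfS0X (reach cfS0X ⟨litS0X, 1, fsS0X⟩
      [(1, false), (0, true), (1, true), (2, true), (0, true), (2, false), (1, false), (0, true), (2, false), (2, false), (0, false), (2, false)]) :=
  Check.check_sound
    (.node 2
    (.node 0
    (.node 2
    (.node 1
    (.leaf (lf 16384 0 0 723 662 (-1120) 312 0 219 252 255 167))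
    (.node 0
    (.leaf (lf 1024 0 0 54 42 (-71) 22 0 14 255 255 255))
    (.leaf (lf 1024 0 0 60 42 (-72) 24 0 14 255 253 153))))
    (.node 1
    (.leaf (lf 1024 0 0 38 49 (-79) 18 0 14 255 255 255))
    (.leaf (lf 1024 0 0 50 49 (-80) 22 0 14 255 255 255))))
    (.node 2
    (.node 1
    (.node 0
    (.leaf (lf 1024 0 0 52 39 (-69) 22 0 15 255 255 255))
    (.leaf (lf 1024 0 0 57 39 (-70) 24 0 16 255 255 180)))
    (.node 0
    (.leaf (lf 1024 0 0 67 42 (-73) 26 0 16 255 255 255))
    (.leaf (lf 1024 0 0 73 42 (-76) 28 0 17 255 255 255))))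
    (.node 1
    (.leaf (lf 1024 0 0 48 44 (-74) 21 0 15 255 255 170))
    (.leaf (lf 16384 0 0 996 728 (-1238) 400 0 245 248 255 157)))))
    (.node 0
    (.leaf (lf 521 762 1024 0 162 (-59) 0 0 32 221 157 255))
    (.node 2
    (.node 1
    (.leaf (lf 1024 0 0 42 51 (-83) 20 0 15 255 255 255))
    (.leaf (lf 1024 0 0 54 51 (-84) 23 0 15 255 255 255)))
    (.leaf (lf 1024 0 0 41 63 (-99) 20 0 16 252 255 145)))))
    (by decide +kernel)

def goodS0X_107 :
    Check.Good noCone cfS0X (reach cfS0X ⟨litS0X, 1, fsS0X⟩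
      [(2, false), (1, true), (0, true), (1, true), (2, true), (0, true), (2, false), (1, false), (0, true), (2, false), (2, false), (0, false), (2, false)]) :=
  Check.check_sound
    (.node 0
    (.node 2
    (.node 0
    (.node 2
    (.leaf (lf 1024 0 0 80 50 (-87) 27 0 17 242 255 107))
    (.leaf (lf 1024 0 0 74 51 (-87) 26 0 16 244 255 106)))
    (.node 2
    (.leaf (lf 1024 0 0 88 52 (-91) 30 0 19 240 255 129))
    (.leaf (lf 1024 0 0 82 52 (-90) 28 0 18 239 255 107))))
    (.node 0
    (.leaf (lf 1024 0 0 67 55 (-90) 25 0 16 251 255 160))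
    (.leaf (lf 16384 0 0 1198 874 (-1457) 431 0 268 246 255 147))))
    (.node 2
    (.node 0
    (.node 2
    (.leaf (lf 1024 0 0 96 54 (-97) 32 0 21 247 255 121))
    (.leaf (lf 1024 0 0 91 54 (-94) 31 0 20 242 255 135)))
    (.node 2
    (.leaf (lf 1024 0 0 104 56 (-103) 34 0 24 241 255 112))
    (.leaf (lf 1024 0 0 99 56 (-100) 33 0 22 255 255 255))))
    (.node 0
    (.leaf (lf 16384 0 0 1328 880 (-1498) 463 0 291 246 255 145))
    (.node 1
    (.leaf (lf 1024 0 0 81 49 (-85) 30 0 17 255 255 255))
    (.leaf (lf 1024 0 0 101 57 (-99) 33 0 20 255 255 255))))))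
    (by decide +kernel)

def goodS0X_108 :
    Check.Good noCone cfS0X (reach cfS0X ⟨litS0X, 1, fsS0X⟩
      [(2, true), (1, true), (0, true), (1, true), (2, true), (0, true), (2, false), (1, false), (0, true), (2, false), (2, false), (0, false), (2, false)]) :=
  Check.check_sound
    (.node 0
    (.leaf (lf 357 625 1024 0 166 (-15) 0 0 35 255 165 250))
    (.node 2
    (.node 0
    (.leaf (lf 1024 0 0 73 59 (-96) 27 0 17 245 255 138))
    (.leaf (lf 1024 0 0 81 58 (-98) 29 0 18 247 255 133)))
    (.leaf (lf 16384 0 0 1091 1039 (-1654) 425 0 279 243 255 143))))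
    (by decide +kernel)

def goodS0X_106 :
    Check.Good noCone cfS0X (reach cfS0X ⟨litS0X, 1, fsS0X⟩
      [(1, true), (0, true), (1, true), (2, true), (0, true), (2, false), (1, false), (0, true), (2, false), (2, false), (0, false), (2, false)]) :=
  Check.good_node (a := 2) (by decide +kernel)
    goodS0X_107 goodS0X_108

def goodS0X_104 :
    Check.Good noCone cfS0X (reach cfS0X ⟨litS0X, 1, fsS0X⟩
      [(0, true), (1, true), (2, true), (0, true), (2, false), (1, false), (0, true), (2, false), (2, false), (0, false), (2, false)]) :=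
  Check.good_node (a := 1) (by decide +kernel)
    goodS0X_105 goodS0X_106

def goodS0X_102 :
    Check.Good noCone cfS0X (reach cfS0X ⟨litS0X, 1, fsS0X⟩
      [(1, true), (2, true), (0, true), (2, false), (1, false), (0, true), (2, false), (2, false), (0, false), (2, false)]) :=
  Check.good_node (a := 0) (by decide +kernel)
    goodS0X_103 goodS0X_104

def goodS0X_98 :
    Check.Good noCone cfS0X (reach cfS0X ⟨litS0X, 1, fsS0X⟩
      [(2, true), (0, true), (2, false), (1, false), (0, true), (2, false), (2, false), (0, false), (2, false)]) :=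
  Check.good_node (a := 1) (by decide +kernel)
    goodS0X_99 goodS0X_102

def goodS0X_56 :
    Check.Good noCone cfS0X (reach cfS0X ⟨litS0X, 1, fsS0X⟩
      [(0, true), (2, false), (1, false), (0, true), (2, false), (2, false), (0, false), (2, false)]) :=
  Check.good_node (a := 2) (by decide +kernel)
    goodS0X_57 goodS0X_98

def goodS0X_24 :
    Check.Good noCone cfS0X (reach cfS0X ⟨litS0X, 1, fsS0X⟩
      [(2, false), (1, false), (0, true), (2, false), (2, false), (0, false), (2, false)]) :=
  Check.good_node (a := 0) (by decide +kernel)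
    goodS0X_25 goodS0X_56

def goodS0X_109 :
    Check.Good noCone cfS0X (reach cfS0X ⟨litS0X, 1, fsS0X⟩
      [(2, true), (1, false), (0, true), (2, false), (2, false), (0, false), (2, false)]) :=
  Check.check_sound
    (.node 0
    (.leaf (lf 1024 0 0 (-10) 301 (-225) 4 0 22 255 160 232))
    (.node 2
    (.node 0
    (.node 1
    (.leaf (lf 1024 0 0 1 157 (-184) 5 0 21 255 255 255))
    (.leaf (lf 1024 0 0 12 145 (-172) 13 0 20 255 255 255)))
    (.node 1
    (.leaf (lf 1024 0 0 8 118 (-159) 7 0 22 255 255 255))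
    (.node 1
    (.node 2
    (.leaf (lf 16384 0 0 467 1418 (-2030) 273 0 294 255 247 179))
    (.leaf (lf 1024 0 0 18 118 (-157) 16 0 21 255 255 255)))
    (.node 2
    (.leaf (lf 468 700 1024 0 202 (-52) 0 0 38 242 145 255))
    (.leaf (lf 1024 0 0 35 113 (-152) 20 0 20 255 255 255))))))
    (.leaf (lf 1024 0 0 6 211 (-225) 9 0 25 255 245 179))))
    (by decide +kernel)

def goodS0X_23 :
    Check.Good noCone cfS0X (reach cfS0X ⟨litS0X, 1, fsS0X⟩
      [(1, false), (0, true), (2, false), (2, false), (0, false), (2, false)]) :=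
  Check.good_node (a := 2) (by decide +kernel)
    goodS0X_24 goodS0X_109

end

end Vale.Agent.P211.Cert.Interior.Data
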