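import Vale.Agent.P211.Cert.Interior.Data.S0Xr

/-!
P211, a part of a cell of the interior family (generated).
-/

namespace Vale.Agent.P211.Cert.Interior.Data

open Vale.Agent.P098.Check6 (ofChunks eqList reach St Cfg Face)
open Vale.Agent.P098.Cert6.Kron (RootPar parOK)

set_option linter.defProp false

noncomputable section

def goodS0X_1040 :
    Check.Good noCone cfS0X (reach cfS0X ⟨litS0X, 1, fsS0X⟩
      [(2, true)]) :=
  Check.check_sound
    (.node 2
    (.node 0
    (.leaf (lf 720 0 0 (-3) 1024 (-33) (-1) 0 52 255 255 255))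
    (.leaf (lf 921 0 131 90 1024 (-474) 0 0 71 255 153 216)))
    (.node 0
    (.leaf (lf 562 0 0 (-2) 1024 24 (-1) 0 52 255 255 255))
    (.leaf (lf 643 0 0 (-3) 1024 (-299) 4 0 61 255 255 255))))
    (by decide +kernel)

end

end Vale.Agent.P211.Cert.Interior.Data
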