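import Vale.Agent.P211.Cert.Interior.Data.S0Xr

/-!
P211, a part of a cell of the interior family (generated).
-/

namespace Vale.Agent.P211.Cert.Interior.Data

open Vale.Agent.P098.Check6 (ofChunks eqList reach St Cfg Face)
open Vale.Agent.P098.Cert6.Kron (RootPar parOK)

set_option linter.defProp false

noncomputable section

def goodS0X_117 :
    Check.Good noCone cfS0X (reach cfS0X ⟨litS0X, 1, fsS0X⟩
      [(0, false), (1, false), (2, false), (0, false), (2, false), (2, false), (0, false), (1, true), (0, true), (2, false), (2, false), (0, false), (2, false)]) :=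
  Check.check_sound
    (.node 2
    (.node 2
    (.node 0
    (.node 1
    (.node 1
    (.leaf (lf 1024 0 0 48 35 (-54) 14 0 8 255 247 122))
    (.leaf (lf 1024 0 0 61 38 (-60) 15 0 9 255 255 255)))
    (.leaf (lf 1024 0 0 88 46 (-74) 15 0 12 253 255 131)))
    (.node 1
    (.node 1
    (.leaf (lf 1024 0 0 58 35 (-58) 16 0 10 255 255 255))
    (.leaf (lf 1024 0 0 73 40 (-66) 17 0 11 255 255 255)))
    (.leaf (lf 1024 0 0 104 51 (-84) 16 0 15 255 255 255))))
    (.node 0
    (.node 1
    (.leaf (lf 1024 0 0 45 41 (-61) 14 0 9 253 255 161))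
    (.leaf (lf 1024 0 0 76 47 (-71) 14 0 10 255 255 255)))
    (.node 1
    (.leaf (lf 16384 0 0 903 643 (-1005) 249 0 155 245 255 132))
    (.leaf (lf 1024 0 0 92 50 (-78) 16 0 12 255 255 255)))))
    (.node 0
    (.leaf (lf 397 649 1024 0 129 (-9) 0 0 20 255 255 255))
    (.node 2
    (.node 1
    (.leaf (lf 1024 0 0 48 44 (-65) 15 0 9 255 255 255))
    (.leaf (lf 1024 0 0 80 50 (-76) 15 0 11 255 255 255)))
    (.node 1
    (.leaf (lf 1024 0 0 40 49 (-70) 14 0 9 255 255 255))
    (.leaf (lf 1024 0 0 70 53 (-76) 14 0 10 255 255 255))))))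
    (by decide +kernel)

def goodS0X_119 :
    Check.Good noCone cfS0X (reach cfS0X ⟨litS0X, 1, fsS0X⟩
      [(2, false), (0, true), (1, false), (2, false), (0, false), (2, false), (2, false), (0, false), (1, true), (0, true), (2, false), (2, false), (0, false), (2, false)]) :=
  Check.check_sound
    (.node 2
    (.node 0
    (.node 1
    (.node 1
    (.leaf (lf 1024 0 0 68 37 (-63) 18 0 12 255 255 255))
    (.leaf (lf 1024 0 0 85 44 (-75) 19 0 14 255 255 255)))
    (.leaf (lf 1024 0 0 119 56 (-96) 18 0 18 255 255 255)))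
    (.node 1
    (.leaf (lf 16384 0 0 1412 730 (-1282) 329 0 259 254 255 133))
    (.leaf (lf 1024 0 0 135 61 (-108) 19 0 22 255 255 255))))
    (.node 0
    (.node 1
    (.leaf (lf 16384 0 0 1082 664 (-1080) 278 0 181 247 255 128))
    (.leaf (lf 1024 0 0 107 54 (-88) 17 0 15 255 255 255)))
    (.node 1
    (.leaf (lf 1024 0 0 79 44 (-74) 19 0 14 255 255 132))
    (.leaf (lf 1024 0 0 123 58 (-99) 19 0 18 255 255 255)))))
    (by decide +kernel)

def goodS0X_120 :
    Check.Good noCone cfS0X (reach cfS0X ⟨litS0X, 1, fsS0X⟩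
      [(2, true), (0, true), (1, false), (2, false), (0, false), (2, false), (2, false), (0, false), (1, true), (0, true), (2, false), (2, false), (0, false), (2, false)]) :=
  Check.check_sound
    (.node 0
    (.node 2
    (.node 1
    (.leaf (lf 1024 0 0 59 43 (-67) 16 0 10 254 255 107))
    (.leaf (lf 1024 0 0 96 53 (-83) 16 0 13 255 255 255)))
    (.node 1
    (.leaf (lf 1024 0 0 50 47 (-70) 16 0 10 255 255 255))
    (.leaf (lf 1024 0 0 85 53 (-81) 16 0 12 255 255 255))))
    (.node 2
    (.node 1
    (.leaf (lf 1024 0 0 70 44 (-71) 18 0 12 248 255 120))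
    (.leaf (lf 1024 0 0 111 57 (-92) 18 0 16 255 255 255)))
    (.node 1
    (.leaf (lf 1024 0 0 61 46 (-71) 17 0 11 255 255 255))
    (.leaf (lf 1024 0 0 100 56 (-88) 17 0 14 255 255 255)))))
    (by decide +kernel)

def goodS0X_118 :
    Check.Good noCone cfS0X (reach cfS0X ⟨litS0X, 1, fsS0X⟩
      [(0, true), (1, false), (2, false), (0, false), (2, false), (2, false), (0, false), (1, true), (0, true), (2, false), (2, false), (0, false), (2, false)]) :=
  Check.good_node (a := 2) (by decide +kernel)
    goodS0X_119 goodS0X_120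

def goodS0X_116 :
    Check.Good noCone cfS0X (reach cfS0X ⟨litS0X, 1, fsS0X⟩
      [(1, false), (2, false), (0, false), (2, false), (2, false), (0, false), (1, true), (0, true), (2, false), (2, false), (0, false), (2, false)]) :=
  Check.good_node (a := 0) (by decide +kernel)
    goodS0X_117 goodS0X_118

def goodS0X_122 :
    Check.Good noCone cfS0X (reach cfS0X ⟨litS0X, 1, fsS0X⟩
      [(0, false), (1, true), (2, false), (0, false), (2, false), (2, false), (0, false), (1, true), (0, true), (2, false), (2, false), (0, false), (2, false)]) :=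
  Check.check_sound
    (.node 2
    (.node 2
    (.node 0
    (.node 1
    (.leaf (lf 1024 0 0 138 55 (-89) 12 0 14 255 255 255))
    (.leaf (lf 1024 0 0 210 101 0 6 (-12) 8 255 255 255)))
    (.node 1
    (.leaf (lf 1024 0 0 160 61 (-102) 13 0 18 255 255 255))
    (.leaf (lf 1024 0 0 240 112 0 4 (-15) 9 255 255 255))))
    (.node 0
    (.node 1
    (.leaf (lf 1024 0 0 123 54 (-83) 12 0 12 255 255 255))
    (.leaf (lf 1024 0 0 190 52 (-81) 7 0 12 255 255 255)))
    (.node 1
    (.leaf (lf 1024 0 0 144 59 (-94) 13 0 15 255 255 255))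
    (.leaf (lf 1024 0 0 220 107 0 6 (-13) 8 255 255 255)))))
    (.node 0
    (.node 2
    (.node 1
    (.leaf (lf 1024 0 0 109 55 (-80) 12 0 11 255 255 255))
    (.leaf (lf 1024 0 0 171 53 (-78) 8 0 11 255 255 255)))
    (.node 1
    (.leaf (lf 1024 0 0 96 57 (-79) 12 0 10 255 255 255))
    (.leaf (lf 1024 0 0 154 55 (-78) 9 0 10 255 255 255))))
    (.node 2
    (.node 1
    (.leaf (lf 1024 0 0 130 58 (-88) 13 0 13 255 255 255))
    (.leaf (lf 1024 0 0 201 56 (-86) 7 0 13 255 255 255)))
    (.node 1
    (.leaf (lf 1024 0 0 116 59 (-86) 13 0 12 255 255 255))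
    (.leaf (lf 1024 0 0 183 57 (-84) 8 0 12 255 255 255))))))
    (by decide +kernel)

def goodS0X_124 :
    Check.Good noCone cfS0X (reach cfS0X ⟨litS0X, 1, fsS0X⟩
      [(2, false), (0, true), (1, true), (2, false), (0, false), (2, false), (2, false), (0, false), (1, true), (0, true), (2, false), (2, false), (0, false), (2, false)]) :=
  Check.check_sound
    (.node 2
    (.node 0
    (.node 2
    (.node 1
    (.leaf (lf 1024 0 0 186 68 (-118) 13 0 24 255 255 255))
    (.leaf (lf 1024 0 0 278 63 (-110) 1 0 23 255 211 201)))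
    (.node 1
    (.leaf (lf 1024 0 0 178 66 (-113) 13 0 21 255 255 255))
    (.leaf (lf 1024 0 0 266 62 (-106) 3 0 21 255 215 202))))
    (.node 2
    (.node 1
    (.leaf (lf 1024 0 0 208 74 (-133) 13 0 29 255 255 255))
    (.leaf (lf 1024 0 0 309 68 (-122) (-1) 0 27 255 181 219)))
    (.node 1
    (.leaf (lf 1024 0 0 200 72 (-128) 13 0 26 255 255 255))
    (.leaf (lf 1024 0 0 298 67 (-118) 1 0 25 255 192 220)))))
    (.node 0
    (.node 1
    (.leaf (lf 1024 0 0 166 64 (-106) 13 0 19 255 255 255))
    (.leaf (lf 1024 0 0 251 118 0 5 (-16) 9 255 255 255)))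
    (.node 1
    (.leaf (lf 1024 0 0 188 70 (-120) 14 0 23 255 255 255))
    (.leaf (lf 1024 0 0 282 65 (-112) 3 0 22 255 203 216)))))
    (by decide +kernel)

def goodS0X_125 :
    Check.Good noCone cfS0X (reach cfS0X ⟨litS0X, 1, fsS0X⟩
      [(2, true), (0, true), (1, true), (2, false), (0, false), (2, false), (2, false), (0, false), (1, true), (0, true), (2, false), (2, false), (0, false), (2, false)]) :=
  Check.check_sound
    (.node 0
    (.node 2
    (.node 1
    (.leaf (lf 1024 0 0 151 62 (-99) 14 0 16 255 255 255))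
    (.leaf (lf 1024 0 0 231 60 (-96) 7 0 16 255 230 197)))
    (.node 1
    (.leaf (lf 1024 0 0 137 62 (-95) 14 0 14 255 255 255))
    (.leaf (lf 1024 0 0 213 60 (-92) 8 0 14 255 255 255))))
    (.node 2
    (.node 1
    (.leaf (lf 1024 0 0 173 68 (-112) 14 0 19 255 255 255))
    (.leaf (lf 1024 0 0 262 64 (-106) 5 0 19 255 223 202)))
    (.node 1
    (.leaf (lf 1024 0 0 159 66 (-105) 14 0 17 255 255 255))
    (.leaf (lf 1024 0 0 243 63 (-102) 7 0 17 255 233 194)))))
    (by decide +kernel)

def goodS0X_123 :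
    Check.Good noCone cfS0X (reach cfS0X ⟨litS0X, 1, fsS0X⟩
      [(0, true), (1, true), (2, false), (0, false), (2, false), (2, false), (0, false), (1, true), (0, true), (2, false), (2, false), (0, false), (2, false)]) :=
  Check.good_node (a := 2) (by decide +kernel)
    goodS0X_124 goodS0X_125

def goodS0X_121 :
    Check.Good noCone cfS0X (reach cfS0X ⟨litS0X, 1, fsS0X⟩
      [(1, true), (2, false), (0, false), (2, false), (2, false), (0, false), (1, true), (0, true), (2, false), (2, false), (0, false), (2, false)]) :=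
  Check.good_node (a := 0) (by decide +kernel)
    goodS0X_122 goodS0X_123

def goodS0X_115 :
    Check.Good noCone cfS0X (reach cfS0X ⟨litS0X, 1, fsS0X⟩
      [(2, false), (0, false), (2, false), (2, false), (0, false), (1, true), (0, true), (2, false), (2, false), (0, false), (2, false)]) :=
  Check.good_node (a := 1) (by decide +kernel)
    goodS0X_116 goodS0X_121

def goodS0X_127 :
    Check.Good noCone cfS0X (reach cfS0X ⟨litS0X, 1, fsS0X⟩
      [(1, false), (2, true), (0, false), (2, false), (2, false), (0, false), (1, true), (0, true), (2, false), (2, false), (0, false), (2, false)]) :=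
  Check.check_sound
    (.node 0
    (.leaf (lf 618 726 1024 0 167 (-60) 0 0 22 179 178 255))
    (.node 2
    (.node 0
    (.leaf (lf 394 661 1024 0 147 (-8) 0 0 23 255 173 251))
    (.node 1
    (.leaf (lf 1024 0 0 50 53 (-77) 16 0 11 255 255 255))
    (.leaf (lf 16384 0 0 1371 938 (-1389) 263 0 196 255 255 255))))
    (.leaf (lf 478 693 1024 0 165 (-31) 0 0 24 255 255 255))))
    (by decide +kernel)

def goodS0X_128 :
    Check.Good noCone cfS0X (reach cfS0X ⟨litS0X, 1, fsS0X⟩
      [(1, true), (2, true), (0, false), (2, false), (2, false), (0, false), (1, true), (0, true), (2, false), (2, false), (0, false), (2, false)]) :=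
  Check.check_sound
    (.node 0
    (.node 2
    (.node 0
    (.leaf (lf 436 895 1024 0 210 22 0 0 20 255 255 255))
    (.node 2
    (.node 1
    (.leaf (lf 1024 0 0 104 61 (-85) 13 0 11 255 255 255))
    (.leaf (lf 1024 0 0 167 59 (-84) 9 0 11 255 255 255)))
    (.leaf (lf 1024 0 0 123 66 (-90) 11 0 11 255 255 255))))
    (.leaf (lf 521 904 1024 0 223 (-4) 0 0 21 255 255 255)))
    (.node 2
    (.node 0
    (.node 2
    (.node 1
    (.leaf (lf 1024 0 0 125 63 (-92) 14 0 13 255 255 255))
    (.leaf (lf 1024 0 0 196 61 (-90) 9 0 13 255 255 255)))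
    (.leaf (lf 1024 0 0 147 67 (-96) 11 0 13 255 255 255)))
    (.node 2
    (.node 1
    (.leaf (lf 1024 0 0 146 66 (-101) 14 0 15 255 255 255))
    (.leaf (lf 1024 0 0 226 63 (-98) 8 0 15 255 255 255)))
    (.node 1
    (.leaf (lf 1024 0 0 133 66 (-98) 14 0 14 255 255 255))
    (.leaf (lf 1024 0 0 209 64 (-96) 9 0 14 255 255 255)))))
    (.node 0
    (.leaf (lf 437 961 1024 0 252 27 0 0 24 255 255 255))
    (.node 2
    (.leaf (lf 1024 0 0 159 71 (-102) 12 0 14 255 255 255))
    (.leaf (lf 1024 0 0 146 74 (-103) 12 0 13 255 255 255))))))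
    (by decide +kernel)

def goodS0X_126 :
    Check.Good noCone cfS0X (reach cfS0X ⟨litS0X, 1, fsS0X⟩
      [(2, true), (0, false), (2, false), (2, false), (0, false), (1, true), (0, true), (2, false), (2, false), (0, false), (2, false)]) :=
  Check.good_node (a := 1) (by decide +kernel)
    goodS0X_127 goodS0X_128

def goodS0X_114 :
    Check.Good noCone cfS0X (reach cfS0X ⟨litS0X, 1, fsS0X⟩
      [(0, false), (2, false), (2, false), (0, false), (1, true), (0, true), (2, false), (2, false), (0, false), (2, false)]) :=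
  Check.good_node (a := 2) (by decide +kernel)
    goodS0X_115 goodS0X_126

def goodS0X_132 :
    Check.Good noCone cfS0X (reach cfS0X ⟨litS0X, 1, fsS0X⟩
      [(2, false), (1, false), (2, false), (0, true), (2, false), (2, false), (0, false), (1, true), (0, true), (2, false), (2, false), (0, false), (2, false)]) :=
  Check.check_sound
    (.node 0
    (.node 2
    (.node 0
    (.node 1
    (.leaf (lf 1024 0 0 99 50 (-90) 23 0 20 255 253 145))
    (.leaf (lf 1024 0 0 151 67 (-121) 21 0 27 255 255 255)))
    (.node 1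
    (.leaf (lf 1024 0 0 110 54 (-100) 25 0 24 255 255 255))
    (.leaf (lf 1024 0 0 166 72 (-135) 22 0 33 255 255 255))))
    (.node 0
    (.node 1
    (.leaf (lf 1024 0 0 90 48 (-83) 21 0 16 255 250 112))
    (.leaf (lf 1024 0 0 138 64 (-111) 20 0 22 255 255 255)))
    (.node 1
    (.leaf (lf 1024 0 0 101 51 (-92) 24 0 20 254 255 146))
    (.leaf (lf 1024 0 0 154 69 (-124) 22 0 27 255 255 255)))))
    (.node 2
    (.node 0
    (.node 1
    (.leaf (lf 1024 0 0 121 59 (-111) 28 0 29 255 255 255))
    (.leaf (lf 1024 0 0 182 78 (-149) 24 0 39 255 255 255)))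
    (.node 1
    (.leaf (lf 1024 0 0 132 63 (-122) 30 0 34 255 255 255))
    (.leaf (lf 1024 0 0 197 84 (-163) 26 0 47 255 255 255))))
    (.node 0
    (.node 1
    (.leaf (lf 1024 0 0 112 56 (-102) 26 0 23 255 255 255))
    (.leaf (lf 1024 0 0 170 75 (-138) 23 0 32 255 255 255)))
    (.node 1
    (.leaf (lf 1024 0 0 123 60 (-113) 28 0 28 255 255 255))
    (.leaf (lf 1024 0 0 185 81 (-152) 25 0 38 255 255 255))))))
    (by decide +kernel)

def goodS0X_133 :
    Check.Good noCone cfS0X (reach cfS0X ⟨litS0X, 1, fsS0X⟩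
      [(2, true), (1, false), (2, false), (0, true), (2, false), (2, false), (0, false), (1, true), (0, true), (2, false), (2, false), (0, false), (2, false)]) :=
  Check.check_sound
    (.node 0
    (.node 0
    (.node 2
    (.node 1
    (.leaf (lf 1024 0 0 81 46 (-78) 20 0 14 247 255 112))
    (.leaf (lf 1024 0 0 127 61 (-103) 20 0 19 255 255 255)))
    (.node 1
    (.leaf (lf 1024 0 0 73 47 (-75) 19 0 12 255 254 114))
    (.leaf (lf 1024 0 0 116 60 (-97) 19 0 16 255 255 255))))
    (.node 2
    (.node 1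
    (.leaf (lf 1024 0 0 92 50 (-86) 22 0 17 255 255 255))
    (.leaf (lf 1024 0 0 142 66 (-115) 21 0 23 255 255 255)))
    (.node 1
    (.leaf (lf 1024 0 0 84 49 (-82) 21 0 15 251 255 126))
    (.leaf (lf 1024 0 0 131 64 (-108) 20 0 20 255 255 255)))))
    (.node 2
    (.node 0
    (.node 1
    (.leaf (lf 1024 0 0 103 53 (-95) 24 0 20 255 255 255))
    (.leaf (lf 1024 0 0 158 72 (-128) 23 0 27 255 255 255)))
    (.node 1
    (.leaf (lf 1024 0 0 115 58 (-105) 27 0 23 255 255 255))
    (.leaf (lf 1024 0 0 174 77 (-142) 24 0 32 255 255 255))))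
    (.node 0
    (.node 1
    (.leaf (lf 1024 0 0 95 52 (-89) 23 0 17 255 255 255))
    (.leaf (lf 1024 0 0 147 69 (-120) 22 0 23 255 255 255)))
    (.node 1
    (.leaf (lf 1024 0 0 106 56 (-98) 25 0 20 255 255 255))
    (.leaf (lf 1024 0 0 162 74 (-133) 24 0 28 255 255 255))))))
    (by decide +kernel)

def goodS0X_131 :
    Check.Good noCone cfS0X (reach cfS0X ⟨litS0X, 1, fsS0X⟩
      [(1, false), (2, false), (0, true), (2, false), (2, false), (0, false), (1, true), (0, true), (2, false), (2, false), (0, false), (2, false)]) :=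
  Check.good_node (a := 2) (by decide +kernel)
    goodS0X_132 goodS0X_133

def goodS0X_136 :
    Check.Good noCone cfS0X (reach cfS0X ⟨litS0X, 1, fsS0X⟩
      [(0, false), (2, false), (1, true), (2, false), (0, true), (2, false), (2, false), (0, false), (1, true), (0, true), (2, false), (2, false), (0, false), (2, false)]) :=
  Check.check_sound
    (.node 2
    (.node 0
    (.node 2
    (.node 1
    (.leaf (lf 1024 0 0 231 80 (-149) 13 0 35 255 255 255))
    (.leaf (lf 1024 0 0 342 73 (-133) (-5) 0 33 255 184 215)))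
    (.node 1
    (.leaf (lf 1024 0 0 222 79 (-143) 13 0 32 255 255 255))
    (.leaf (lf 1024 0 0 330 72 (-130) (-2) 0 30 255 181 222))))
    (.node 2
    (.node 1
    (.leaf (lf 1024 0 0 253 87 (-164) 12 0 42 255 255 255))
    (.leaf (lf 1024 0 0 374 78 (-145) (-9) 0 39 255 174 219)))
    (.node 1
    (.leaf (lf 1024 0 0 245 85 (-158) 13 0 38 255 255 255))
    (.leaf (lf 1024 0 0 363 77 (-142) (-6) 0 35 255 172 219)))))
    (.node 0
    (.node 1
    (.leaf (lf 1024 0 0 210 76 (-134) 14 0 28 255 255 255))
    (.leaf (lf 16384 0 0 5015 1123 (-1983) 8 0 421 255 190 220)))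
    (.node 1
    (.leaf (lf 1024 0 0 233 83 (-149) 14 0 33 255 255 255))
    (.leaf (lf 1024 0 0 346 75 (-136) (-2) 0 31 255 177 223)))))
    (by decide +kernel)

def goodS0X_137 :
    Check.Good noCone cfS0X (reach cfS0X ⟨litS0X, 1, fsS0X⟩
      [(0, true), (2, false), (1, true), (2, false), (0, true), (2, false), (2, false), (0, false), (1, true), (0, true), (2, false), (2, false), (0, false), (2, false)]) :=
  Check.check_sound
    (.node 2
    (.node 0
    (.node 2
    (.node 1
    (.leaf (lf 1024 0 0 276 94 (-180) 12 0 50 255 255 255))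
    (.leaf (lf 1024 0 0 407 83 (-157) (-14) 0 46 255 143 188)))
    (.node 1
    (.leaf (lf 1024 0 0 267 92 (-174) 13 0 46 255 255 255))
    (.leaf (lf 1024 0 0 395 82 (-154) (-11) 0 42 255 157 188))))
    (.node 2
    (.node 1
    (.leaf (lf 1024 0 0 299 101 (-196) 11 0 59 255 255 255))
    (.leaf (lf 1024 0 0 440 88 (-169) (-20) 0 53 255 138 191)))
    (.node 1
    (.leaf (lf 1024 0 0 290 99 (-190) 12 0 54 255 255 255))
    (.leaf (lf 1024 0 0 428 87 (-166) (-16) 0 49 255 147 189)))))
    (.node 0
    (.node 1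
    (.leaf (lf 1024 0 0 255 89 (-165) 14 0 40 255 255 255))
    (.leaf (lf 1024 0 0 378 80 (-148) (-6) 0 37 255 172 221)))
    (.node 1
    (.leaf (lf 1024 0 0 278 96 (-180) 13 0 47 255 255 255))
    (.leaf (lf 1024 0 0 411 85 (-160) (-10) 0 43 255 160 224)))))
    (by decide +kernel)

def goodS0X_135 :
    Check.Good noCone cfS0X (reach cfS0X ⟨litS0X, 1, fsS0X⟩
      [(2, false), (1, true), (2, false), (0, true), (2, false), (2, false), (0, false), (1, true), (0, true), (2, false), (2, false), (0, false), (2, false)]) :=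
  Check.good_node (a := 0) (by decide +kernel)
    goodS0X_136 goodS0X_137

def goodS0X_138 :
    Check.Good noCone cfS0X (reach cfS0X ⟨litS0X, 1, fsS0X⟩
      [(2, true), (1, true), (2, false), (0, true), (2, false), (2, false), (0, false), (1, true), (0, true), (2, false), (2, false), (0, false), (2, false)]) :=
  Check.check_sound
    (.node 0
    (.node 2
    (.node 0
    (.node 1
    (.leaf (lf 1024 0 0 195 73 (-125) 15 0 23 255 255 255))
    (.leaf (lf 1024 0 0 293 69 (-117) 3 0 23 255 213 202)))
    (.node 1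
    (.leaf (lf 1024 0 0 217 80 (-139) 15 0 28 255 255 255))
    (.leaf (lf 1024 0 0 325 73 (-129) 1 0 27 255 197 217))))
    (.node 0
    (.node 1
    (.leaf (lf 1024 0 0 181 71 (-118) 15 0 20 255 255 255))
    (.leaf (lf 1024 0 0 274 67 (-112) 6 0 20 255 221 208)))
    (.node 1
    (.leaf (lf 1024 0 0 203 77 (-131) 15 0 24 255 255 255))
    (.leaf (lf 1024 0 0 305 72 (-123) 4 0 23 255 201 218)))))
    (.node 2
    (.node 0
    (.node 1
    (.leaf (lf 1024 0 0 239 86 (-154) 15 0 34 255 255 255))
    (.leaf (lf 1024 0 0 357 78 (-141) (-2) 0 32 255 189 216)))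
    (.node 1
    (.leaf (lf 1024 0 0 262 92 (-170) 15 0 40 255 255 255))
    (.leaf (lf 1024 0 0 389 83 (-153) (-5) 0 37 255 174 223))))
    (.node 0
    (.node 1
    (.leaf (lf 1024 0 0 225 83 (-145) 16 0 29 255 255 255))
    (.leaf (lf 1024 0 0 337 77 (-134) 2 0 28 255 194 216)))
    (.node 1
    (.leaf (lf 1024 0 0 247 89 (-160) 16 0 34 255 255 255))
    (.leaf (lf 1024 0 0 369 81 (-146) (-1) 0 32 255 181 224))))))
    (by decide +kernel)

def goodS0X_134 :
    Check.Good noCone cfS0X (reach cfS0X ⟨litS0X, 1, fsS0X⟩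
      [(1, true), (2, false), (0, true), (2, false), (2, false), (0, false), (1, true), (0, true), (2, false), (2, false), (0, false), (2, false)]) :=
  Check.good_node (a := 2) (by decide +kernel)
    goodS0X_135 goodS0X_138

def goodS0X_130 :
    Check.Good noCone cfS0X (reach cfS0X ⟨litS0X, 1, fsS0X⟩
      [(2, false), (0, true), (2, false), (2, false), (0, false), (1, true), (0, true), (2, false), (2, false), (0, false), (2, false)]) :=
  Check.good_node (a := 1) (by decide +kernel)
    goodS0X_131 goodS0X_134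

def goodS0X_141 :
    Check.Good noCone cfS0X (reach cfS0X ⟨litS0X, 1, fsS0X⟩
      [(0, false), (1, false), (2, true), (0, true), (2, false), (2, false), (0, false), (1, true), (0, true), (2, false), (2, false), (0, false), (2, false)]) :=
  Check.check_sound
    (.node 2
    (.node 0
    (.node 1
    (.leaf (lf 16384 0 0 979 816 (-1242) 285 0 185 254 255 158))
    (.leaf (lf 1024 0 0 101 60 (-93) 18 0 14 255 255 255)))
    (.node 1
    (.node 2
    (.leaf (lf 1024 0 0 76 49 (-80) 20 0 13 255 255 255))
    (.leaf (lf 1024 0 0 68 51 (-80) 19 0 12 255 255 255)))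
    (.leaf (lf 16384 0 0 1860 1012 (-1616) 312 0 262 255 255 255))))
    (.node 0
    (.leaf (lf 389 675 1024 0 166 (-7) 0 0 26 255 157 248))
    (.node 1
    (.leaf (lf 1024 0 0 57 58 (-85) 18 0 12 255 255 255))
    (.leaf (lf 1024 0 0 97 65 (-98) 18 0 14 255 255 255)))))
    (by decide +kernel)

def goodS0X_142 :
    Check.Good noCone cfS0X (reach cfS0X ⟨litS0X, 1, fsS0X⟩
      [(0, true), (1, false), (2, true), (0, true), (2, false), (2, false), (0, false), (1, true), (0, true), (2, false), (2, false), (0, false), (2, false)]) :=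
  Check.check_sound
    (.node 2
    (.node 0
    (.node 1
    (.node 2
    (.leaf (lf 1024 0 0 87 51 (-86) 22 0 15 255 255 255))
    (.leaf (lf 1024 0 0 79 52 (-84) 21 0 14 255 255 255)))
    (.leaf (lf 1024 0 0 132 67 (-111) 21 0 19 255 255 255)))
    (.node 1
    (.node 2
    (.leaf (lf 1024 0 0 98 54 (-93) 24 0 18 255 255 255))
    (.leaf (lf 1024 0 0 90 54 (-90) 23 0 16 255 255 255)))
    (.leaf (lf 1024 0 0 147 72 (-122) 23 0 23 255 255 255))))
    (.node 0
    (.node 1
    (.leaf (lf 1024 0 0 68 56 (-86) 20 0 13 255 255 255))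
    (.leaf (lf 1024 0 0 112 67 (-104) 20 0 16 255 255 255)))
    (.node 1
    (.leaf (lf 1024 0 0 79 56 (-89) 22 0 14 255 255 146))
    (.leaf (lf 1024 0 0 128 70 (-112) 22 0 18 255 255 255)))))
    (by decide +kernel)

def goodS0X_140 :
    Check.Good noCone cfS0X (reach cfS0X ⟨litS0X, 1, fsS0X⟩
      [(1, false), (2, true), (0, true), (2, false), (2, false), (0, false), (1, true), (0, true), (2, false), (2, false), (0, false), (2, false)]) :=
  Check.good_node (a := 0) (by decide +kernel)
    goodS0X_141 goodS0X_142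

def goodS0X_144 :
    Check.Good noCone cfS0X (reach cfS0X ⟨litS0X, 1, fsS0X⟩
      [(0, false), (1, true), (2, true), (0, true), (2, false), (2, false), (0, false), (1, true), (0, true), (2, false), (2, false), (0, false), (2, false)]) :=
  Check.check_sound
    (.node 2
    (.node 0
    (.node 2
    (.node 1
    (.leaf (lf 1024 0 0 167 70 (-112) 15 0 18 255 255 255))
    (.leaf (lf 1024 0 0 256 67 (-108) 7 0 18 255 236 190)))
    (.node 1
    (.leaf (lf 1024 0 0 154 70 (-107) 15 0 16 255 255 255))
    (.leaf (lf 1024 0 0 239 67 (-104) 8 0 16 255 255 255))))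
    (.node 2
    (.node 1
    (.leaf (lf 1024 0 0 189 75 (-124) 16 0 21 255 255 255))
    (.leaf (lf 1024 0 0 287 71 (-118) 6 0 21 255 220 209)))
    (.leaf (lf 1024 0 0 224 146 0 12 (-17) 11 243 255 148))))
    (.node 0
    (.node 2
    (.node 1
    (.leaf (lf 1024 0 0 142 70 (-105) 15 0 15 255 255 255))
    (.leaf (lf 1024 0 0 223 68 (-103) 9 0 15 255 255 255)))
    (.leaf (lf 1024 0 0 171 75 (-109) 12 0 15 255 255 255)))
    (.node 2
    (.node 1
    (.leaf (lf 1024 0 0 163 74 (-114) 16 0 17 255 255 255))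
    (.leaf (lf 1024 0 0 253 71 (-111) 9 0 17 255 255 255)))
    (.leaf (lf 1024 0 0 196 140 0 13 (-14) 9 246 255 164)))))
    (by decide +kernel)

def goodS0X_145 :
    Check.Good noCone cfS0X (reach cfS0X ⟨litS0X, 1, fsS0X⟩
      [(0, true), (1, true), (2, true), (0, true), (2, false), (2, false), (0, false), (1, true), (0, true), (2, false), (2, false), (0, false), (2, false)]) :=
  Check.check_sound
    (.node 2
    (.node 0
    (.node 2
    (.node 1
    (.leaf (lf 1024 0 0 211 81 (-137) 16 0 25 255 255 255))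
    (.leaf (lf 1024 0 0 318 75 (-129) 4 0 24 255 207 214)))
    (.node 1
    (.leaf (lf 1024 0 0 197 79 (-130) 16 0 22 255 255 255))
    (.leaf (lf 1024 0 0 301 75 (-124) 6 0 22 255 222 209))))
    (.node 2
    (.node 1
    (.leaf (lf 1024 0 0 233 87 (-151) 16 0 30 255 255 255))
    (.leaf (lf 1024 0 0 350 80 (-140) 2 0 29 255 197 215)))
    (.node 1
    (.leaf (lf 1024 0 0 219 85 (-144) 17 0 27 255 255 255))
    (.leaf (lf 1024 0 0 332 79 (-135) 4 0 26 255 216 205)))))
    (.node 0
    (.node 2
    (.node 1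
    (.leaf (lf 1024 0 0 185 78 (-125) 17 0 20 255 255 255))
    (.leaf (lf 1024 0 0 284 74 (-120) 8 0 20 255 230 208)))
    (.node 1
    (.leaf (lf 1024 0 0 173 78 (-121) 17 0 19 255 255 255))
    (.leaf (lf 1024 0 0 268 75 (-117) 9 0 18 255 255 255))))
    (.node 2
    (.leaf (lf 1024 0 0 262 166 0 12 (-21) 13 245 255 141))
    (.node 1
    (.leaf (lf 1024 0 0 194 82 (-132) 17 0 22 255 255 255))
    (.leaf (lf 1024 0 0 299 78 (-127) 8 0 21 255 221 212))))))
    (by decide +kernel)

def goodS0X_143 :
    Check.Good noCone cfS0X (reach cfS0X ⟨litS0X, 1, fsS0X⟩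
      [(1, true), (2, true), (0, true), (2, false), (2, false), (0, false), (1, true), (0, true), (2, false), (2, false), (0, false), (2, false)]) :=
  Check.good_node (a := 0) (by decide +kernel)
    goodS0X_144 goodS0X_145

def goodS0X_139 :
    Check.Good noCone cfS0X (reach cfS0X ⟨litS0X, 1, fsS0X⟩
      [(2, true), (0, true), (2, false), (2, false), (0, false), (1, true), (0, true), (2, false), (2, false), (0, false), (2, false)]) :=
  Check.good_node (a := 1) (by decide +kernel)
    goodS0X_140 goodS0X_143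

def goodS0X_129 :
    Check.Good noCone cfS0X (reach cfS0X ⟨litS0X, 1, fsS0X⟩
      [(0, true), (2, false), (2, false), (0, false), (1, true), (0, true), (2, false), (2, false), (0, false), (2, false)]) :=
  Check.good_node (a := 2) (by decide +kernel)
    goodS0X_130 goodS0X_139

def goodS0X_113 :
    Check.Good noCone cfS0X (reach cfS0X ⟨litS0X, 1, fsS0X⟩
      [(2, false), (2, false), (0, false), (1, true), (0, true), (2, false), (2, false), (0, false), (2, false)]) :=
  Check.good_node (a := 0) (by decide +kernel)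
    goodS0X_114 goodS0X_129

def goodS0X_147 :
    Check.Good noCone cfS0X (reach cfS0X ⟨litS0X, 1, fsS0X⟩
      [(0, false), (2, true), (2, false), (0, false), (1, true), (0, true), (2, false), (2, false), (0, false), (2, false)]) :=
  Check.check_sound
    (.node 2
    (.node 1
    (.node 0
    (.leaf (lf 1024 0 0 6 122 (-129) 10 0 13 255 255 255))
    (.leaf (lf 1024 0 0 28 100 (-119) 13 0 13 255 255 255)))
    (.node 0
    (.leaf (lf 1024 0 0 65 106 (-116) 10 0 12 255 255 255))
    (.leaf (lf 565 960 1024 0 267 (-15) 0 0 25 255 255 255))))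
    (.node 1
    (.leaf (lf 1024 0 0 2 158 (-155) 10 0 15 255 255 255))
    (.leaf (lf 1024 0 0 59 140 (-141) 10 0 14 255 255 255))))
    (by decide +kernel)

def goodS0X_149 :
    Check.Good noCone cfS0X (reach cfS0X ⟨litS0X, 1, fsS0X⟩
      [(2, false), (0, true), (2, true), (2, false), (0, false), (1, true), (0, true), (2, false), (2, false), (0, false), (2, false)]) :=
  Check.check_sound
    (.node 1
    (.node 0
    (.leaf (lf 522 725 1024 0 194 (-46) 0 0 27 255 190 253))
    (.node 2
    (.node 0
    (.leaf (lf 16384 0 0 1207 1147 (-1667) 299 0 231 245 255 117))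
    (.node 1
    (.leaf (lf 1024 0 0 65 62 (-93) 20 0 14 255 255 255))
    (.leaf (lf 1024 0 0 110 72 (-109) 21 0 16 255 255 255))))
    (.leaf (lf 437 708 1024 0 199 (-23) 0 0 30 255 255 255))))
    (.node 0
    (.node 2
    (.node 0
    (.leaf (lf 1024 0 0 152 80 (-110) 13 0 14 255 255 255))
    (.leaf (lf 1024 0 0 177 80 (-116) 13 0 16 255 255 255)))
    (.leaf (lf 490 1020 1024 0 307 13 0 0 29 255 255 255)))
    (.node 2
    (.node 0
    (.node 1
    (.leaf (lf 1024 0 0 156 80 (-118) 17 0 17 255 255 255))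
    (.leaf (lf 1024 0 0 245 76 (-115) 10 0 17 255 255 255)))
    (.node 1
    (.leaf (lf 1024 0 0 177 83 (-127) 17 0 19 255 255 255))
    (.leaf (lf 1024 0 0 275 79 (-123) 9 0 19 255 239 197))))
    (.node 0
    (.leaf (lf 1024 0 0 178 87 (-123) 14 0 16 255 255 255))
    (.node 1
    (.leaf (lf 1024 0 0 156 85 (-124) 17 0 17 255 255 255))
    (.leaf (lf 1024 0 0 247 82 (-121) 11 0 17 255 255 255)))))))
    (by decide +kernel)

def goodS0X_150 :
    Check.Good noCone cfS0X (reach cfS0X ⟨litS0X, 1, fsS0X⟩
      [(2, true), (0, true), (2, true), (2, false), (0, false), (1, true), (0, true), (2, false), (2, false), (0, false), (2, false)]) :=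
  Check.check_sound
    (.node 1
    (.leaf (lf 11309 12714 16384 0 3916 (-1571) 0 0 502 231 156 255))
    (.node 0
    (.leaf (lf 1024 0 0 114 109 (-131) 13 0 15 255 255 255))
    (.node 2
    (.node 0
    (.leaf (lf 1024 0 0 156 94 (-126) 14 0 16 255 255 255))
    (.leaf (lf 1024 0 0 180 94 (-130) 15 0 17 255 255 255)))
    (.leaf (lf 1024 0 0 149 105 (-135) 14 0 16 255 255 255)))))
    (by decide +kernel)

def goodS0X_148 :
    Check.Good noCone cfS0X (reach cfS0X ⟨litS0X, 1, fsS0X⟩
      [(0, true), (2, true), (2, false), (0, false), (1, true), (0, true), (2, false), (2, false), (0, false), (2, false)]) :=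
  Check.good_node (a := 2) (by decide +kernel)
    goodS0X_149 goodS0X_150

def goodS0X_146 :
    Check.Good noCone cfS0X (reach cfS0X ⟨litS0X, 1, fsS0X⟩
      [(2, true), (2, false), (0, false), (1, true), (0, true), (2, false), (2, false), (0, false), (2, false)]) :=
  Check.good_node (a := 0) (by decide +kernel)
    goodS0X_147 goodS0X_148

def goodS0X_112 :
    Check.Good noCone cfS0X (reach cfS0X ⟨litS0X, 1, fsS0X⟩
      [(2, false), (0, false), (1, true), (0, true), (2, false), (2, false), (0, false), (2, false)]) :=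
  Check.good_node (a := 2) (by decide +kernel)
    goodS0X_113 goodS0X_146

def goodS0X_151 :
    Check.Good noCone cfS0X (reach cfS0X ⟨litS0X, 1, fsS0X⟩
      [(2, true), (0, false), (1, true), (0, true), (2, false), (2, false), (0, false), (2, false)]) :=
  Check.check_sound
    (.node 2
    (.node 0
    (.leaf (lf 1024 0 0 5 229 (-186) 8 0 17 255 255 255))
    (.node 2
    (.node 1
    (.leaf (lf 1024 0 0 24 150 (-163) 14 0 17 255 255 255))
    (.leaf (lf 1024 0 0 107 136 (-154) 13 0 17 255 255 255)))
    (.leaf (lf 1024 0 0 46 186 (-185) 12 0 19 255 255 255))))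
    (.leaf (lf 1024 0 0 13 290 (-217) 8 0 21 255 255 255)))
    (by decide +kernel)

def goodS0X_111 :
    Check.Good noCone cfS0X (reach cfS0X ⟨litS0X, 1, fsS0X⟩
      [(0, false), (1, true), (0, true), (2, false), (2, false), (0, false), (2, false)]) :=
  Check.good_node (a := 2) (by decide +kernel)
    goodS0X_112 goodS0X_151

def goodS0X_157 :
    Check.Good noCone cfS0X (reach cfS0X ⟨litS0X, 1, fsS0X⟩
      [(1, false), (2, false), (0, false), (2, false), (2, false), (0, true), (1, true), (0, true), (2, false), (2, false), (0, false), (2, false)]) :=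
  Check.check_sound
    (.node 2
    (.node 0
    (.node 2
    (.node 1
    (.leaf (lf 16384 0 0 2409 1140 (-2249) 543 0 701 255 247 143))
    (.leaf (lf 1024 0 0 223 94 (-186) 28 0 59 255 255 255)))
    (.node 1
    (.leaf (lf 16384 0 0 2266 1088 (-2091) 507 0 578 255 250 134))
    (.leaf (lf 1024 0 0 211 90 (-174) 27 0 49 255 255 255))))
    (.node 2
    (.node 1
    (.leaf (lf 1024 0 0 172 81 (-163) 40 0 58 255 242 147))
    (.leaf (lf 1024 0 0 253 107 (-215) 31 0 79 255 255 255)))
    (.node 1
    (.leaf (lf 16384 0 0 2608 1235 (-2444) 598 0 776 255 247 137))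
    (.leaf (lf 1024 0 0 241 102 (-203) 30 0 66 255 255 255)))))
    (.node 0
    (.node 2
    (.node 1
    (.leaf (lf 1024 0 0 133 65 (-122) 30 0 30 255 251 130))
    (.leaf (lf 1024 0 0 199 87 (-164) 26 0 42 255 255 255)))
    (.node 1
    (.leaf (lf 1024 0 0 125 63 (-114) 28 0 26 254 255 116))
    (.leaf (lf 1024 0 0 188 84 (-154) 26 0 36 255 255 255))))
    (.node 2
    (.node 1
    (.leaf (lf 1024 0 0 155 74 (-143) 35 0 41 255 251 128))
    (.leaf (lf 1024 0 0 230 99 (-192) 30 0 56 255 255 255)))
    (.node 1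
    (.leaf (lf 1024 0 0 147 71 (-135) 33 0 35 255 252 120))
    (.leaf (lf 1024 0 0 219 95 (-181) 29 0 48 255 255 255))))))
    (by decide +kernel)

def goodS0X_160 :
    Check.Good noCone cfS0X (reach cfS0X ⟨litS0X, 1, fsS0X⟩
      [(0, false), (2, false), (1, true), (2, false), (0, false), (2, false), (2, false), (0, true), (1, true), (0, true), (2, false), (2, false), (0, false), (2, false)]) :=
  Check.check_sound
    (.node 2
    (.node 0
    (.node 2
    (.node 1
    (.leaf (lf 1024 0 0 321 108 (-212) 9 0 69 255 255 255))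
    (.leaf (lf 1024 0 0 473 94 (-181) (-27) 0 61 255 132 189)))
    (.node 1
    (.leaf (lf 1024 0 0 313 106 (-206) 11 0 63 255 255 255))
    (.leaf (lf 1024 0 0 461 92 (-177) (-22) 0 56 255 139 191))))
    (.node 2
    (.node 1
    (.leaf (lf 1024 0 0 344 115 (-229) 8 0 80 255 255 255))
    (.leaf (lf 1024 0 0 506 217 0 (-35) (-62) 32 255 210 58)))
    (.node 1
    (.leaf (lf 1024 0 0 335 113 (-222) 9 0 73 255 255 255))
    (.leaf (lf 1024 0 0 494 98 (-189) (-29) 0 65 255 133 188)))))
    (.node 0
    (.node 1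
    (.leaf (lf 1024 0 0 300 102 (-196) 13 0 55 255 255 255))
    (.leaf (lf 1024 0 0 443 194 0 (-16) (-44) 23 255 222 93)))
    (.node 1
    (.leaf (lf 1024 0 0 323 109 (-212) 12 0 64 255 255 255))
    (.leaf (lf 1024 0 0 476 207 0 (-21) (-51) 26 255 215 84)))))
    (by decide +kernel)

def goodS0X_162 :
    Check.Good noCone cfS0X (reach cfS0X ⟨litS0X, 1, fsS0X⟩
      [(2, false), (0, true), (2, false), (1, true), (2, false), (0, false), (2, false), (2, false), (0, true), (1, true), (0, true), (2, false), (2, false), (0, false), (2, false)]) :=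
  Check.check_sound
    (.node 0
    (.node 2
    (.node 1
    (.leaf (lf 1024 0 0 367 122 (-245) 5 0 93 255 255 255))
    (.node 0
    (.leaf (lf 1024 0 (-540) 424 117 (-481) 0 0 99 210 98 255))
    (.leaf (lf 1024 0 (-563) 433 121 (-508) 0 0 108 209 97 255))))
    (.node 1
    (.leaf (lf 1024 0 0 358 120 (-238) 8 0 84 255 255 255))
    (.leaf (lf 1024 0 0 527 226 0 (-37) (-65) 34 255 211 55))))
    (.node 2
    (.node 1
    (.leaf (lf 1024 0 0 389 130 (-261) 3 0 106 255 255 255))
    (.node 0
    (.node 2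
    (.leaf (lf 1024 0 (-597) 442 127 (-544) 0 0 120 208 91 255))
    (.leaf (lf 1024 0 (-576) 441 125 (-527) 0 0 113 219 95 255)))
    (.node 2
    (.leaf (lf 1024 0 (-618) 450 132 (-571) 0 0 130 206 89 255))
    (.leaf (lf 1024 0 (-597) 450 129 (-554) 0 0 123 210 89 255)))))
    (.node 1
    (.leaf (lf 1024 0 0 381 127 (-254) 6 0 96 255 255 255))
    (.node 0
    (.leaf (lf 1024 0 (-543) 440 122 (-502) 0 0 104 211 98 255))
    (.leaf (lf 16384 0 (-9044) 7182 2018 (-8457) 0 0 1796 208 95 255))))))
    (by decide +kernel)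

def goodS0X_163 :
    Check.Good noCone cfS0X (reach cfS0X ⟨litS0X, 1, fsS0X⟩
      [(2, true), (0, true), (2, false), (1, true), (2, false), (0, false), (2, false), (2, false), (0, true), (1, true), (0, true), (2, false), (2, false), (0, false), (2, false)]) :=
  Check.check_sound
    (.node 0
    (.node 1
    (.leaf (lf 1024 0 0 345 116 (-228) 10 0 74 255 255 255))
    (.leaf (lf 1024 0 0 509 220 0 (-28) (-58) 30 255 215 79)))
    (.node 1
    (.leaf (lf 1024 0 0 368 124 (-244) 9 0 84 255 255 255))
    (.leaf (lf 1024 0 0 542 233 0 (-36) (-66) 34 255 201 79))))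
    (by decide +kernel)

def goodS0X_161 :
    Check.Good noCone cfS0X (reach cfS0X ⟨litS0X, 1, fsS0X⟩
      [(0, true), (2, false), (1, true), (2, false), (0, false), (2, false), (2, false), (0, true), (1, true), (0, true), (2, false), (2, false), (0, false), (2, false)]) :=
  Check.good_node (a := 2) (by decide +kernel)
    goodS0X_162 goodS0X_163

def goodS0X_159 :
    Check.Good noCone cfS0X (reach cfS0X ⟨litS0X, 1, fsS0X⟩
      [(2, false), (1, true), (2, false), (0, false), (2, false), (2, false), (0, true), (1, true), (0, true), (2, false), (2, false), (0, false), (2, false)]) :=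
  Check.good_node (a := 0) (by decide +kernel)
    goodS0X_160 goodS0X_161

def goodS0X_164 :
    Check.Good noCone cfS0X (reach cfS0X ⟨litS0X, 1, fsS0X⟩
      [(2, true), (1, true), (2, false), (0, false), (2, false), (2, false), (0, true), (1, true), (0, true), (2, false), (2, false), (0, false), (2, false)]) :=
  Check.check_sound
    (.node 0
    (.node 2
    (.node 0
    (.node 1
    (.leaf (lf 1024 0 0 284 99 (-185) 14 0 47 255 255 255))
    (.leaf (lf 1024 0 0 422 88 (-165) (-9) 0 43 255 146 196)))
    (.node 1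
    (.leaf (lf 1024 0 0 307 106 (-201) 14 0 54 255 255 255))
    (.leaf (lf 16384 0 0 7274 1496 (-2825) (-224) 0 790 255 143 194))))
    (.node 0
    (.node 1
    (.leaf (lf 1024 0 0 269 96 (-175) 16 0 40 255 255 255))
    (.leaf (lf 1024 0 0 401 86 (-158) (-4) 0 37 255 169 225)))
    (.node 1
    (.leaf (lf 1024 0 0 292 102 (-190) 15 0 47 255 255 255))
    (.leaf (lf 1024 0 0 434 91 (-170) (-8) 0 43 255 165 225)))))
    (.node 2
    (.node 0
    (.node 1
    (.leaf (lf 1024 0 0 329 112 (-217) 13 0 63 255 255 255))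
    (.leaf (lf 16384 0 0 7801 1581 (-3017) (-312) 0 904 255 138 193)))
    (.node 1
    (.leaf (lf 1024 0 0 352 119 (-233) 12 0 72 255 255 255))
    (.leaf (lf 16384 0 0 8329 1667 (-3208) (-412) 0 1028 255 133 192))))
    (.node 0
    (.node 1
    (.leaf (lf 1024 0 0 314 109 (-206) 15 0 54 255 255 255))
    (.leaf (lf 1024 0 0 467 97 (-182) (-13) 0 50 255 144 192)))
    (.node 1
    (.leaf (lf 1024 0 0 337 116 (-222) 14 0 63 255 255 255))
    (.leaf (lf 1024 0 0 500 102 (-194) (-18) 0 56 255 136 195))))))
    (by decide +kernel)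

def goodS0X_158 :
    Check.Good noCone cfS0X (reach cfS0X ⟨litS0X, 1, fsS0X⟩
      [(1, true), (2, false), (0, false), (2, false), (2, false), (0, true), (1, true), (0, true), (2, false), (2, false), (0, false), (2, false)]) :=
  Check.good_node (a := 2) (by decide +kernel)
    goodS0X_159 goodS0X_164

def goodS0X_156 :
    Check.Good noCone cfS0X (reach cfS0X ⟨litS0X, 1, fsS0X⟩
      [(2, false), (0, false), (2, false), (2, false), (0, true), (1, true), (0, true), (2, false), (2, false), (0, false), (2, false)]) :=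
  Check.good_node (a := 1) (by decide +kernel)
    goodS0X_157 goodS0X_158

def goodS0X_166 :
    Check.Good noCone cfS0X (reach cfS0X ⟨litS0X, 1, fsS0X⟩
      [(1, false), (2, true), (0, false), (2, false), (2, false), (0, true), (1, true), (0, true), (2, false), (2, false), (0, false), (2, false)]) :=
  Check.check_sound
    (.node 0
    (.node 2
    (.node 1
    (.node 2
    (.leaf (lf 1024 0 0 116 61 (-108) 27 0 23 250 255 117))
    (.leaf (lf 1024 0 0 109 60 (-103) 26 0 20 250 255 117)))
    (.node 2
    (.leaf (lf 1024 0 0 177 81 (-145) 25 0 31 255 255 255))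
    (.leaf (lf 1024 0 0 167 79 (-138) 25 0 28 255 255 255))))
    (.node 1
    (.node 0
    (.leaf (lf 1024 0 0 90 58 (-94) 24 0 16 253 255 146))
    (.leaf (lf 1024 0 0 102 60 (-100) 26 0 18 255 255 142)))
    (.node 0
    (.leaf (lf 1024 0 0 143 74 (-122) 23 0 21 255 255 255))
    (.leaf (lf 1024 0 0 158 78 (-133) 25 0 25 255 255 255)))))
    (.node 2
    (.node 1
    (.node 2
    (.leaf (lf 1024 0 0 139 69 (-128) 32 0 31 252 255 127))
    (.leaf (lf 1024 0 0 131 67 (-121) 30 0 27 251 255 107)))
    (.leaf (lf 1024 0 0 204 91 (-167) 28 0 39 255 255 255)))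
    (.node 1
    (.node 0
    (.leaf (lf 1024 0 0 113 63 (-108) 28 0 21 253 255 141))
    (.leaf (lf 1024 0 0 124 66 (-116) 30 0 24 255 255 255)))
    (.leaf (lf 1024 0 0 184 87 (-152) 27 0 31 255 255 255)))))
    (by decide +kernel)

def goodS0X_168 :
    Check.Good noCone cfS0X (reach cfS0X ⟨litS0X, 1, fsS0X⟩
      [(0, false), (1, true), (2, true), (0, false), (2, false), (2, false), (0, true), (1, true), (0, true), (2, false), (2, false), (0, false), (2, false)]) :=
  Check.check_sound
    (.node 2
    (.node 2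
    (.node 0
    (.node 1
    (.leaf (lf 1024 0 0 255 93 (-166) 17 0 35 255 255 255))
    (.leaf (lf 1024 0 0 382 85 (-152) (-1) 0 33 255 188 221)))
    (.node 1
    (.leaf (lf 1024 0 0 277 99 (-181) 17 0 41 255 255 255))
    (.leaf (lf 1024 0 0 415 90 (-164) (-4) 0 38 255 174 224))))
    (.node 0
    (.node 1
    (.leaf (lf 1024 0 0 241 91 (-158) 17 0 31 255 255 255))
    (.leaf (lf 1024 0 0 364 84 (-146) 2 0 30 255 200 216)))
    (.node 1
    (.leaf (lf 1024 0 0 264 97 (-172) 17 0 36 255 255 255))
    (.leaf (lf 1024 0 0 396 88 (-158) (-1) 0 34 255 192 219)))))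
    (.node 0
    (.node 2
    (.leaf (lf 1024 0 0 289 180 0 11 (-25) 15 245 255 128))
    (.node 1
    (.leaf (lf 1024 0 0 216 87 (-144) 18 0 25 255 255 255))
    (.leaf (lf 1024 0 0 330 82 (-137) 6 0 24 255 216 210))))
    (.node 2
    (.node 1
    (.leaf (lf 1024 0 0 251 94 (-164) 18 0 32 255 255 255))
    (.leaf (lf 1024 0 0 378 87 (-152) 2 0 31 255 204 217)))
    (.leaf (lf 16384 0 0 4822 3015 0 181 (-422) 247 246 255 128)))))
    (by decide +kernel)

def goodS0X_169 :
    Check.Good noCone cfS0X (reach cfS0X ⟨litS0X, 1, fsS0X⟩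
      [(0, true), (1, true), (2, true), (0, false), (2, false), (2, false), (0, true), (1, true), (0, true), (2, false), (2, false), (0, false), (2, false)]) :=
  Check.check_sound
    (.node 2
    (.node 2
    (.node 0
    (.node 1
    (.leaf (lf 1024 0 0 300 106 (-196) 16 0 48 255 255 255))
    (.leaf (lf 1024 0 0 447 95 (-176) (-8) 0 44 255 154 195)))
    (.node 1
    (.leaf (lf 1024 0 0 322 112 (-212) 16 0 55 255 255 255))
    (.leaf (lf 1024 0 0 480 100 (-188) (-12) 0 50 255 143 197))))
    (.node 0
    (.node 1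
    (.leaf (lf 1024 0 0 286 103 (-187) 17 0 42 255 255 255))
    (.leaf (lf 1024 0 0 429 93 (-170) (-4) 0 39 255 179 223)))
    (.node 1
    (.leaf (lf 1024 0 0 309 109 (-203) 17 0 49 255 255 255))
    (.leaf (lf 1024 0 0 461 98 (-182) (-8) 0 45 255 159 194)))))
    (.node 0
    (.node 2
    (.node 1
    (.leaf (lf 1024 0 0 273 101 (-179) 18 0 38 255 255 255))
    (.leaf (lf 1024 0 0 411 92 (-164) 0 0 35 255 183 225)))
    (.leaf (lf 16384 0 0 5258 3244 0 165 (-488) 280 247 255 122)))
    (.node 2
    (.node 1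
    (.leaf (lf 1024 0 0 295 107 (-194) 18 0 43 255 255 255))
    (.leaf (lf 1024 0 0 443 97 (-176) (-4) 0 40 255 160 195)))
    (.leaf (lf 16384 0 0 5699 3481 0 145 (-563) 316 249 255 118)))))
    (by decide +kernel)

def goodS0X_167 :
    Check.Good noCone cfS0X (reach cfS0X ⟨litS0X, 1, fsS0X⟩
      [(1, true), (2, true), (0, false), (2, false), (2, false), (0, true), (1, true), (0, true), (2, false), (2, false), (0, false), (2, false)]) :=
  Check.good_node (a := 0) (by decide +kernel)
    goodS0X_168 goodS0X_169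

def goodS0X_165 :
    Check.Good noCone cfS0X (reach cfS0X ⟨litS0X, 1, fsS0X⟩
      [(2, true), (0, false), (2, false), (2, false), (0, true), (1, true), (0, true), (2, false), (2, false), (0, false), (2, false)]) :=
  Check.good_node (a := 1) (by decide +kernel)
    goodS0X_166 goodS0X_167

def goodS0X_155 :
    Check.Good noCone cfS0X (reach cfS0X ⟨litS0X, 1, fsS0X⟩
      [(0, false), (2, false), (2, false), (0, true), (1, true), (0, true), (2, false), (2, false), (0, false), (2, false)]) :=
  Check.good_node (a := 2) (by decide +kernel)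
    goodS0X_156 goodS0X_165

def goodS0X_172 :
    Check.Good noCone cfS0X (reach cfS0X ⟨litS0X, 1, fsS0X⟩
      [(1, false), (2, false), (0, true), (2, false), (2, false), (0, true), (1, true), (0, true), (2, false), (2, false), (0, false), (2, false)]) :=
  Check.check_sound
    (.node 2
    (.node 0
    (.node 2
    (.node 1
    (.leaf (lf 1024 0 0 192 90 (-185) 47 0 76 255 255 255))
    (.leaf (lf 1024 0 0 283 120 (-244) 35 0 103 255 255 255)))
    (.node 1
    (.leaf (lf 1024 0 0 184 87 (-175) 44 0 63 255 255 255))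
    (.leaf (lf 1024 0 0 271 115 (-232) 34 0 86 255 255 255))))
    (.node 2
    (.node 1
    (.leaf (lf 1024 0 0 212 100 (-208) 55 0 97 255 255 255))
    (.leaf (lf 1024 0 0 312 133 (-273) 38 0 130 255 255 255)))
    (.node 1
    (.leaf (lf 1024 0 0 204 96 (-197) 51 0 81 255 255 255))
    (.leaf (lf 1024 0 0 301 128 (-260) 38 0 109 255 255 255)))))
    (.node 0
    (.node 2
    (.node 1
    (.leaf (lf 1024 0 0 176 83 (-165) 41 0 54 255 249 133))
    (.leaf (lf 1024 0 0 260 111 (-220) 33 0 73 255 255 255)))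
    (.node 1
    (.leaf (lf 1024 0 0 168 80 (-156) 39 0 46 255 255 255))
    (.leaf (lf 1024 0 0 250 107 (-209) 33 0 63 255 255 255))))
    (.node 2
    (.node 1
    (.leaf (lf 1024 0 0 197 93 (-187) 47 0 69 255 255 255))
    (.leaf (lf 1024 0 0 290 123 (-249) 37 0 94 255 255 255)))
    (.node 1
    (.leaf (lf 1024 0 0 189 89 (-178) 45 0 59 255 255 255))
    (.leaf (lf 1024 0 0 280 119 (-238) 36 0 81 255 255 255))))))
    (by decide +kernel)

def goodS0X_177 :
    Check.Good noCone cfS0X (reach cfS0X ⟨litS0X, 1, fsS0X⟩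
      [(0, false), (2, false), (0, false), (2, false), (1, true), (2, false), (0, true), (2, false), (2, false), (0, true), (1, true), (0, true), (2, false), (2, false), (0, false), (2, false)]) :=
  Check.check_sound
    (.node 2
    (.node 1
    (.leaf (lf 1024 0 0 412 138 (-277) 0 0 120 255 255 255))
    (.node 2
    (.node 0
    (.node 1
    (.leaf (lf 1024 0 0 542 129 (-255) (-43) 0 114 255 255 255))
    (.leaf (lf 1024 0 0 652 94 (-181) (-82) 0 82 255 97 196)))
    (.node 1
    (.leaf (lf 1024 0 0 557 133 (-261) (-47) 0 121 255 255 255))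
    (.leaf (lf 1024 0 0 669 96 (-185) (-89) 0 87 255 97 197))))
    (.node 0
    (.leaf (lf 1024 0 (-617) 458 134 (-581) 0 0 133 207 88 255))
    (.node 1
    (.leaf (lf 1024 0 0 551 132 (-259) (-43) 0 116 255 255 255))
    (.leaf (lf 1024 0 0 663 96 (-184) (-84) 0 84 255 106 195))))))
    (.node 1
    (.leaf (lf 1024 0 0 403 135 (-270) 3 0 110 255 255 255))
    (.node 0
    (.node 2
    (.leaf (lf 1024 0 (-597) 458 132 (-564) 0 0 125 209 88 255))
    (.leaf (lf 1024 0 (-577) 457 130 (-548) 0 0 118 218 93 255)))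
    (.node 2
    (.leaf (lf 1024 0 (-617) 466 136 (-591) 0 0 135 207 87 255))
    (.leaf (lf 1024 0 (-598) 466 134 (-575) 0 0 127 209 90 255))))))
    (by decide +kernel)

def goodS0X_179 :
    Check.Good noCone cfS0X (reach cfS0X ⟨litS0X, 1, fsS0X⟩
      [(2, false), (0, true), (2, false), (0, false), (2, false), (1, true), (2, false), (0, true), (2, false), (2, false), (0, true), (1, true), (0, true), (2, false), (2, false), (0, false), (2, false)]) :=
  Check.check_sound
    (.node 1
    (.leaf (lf 1024 0 0 434 145 (-293) (-3) 0 136 255 255 255))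
    (.node 2
    (.node 0
    (.node 1
    (.leaf (lf 1024 0 0 571 137 (-268) (-52) 0 128 255 255 255))
    (.leaf (lf 1024 0 0 686 99 (-189) (-97) 0 92 255 103 193)))
    (.node 1
    (.leaf (lf 1024 0 0 586 141 (-275) (-57) 0 136 255 255 255))
    (.leaf (lf 1024 0 0 703 101 (-193) (-104) 0 97 255 97 193))))
    (.node 0
    (.node 1
    (.leaf (lf 1024 0 0 566 135 (-266) (-48) 0 123 255 255 255))
    (.leaf (lf 1024 0 0 680 98 (-188) (-91) 0 88 255 105 192)))
    (.node 1
    (.leaf (lf 1024 0 0 581 139 (-273) (-52) 0 130 255 255 255))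
    (.leaf (lf 1024 0 0 698 100 (-192) (-98) 0 93 255 98 194))))))
    (by decide +kernel)

def goodS0X_180 :
    Check.Good noCone cfS0X (reach cfS0X ⟨litS0X, 1, fsS0X⟩
      [(2, true), (0, true), (2, false), (0, false), (2, false), (1, true), (2, false), (0, true), (2, false), (2, false), (0, true), (1, true), (0, true), (2, false), (2, false), (0, false), (2, false)]) :=
  Check.check_sound
    (.node 1
    (.leaf (lf 1024 0 0 425 142 (-286) 1 0 124 255 255 255))
    (.node 0
    (.node 2
    (.node 1
    (.leaf (lf 1024 0 0 561 134 (-264) (-44) 0 117 255 255 255))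
    (.leaf (lf 1024 0 0 675 97 (-187) (-85) 0 85 255 100 201)))
    (.leaf (lf 1024 0 (-617) 474 139 (-601) 0 0 137 206 87 255)))
    (.node 2
    (.node 1
    (.leaf (lf 1024 0 0 575 138 (-271) (-48) 0 125 255 255 255))
    (.leaf (lf 1024 0 0 692 100 (-191) (-92) 0 90 255 99 197)))
    (.node 1
    (.leaf (lf 1024 0 0 570 136 (-268) (-45) 0 119 255 255 255))
    (.leaf (lf 1024 0 0 686 99 (-191) (-87) 0 87 255 108 195))))))
    (by decide +kernel)

def goodS0X_178 :
    Check.Good noCone cfS0X (reach cfS0X ⟨litS0X, 1, fsS0X⟩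
      [(0, true), (2, false), (0, false), (2, false), (1, true), (2, false), (0, true), (2, false), (2, false), (0, true), (1, true), (0, true), (2, false), (2, false), (0, false), (2, false)]) :=
  Check.good_node (a := 2) (by decide +kernel)
    goodS0X_179 goodS0X_180

def goodS0X_176 :
    Check.Good noCone cfS0X (reach cfS0X ⟨litS0X, 1, fsS0X⟩
      [(2, false), (0, false), (2, false), (1, true), (2, false), (0, true), (2, false), (2, false), (0, true), (1, true), (0, true), (2, false), (2, false), (0, false), (2, false)]) :=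
  Check.good_node (a := 0) (by decide +kernel)
    goodS0X_177 goodS0X_178

def goodS0X_181 :
    Check.Good noCone cfS0X (reach cfS0X ⟨litS0X, 1, fsS0X⟩
      [(2, true), (0, false), (2, false), (1, true), (2, false), (0, true), (2, false), (2, false), (0, true), (1, true), (0, true), (2, false), (2, false), (0, false), (2, false)]) :=
  Check.check_sound
    (.node 0
    (.node 1
    (.leaf (lf 1024 0 0 390 131 (-260) 7 0 96 255 255 255))
    (.node 1
    (.leaf (lf 1024 0 0 520 125 (-245) (-27) 0 93 255 255 255))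
    (.leaf (lf 1024 0 0 627 93 (-179) (-60) 0 69 255 141 210))))
    (.node 1
    (.leaf (lf 1024 0 0 413 138 (-277) 5 0 109 255 255 255))
    (.node 1
    (.leaf (lf 1024 0 0 550 132 (-259) (-34) 0 105 255 255 255))
    (.leaf (lf 1024 0 0 662 97 (-187) (-71) 0 77 255 136 209)))))
    (by decide +kernel)

def goodS0X_175 :
    Check.Good noCone cfS0X (reach cfS0X ⟨litS0X, 1, fsS0X⟩
      [(0, false), (2, false), (1, true), (2, false), (0, true), (2, false), (2, false), (0, true), (1, true), (0, true), (2, false), (2, false), (0, false), (2, false)]) :=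
  Check.good_node (a := 2) (by decide +kernel)
    goodS0X_176 goodS0X_181

def goodS0X_185 :
    Check.Good noCone cfS0X (reach cfS0X ⟨litS0X, 1, fsS0X⟩
      [(2, false), (0, false), (2, false), (0, true), (2, false), (1, true), (2, false), (0, true), (2, false), (2, false), (0, true), (1, true), (0, true), (2, false), (2, false), (0, false), (2, false)]) :=
  Check.check_sound
    (.node 1
    (.leaf (lf 1024 0 0 456 153 (-308) (-6) 0 153 255 255 255))
    (.node 2
    (.node 0
    (.node 1
    (.leaf (lf 1024 0 0 600 144 (-282) (-62) 0 144 255 255 255))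
    (.leaf (lf 1024 0 0 720 104 (-197) (-112) 0 102 255 95 190)))
    (.node 1
    (.leaf (lf 1024 0 0 615 148 (-288) (-67) 0 152 255 255 255))
    (.leaf (lf 1024 0 0 737 106 (-201) (-120) 0 108 255 93 193))))
    (.node 0
    (.node 1
    (.leaf (lf 1024 0 0 595 143 (-279) (-57) 0 138 255 255 255))
    (.leaf (lf 1024 0 0 715 103 (-196) (-105) 0 99 255 92 194)))
    (.node 1
    (.leaf (lf 1024 0 0 610 147 (-286) (-62) 0 145 255 255 255))
    (.leaf (lf 1024 0 0 731 105 (-200) (-113) 0 104 255 97 194))))))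
    (by decide +kernel)

def goodS0X_186 :
    Check.Good noCone cfS0X (reach cfS0X ⟨litS0X, 1, fsS0X⟩
      [(2, true), (0, false), (2, false), (0, true), (2, false), (1, true), (2, false), (0, true), (2, false), (2, false), (0, true), (1, true), (0, true), (2, false), (2, false), (0, false), (2, false)]) :=
  Check.check_sound
    (.node 1
    (.leaf (lf 1024 0 0 448 150 (-302) (-3) 0 140 255 255 255))
    (.node 2
    (.node 0
    (.node 1
    (.leaf (lf 1024 0 0 590 141 (-277) (-53) 0 132 255 255 255))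
    (.leaf (lf 1024 0 0 709 102 (-195) (-99) 0 95 255 97 196)))
    (.node 1
    (.leaf (lf 1024 0 0 604 145 (-284) (-58) 0 139 255 255 255))
    (.leaf (lf 1024 0 0 726 105 (-199) (-107) 0 100 255 100 194))))
    (.node 0
    (.node 1
    (.leaf (lf 1024 0 0 585 140 (-275) (-49) 0 127 255 255 255))
    (.leaf (lf 1024 0 0 703 102 (-195) (-93) 0 91 255 96 197)))
    (.node 1
    (.leaf (lf 1024 0 0 599 144 (-282) (-54) 0 134 255 255 255))
    (.leaf (lf 1024 0 0 721 104 (-199) (-101) 0 96 255 99 194))))))
    (by decide +kernel)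

def goodS0X_184 :
    Check.Good noCone cfS0X (reach cfS0X ⟨litS0X, 1, fsS0X⟩
      [(0, false), (2, false), (0, true), (2, false), (1, true), (2, false), (0, true), (2, false), (2, false), (0, true), (1, true), (0, true), (2, false), (2, false), (0, false), (2, false)]) :=
  Check.good_node (a := 2) (by decide +kernel)
    goodS0X_185 goodS0X_186

def goodS0X_188 :
    Check.Good noCone cfS0X (reach cfS0X ⟨litS0X, 1, fsS0X⟩
      [(2, false), (0, true), (2, false), (0, true), (2, false), (1, true), (2, false), (0, true), (2, false), (2, false), (0, true), (1, true), (0, true), (2, false), (2, false), (0, false), (2, false)]) :=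
  Check.check_sound
    (.node 1
    (.leaf (lf 1024 0 0 478 162 (-324) (-10) 0 171 255 255 255))
    (.node 2
    (.node 0
    (.node 1
    (.leaf (lf 1024 0 0 629 152 (-295) (-72) 0 160 255 255 255))
    (.leaf (lf 908 0 (-1024) 464 145 (-935) 0 0 229 200 79 255)))
    (.node 1
    (.leaf (lf 1024 0 0 643 156 (-301) (-78) 0 169 255 255 255))
    (.leaf (lf 1024 0 0 770 112 (-208) (-137) 0 120 255 90 190))))
    (.node 0
    (.node 1
    (.leaf (lf 1024 0 0 624 150 (-293) (-67) 0 154 255 255 255))
    (.leaf (lf 1024 0 0 748 108 (-204) (-121) 0 109 255 93 193)))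
    (.node 1
    (.leaf (lf 1024 0 0 638 154 (-299) (-73) 0 162 255 255 255))
    (.leaf (lf 1024 0 0 765 111 (-208) (-129) 0 115 255 88 196))))))
    (by decide +kernel)

def goodS0X_189 :
    Check.Good noCone cfS0X (reach cfS0X ⟨litS0X, 1, fsS0X⟩
      [(2, true), (0, true), (2, false), (0, true), (2, false), (1, true), (2, false), (0, true), (2, false), (2, false), (0, true), (1, true), (0, true), (2, false), (2, false), (0, false), (2, false)]) :=
  Check.check_sound
    (.node 1
    (.leaf (lf 1024 0 0 470 158 (-318) (-6) 0 156 255 255 255))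
    (.node 2
    (.node 0
    (.node 1
    (.leaf (lf 1024 0 0 619 149 (-291) (-63) 0 147 255 255 255))
    (.leaf (lf 1024 0 0 743 107 (-203) (-114) 0 105 255 92 198)))
    (.node 1
    (.leaf (lf 1024 0 0 633 153 (-297) (-68) 0 155 255 255 255))
    (.leaf (lf 1024 0 0 760 110 (-207) (-122) 0 111 255 89 195))))
    (.node 0
    (.node 1
    (.leaf (lf 1024 0 0 614 148 (-289) (-58) 0 141 255 255 255))
    (.leaf (lf 1024 0 0 738 106 (-203) (-108) 0 101 255 94 195)))
    (.node 1
    (.leaf (lf 1024 0 0 628 151 (-295) (-63) 0 149 255 255 255))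
    (.leaf (lf 1024 0 0 754 109 (-207) (-116) 0 107 255 99 195))))))
    (by decide +kernel)

def goodS0X_187 :
    Check.Good noCone cfS0X (reach cfS0X ⟨litS0X, 1, fsS0X⟩
      [(0, true), (2, false), (0, true), (2, false), (1, true), (2, false), (0, true), (2, false), (2, false), (0, true), (1, true), (0, true), (2, false), (2, false), (0, false), (2, false)]) :=
  Check.good_node (a := 2) (by decide +kernel)
    goodS0X_188 goodS0X_189

def goodS0X_183 :
    Check.Good noCone cfS0X (reach cfS0X ⟨litS0X, 1, fsS0X⟩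
      [(2, false), (0, true), (2, false), (1, true), (2, false), (0, true), (2, false), (2, false), (0, true), (1, true), (0, true), (2, false), (2, false), (0, false), (2, false)]) :=
  Check.good_node (a := 0) (by decide +kernel)
    goodS0X_184 goodS0X_187

def goodS0X_190 :
    Check.Good noCone cfS0X (reach cfS0X ⟨litS0X, 1, fsS0X⟩
      [(2, true), (0, true), (2, false), (1, true), (2, false), (0, true), (2, false), (2, false), (0, true), (1, true), (0, true), (2, false), (2, false), (0, false), (2, false)]) :=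
  Check.check_sound
    (.node 0
    (.node 1
    (.leaf (lf 1024 0 0 435 146 (-292) 2 0 123 255 255 255))
    (.node 1
    (.leaf (lf 1024 0 0 579 139 (-273) (-42) 0 118 255 255 255))
    (.leaf (lf 1024 0 0 697 102 (-195) (-83) 0 86 255 110 174))))
    (.node 1
    (.leaf (lf 1024 0 0 457 154 (-308) (-1) 0 138 255 255 255))
    (.node 1
    (.leaf (lf 1024 0 0 608 146 (-286) (-51) 0 132 255 255 255))
    (.leaf (lf 1024 0 0 732 106 (-204) (-97) 0 95 255 108 171)))))
    (by decide +kernel)

def goodS0X_182 :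
    Check.Good noCone cfS0X (reach cfS0X ⟨litS0X, 1, fsS0X⟩
      [(0, true), (2, false), (1, true), (2, false), (0, true), (2, false), (2, false), (0, true), (1, true), (0, true), (2, false), (2, false), (0, false), (2, false)]) :=
  Check.good_node (a := 2) (by decide +kernel)
    goodS0X_183 goodS0X_190

def goodS0X_174 :
    Check.Good noCone cfS0X (reach cfS0X ⟨litS0X, 1, fsS0X⟩
      [(2, false), (1, true), (2, false), (0, true), (2, false), (2, false), (0, true), (1, true), (0, true), (2, false), (2, false), (0, false), (2, false)]) :=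
  Check.good_node (a := 0) (by decide +kernel)
    goodS0X_175 goodS0X_182

def goodS0X_192 :
    Check.Good noCone cfS0X (reach cfS0X ⟨litS0X, 1, fsS0X⟩
      [(0, false), (2, true), (1, true), (2, false), (0, true), (2, false), (2, false), (0, true), (1, true), (0, true), (2, false), (2, false), (0, false), (2, false)]) :=
  Check.check_sound
    (.node 2
    (.node 0
    (.node 1
    (.leaf (lf 1024 0 0 375 126 (-249) 11 0 82 255 255 255))
    (.leaf (lf 1024 0 0 553 239 0 (-33) (-65) 33 255 203 75)))
    (.node 1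
    (.leaf (lf 1024 0 0 397 134 (-265) 9 0 93 255 255 255))
    (.leaf (lf 1024 0 0 586 252 0 (-41) (-73) 37 255 203 74))))
    (.node 0
    (.node 1
    (.leaf (lf 1024 0 0 359 122 (-238) 13 0 71 255 255 255))
    (.leaf (lf 1024 0 0 533 107 (-206) (-24) 0 64 255 134 194)))
    (.node 1
    (.leaf (lf 1024 0 0 382 129 (-254) 12 0 81 255 255 255))
    (.leaf (lf 1024 0 0 566 245 0 (-31) (-64) 33 255 219 71)))))
    (by decide +kernel)

def goodS0X_193 :
    Check.Good noCone cfS0X (reach cfS0X ⟨litS0X, 1, fsS0X⟩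
      [(0, true), (2, true), (1, true), (2, false), (0, true), (2, false), (2, false), (0, true), (1, true), (0, true), (2, false), (2, false), (0, false), (2, false)]) :=
  Check.check_sound
    (.node 2
    (.node 0
    (.node 1
    (.leaf (lf 1024 0 0 419 141 (-281) 7 0 106 255 255 255))
    (.node 1
    (.leaf (lf 1024 0 0 559 135 (-264) (-31) 0 102 255 255 255))
    (.leaf (lf 1024 0 0 675 100 (-192) (-67) 0 76 255 140 207))))
    (.node 1
    (.leaf (lf 1024 0 0 442 148 (-297) 5 0 119 255 255 255))
    (.node 1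
    (.leaf (lf 1024 0 0 589 142 (-278) (-38) 0 114 255 255 255))
    (.leaf (lf 1024 0 0 711 104 (-201) (-78) 0 84 255 129 211)))))
    (.node 0
    (.node 1
    (.leaf (lf 1024 0 0 404 137 (-270) 11 0 92 255 255 255))
    (.leaf (lf 1024 0 0 599 258 0 (-38) (-72) 37 255 204 64)))
    (.node 1
    (.leaf (lf 1024 0 0 427 144 (-286) 9 0 103 255 255 255))
    (.node 1
    (.leaf (lf 1024 0 0 570 138 (-270) (-28) 0 100 255 255 255))
    (.leaf (lf 1024 0 0 690 102 (-197) (-64) 0 75 255 140 209))))))
    (by decide +kernel)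

def goodS0X_191 :
    Check.Good noCone cfS0X (reach cfS0X ⟨litS0X, 1, fsS0X⟩
      [(2, true), (1, true), (2, false), (0, true), (2, false), (2, false), (0, true), (1, true), (0, true), (2, false), (2, false), (0, false), (2, false)]) :=
  Check.good_node (a := 0) (by decide +kernel)
    goodS0X_192 goodS0X_193

def goodS0X_173 :
    Check.Good noCone cfS0X (reach cfS0X ⟨litS0X, 1, fsS0X⟩
      [(1, true), (2, false), (0, true), (2, false), (2, false), (0, true), (1, true), (0, true), (2, false), (2, false), (0, false), (2, false)]) :=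
  Check.good_node (a := 2) (by decide +kernel)
    goodS0X_174 goodS0X_191

def goodS0X_171 :
    Check.Good noCone cfS0X (reach cfS0X ⟨litS0X, 1, fsS0X⟩
      [(2, false), (0, true), (2, false), (2, false), (0, true), (1, true), (0, true), (2, false), (2, false), (0, false), (2, false)]) :=
  Check.good_node (a := 1) (by decide +kernel)
    goodS0X_172 goodS0X_173

def goodS0X_195 :
    Check.Good noCone cfS0X (reach cfS0X ⟨litS0X, 1, fsS0X⟩
      [(1, false), (2, true), (0, true), (2, false), (2, false), (0, true), (1, true), (0, true), (2, false), (2, false), (0, false), (2, false)]) :=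
  Check.check_sound
    (.node 2
    (.node 0
    (.node 1
    (.node 2
    (.leaf (lf 1024 0 0 160 78 (-148) 37 0 40 255 255 255))
    (.leaf (lf 1024 0 0 153 75 (-141) 35 0 35 255 255 255)))
    (.leaf (lf 1024 0 0 235 103 (-194) 31 0 52 255 255 255)))
    (.node 1
    (.leaf (lf 1024 0 0 179 86 (-165) 41 0 48 255 244 155))
    (.leaf (lf 1024 0 0 265 114 (-222) 35 0 66 255 255 255))))
    (.node 0
    (.node 1
    (.node 2
    (.leaf (lf 1024 0 0 145 73 (-135) 34 0 31 255 255 255))
    (.leaf (lf 1024 0 0 138 72 (-129) 33 0 28 253 255 119)))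
    (.leaf (lf 1024 0 0 215 97 (-178) 30 0 41 255 255 255)))
    (.node 1
    (.leaf (lf 1024 0 0 164 81 (-151) 38 0 38 255 249 144))
    (.leaf (lf 1024 0 0 246 109 (-204) 34 0 53 255 255 255)))))
    (by decide +kernel)

def goodS0X_197 :
    Check.Good noCone cfS0X (reach cfS0X ⟨litS0X, 1, fsS0X⟩
      [(2, false), (1, true), (2, true), (0, true), (2, false), (2, false), (0, true), (1, true), (0, true), (2, false), (2, false), (0, false), (2, false)]) :=
  Check.check_sound
    (.node 0
    (.node 2
    (.node 0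
    (.node 1
    (.leaf (lf 1024 0 0 345 119 (-228) 15 0 63 255 255 255))
    (.leaf (lf 1024 0 0 513 105 (-200) (-17) 0 57 255 138 197)))
    (.node 1
    (.leaf (lf 1024 0 0 367 126 (-244) 14 0 71 255 255 255))
    (.leaf (lf 1024 0 0 546 110 (-212) (-23) 0 64 255 136 194))))
    (.node 0
    (.node 1
    (.leaf (lf 1024 0 0 331 116 (-218) 17 0 56 255 255 255))
    (.leaf (lf 1024 0 0 494 103 (-194) (-12) 0 51 255 149 196)))
    (.node 1
    (.leaf (lf 1024 0 0 354 123 (-234) 16 0 63 255 255 255))
    (.leaf (lf 1024 0 0 527 108 (-206) (-17) 0 57 255 143 193)))))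
    (.node 2
    (.node 0
    (.node 1
    (.leaf (lf 1024 0 0 390 133 (-260) 13 0 81 255 255 255))
    (.leaf (lf 1024 0 0 579 116 (-224) (-29) 0 72 255 129 195)))
    (.node 1
    (.leaf (lf 1024 0 0 412 140 (-276) 12 0 91 255 255 255))
    (.leaf (lf 1024 0 0 612 265 0 (-36) (-72) 37 255 205 64))))
    (.node 0
    (.node 1
    (.leaf (lf 1024 0 0 376 129 (-250) 16 0 72 255 255 255))
    (.leaf (lf 1024 0 0 560 114 (-218) (-22) 0 65 255 135 196)))
    (.node 1
    (.leaf (lf 1024 0 0 398 136 (-266) 15 0 81 255 255 255))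
    (.leaf (lf 1024 0 0 593 119 (-230) (-28) 0 72 255 129 196))))))
    (by decide +kernel)

def goodS0X_198 :
    Check.Good noCone cfS0X (reach cfS0X ⟨litS0X, 1, fsS0X⟩
      [(2, true), (1, true), (2, true), (0, true), (2, false), (2, false), (0, true), (1, true), (0, true), (2, false), (2, false), (0, false), (2, false)]) :=
  Check.check_sound
    (.node 0
    (.node 2
    (.node 0
    (.node 1
    (.leaf (lf 1024 0 0 318 113 (-209) 18 0 50 255 255 255))
    (.leaf (lf 1024 0 0 476 102 (-188) (-7) 0 46 255 148 201)))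
    (.node 1
    (.leaf (lf 1024 0 0 340 120 (-225) 18 0 57 255 255 255))
    (.leaf (lf 1024 0 0 509 107 (-200) (-12) 0 52 255 151 196))))
    (.node 0
    (.node 1
    (.leaf (lf 1024 0 0 305 111 (-201) 19 0 45 255 255 255))
    (.leaf (lf 1024 0 0 458 100 (-182) (-4) 0 42 255 164 194)))
    (.node 1
    (.leaf (lf 1024 0 0 327 117 (-216) 19 0 51 255 255 255))
    (.leaf (lf 1024 0 0 491 105 (-194) (-7) 0 47 255 149 202)))))
    (.node 2
    (.node 0
    (.node 1
    (.leaf (lf 1024 0 0 363 126 (-241) 17 0 64 255 255 255))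
    (.leaf (lf 1024 0 0 542 112 (-212) (-16) 0 58 255 136 198)))
    (.node 1
    (.leaf (lf 1024 0 0 385 133 (-256) 17 0 73 255 255 255))
    (.leaf (lf 1024 0 0 575 117 (-224) (-22) 0 65 255 138 195))))
    (.node 0
    (.node 1
    (.leaf (lf 1024 0 0 350 124 (-232) 19 0 58 255 255 255))
    (.leaf (lf 1024 0 0 524 110 (-206) (-12) 0 53 255 153 196)))
    (.node 1
    (.leaf (lf 1024 0 0 372 130 (-247) 18 0 65 255 255 255))
    (.leaf (lf 1024 0 0 557 115 (-218) (-16) 0 60 255 141 196))))))
    (by decide +kernel)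

def goodS0X_196 :
    Check.Good noCone cfS0X (reach cfS0X ⟨litS0X, 1, fsS0X⟩
      [(1, true), (2, true), (0, true), (2, false), (2, false), (0, true), (1, true), (0, true), (2, false), (2, false), (0, false), (2, false)]) :=
  Check.good_node (a := 2) (by decide +kernel)
    goodS0X_197 goodS0X_198

def goodS0X_194 :
    Check.Good noCone cfS0X (reach cfS0X ⟨litS0X, 1, fsS0X⟩
      [(2, true), (0, true), (2, false), (2, false), (0, true), (1, true), (0, true), (2, false), (2, false), (0, false), (2, false)]) :=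
  Check.good_node (a := 1) (by decide +kernel)
    goodS0X_195 goodS0X_196

def goodS0X_170 :
    Check.Good noCone cfS0X (reach cfS0X ⟨litS0X, 1, fsS0X⟩
      [(0, true), (2, false), (2, false), (0, true), (1, true), (0, true), (2, false), (2, false), (0, false), (2, false)]) :=
  Check.good_node (a := 2) (by decide +kernel)
    goodS0X_171 goodS0X_194

def goodS0X_154 :
    Check.Good noCone cfS0X (reach cfS0X ⟨litS0X, 1, fsS0X⟩
      [(2, false), (2, false), (0, true), (1, true), (0, true), (2, false), (2, false), (0, false), (2, false)]) :=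
  Check.good_node (a := 0) (by decide +kernel)
    goodS0X_155 goodS0X_170

def goodS0X_202 :
    Check.Good noCone cfS0X (reach cfS0X ⟨litS0X, 1, fsS0X⟩
      [(1, false), (2, false), (0, false), (2, true), (2, false), (0, true), (1, true), (0, true), (2, false), (2, false), (0, false), (2, false)]) :=
  Check.check_sound
    (.node 0
    (.node 2
    (.node 1
    (.node 0
    (.leaf (lf 1024 0 0 76 61 (-95) 22 0 15 255 255 255))
    (.leaf (lf 1024 0 0 87 62 (-98) 24 0 16 255 255 255)))
    (.leaf (lf 1024 0 0 134 77 (-122) 23 0 20 253 255 124)))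
    (.node 1
    (.leaf (lf 1024 0 0 70 69 (-103) 21 0 15 246 255 122))
    (.leaf (lf 1024 0 0 117 79 (-120) 22 0 18 255 255 255))))
    (.node 2
    (.node 1
    (.node 0
    (.leaf (lf 1024 0 0 98 63 (-103) 26 0 18 255 255 255))
    (.leaf (lf 1024 0 0 109 65 (-109) 28 0 20 255 255 255)))
    (.leaf (lf 1024 0 0 165 84 (-141) 26 0 26 255 255 255)))
    (.node 1
    (.leaf (lf 16384 0 0 1466 1081 (-1712) 403 0 279 247 255 132))
    (.leaf (lf 1024 0 0 147 84 (-134) 25 0 22 255 255 255)))))
    (by decide +kernel)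

def goodS0X_203 :
    Check.Good noCone cfS0X (reach cfS0X ⟨litS0X, 1, fsS0X⟩
      [(1, true), (2, false), (0, false), (2, true), (2, false), (0, true), (1, true), (0, true), (2, false), (2, false), (0, false), (2, false)]) :=
  Check.check_sound
    (.node 0
    (.node 2
    (.node 0
    (.node 1
    (.leaf (lf 1024 0 0 198 87 (-138) 18 0 22 255 255 255))
    (.leaf (lf 1024 0 0 306 82 (-132) 8 0 22 255 230 201)))
    (.node 1
    (.leaf (lf 1024 0 0 220 91 (-149) 19 0 25 255 255 255))
    (.leaf (lf 1024 0 0 337 86 (-142) 7 0 25 255 215 216))))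
    (.node 0
    (.node 1
    (.leaf (lf 1024 0 0 176 88 (-132) 18 0 19 255 255 255))
    (.leaf (lf 1024 0 0 277 84 (-128) 10 0 19 255 255 255)))
    (.node 1
    (.leaf (lf 1024 0 0 197 91 (-142) 19 0 22 255 255 255))
    (.leaf (lf 1024 0 0 307 86 (-137) 10 0 22 255 232 205)))))
    (.node 2
    (.node 0
    (.node 1
    (.leaf (lf 1024 0 0 242 96 (-162) 19 0 29 255 255 255))
    (.leaf (lf 1024 0 0 368 90 (-152) 5 0 28 255 206 220)))
    (.node 1
    (.leaf (lf 1024 0 0 264 102 (-176) 20 0 34 255 255 255))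
    (.leaf (lf 1024 0 0 400 94 (-163) 3 0 32 255 196 224))))
    (.node 0
    (.node 1
    (.leaf (lf 1024 0 0 219 95 (-153) 20 0 25 255 255 255))
    (.leaf (lf 1024 0 0 338 90 (-146) 8 0 25 255 226 204)))
    (.node 1
    (.leaf (lf 1024 0 0 241 100 (-165) 20 0 29 255 255 255))
    (.leaf (lf 1024 0 0 369 93 (-156) 7 0 28 255 212 219))))))
    (by decide +kernel)

def goodS0X_201 :
    Check.Good noCone cfS0X (reach cfS0X ⟨litS0X, 1, fsS0X⟩
      [(2, false), (0, false), (2, true), (2, false), (0, true), (1, true), (0, true), (2, false), (2, false), (0, false), (2, false)]) :=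
  Check.good_node (a := 1) (by decide +kernel)
    goodS0X_202 goodS0X_203

def goodS0X_204 :
    Check.Good noCone cfS0X (reach cfS0X ⟨litS0X, 1, fsS0X⟩
      [(2, true), (0, false), (2, true), (2, false), (0, true), (1, true), (0, true), (2, false), (2, false), (0, false), (2, false)]) :=
  Check.check_sound
    (.node 1
    (.node 0
    (.leaf (lf 463 731 1024 0 225 (-33) 0 0 34 255 255 255))
    (.node 2
    (.node 1
    (.leaf (lf 1024 0 0 79 73 (-111) 24 0 17 246 255 144))
    (.leaf (lf 1024 0 0 131 86 (-132) 24 0 20 255 255 255)))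
    (.leaf (lf 1024 0 0 92 91 (-132) 23 0 19 243 255 118))))
    (.node 0
    (.node 2
    (.node 0
    (.leaf (lf 1024 0 0 204 94 (-136) 15 0 19 255 255 255))
    (.leaf (lf 16384 0 0 3668 2768 0 242 (-279) 186 248 255 163)))
    (.leaf (lf 16384 0 0 3141 1623 (-2277) 245 0 302 255 255 255)))
    (.node 2
    (.node 0
    (.leaf (lf 1024 0 0 255 182 0 15 (-20) 13 249 255 156))
    (.leaf (lf 16384 0 0 4495 3083 0 240 (-358) 225 246 255 152)))
    (.node 0
    (.leaf (lf 1024 0 0 232 102 (-151) 16 0 22 252 255 191))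
    (.leaf (lf 1024 0 0 257 190 0 16 (-20) 13 246 255 156))))))
    (by decide +kernel)

def goodS0X_200 :
    Check.Good noCone cfS0X (reach cfS0X ⟨litS0X, 1, fsS0X⟩
      [(0, false), (2, true), (2, false), (0, true), (1, true), (0, true), (2, false), (2, false), (0, false), (2, false)]) :=
  Check.good_node (a := 2) (by decide +kernel)
    goodS0X_201 goodS0X_204

def goodS0X_207 :
    Check.Good noCone cfS0X (reach cfS0X ⟨litS0X, 1, fsS0X⟩
      [(1, false), (2, false), (0, true), (2, true), (2, false), (0, true), (1, true), (0, true), (2, false), (2, false), (0, false), (2, false)]) :=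
  Check.check_sound
    (.node 0
    (.node 2
    (.node 1
    (.node 0
    (.leaf (lf 1024 0 0 120 68 (-117) 30 0 23 255 255 255))
    (.leaf (lf 1024 0 0 132 71 (-125) 32 0 26 255 255 255)))
    (.leaf (lf 1024 0 0 196 94 (-164) 29 0 34 255 255 255)))
    (.node 1
    (.leaf (lf 1024 0 0 114 70 (-117) 29 0 21 252 255 126))
    (.leaf (lf 1024 0 0 178 91 (-154) 28 0 29 255 255 255))))
    (.node 2
    (.node 1
    (.leaf (lf 1024 0 0 150 78 (-140) 35 0 31 255 250 126))
    (.leaf (lf 1024 0 0 227 104 (-190) 33 0 43 255 255 255)))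
    (.node 1
    (.leaf (lf 1024 0 0 136 76 (-132) 33 0 27 253 255 123))
    (.leaf (lf 1024 0 0 209 101 (-177) 32 0 37 255 255 255)))))
    (by decide +kernel)

def goodS0X_209 :
    Check.Good noCone cfS0X (reach cfS0X ⟨litS0X, 1, fsS0X⟩
      [(0, false), (1, true), (2, false), (0, true), (2, true), (2, false), (0, true), (1, true), (0, true), (2, false), (2, false), (0, false), (2, false)]) :=
  Check.check_sound
    (.node 2
    (.node 0
    (.node 1
    (.leaf (lf 1024 0 0 286 108 (-190) 20 0 39 255 255 255))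
    (.leaf (lf 1024 0 0 433 99 (-175) 1 0 37 255 184 224)))
    (.node 2
    (.node 1
    (.leaf (lf 1024 0 0 314 115 (-208) 20 0 46 255 255 255))
    (.leaf (lf 1024 0 0 474 104 (-189) (-4) 0 43 255 160 198)))
    (.leaf (lf 1024 0 0 382 235 0 10 (-38) 21 247 255 119))))
    (.node 0
    (.node 1
    (.leaf (lf 1024 0 0 262 105 (-178) 21 0 33 255 255 255))
    (.leaf (lf 1024 0 0 401 97 (-166) 5 0 31 255 200 224)))
    (.node 1
    (.leaf (lf 1024 0 0 285 110 (-191) 21 0 37 255 255 255))
    (.leaf (lf 1024 0 0 433 102 (-177) 3 0 35 255 187 228)))))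
    (by decide +kernel)

def goodS0X_210 :
    Check.Good noCone cfS0X (reach cfS0X ⟨litS0X, 1, fsS0X⟩
      [(0, true), (1, true), (2, false), (0, true), (2, true), (2, false), (0, true), (1, true), (0, true), (2, false), (2, false), (0, false), (2, false)]) :=
  Check.check_sound
    (.node 2
    (.node 0
    (.node 2
    (.node 1
    (.leaf (lf 1024 0 0 337 121 (-224) 20 0 53 255 255 255))
    (.leaf (lf 1024 0 0 507 109 (-201) (-7) 0 49 255 147 201)))
    (.leaf (lf 1024 0 0 410 250 0 8 (-43) 24 255 252 106)))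
    (.node 2
    (.node 1
    (.leaf (lf 1024 0 0 359 128 (-239) 19 0 59 255 255 255))
    (.leaf (lf 1024 0 0 540 114 (-213) (-12) 0 55 255 151 194)))
    (.node 1
    (.leaf (lf 1024 0 0 347 125 (-231) 20 0 54 255 255 255))
    (.leaf (lf 1024 0 0 523 112 (-208) (-8) 0 50 255 156 198)))))
    (.node 0
    (.leaf (lf 1024 0 0 388 241 0 11 (-38) 21 254 255 140))
    (.node 1
    (.leaf (lf 1024 0 0 329 122 (-220) 22 0 48 255 255 255))
    (.leaf (lf 1024 0 0 498 111 (-200) (-3) 0 45 255 156 198)))))
    (by decide +kernel)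

def goodS0X_208 :
    Check.Good noCone cfS0X (reach cfS0X ⟨litS0X, 1, fsS0X⟩
      [(1, true), (2, false), (0, true), (2, true), (2, false), (0, true), (1, true), (0, true), (2, false), (2, false), (0, false), (2, false)]) :=
  Check.good_node (a := 0) (by decide +kernel)
    goodS0X_209 goodS0X_210

def goodS0X_206 :
    Check.Good noCone cfS0X (reach cfS0X ⟨litS0X, 1, fsS0X⟩
      [(2, false), (0, true), (2, true), (2, false), (0, true), (1, true), (0, true), (2, false), (2, false), (0, false), (2, false)]) :=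
  Check.good_node (a := 1) (by decide +kernel)
    goodS0X_207 goodS0X_208

def goodS0X_211 :
    Check.Good noCone cfS0X (reach cfS0X ⟨litS0X, 1, fsS0X⟩
      [(2, true), (0, true), (2, true), (2, false), (0, true), (1, true), (0, true), (2, false), (2, false), (0, false), (2, false)]) :=
  Check.check_sound
    (.node 1
    (.node 0
    (.node 2
    (.node 1
    (.leaf (lf 1024 0 0 101 73 (-116) 28 0 19 252 255 140))
    (.leaf (lf 1024 0 0 161 91 (-147) 27 0 25 255 255 255)))
    (.node 1
    (.leaf (lf 1024 0 0 88 78 (-119) 26 0 18 255 255 255))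
    (.leaf (lf 1024 0 0 145 92 (-144) 26 0 23 255 255 255))))
    (.node 2
    (.node 1
    (.leaf (lf 1024 0 0 123 75 (-127) 32 0 23 253 255 132))
    (.leaf (lf 1024 0 0 191 98 (-167) 31 0 32 255 255 255)))
    (.node 1
    (.leaf (lf 1024 0 0 110 78 (-125) 30 0 21 252 255 120))
    (.leaf (lf 1024 0 0 175 98 (-161) 30 0 28 255 255 255)))))
    (.node 0
    (.node 2
    (.node 0
    (.leaf (lf 1024 0 0 307 205 0 15 (-25) 16 246 255 147))
    (.leaf (lf 1024 0 0 334 217 0 14 (-29) 17 250 255 143)))
    (.node 0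
    (.leaf (lf 1024 0 0 283 200 0 16 (-23) 14 250 255 162))
    (.leaf (lf 1024 0 0 309 211 0 16 (-25) 16 245 255 147))))
    (.node 2
    (.node 0
    (.leaf (lf 1024 0 0 361 231 0 13 (-33) 19 252 255 136))
    (.leaf (lf 1024 0 0 389 245 0 12 (-37) 21 252 255 130)))
    (.node 1
    (.leaf (lf 1024 0 0 275 116 (-192) 23 0 34 255 255 255))
    (.leaf (lf 1024 0 0 424 210 0 7 (-28) 17 255 255 255))))))
    (by decide +kernel)

def goodS0X_205 :
    Check.Good noCone cfS0X (reach cfS0X ⟨litS0X, 1, fsS0X⟩
      [(0, true), (2, true), (2, false), (0, true), (1, true), (0, true), (2, false), (2, false), (0, false), (2, false)]) :=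
  Check.good_node (a := 2) (by decide +kernel)
    goodS0X_206 goodS0X_211

def goodS0X_199 :
    Check.Good noCone cfS0X (reach cfS0X ⟨litS0X, 1, fsS0X⟩
      [(2, true), (2, false), (0, true), (1, true), (0, true), (2, false), (2, false), (0, false), (2, false)]) :=
  Check.good_node (a := 0) (by decide +kernel)
    goodS0X_200 goodS0X_205

def goodS0X_153 :
    Check.Good noCone cfS0X (reach cfS0X ⟨litS0X, 1, fsS0X⟩
      [(2, false), (0, true), (1, true), (0, true), (2, false), (2, false), (0, false), (2, false)]) :=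
  Check.good_node (a := 2) (by decide +kernel)
    goodS0X_154 goodS0X_199

def goodS0X_213 :
    Check.Good noCone cfS0X (reach cfS0X ⟨litS0X, 1, fsS0X⟩
      [(0, false), (2, true), (0, true), (1, true), (0, true), (2, false), (2, false), (0, false), (2, false)]) :=
  Check.check_sound
    (.node 2
    (.node 0
    (.node 1
    (.leaf (lf 1024 0 0 42 140 (-165) 17 0 19 255 255 255))
    (.leaf (lf 620 1024 957 0 380 (-49) 0 0 36 255 255 255)))
    (.node 1
    (.leaf (lf 615 787 1024 0 281 (-90) 0 0 39 224 229 255))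
    (.node 2
    (.node 2
    (.leaf (lf 1024 0 0 224 108 (-156) 16 0 22 255 255 255))
    (.leaf (lf 1024 0 0 204 115 (-159) 17 0 21 255 255 255)))
    (.leaf (lf 1024 0 0 177 130 (-168) 17 0 21 255 255 255)))))
    (.node 0
    (.leaf (lf 1024 0 0 55 210 (-211) 14 0 22 255 255 255))
    (.leaf (lf 1024 0 0 83 188 (-207) 16 0 23 255 255 255))))
    (by decide +kernel)

def goodS0X_214 :
    Check.Good noCone cfS0X (reach cfS0X ⟨litS0X, 1, fsS0X⟩
      [(0, true), (2, true), (0, true), (1, true), (0, true), (2, false), (2, false), (0, false), (2, false)]) :=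
  Check.check_sound
    (.node 2
    (.node 1
    (.node 1
    (.leaf (lf 474 730 1024 0 255 (-48) 0 0 42 236 167 255))
    (.node 2
    (.node 0
    (.leaf (lf 1024 0 0 123 101 (-147) 25 0 21 255 255 255))
    (.leaf (lf 1024 0 0 152 102 (-157) 28 0 25 255 255 255)))
    (.leaf (lf 1024 0 0 115 119 (-165) 25 0 22 253 255 147))))
    (.node 1
    (.node 2
    (.node 0
    (.leaf (lf 1024 0 0 203 111 (-165) 22 0 24 255 255 255))
    (.leaf (lf 1024 0 0 245 116 (-183) 23 0 29 255 255 255)))
    (.leaf (lf 491 1024 1008 0 433 (-8) 0 0 49 255 255 255)))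
    (.node 2
    (.node 0
    (.leaf (lf 1024 0 0 321 192 0 12 (-20) 13 255 255 255))
    (.node 2
    (.leaf (lf 1024 0 0 396 108 (-176) 10 0 30 255 223 203))
    (.leaf (lf 1024 0 0 370 110 (-174) 12 0 28 255 234 194))))
    (.node 0
    (.leaf (lf 1024 0 0 275 118 (-165) 14 0 22 255 255 255))
    (.leaf (lf 1024 0 0 333 210 0 14 (-21) 14 255 255 255))))))
    (.node 1
    (.leaf (lf 754 832 1024 0 356 (-153) 0 0 47 192 151 255))
    (.node 1
    (.leaf (lf 1024 0 0 148 157 (-198) 21 0 24 255 255 255))
    (.leaf (lf 490 1024 740 0 457 (-33) 0 0 38 187 255 236)))))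
    (by decide +kernel)

def goodS0X_212 :
    Check.Good noCone cfS0X (reach cfS0X ⟨litS0X, 1, fsS0X⟩
      [(2, true), (0, true), (1, true), (0, true), (2, false), (2, false), (0, false), (2, false)]) :=
  Check.good_node (a := 0) (by decide +kernel)
    goodS0X_213 goodS0X_214

def goodS0X_152 :
    Check.Good noCone cfS0X (reach cfS0X ⟨litS0X, 1, fsS0X⟩
      [(0, true), (1, true), (0, true), (2, false), (2, false), (0, false), (2, false)]) :=
  Check.good_node (a := 2) (by decide +kernel)
    goodS0X_153 goodS0X_212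

def goodS0X_110 :
    Check.Good noCone cfS0X (reach cfS0X ⟨litS0X, 1, fsS0X⟩
      [(1, true), (0, true), (2, false), (2, false), (0, false), (2, false)]) :=
  Check.good_node (a := 0) (by decide +kernel)
    goodS0X_111 goodS0X_152

end

end Vale.Agent.P211.Cert.Interior.Data
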