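import Vale.Agent.P211.Cert.Interior.Data.S0Xr

/-!
P211, a part of a cell of the interior family (generated).
-/

namespace Vale.Agent.P211.Cert.Interior.Data

open Vale.Agent.P098.Check6 (ofChunks eqList reach St Cfg Face)
open Vale.Agent.P098.Cert6.Kron (RootPar parOK)

set_option linter.defProp false

noncomputable section

def goodS0X_215 :
    Check.Good noCone cfS0X (reach cfS0X ⟨litS0X, 1, fsS0X⟩
      [(2, true), (2, false), (0, false), (2, false)]) :=
  Check.check_sound
    (.node 0
    (.leaf (lf 1024 0 0 (-14) 719 (-95) 0 0 31 255 255 255))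
    (.node 1
    (.leaf (lf 1024 0 0 (-7) 518 (-279) 3 0 33 255 111 175))
    (.node 2
    (.node 0
    (.leaf (lf 1024 0 0 (-8) 440 (-242) 6 0 26 255 159 160))
    (.node 0
    (.leaf (lf 1024 0 0 30 330 (-266) 12 0 27 255 255 255))
    (.leaf (lf 1024 0 0 74 271 (-265) 16 0 29 255 241 192))))
    (.leaf (lf 1024 0 0 18 527 (-281) 7 0 33 255 220 155)))))
    (by decide +kernel)

end

end Vale.Agent.P211.Cert.Interior.Data
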