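import Vale.Agent.P211.Cert.Interior.Data.S0Xr

/-!
P211, a part of a cell of the interior family (generated).
-/

namespace Vale.Agent.P211.Cert.Interior.Data

open Vale.Agent.P098.Check6 (ofChunks eqList reach St Cfg Face)
open Vale.Agent.P098.Cert6.Kron (RootPar parOK)

set_option linter.defProp false

noncomputable section

def goodS0X_216 :
    Check.Good noCone cfS0X (reach cfS0X ⟨litS0X, 1, fsS0X⟩
      [(2, true), (0, false), (2, false)]) :=
  Check.check_sound
    (.node 2
    (.node 2
    (.node 1
    (.leaf (lf 1024 0 0 (-5) 782 (-177) 1 0 39 255 255 255))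
    (.node 0
    (.leaf (lf 1024 0 0 (-14) 859 (-69) 0 0 39 255 255 255))
    (.leaf (lf 1024 0 0 3 681 (-278) 5 0 39 255 255 255))))
    (.leaf (lf 1024 0 0 (-4) 899 (-160) 1 0 45 255 255 255)))
    (.leaf (lf 961 0 0 (-5) 1024 (-115) 0 0 51 255 255 255)))
    (by decide +kernel)

end

end Vale.Agent.P211.Cert.Interior.Data
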