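import Vale.Agent.P211.Cert.Interior.Data.S0Xr

/-!
P211, a part of a cell of the interior family (generated).
-/

namespace Vale.Agent.P211.Cert.Interior.Data

open Vale.Agent.P098.Check6 (ofChunks eqList reach St Cfg Face)
open Vale.Agent.P098.Cert6.Kron (RootPar parOK)

set_option linter.defProp false

noncomputable section

def goodS0X_226 :
    Check.Good noCone cfS0X (reach cfS0X ⟨litS0X, 1, fsS0X⟩
      [(1, false), (1, false), (2, false), (2, false), (0, false), (1, false), (2, false), (0, false), (2, false), (0, true), (2, false)]) :=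
  Check.check_sound
    (.node 0
    (.node 2
    (.node 1
    (.node 2
    (.leaf (lf 1024 0 0 11 51 (-104) 5 0 51 255 255 255))
    (.leaf (lf 1024 0 0 11 48 (-95) 4 0 38 255 255 255)))
    (.node 2
    (.leaf (lf 841 1024 389 0 108 (-121) 0 0 72 255 202 227))
    (.leaf (lf 809 1024 445 0 104 (-107) 0 0 54 255 203 215))))
    (.node 1
    (.node 1
    (.leaf (lf 1024 0 0 5 42 (-79) 2 0 24 255 255 255))
    (.leaf (lf 1024 0 0 14 42 (-79) 5 0 24 255 255 255)))
    (.node 2
    (.leaf (lf 782 1024 510 0 100 (-94) 0 0 42 255 201 210))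
    (.leaf (lf 1024 0 0 26 42 (-79) 10 0 23 255 247 154)))))
    (.node 2
    (.node 1
    (.node 2
    (.leaf (lf 1024 0 0 13 60 (-123) 7 0 75 255 255 255))
    (.leaf (lf 1024 0 0 13 57 (-115) 6 0 57 255 255 255)))
    (.node 2
    (.leaf (lf 871 1024 358 0 125 (-146) 0 0 106 255 255 255))
    (.leaf (lf 846 1024 396 0 121 (-134) 0 0 80 255 255 255))))
    (.node 1
    (.node 1
    (.leaf (lf 1024 0 0 6 51 (-98) 2 0 37 255 255 255))
    (.leaf (lf 1024 0 0 18 51 (-98) 7 0 37 255 255 255)))
    (.node 2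
    (.leaf (lf 16384 0 0 569 866 (-1706) 236 0 700 255 240 180))
    (.leaf (lf 1024 0 0 33 51 (-98) 13 0 35 255 243 163))))))
    (by decide +kernel)

def goodS0X_229 :
    Check.Good noCone cfS0X (reach cfS0X ⟨litS0X, 1, fsS0X⟩
      [(2, false), (0, false), (1, true), (1, false), (2, false), (2, false), (0, false), (1, false), (2, false), (0, false), (2, false), (0, true), (2, false)]) :=
  Check.check_sound
    (.node 2
    (.node 0
    (.node 1
    (.leaf (lf 537 1024 597 0 132 (-81) 0 0 66 255 156 202))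
    (.node 2
    (.leaf (lf 1024 0 0 74 50 (-104) 36 0 52 255 255 255))
    (.leaf (lf 1024 0 0 71 48 (-99) 32 0 44 255 255 255))))
    (.node 1
    (.leaf (lf 544 1024 564 0 142 (-91) 0 0 79 255 159 211))
    (.node 2
    (.leaf (lf 1024 0 0 81 54 (-114) 41 0 64 255 255 255))
    (.leaf (lf 1024 0 0 78 53 (-109) 37 0 54 255 255 255)))))
    (.node 1
    (.node 0
    (.leaf (lf 526 1024 698 0 129 (-68) 0 0 52 255 172 204))
    (.leaf (lf 1024 0 0 54 50 (-100) 23 0 42 255 255 255)))
    (.node 0
    (.node 2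
    (.leaf (lf 1024 0 0 68 47 (-94) 30 0 37 255 255 255))
    (.leaf (lf 1024 0 0 65 45 (-89) 28 0 32 255 255 255)))
    (.node 2
    (.leaf (lf 1024 0 0 76 51 (-105) 34 0 46 255 255 255))
    (.leaf (lf 1024 0 0 73 49 (-100) 32 0 40 255 255 255))))))
    (by decide +kernel)

def goodS0X_230 :
    Check.Good noCone cfS0X (reach cfS0X ⟨litS0X, 1, fsS0X⟩
      [(2, true), (0, false), (1, true), (1, false), (2, false), (2, false), (0, false), (1, false), (2, false), (0, false), (2, false), (0, true), (2, false)]) :=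
  Check.check_sound
    (.node 2
    (.node 1
    (.node 0
    (.leaf (lf 16384 0 0 699 670 (-1289) 287 0 406 255 247 188))
    (.leaf (lf 16384 0 0 789 742 (-1451) 329 0 509 255 255 255)))
    (.node 0
    (.node 2
    (.leaf (lf 1024 0 0 63 43 (-84) 26 0 28 253 255 156))
    (.leaf (lf 1024 0 0 60 42 (-80) 24 0 24 254 255 136)))
    (.node 2
    (.leaf (lf 1024 0 0 70 48 (-95) 30 0 35 255 255 255))
    (.leaf (lf 1024 0 0 67 46 (-90) 28 0 31 255 255 255)))))
    (.node 1
    (.node 0
    (.leaf (lf 1024 0 0 39 40 (-74) 16 0 20 255 251 168))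
    (.leaf (lf 1024 0 0 45 44 (-83) 19 0 25 255 255 255)))
    (.node 0
    (.node 2
    (.leaf (lf 1024 0 0 57 40 (-77) 23 0 22 246 255 135))
    (.leaf (lf 1024 0 0 54 40 (-74) 22 0 20 249 255 141)))
    (.node 2
    (.leaf (lf 1024 0 0 65 45 (-86) 26 0 27 255 255 255))
    (.leaf (lf 1024 0 0 62 43 (-82) 25 0 24 255 255 255))))))
    (by decide +kernel)

def goodS0X_228 :
    Check.Good noCone cfS0X (reach cfS0X ⟨litS0X, 1, fsS0X⟩
      [(0, false), (1, true), (1, false), (2, false), (2, false), (0, false), (1, false), (2, false), (0, false), (2, false), (0, true), (2, false)]) :=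
  Check.good_node (a := 2) (by decide +kernel)
    goodS0X_229 goodS0X_230

def goodS0X_232 :
    Check.Good noCone cfS0X (reach cfS0X ⟨litS0X, 1, fsS0X⟩
      [(2, false), (0, true), (1, true), (1, false), (2, false), (2, false), (0, false), (1, false), (2, false), (0, false), (2, false), (0, true), (2, false)]) :=
  Check.check_sound
    (.node 2
    (.node 1
    (.node 2
    (.leaf (lf 1024 0 0 66 60 (-125) 36 0 83 255 243 169))
    (.leaf (lf 1024 0 0 65 59 (-122) 32 0 71 255 243 159)))
    (.node 2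
    (.node 0
    (.leaf (lf 1024 0 0 87 59 (-123) 48 0 77 255 255 255))
    (.leaf (lf 1024 0 0 93 63 (-131) 55 0 91 255 255 255)))
    (.node 0
    (.leaf (lf 1024 0 0 85 57 (-119) 43 0 66 255 255 255))
    (.leaf (lf 1024 0 0 91 61 (-128) 49 0 78 255 255 255)))))
    (.node 1
    (.node 0
    (.leaf (lf 1024 0 0 59 54 (-110) 27 0 51 255 255 255))
    (.leaf (lf 1024 0 0 64 59 (-119) 30 0 62 255 255 255)))
    (.node 0
    (.leaf (lf 427 1024 789 0 190 (-58) 0 0 85 255 151 205))
    (.leaf (lf 429 1024 750 0 201 (-66) 0 0 99 255 139 197)))))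
    (by decide +kernel)

def goodS0X_233 :
    Check.Good noCone cfS0X (reach cfS0X ⟨litS0X, 1, fsS0X⟩
      [(2, true), (0, true), (1, true), (1, false), (2, false), (2, false), (0, false), (1, false), (2, false), (0, false), (2, false), (0, true), (2, false)]) :=
  Check.check_sound
    (.node 2
    (.node 1
    (.node 0
    (.leaf (lf 1024 0 0 55 51 (-101) 23 0 39 255 255 255))
    (.leaf (lf 1024 0 0 60 56 (-111) 27 0 48 255 255 255)))
    (.node 0
    (.leaf (lf 1024 0 0 77 52 (-103) 32 0 40 255 248 183))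
    (.leaf (lf 1024 0 0 84 56 (-113) 37 0 49 255 247 194))))
    (.node 1
    (.node 0
    (.leaf (lf 1024 0 0 51 48 (-93) 21 0 31 255 255 255))
    (.leaf (lf 1024 0 0 57 53 (-103) 24 0 38 255 255 255)))
    (.node 0
    (.leaf (lf 1024 0 0 72 49 (-94) 29 0 32 255 249 180))
    (.leaf (lf 1024 0 0 79 53 (-104) 33 0 39 255 250 182)))))
    (by decide +kernel)

def goodS0X_231 :
    Check.Good noCone cfS0X (reach cfS0X ⟨litS0X, 1, fsS0X⟩
      [(0, true), (1, true), (1, false), (2, false), (2, false), (0, false), (1, false), (2, false), (0, false), (2, false), (0, true), (2, false)]) :=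
  Check.good_node (a := 2) (by decide +kernel)
    goodS0X_232 goodS0X_233

def goodS0X_227 :
    Check.Good noCone cfS0X (reach cfS0X ⟨litS0X, 1, fsS0X⟩
      [(1, true), (1, false), (2, false), (2, false), (0, false), (1, false), (2, false), (0, false), (2, false), (0, true), (2, false)]) :=
  Check.good_node (a := 0) (by decide +kernel)
    goodS0X_228 goodS0X_231

def goodS0X_225 :
    Check.Good noCone cfS0X (reach cfS0X ⟨litS0X, 1, fsS0X⟩
      [(1, false), (2, false), (2, false), (0, false), (1, false), (2, false), (0, false), (2, false), (0, true), (2, false)]) :=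
  Check.good_node (a := 1) (by decide +kernel)
    goodS0X_226 goodS0X_227

def goodS0X_237 :
    Check.Good noCone cfS0X (reach cfS0X ⟨litS0X, 1, fsS0X⟩
      [(0, false), (1, false), (2, false), (1, true), (2, false), (2, false), (0, false), (1, false), (2, false), (0, false), (2, false), (0, true), (2, false)]) :=
  Check.check_sound
    (.node 2
    (.node 0
    (.node 2
    (.node 1
    (.leaf (lf 1024 0 0 96 53 (-111) 45 0 56 255 250 177))
    (.leaf (lf 1024 0 0 119 59 (-124) 54 0 63 255 249 183)))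
    (.node 1
    (.leaf (lf 1024 0 0 92 51 (-105) 41 0 47 255 252 171))
    (.leaf (lf 1024 0 0 115 57 (-118) 48 0 53 255 255 255))))
    (.node 2
    (.node 1
    (.leaf (lf 1024 0 0 104 58 (-121) 53 0 68 255 255 255))
    (.leaf (lf 1024 0 0 129 64 (-135) 63 0 77 255 255 255)))
    (.node 1
    (.leaf (lf 1024 0 0 101 56 (-116) 47 0 58 255 255 255))
    (.leaf (lf 1024 0 0 125 62 (-129) 56 0 65 255 255 255)))))
    (.node 0
    (.node 2
    (.node 1
    (.leaf (lf 1024 0 0 89 49 (-100) 37 0 40 255 255 255))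
    (.leaf (lf 1024 0 0 111 55 (-112) 44 0 45 255 255 255)))
    (.node 1
    (.leaf (lf 1024 0 0 85 47 (-95) 35 0 34 255 255 255))
    (.leaf (lf 1024 0 0 106 53 (-106) 41 0 39 255 255 255))))
    (.node 2
    (.node 1
    (.leaf (lf 1024 0 0 98 54 (-111) 43 0 49 255 255 255))
    (.leaf (lf 1024 0 0 122 60 (-124) 51 0 55 255 255 255)))
    (.node 1
    (.leaf (lf 1024 0 0 95 52 (-106) 40 0 43 255 255 255))
    (.leaf (lf 1024 0 0 118 58 (-118) 48 0 48 255 255 255))))))
    (by decide +kernel)

def goodS0X_238 :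
    Check.Good noCone cfS0X (reach cfS0X ⟨litS0X, 1, fsS0X⟩
      [(0, true), (1, false), (2, false), (1, true), (2, false), (2, false), (0, false), (1, false), (2, false), (0, false), (2, false), (0, true), (2, false)]) :=
  Check.check_sound
    (.node 2
    (.node 2
    (.node 0
    (.node 1
    (.leaf (lf 1024 0 0 112 62 (-130) 61 0 82 255 255 255))
    (.leaf (lf 1024 0 0 138 69 (-146) 73 0 93 255 255 255)))
    (.node 1
    (.leaf (lf 1024 0 0 120 66 (-139) 70 0 97 255 255 255))
    (.leaf (lf 1024 0 0 148 74 (-156) 84 0 110 255 255 255))))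
    (.node 0
    (.node 1
    (.leaf (lf 1024 0 0 109 60 (-126) 55 0 70 255 255 255))
    (.leaf (lf 1024 0 0 135 67 (-140) 65 0 78 255 255 255)))
    (.node 1
    (.leaf (lf 1024 0 0 118 65 (-135) 63 0 83 255 255 255))
    (.leaf (lf 1024 0 0 145 72 (-150) 75 0 93 255 255 255)))))
    (.node 0
    (.node 2
    (.node 1
    (.leaf (lf 1024 0 0 107 59 (-121) 50 0 60 255 255 255))
    (.leaf (lf 1024 0 0 132 65 (-135) 59 0 67 255 255 255)))
    (.node 1
    (.leaf (lf 1024 0 0 104 57 (-116) 46 0 52 255 255 255))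
    (.leaf (lf 1024 0 0 129 63 (-130) 55 0 58 255 255 255))))
    (.node 2
    (.node 1
    (.leaf (lf 1024 0 0 115 63 (-131) 57 0 72 255 255 255))
    (.leaf (lf 1024 0 0 142 70 (-145) 68 0 80 255 255 255)))
    (.node 1
    (.leaf (lf 1024 0 0 113 62 (-126) 52 0 63 255 255 255))
    (.leaf (lf 1024 0 0 139 68 (-140) 62 0 70 255 255 255))))))
    (by decide +kernel)

def goodS0X_236 :
    Check.Good noCone cfS0X (reach cfS0X ⟨litS0X, 1, fsS0X⟩
      [(1, false), (2, false), (1, true), (2, false), (2, false), (0, false), (1, false), (2, false), (0, false), (2, false), (0, true), (2, false)]) :=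
  Check.good_node (a := 0) (by decide +kernel)
    goodS0X_237 goodS0X_238

def goodS0X_240 :
    Check.Good noCone cfS0X (reach cfS0X ⟨litS0X, 1, fsS0X⟩
      [(0, false), (1, true), (2, false), (1, true), (2, false), (2, false), (0, false), (1, false), (2, false), (0, false), (2, false), (0, true), (2, false)]) :=
  Check.check_sound
    (.node 2
    (.node 0
    (.node 2
    (.node 2
    (.leaf (lf 1024 0 0 160 79 (-167) 65 0 89 255 255 255))
    (.leaf (lf 1024 0 0 157 78 (-163) 61 0 81 255 255 255)))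
    (.node 0
    (.leaf (lf 1024 0 0 149 73 (-152) 55 0 67 255 255 255))
    (.leaf (lf 1024 0 0 156 77 (-160) 59 0 74 255 255 255))))
    (.node 2
    (.leaf (lf 1024 0 0 172 85 (-179) 73 0 103 255 246 159))
    (.leaf (lf 1024 0 0 168 82 (-172) 66 0 87 255 249 152))))
    (.node 0
    (.node 2
    (.node 0
    (.leaf (lf 1024 0 0 144 71 (-145) 51 0 57 255 255 255))
    (.leaf (lf 1024 0 0 151 74 (-152) 55 0 63 255 255 255)))
    (.leaf (lf 16384 0 0 2303 1132 (-2278) 777 0 837 254 255 136)))
    (.node 2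
    (.leaf (lf 1024 0 0 163 80 (-164) 60 0 75 255 252 142))
    (.leaf (lf 1024 0 0 158 77 (-158) 56 0 65 254 255 136)))))
    (by decide +kernel)

def goodS0X_241 :
    Check.Good noCone cfS0X (reach cfS0X ⟨litS0X, 1, fsS0X⟩
      [(0, true), (1, true), (2, false), (1, true), (2, false), (2, false), (0, false), (1, false), (2, false), (0, false), (2, false), (0, true), (2, false)]) :=
  Check.check_sound
    (.node 2
    (.node 2
    (.node 0
    (.leaf (lf 1024 0 0 185 92 (-194) 85 0 125 255 246 162))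
    (.leaf (lf 1024 0 0 197 99 (-207) 98 0 148 255 245 163)))
    (.node 0
    (.leaf (lf 1024 0 0 181 89 (-186) 76 0 105 255 248 151))
    (.leaf (lf 1024 0 0 193 96 (-200) 88 0 125 255 255 255))))
    (.node 0
    (.node 2
    (.leaf (lf 1024 0 0 177 86 (-179) 70 0 90 255 251 149))
    (.leaf (lf 1024 0 0 172 84 (-172) 64 0 79 255 254 137)))
    (.node 2
    (.leaf (lf 1024 0 0 190 93 (-193) 80 0 108 255 250 148))
    (.leaf (lf 1024 0 0 186 91 (-186) 74 0 94 255 252 145)))))
    (by decide +kernel)

def goodS0X_239 :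
    Check.Good noCone cfS0X (reach cfS0X ⟨litS0X, 1, fsS0X⟩
      [(1, true), (2, false), (1, true), (2, false), (2, false), (0, false), (1, false), (2, false), (0, false), (2, false), (0, true), (2, false)]) :=
  Check.good_node (a := 0) (by decide +kernel)
    goodS0X_240 goodS0X_241

def goodS0X_235 :
    Check.Good noCone cfS0X (reach cfS0X ⟨litS0X, 1, fsS0X⟩
      [(2, false), (1, true), (2, false), (2, false), (0, false), (1, false), (2, false), (0, false), (2, false), (0, true), (2, false)]) :=
  Check.good_node (a := 1) (by decide +kernel)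
    goodS0X_236 goodS0X_239

def goodS0X_244 :
    Check.Good noCone cfS0X (reach cfS0X ⟨litS0X, 1, fsS0X⟩
      [(0, false), (1, false), (2, true), (1, true), (2, false), (2, false), (0, false), (1, false), (2, false), (0, false), (2, false), (0, true), (2, false)]) :=
  Check.check_sound
    (.node 2
    (.node 0
    (.node 2
    (.node 1
    (.leaf (lf 1024 0 0 82 46 (-90) 33 0 30 253 255 158))
    (.leaf (lf 1024 0 0 102 51 (-101) 39 0 33 255 255 255)))
    (.node 1
    (.leaf (lf 1024 0 0 78 44 (-85) 31 0 26 248 255 145))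
    (.leaf (lf 1024 0 0 98 49 (-95) 36 0 29 251 255 131))))
    (.node 2
    (.node 1
    (.leaf (lf 1024 0 0 91 51 (-101) 37 0 37 255 255 255))
    (.leaf (lf 1024 0 0 114 56 (-113) 44 0 42 255 255 255)))
    (.node 1
    (.leaf (lf 1024 0 0 88 49 (-96) 35 0 33 255 255 255))
    (.leaf (lf 1024 0 0 110 54 (-107) 42 0 37 255 255 255)))))
    (.node 0
    (.node 1
    (.node 2
    (.leaf (lf 1024 0 0 75 43 (-81) 29 0 23 247 255 134))
    (.leaf (lf 1024 0 0 71 42 (-78) 28 0 21 247 255 143)))
    (.node 2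
    (.leaf (lf 1024 0 0 94 48 (-91) 35 0 26 248 255 146))
    (.leaf (lf 1024 0 0 89 46 (-87) 33 0 23 247 255 130))))
    (.node 1
    (.node 2
    (.leaf (lf 1024 0 0 85 47 (-91) 33 0 29 255 255 255))
    (.leaf (lf 1024 0 0 81 46 (-87) 32 0 26 248 255 143)))
    (.node 2
    (.leaf (lf 1024 0 0 106 53 (-102) 40 0 33 252 255 153))
    (.leaf (lf 1024 0 0 102 51 (-98) 38 0 29 255 255 255))))))
    (by decide +kernel)

def goodS0X_245 :
    Check.Good noCone cfS0X (reach cfS0X ⟨litS0X, 1, fsS0X⟩
      [(0, true), (1, false), (2, true), (1, true), (2, false), (2, false), (0, false), (1, false), (2, false), (0, false), (2, false), (0, true), (2, false)]) :=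
  Check.check_sound
    (.node 2
    (.node 0
    (.node 2
    (.node 1
    (.leaf (lf 1024 0 0 101 55 (-111) 43 0 46 255 255 255))
    (.leaf (lf 1024 0 0 125 62 (-124) 51 0 51 255 255 255)))
    (.node 1
    (.leaf (lf 1024 0 0 98 54 (-107) 40 0 40 255 255 255))
    (.leaf (lf 1024 0 0 121 60 (-119) 48 0 45 255 255 255))))
    (.node 2
    (.node 1
    (.leaf (lf 1024 0 0 110 60 (-122) 49 0 55 255 255 255))
    (.leaf (lf 1024 0 0 136 67 (-135) 58 0 62 255 255 255)))
    (.node 1
    (.leaf (lf 1024 0 0 107 58 (-117) 46 0 49 255 255 255))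
    (.leaf (lf 1024 0 0 133 65 (-130) 54 0 55 255 255 255)))))
    (.node 0
    (.node 1
    (.node 2
    (.leaf (lf 1024 0 0 94 52 (-102) 38 0 36 255 255 255))
    (.leaf (lf 1024 0 0 91 50 (-98) 36 0 32 255 255 255)))
    (.leaf (lf 16384 0 0 1863 916 (-1789) 700 0 608 255 252 176)))
    (.node 1
    (.leaf (lf 1024 0 0 103 56 (-110) 42 0 41 255 251 184))
    (.leaf (lf 1024 0 0 128 62 (-123) 50 0 46 255 251 182)))))
    (by decide +kernel)

def goodS0X_243 :
    Check.Good noCone cfS0X (reach cfS0X ⟨litS0X, 1, fsS0X⟩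
      [(1, false), (2, true), (1, true), (2, false), (2, false), (0, false), (1, false), (2, false), (0, false), (2, false), (0, true), (2, false)]) :=
  Check.good_node (a := 0) (by decide +kernel)
    goodS0X_244 goodS0X_245

def goodS0X_247 :
    Check.Good noCone cfS0X (reach cfS0X ⟨litS0X, 1, fsS0X⟩
      [(0, false), (1, true), (2, true), (1, true), (2, false), (2, false), (0, false), (1, false), (2, false), (0, false), (2, false), (0, true), (2, false)]) :=
  Check.check_sound
    (.node 2
    (.node 0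
    (.node 2
    (.leaf (lf 16384 0 0 2219 1096 (-2173) 729 0 731 251 255 130))
    (.node 0
    (.leaf (lf 1024 0 0 128 64 (-125) 42 0 38 255 255 255))
    (.leaf (lf 1024 0 0 136 67 (-132) 45 0 42 255 255 255))))
    (.node 2
    (.leaf (lf 1024 0 0 153 75 (-151) 52 0 57 253 255 127))
    (.leaf (lf 1024 0 0 149 73 (-145) 49 0 50 252 255 124))))
    (.node 0
    (.node 2
    (.node 0
    (.leaf (lf 1024 0 0 123 62 (-119) 40 0 33 255 255 255))
    (.leaf (lf 1024 0 0 131 65 (-126) 43 0 37 255 255 255)))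
    (.node 0
    (.leaf (lf 1024 0 0 117 61 (-114) 38 0 30 255 255 255))
    (.leaf (lf 1024 0 0 125 64 (-121) 41 0 34 255 255 255))))
    (.node 2
    (.leaf (lf 1024 0 0 143 71 (-139) 47 0 45 249 255 125))
    (.leaf (lf 1024 0 0 138 69 (-133) 45 0 40 246 255 123)))))
    (by decide +kernel)

def goodS0X_248 :
    Check.Good noCone cfS0X (reach cfS0X ⟨litS0X, 1, fsS0X⟩
      [(0, true), (1, true), (2, true), (1, true), (2, false), (2, false), (0, false), (1, false), (2, false), (0, false), (2, false), (0, true), (2, false)]) :=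
  Check.check_sound
    (.node 2
    (.node 0
    (.node 2
    (.leaf (lf 1024 0 0 168 82 (-166) 60 0 69 255 254 134))
    (.leaf (lf 1024 0 0 163 80 (-160) 56 0 61 255 254 125)))
    (.node 2
    (.leaf (lf 1024 0 0 182 88 (-180) 68 0 83 255 255 255))
    (.leaf (lf 1024 0 0 177 86 (-174) 64 0 74 255 255 255))))
    (.node 0
    (.node 2
    (.leaf (lf 1024 0 0 159 77 (-154) 53 0 55 249 255 120))
    (.leaf (lf 1024 0 0 154 76 (-148) 51 0 49 250 255 124)))
    (.node 2
    (.leaf (lf 1024 0 0 173 84 (-168) 61 0 66 252 255 129))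
    (.leaf (lf 1024 0 0 169 82 (-163) 58 0 60 249 255 128)))))
    (by decide +kernel)

def goodS0X_246 :
    Check.Good noCone cfS0X (reach cfS0X ⟨litS0X, 1, fsS0X⟩
      [(1, true), (2, true), (1, true), (2, false), (2, false), (0, false), (1, false), (2, false), (0, false), (2, false), (0, true), (2, false)]) :=
  Check.good_node (a := 0) (by decide +kernel)
    goodS0X_247 goodS0X_248

def goodS0X_242 :
    Check.Good noCone cfS0X (reach cfS0X ⟨litS0X, 1, fsS0X⟩
      [(2, true), (1, true), (2, false), (2, false), (0, false), (1, false), (2, false), (0, false), (2, false), (0, true), (2, false)]) :=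
  Check.good_node (a := 1) (by decide +kernel)
    goodS0X_243 goodS0X_246

def goodS0X_234 :
    Check.Good noCone cfS0X (reach cfS0X ⟨litS0X, 1, fsS0X⟩
      [(1, true), (2, false), (2, false), (0, false), (1, false), (2, false), (0, false), (2, false), (0, true), (2, false)]) :=
  Check.good_node (a := 2) (by decide +kernel)
    goodS0X_235 goodS0X_242

def goodS0X_224 :
    Check.Good noCone cfS0X (reach cfS0X ⟨litS0X, 1, fsS0X⟩
      [(2, false), (2, false), (0, false), (1, false), (2, false), (0, false), (2, false), (0, true), (2, false)]) :=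
  Check.good_node (a := 1) (by decide +kernel)
    goodS0X_225 goodS0X_234

def goodS0X_251 :
    Check.Good noCone cfS0X (reach cfS0X ⟨litS0X, 1, fsS0X⟩
      [(1, false), (1, false), (2, true), (2, false), (0, false), (1, false), (2, false), (0, false), (2, false), (0, true), (2, false)]) :=
  Check.check_sound
    (.node 0
    (.node 1
    (.node 2
    (.leaf (lf 1024 0 0 8 43 (-75) 3 0 18 255 255 255))
    (.leaf (lf 1024 0 0 6 51 (-84) 3 0 17 255 255 255)))
    (.node 2
    (.leaf (lf 804 1024 650 0 98 (-81) 0 0 28 255 255 255))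
    (.leaf (lf 1024 0 0 18 50 (-84) 8 0 17 255 255 255))))
    (.node 1
    (.node 2
    (.leaf (lf 1024 0 0 10 48 (-88) 4 0 26 255 255 255))
    (.leaf (lf 1024 0 0 8 47 (-82) 3 0 20 255 255 255)))
    (.node 2
    (.leaf (lf 768 1024 574 0 108 (-92) 0 0 38 255 191 224))
    (.leaf (lf 795 1024 669 0 108 (-87) 0 0 31 255 255 255)))))
    (by decide +kernel)

def goodS0X_253 :
    Check.Good noCone cfS0X (reach cfS0X ⟨litS0X, 1, fsS0X⟩
      [(0, false), (1, true), (1, false), (2, true), (2, false), (0, false), (1, false), (2, false), (0, false), (2, false), (0, true), (2, false)]) :=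
  Check.check_sound
    (.node 2
    (.node 1
    (.node 0
    (.leaf (lf 579 1024 1012 0 127 (-49) 0 0 33 255 255 255))
    (.node 2
    (.leaf (lf 1024 0 0 41 42 (-77) 17 0 21 255 250 175))
    (.leaf (lf 1024 0 0 37 42 (-75) 16 0 18 255 255 255))))
    (.node 0
    (.node 2
    (.node 2
    (.leaf (lf 1024 0 0 51 39 (-72) 21 0 18 255 255 255))
    (.leaf (lf 1024 0 0 48 40 (-71) 20 0 17 255 255 255)))
    (.leaf (lf 1024 0 0 44 41 (-72) 19 0 16 252 255 161)))
    (.node 2
    (.leaf (lf 16384 0 0 932 674 (-1247) 376 0 334 253 255 166))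
    (.leaf (lf 1024 0 0 53 42 (-75) 22 0 18 253 255 168)))))
    (.node 1
    (.leaf (lf 676 1024 976 0 138 (-70) 0 0 32 255 255 255))
    (.leaf (lf 447 817 1024 0 139 (-32) 0 0 33 253 140 255))))
    (by decide +kernel)

def goodS0X_254 :
    Check.Good noCone cfS0X (reach cfS0X ⟨litS0X, 1, fsS0X⟩
      [(0, true), (1, true), (1, false), (2, true), (2, false), (0, false), (1, false), (2, false), (0, false), (2, false), (0, true), (2, false)]) :=
  Check.check_sound
    (.node 2
    (.node 1
    (.node 2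
    (.node 0
    (.leaf (lf 1024 0 0 47 45 (-85) 19 0 25 255 255 255))
    (.leaf (lf 1024 0 0 53 50 (-95) 22 0 31 255 255 255)))
    (.node 0
    (.leaf (lf 1024 0 0 43 44 (-80) 18 0 21 255 255 255))
    (.leaf (lf 1024 0 0 49 47 (-88) 20 0 26 255 255 255))))
    (.node 2
    (.node 0
    (.leaf (lf 16384 0 0 1061 734 (-1386) 426 0 410 254 255 167))
    (.leaf (lf 1024 0 0 74 50 (-96) 30 0 31 255 254 167)))
    (.node 0
    (.leaf (lf 1024 0 0 61 44 (-81) 25 0 21 255 254 167))
    (.leaf (lf 1024 0 0 69 48 (-89) 28 0 26 254 255 168)))))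
    (.node 1
    (.node 0
    (.leaf (lf 566 1010 1024 0 140 (-52) 0 0 36 255 255 255))
    (.leaf (lf 541 1024 1006 0 148 (-50) 0 0 41 255 148 210)))
    (.node 0
    (.node 2
    (.leaf (lf 1024 0 0 56 44 (-78) 23 0 19 251 255 159))
    (.leaf (lf 1024 0 0 50 46 (-79) 22 0 17 255 255 255)))
    (.node 2
    (.leaf (lf 1024 0 0 64 46 (-84) 26 0 22 250 255 155))
    (.leaf (lf 1024 0 0 59 46 (-82) 24 0 20 255 255 255))))))
    (by decide +kernel)

def goodS0X_252 :
    Check.Good noCone cfS0X (reach cfS0X ⟨litS0X, 1, fsS0X⟩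
      [(1, true), (1, false), (2, true), (2, false), (0, false), (1, false), (2, false), (0, false), (2, false), (0, true), (2, false)]) :=
  Check.good_node (a := 0) (by decide +kernel)
    goodS0X_253 goodS0X_254

def goodS0X_250 :
    Check.Good noCone cfS0X (reach cfS0X ⟨litS0X, 1, fsS0X⟩
      [(1, false), (2, true), (2, false), (0, false), (1, false), (2, false), (0, false), (2, false), (0, true), (2, false)]) :=
  Check.good_node (a := 1) (by decide +kernel)
    goodS0X_251 goodS0X_252

def goodS0X_258 :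
    Check.Good noCone cfS0X (reach cfS0X ⟨litS0X, 1, fsS0X⟩
      [(2, false), (1, false), (0, false), (1, true), (2, true), (2, false), (0, false), (1, false), (2, false), (0, false), (2, false), (0, true), (2, false)]) :=
  Check.check_sound
    (.node 0
    (.node 2
    (.node 1
    (.node 2
    (.leaf (lf 1024 0 0 67 41 (-75) 27 0 19 245 255 145))
    (.leaf (lf 1024 0 0 64 41 (-74) 26 0 17 250 255 144)))
    (.node 2
    (.leaf (lf 1024 0 0 85 45 (-84) 32 0 21 244 255 137))
    (.leaf (lf 1024 0 0 81 45 (-81) 30 0 19 246 255 119))))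
    (.node 1
    (.leaf (lf 16384 0 0 942 676 (-1185) 386 0 259 248 255 157))
    (.node 0
    (.leaf (lf 1024 0 0 71 44 (-78) 28 0 17 255 255 255))
    (.leaf (lf 1024 0 0 77 45 (-80) 30 0 18 255 255 255)))))
    (.node 2
    (.node 1
    (.node 2
    (.leaf (lf 1024 0 0 78 45 (-84) 30 0 23 250 255 124))
    (.leaf (lf 1024 0 0 74 44 (-81) 29 0 21 246 255 124)))
    (.node 2
    (.leaf (lf 1024 0 0 98 50 (-94) 36 0 26 255 255 255))
    (.leaf (lf 1024 0 0 93 49 (-90) 35 0 24 246 255 141))))
    (.node 1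
    (.node 0
    (.leaf (lf 1024 0 0 66 42 (-76) 27 0 18 255 255 255))
    (.leaf (lf 1024 0 0 71 43 (-79) 29 0 19 255 255 255)))
    (.node 0
    (.leaf (lf 1024 0 0 84 46 (-84) 32 0 20 255 255 255))
    (.leaf (lf 1024 0 0 90 48 (-88) 34 0 22 255 255 255))))))
    (by decide +kernel)

def goodS0X_259 :
    Check.Good noCone cfS0X (reach cfS0X ⟨litS0X, 1, fsS0X⟩
      [(2, true), (1, false), (0, false), (1, true), (2, true), (2, false), (0, false), (1, false), (2, false), (0, false), (2, false), (0, true), (2, false)]) :=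
  Check.check_sound
    (.node 0
    (.node 2
    (.node 1
    (.leaf (lf 16384 0 0 832 737 (-1250) 362 0 249 255 255 255))
    (.leaf (lf 1024 0 0 67 48 (-82) 27 0 16 251 255 155)))
    (.node 1
    (.leaf (lf 1024 0 0 45 53 (-86) 21 0 16 255 255 255))
    (.leaf (lf 1024 0 0 59 53 (-88) 25 0 16 255 255 255))))
    (.node 2
    (.node 1
    (.leaf (lf 1024 0 0 63 45 (-78) 26 0 17 251 255 164))
    (.leaf (lf 16384 0 0 1272 769 (-1353) 490 0 298 246 255 149)))
    (.node 1
    (.leaf (lf 1024 0 0 56 48 (-82) 24 0 16 252 255 143))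
    (.leaf (lf 1024 0 0 72 51 (-86) 29 0 17 255 255 255)))))
    (by decide +kernel)

def goodS0X_257 :
    Check.Good noCone cfS0X (reach cfS0X ⟨litS0X, 1, fsS0X⟩
      [(1, false), (0, false), (1, true), (2, true), (2, false), (0, false), (1, false), (2, false), (0, false), (2, false), (0, true), (2, false)]) :=
  Check.good_node (a := 2) (by decide +kernel)
    goodS0X_258 goodS0X_259

def goodS0X_261 :
    Check.Good noCone cfS0X (reach cfS0X ⟨litS0X, 1, fsS0X⟩
      [(2, false), (1, true), (0, false), (1, true), (2, true), (2, false), (0, false), (1, false), (2, false), (0, false), (2, false), (0, true), (2, false)]) :=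
  Check.check_sound
    (.node 0
    (.node 2
    (.node 2
    (.node 0
    (.leaf (lf 1024 0 0 112 59 (-109) 37 0 27 242 255 125))
    (.leaf (lf 1024 0 0 120 62 (-116) 39 0 30 255 255 255)))
    (.node 0
    (.leaf (lf 1024 0 0 107 58 (-106) 35 0 25 255 255 255))
    (.leaf (lf 1024 0 0 115 61 (-112) 38 0 28 245 255 131))))
    (.node 0
    (.node 1
    (.leaf (lf 1024 0 0 89 50 (-88) 32 0 19 255 255 255))
    (.leaf (lf 1024 0 0 110 59 (-105) 35 0 23 255 255 255)))
    (.leaf (lf 16384 0 0 1721 958 (-1720) 568 0 390 247 255 141))))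
    (.node 2
    (.node 2
    (.leaf (lf 1024 0 0 133 67 (-128) 43 0 36 245 255 118))
    (.leaf (lf 1024 0 0 128 66 (-124) 41 0 33 243 255 112)))
    (.node 1
    (.leaf (lf 1024 0 0 108 56 (-101) 37 0 25 253 255 154))
    (.leaf (lf 1024 0 0 133 67 (-122) 41 0 30 255 255 255)))))
    (by decide +kernel)

def goodS0X_262 :
    Check.Good noCone cfS0X (reach cfS0X ⟨litS0X, 1, fsS0X⟩
      [(2, true), (1, true), (0, false), (1, true), (2, true), (2, false), (0, false), (1, false), (2, false), (0, false), (2, false), (0, true), (2, false)]) :=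
  Check.check_sound
    (.node 0
    (.node 2
    (.node 0
    (.leaf (lf 1024 0 0 89 59 (-100) 31 0 20 249 255 142))
    (.leaf (lf 16384 0 0 1557 957 (-1663) 534 0 343 245 255 138)))
    (.node 0
    (.leaf (lf 1024 0 0 79 62 (-102) 30 0 19 250 255 160))
    (.leaf (lf 1024 0 0 87 62 (-104) 32 0 20 246 255 150))))
    (.node 2
    (.node 1
    (.leaf (lf 1024 0 0 99 55 (-97) 35 0 22 251 255 161))
    (.leaf (lf 1024 0 0 122 65 (-116) 38 0 26 255 255 255)))
    (.node 1
    (.leaf (lf 1024 0 0 90 56 (-96) 33 0 20 249 255 156))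
    (.leaf (lf 1024 0 0 111 65 (-113) 36 0 23 255 255 255)))))
    (by decide +kernel)

def goodS0X_260 :
    Check.Good noCone cfS0X (reach cfS0X ⟨litS0X, 1, fsS0X⟩
      [(1, true), (0, false), (1, true), (2, true), (2, false), (0, false), (1, false), (2, false), (0, false), (2, false), (0, true), (2, false)]) :=
  Check.good_node (a := 2) (by decide +kernel)
    goodS0X_261 goodS0X_262

def goodS0X_256 :
    Check.Good noCone cfS0X (reach cfS0X ⟨litS0X, 1, fsS0X⟩
      [(0, false), (1, true), (2, true), (2, false), (0, false), (1, false), (2, false), (0, false), (2, false), (0, true), (2, false)]) :=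
  Check.good_node (a := 1) (by decide +kernel)
    goodS0X_257 goodS0X_260

def goodS0X_264 :
    Check.Good noCone cfS0X (reach cfS0X ⟨litS0X, 1, fsS0X⟩
      [(1, false), (0, true), (1, true), (2, true), (2, false), (0, false), (1, false), (2, false), (0, false), (2, false), (0, true), (2, false)]) :=
  Check.check_sound
    (.node 2
    (.node 2
    (.node 0
    (.node 1
    (.leaf (lf 16384 0 0 1386 775 (-1469) 537 0 437 253 255 164))
    (.leaf (lf 1024 0 0 108 54 (-103) 40 0 31 254 255 166)))
    (.node 1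
    (.leaf (lf 1024 0 0 97 53 (-102) 38 0 33 255 254 170))
    (.leaf (lf 1024 0 0 121 59 (-114) 45 0 38 255 253 171))))
    (.node 0
    (.node 1
    (.leaf (lf 1024 0 0 80 46 (-86) 31 0 23 249 255 154))
    (.leaf (lf 1024 0 0 100 52 (-96) 37 0 26 252 255 159)))
    (.node 1
    (.leaf (lf 1024 0 0 90 50 (-95) 35 0 28 251 255 157))
    (.leaf (lf 1024 0 0 113 56 (-106) 42 0 31 252 255 163)))))
    (.node 0
    (.node 2
    (.node 1
    (.leaf (lf 1024 0 0 73 46 (-82) 29 0 20 249 255 152))
    (.leaf (lf 1024 0 0 92 50 (-91) 35 0 22 247 255 156)))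
    (.node 1
    (.leaf (lf 1024 0 0 67 47 (-82) 27 0 18 246 255 136))
    (.leaf (lf 1024 0 0 84 51 (-89) 33 0 20 248 255 159))))
    (.node 2
    (.node 1
    (.leaf (lf 16384 0 0 1341 775 (-1423) 523 0 377 247 255 150))
    (.leaf (lf 1024 0 0 105 54 (-100) 39 0 26 253 255 150)))
    (.node 1
    (.leaf (lf 1024 0 0 77 48 (-86) 31 0 21 247 255 153))
    (.leaf (lf 1024 0 0 97 53 (-95) 37 0 23 248 255 152))))))
    (by decide +kernel)

def goodS0X_265 :
    Check.Good noCone cfS0X (reach cfS0X ⟨litS0X, 1, fsS0X⟩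
      [(1, true), (0, true), (1, true), (2, true), (2, false), (0, false), (1, false), (2, false), (0, false), (2, false), (0, true), (2, false)]) :=
  Check.check_sound
    (.node 2
    (.node 2
    (.node 0
    (.node 2
    (.leaf (lf 1024 0 0 149 74 (-143) 49 0 44 251 255 124))
    (.leaf (lf 1024 0 0 144 72 (-138) 47 0 40 249 255 120)))
    (.node 2
    (.leaf (lf 1024 0 0 164 80 (-157) 55 0 54 248 255 119))
    (.leaf (lf 1024 0 0 160 78 (-152) 53 0 49 247 255 121))))
    (.node 0
    (.node 1
    (.leaf (lf 1024 0 0 123 60 (-113) 42 0 30 253 255 151))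
    (.leaf (lf 1024 0 0 150 73 (-137) 46 0 37 255 255 255)))
    (.node 1
    (.leaf (lf 1024 0 0 138 66 (-125) 47 0 37 255 255 255))
    (.leaf (lf 1024 0 0 167 79 (-151) 52 0 45 255 255 255)))))
    (.node 0
    (.node 2
    (.node 1
    (.leaf (lf 1024 0 0 114 59 (-106) 39 0 26 255 255 255))
    (.leaf (lf 1024 0 0 139 70 (-129) 43 0 32 255 255 255)))
    (.node 1
    (.leaf (lf 1024 0 0 105 58 (-103) 37 0 23 255 255 255))
    (.leaf (lf 1024 0 0 129 69 (-123) 41 0 28 255 255 255))))
    (.node 2
    (.node 1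
    (.leaf (lf 1024 0 0 129 63 (-117) 44 0 31 255 255 255))
    (.leaf (lf 1024 0 0 157 76 (-142) 48 0 38 255 255 255)))
    (.node 1
    (.leaf (lf 1024 0 0 120 62 (-112) 42 0 27 255 255 255))
    (.leaf (lf 1024 0 0 147 74 (-135) 46 0 33 255 255 255))))))
    (by decide +kernel)

def goodS0X_263 :
    Check.Good noCone cfS0X (reach cfS0X ⟨litS0X, 1, fsS0X⟩
      [(0, true), (1, true), (2, true), (2, false), (0, false), (1, false), (2, false), (0, false), (2, false), (0, true), (2, false)]) :=
  Check.good_node (a := 1) (by decide +kernel)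
    goodS0X_264 goodS0X_265

def goodS0X_255 :
    Check.Good noCone cfS0X (reach cfS0X ⟨litS0X, 1, fsS0X⟩
      [(1, true), (2, true), (2, false), (0, false), (1, false), (2, false), (0, false), (2, false), (0, true), (2, false)]) :=
  Check.good_node (a := 0) (by decide +kernel)
    goodS0X_256 goodS0X_263

def goodS0X_249 :
    Check.Good noCone cfS0X (reach cfS0X ⟨litS0X, 1, fsS0X⟩
      [(2, true), (2, false), (0, false), (1, false), (2, false), (0, false), (2, false), (0, true), (2, false)]) :=
  Check.good_node (a := 1) (by decide +kernel)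
    goodS0X_250 goodS0X_255

def goodS0X_223 :
    Check.Good noCone cfS0X (reach cfS0X ⟨litS0X, 1, fsS0X⟩
      [(2, false), (0, false), (1, false), (2, false), (0, false), (2, false), (0, true), (2, false)]) :=
  Check.good_node (a := 2) (by decide +kernel)
    goodS0X_224 goodS0X_249

def goodS0X_267 :
    Check.Good noCone cfS0X (reach cfS0X ⟨litS0X, 1, fsS0X⟩
      [(1, false), (2, true), (0, false), (1, false), (2, false), (0, false), (2, false), (0, true), (2, false)]) :=
  Check.check_sound
    (.node 2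
    (.node 1
    (.node 0
    (.leaf (lf 1024 0 0 8 85 (-126) 4 0 20 255 255 255))
    (.node 1
    (.leaf (lf 1024 0 0 6 62 (-100) 3 0 19 255 255 255))
    (.leaf (lf 1024 0 0 19 62 (-99) 9 0 19 255 255 255))))
    (.node 0
    (.node 2
    (.node 1
    (.leaf (lf 1024 0 0 23 67 (-104) 12 0 18 255 255 255))
    (.leaf (lf 1024 0 0 33 65 (-102) 16 0 18 255 255 255)))
    (.leaf (lf 1024 0 0 20 91 (-134) 13 0 21 255 255 255)))
    (.node 2
    (.node 1
    (.leaf (lf 648 1024 1013 0 152 (-70) 0 0 36 255 255 255))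
    (.leaf (lf 416 786 1024 0 148 (-27) 0 0 37 255 139 241)))
    (.node 1
    (.leaf (lf 1024 0 0 28 67 (-106) 14 0 19 255 255 255))
    (.leaf (lf 1024 0 0 40 66 (-105) 19 0 19 255 255 255))))))
    (.node 1
    (.leaf (lf 1024 0 0 7 121 (-165) 4 0 24 255 255 255))
    (.node 0
    (.leaf (lf 1024 0 0 11 137 (-180) 11 0 24 255 255 255))
    (.leaf (lf 16384 0 0 369 1652 (-2397) 232 0 373 255 255 255)))))
    (by decide +kernel)

def goodS0X_270 :
    Check.Good noCone cfS0X (reach cfS0X ⟨litS0X, 1, fsS0X⟩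
      [(0, false), (2, false), (1, true), (2, true), (0, false), (1, false), (2, false), (0, false), (2, false), (0, true), (2, false)]) :=
  Check.check_sound
    (.node 1
    (.node 2
    (.node 0
    (.leaf (lf 459 725 1024 0 171 (-48) 0 0 36 238 150 255))
    (.node 2
    (.node 1
    (.leaf (lf 1024 0 0 50 54 (-89) 23 0 17 255 255 255))
    (.leaf (lf 1024 0 0 64 55 (-92) 27 0 17 255 255 255)))
    (.leaf (lf 1024 0 0 50 66 (-105) 24 0 18 249 255 147))))
    (.leaf (lf 589 803 1024 0 208 (-88) 0 0 40 253 147 255)))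
    (.node 2
    (.node 0
    (.node 2
    (.leaf (lf 1024 0 0 75 68 (-109) 29 0 19 244 255 144))
    (.leaf (lf 1024 0 0 66 75 (-117) 28 0 19 255 255 255)))
    (.node 2
    (.node 1
    (.leaf (lf 1024 0 0 81 60 (-99) 31 0 19 255 255 255))
    (.leaf (lf 1024 0 0 101 67 (-112) 34 0 21 255 255 255)))
    (.leaf (lf 1024 0 0 82 71 (-115) 31 0 20 246 255 126))))
    (.leaf (lf 410 670 1024 0 215 (-37) 0 0 43 255 137 239))))
    (by decide +kernel)

def goodS0X_272 :
    Check.Good noCone cfS0X (reach cfS0X ⟨litS0X, 1, fsS0X⟩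
      [(1, false), (0, true), (2, false), (1, true), (2, true), (0, false), (1, false), (2, false), (0, false), (2, false), (0, true), (2, false)]) :=
  Check.check_sound
    (.node 2
    (.node 0
    (.node 2
    (.node 1
    (.leaf (lf 1024 0 0 60 50 (-85) 26 0 17 255 255 255))
    (.leaf (lf 1024 0 0 77 53 (-90) 31 0 19 249 255 157)))
    (.node 1
    (.leaf (lf 1024 0 0 54 56 (-92) 25 0 18 255 255 255))
    (.leaf (lf 1024 0 0 69 57 (-95) 30 0 18 255 255 255))))
    (.node 2
    (.node 1
    (.leaf (lf 1024 0 0 71 49 (-85) 29 0 19 244 255 140))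
    (.leaf (lf 1024 0 0 90 53 (-93) 35 0 21 245 255 151)))
    (.node 1
    (.leaf (lf 1024 0 0 65 52 (-88) 28 0 18 255 255 255))
    (.leaf (lf 1024 0 0 82 55 (-95) 33 0 20 255 255 255)))))
    (.node 0
    (.leaf (lf 408 692 1024 0 180 (-37) 0 0 41 254 150 255))
    (.node 1
    (.leaf (lf 1024 0 0 56 61 (-99) 26 0 19 255 255 255))
    (.leaf (lf 1024 0 0 72 63 (-103) 31 0 20 255 247 184)))))
    (by decide +kernel)

def goodS0X_273 :
    Check.Good noCone cfS0X (reach cfS0X ⟨litS0X, 1, fsS0X⟩
      [(1, true), (0, true), (2, false), (1, true), (2, true), (0, false), (1, false), (2, false), (0, false), (2, false), (0, true), (2, false)]) :=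
  Check.check_sound
    (.node 2
    (.node 0
    (.node 2
    (.node 1
    (.leaf (lf 1024 0 0 96 59 (-102) 35 0 21 255 255 255))
    (.leaf (lf 1024 0 0 119 69 (-119) 39 0 25 255 255 255)))
    (.leaf (lf 1024 0 0 98 70 (-117) 35 0 23 244 255 128)))
    (.node 2
    (.node 1
    (.leaf (lf 1024 0 0 111 61 (-108) 40 0 24 255 255 255))
    (.leaf (lf 1024 0 0 136 73 (-130) 44 0 29 255 255 255)))
    (.node 1
    (.leaf (lf 1024 0 0 102 62 (-107) 38 0 23 255 255 255))
    (.leaf (lf 1024 0 0 126 73 (-126) 42 0 27 255 255 255)))))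
    (.node 0
    (.node 2
    (.leaf (lf 1024 0 0 89 74 (-120) 34 0 22 243 255 138))
    (.leaf (lf 1024 0 0 80 79 (-126) 33 0 22 244 255 152)))
    (.node 2
    (.leaf (lf 1024 0 0 105 73 (-123) 38 0 24 244 255 126))
    (.leaf (lf 1024 0 0 96 76 (-126) 37 0 23 246 255 137)))))
    (by decide +kernel)

def goodS0X_271 :
    Check.Good noCone cfS0X (reach cfS0X ⟨litS0X, 1, fsS0X⟩
      [(0, true), (2, false), (1, true), (2, true), (0, false), (1, false), (2, false), (0, false), (2, false), (0, true), (2, false)]) :=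
  Check.good_node (a := 1) (by decide +kernel)
    goodS0X_272 goodS0X_273

def goodS0X_269 :
    Check.Good noCone cfS0X (reach cfS0X ⟨litS0X, 1, fsS0X⟩
      [(2, false), (1, true), (2, true), (0, false), (1, false), (2, false), (0, false), (2, false), (0, true), (2, false)]) :=
  Check.good_node (a := 0) (by decide +kernel)
    goodS0X_270 goodS0X_271

def goodS0X_274 :
    Check.Good noCone cfS0X (reach cfS0X ⟨litS0X, 1, fsS0X⟩
      [(2, true), (1, true), (2, true), (0, false), (1, false), (2, false), (0, false), (2, false), (0, true), (2, false)]) :=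
  Check.check_sound
    (.node 0
    (.node 1
    (.leaf (lf 1024 0 0 22 131 (-175) 18 0 24 255 255 255))
    (.leaf (lf 1024 0 0 43 128 (-172) 24 0 23 255 255 255)))
    (.node 1
    (.leaf (lf 605 814 1024 0 237 (-103) 0 0 46 223 176 255))
    (.leaf (lf 427 685 1024 0 248 (-48) 0 0 50 247 164 255))))
    (by decide +kernel)

def goodS0X_268 :
    Check.Good noCone cfS0X (reach cfS0X ⟨litS0X, 1, fsS0X⟩
      [(1, true), (2, true), (0, false), (1, false), (2, false), (0, false), (2, false), (0, true), (2, false)]) :=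
  Check.good_node (a := 2) (by decide +kernel)
    goodS0X_269 goodS0X_274

def goodS0X_266 :
    Check.Good noCone cfS0X (reach cfS0X ⟨litS0X, 1, fsS0X⟩
      [(2, true), (0, false), (1, false), (2, false), (0, false), (2, false), (0, true), (2, false)]) :=
  Check.good_node (a := 1) (by decide +kernel)
    goodS0X_267 goodS0X_268

def goodS0X_222 :
    Check.Good noCone cfS0X (reach cfS0X ⟨litS0X, 1, fsS0X⟩
      [(0, false), (1, false), (2, false), (0, false), (2, false), (0, true), (2, false)]) :=
  Check.good_node (a := 2) (by decide +kernel)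
    goodS0X_223 goodS0X_266

end

end Vale.Agent.P211.Cert.Interior.Data
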