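import Vale.Agent.P211.Cert.Interior.Data.S0Xr

/-!
P211, a part of a cell of the interior family (generated).
-/

namespace Vale.Agent.P211.Cert.Interior.Data

open Vale.Agent.P098.Check6 (ofChunks eqList reach St Cfg Face)
open Vale.Agent.P098.Cert6.Kron (RootPar parOK)

set_option linter.defProp false

noncomputable section

def goodS0X_279 :
    Check.Good noCone cfS0X (reach cfS0X ⟨litS0X, 1, fsS0X⟩
      [(1, false), (1, false), (2, false), (2, false), (0, true), (1, false), (2, false), (0, false), (2, false), (0, true), (2, false)]) :=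
  Check.check_sound
    (.node 0
    (.node 2
    (.node 1
    (.node 2
    (.leaf (lf 1024 0 0 15 68 (-139) 9 0 104 255 255 255))
    (.leaf (lf 1024 0 0 15 66 (-134) 7 0 80 255 255 255)))
    (.leaf (lf 883 1024 344 0 140 (-158) 0 0 122 241 210 255)))
    (.node 1
    (.leaf (lf 1024 0 0 14 62 (-121) 6 0 55 255 255 255))
    (.leaf (lf 841 1024 411 0 133 (-139) 0 0 78 255 185 234))))
    (.node 2
    (.node 1
    (.leaf (lf 1024 395 88 0 87 (-156) 0 0 125 206 232 255))
    (.leaf (lf 903 1024 332 0 156 (-178) 0 0 163 205 185 255)))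
    (.node 1
    (.leaf (lf 1024 0 0 16 72 (-140) 7 0 76 255 255 255))
    (.leaf (lf 872 1024 380 0 151 (-165) 0 0 108 255 255 255)))))
    (by decide +kernel)

def goodS0X_281 :
    Check.Good noCone cfS0X (reach cfS0X ⟨litS0X, 1, fsS0X⟩
      [(0, false), (1, true), (1, false), (2, false), (2, false), (0, true), (1, false), (2, false), (0, false), (2, false), (0, true), (2, false)]) :=
  Check.check_sound
    (.node 2
    (.node 2
    (.node 1
    (.leaf (lf 563 1024 490 0 174 (-121) 0 0 139 255 162 196))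
    (.node 2
    (.node 0
    (.leaf (lf 1024 0 0 99 66 (-139) 63 0 107 255 255 255))
    (.leaf (lf 1024 0 0 105 70 (-146) 72 0 124 255 255 255)))
    (.leaf (lf 1024 0 0 103 68 (-140) 59 0 100 255 246 167))))
    (.node 1
    (.leaf (lf 556 1024 529 0 172 (-113) 0 0 109 255 174 192))
    (.node 0
    (.leaf (lf 1024 0 0 96 64 (-130) 48 0 74 255 255 255))
    (.leaf (lf 1024 0 0 102 68 (-138) 55 0 87 255 255 255)))))
    (.node 2
    (.node 1
    (.node 0
    (.leaf (lf 1024 0 0 65 60 (-121) 30 0 57 255 255 255))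
    (.leaf (lf 1024 0 0 71 65 (-130) 34 0 68 255 255 255)))
    (.node 0
    (.leaf (lf 1024 0 0 92 61 (-122) 42 0 58 255 255 255))
    (.leaf (lf 1024 0 0 99 65 (-131) 47 0 69 255 255 255))))
    (.node 1
    (.node 0
    (.leaf (lf 1024 0 0 62 58 (-113) 27 0 46 255 255 255))
    (.leaf (lf 1024 0 0 67 62 (-123) 30 0 55 255 255 255)))
    (.node 0
    (.leaf (lf 1024 0 0 87 58 (-115) 37 0 47 255 255 255))
    (.leaf (lf 1024 0 0 94 63 (-124) 42 0 56 255 255 255))))))
    (by decide +kernel)

def goodS0X_282 :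
    Check.Good noCone cfS0X (reach cfS0X ⟨litS0X, 1, fsS0X⟩
      [(0, true), (1, true), (1, false), (2, false), (2, false), (0, true), (1, false), (2, false), (0, false), (2, false), (0, true), (2, false)]) :=
  Check.check_sound
    (.node 2
    (.node 2
    (.node 1
    (.leaf (lf 570 1024 480 0 191 (-134) 0 0 183 255 169 202))
    (.node 2
    (.leaf (lf 1024 0 0 115 76 (-155) 86 0 152 255 246 179))
    (.leaf (lf 1024 0 0 114 75 (-154) 76 0 132 255 247 169))))
    (.node 1
    (.leaf (lf 1024 0 442 146 80 (-113) 0 0 126 220 255 234))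
    (.node 2
    (.leaf (lf 1024 0 0 113 75 (-152) 69 0 116 255 247 165))
    (.leaf (lf 1024 0 0 112 74 (-149) 62 0 103 255 255 255)))))
    (.node 2
    (.node 1
    (.leaf (lf 1024 0 0 79 72 (-143) 39 0 85 255 243 187))
    (.node 0
    (.leaf (lf 1024 0 0 105 70 (-140) 53 0 80 255 255 255))
    (.leaf (lf 1024 0 0 112 74 (-148) 59 0 92 255 255 255))))
    (.node 1
    (.leaf (lf 1024 0 0 77 70 (-137) 35 0 70 255 243 179))
    (.node 0
    (.leaf (lf 1024 0 0 102 67 (-133) 46 0 65 255 255 255))
    (.leaf (lf 1024 0 0 108 72 (-142) 52 0 76 255 255 255))))))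
    (by decide +kernel)

def goodS0X_280 :
    Check.Good noCone cfS0X (reach cfS0X ⟨litS0X, 1, fsS0X⟩
      [(1, true), (1, false), (2, false), (2, false), (0, true), (1, false), (2, false), (0, false), (2, false), (0, true), (2, false)]) :=
  Check.good_node (a := 0) (by decide +kernel)
    goodS0X_281 goodS0X_282

def goodS0X_278 :
    Check.Good noCone cfS0X (reach cfS0X ⟨litS0X, 1, fsS0X⟩
      [(1, false), (2, false), (2, false), (0, true), (1, false), (2, false), (0, false), (2, false), (0, true), (2, false)]) :=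
  Check.good_node (a := 1) (by decide +kernel)
    goodS0X_279 goodS0X_280

def goodS0X_286 :
    Check.Good noCone cfS0X (reach cfS0X ⟨litS0X, 1, fsS0X⟩
      [(0, false), (1, false), (2, false), (1, true), (2, false), (2, false), (0, true), (1, false), (2, false), (0, false), (2, false), (0, true), (2, false)]) :=
  Check.check_sound
    (.node 2
    (.node 2
    (.node 0
    (.node 1
    (.leaf (lf 1024 0 0 127 70 (-147) 81 0 114 255 255 255))
    (.leaf (lf 1024 0 0 157 79 (-165) 97 0 128 255 255 255)))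
    (.node 1
    (.leaf (lf 1024 0 0 134 74 (-154) 92 0 132 255 255 255))
    (.leaf (lf 1024 0 0 165 84 (-173) 110 0 149 255 255 255))))
    (.node 0
    (.node 1
    (.leaf (lf 1024 0 0 125 69 (-143) 72 0 97 255 255 255))
    (.leaf (lf 1024 0 0 154 77 (-160) 86 0 110 255 255 255)))
    (.node 1
    (.leaf (lf 1024 0 0 133 73 (-151) 82 0 113 255 255 255))
    (.leaf (lf 1024 0 0 163 82 (-169) 98 0 127 255 255 255)))))
    (.node 0
    (.node 2
    (.node 1
    (.leaf (lf 1024 0 0 123 68 (-139) 65 0 85 255 255 255))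
    (.leaf (lf 1024 0 0 152 75 (-155) 78 0 95 255 255 255)))
    (.node 1
    (.leaf (lf 1024 0 0 121 66 (-135) 60 0 74 255 255 255))
    (.leaf (lf 1024 0 0 149 73 (-150) 71 0 83 255 255 255))))
    (.node 2
    (.node 1
    (.leaf (lf 1024 0 0 131 72 (-148) 74 0 99 255 255 255))
    (.leaf (lf 1024 0 0 161 80 (-164) 88 0 110 255 255 255)))
    (.node 1
    (.leaf (lf 1024 0 0 129 70 (-144) 68 0 87 255 255 255))
    (.leaf (lf 1024 0 0 159 78 (-160) 81 0 97 255 255 255))))))
    (by decide +kernel)

def goodS0X_287 :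
    Check.Good noCone cfS0X (reach cfS0X ⟨litS0X, 1, fsS0X⟩
      [(0, true), (1, false), (2, false), (1, true), (2, false), (2, false), (0, true), (1, false), (2, false), (0, false), (2, false), (0, true), (2, false)]) :=
  Check.check_sound
    (.node 2
    (.node 2
    (.node 0
    (.node 1
    (.leaf (lf 1024 0 0 141 78 (-161) 105 0 151 255 255 255))
    (.leaf (lf 1024 0 0 173 88 (-181) 126 0 171 255 255 255)))
    (.node 1
    (.leaf (lf 1024 0 0 148 82 (-167) 119 0 171 255 255 255))
    (.leaf (lf 1024 0 0 181 93 (-189) 143 0 195 255 255 255))))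
    (.node 0
    (.node 1
    (.leaf (lf 1024 0 0 140 77 (-158) 93 0 130 255 255 255))
    (.leaf (lf 1024 0 0 172 86 (-177) 111 0 146 255 255 255)))
    (.leaf (lf 1024 0 0 164 91 (-185) 115 0 166 255 250 154))))
    (.node 2
    (.node 0
    (.leaf (lf 16384 0 0 2482 1357 (-2780) 1466 0 2041 255 254 149))
    (.leaf (lf 1024 0 0 163 89 (-181) 103 0 146 255 254 149)))
    (.node 0
    (.leaf (lf 1024 0 0 153 83 (-170) 84 0 113 253 255 145))
    (.leaf (lf 1024 0 0 162 88 (-178) 94 0 129 254 255 144)))))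
    (by decide +kernel)

def goodS0X_285 :
    Check.Good noCone cfS0X (reach cfS0X ⟨litS0X, 1, fsS0X⟩
      [(1, false), (2, false), (1, true), (2, false), (2, false), (0, true), (1, false), (2, false), (0, false), (2, false), (0, true), (2, false)]) :=
  Check.good_node (a := 0) (by decide +kernel)
    goodS0X_286 goodS0X_287

def goodS0X_288 :
    Check.Good noCone cfS0X (reach cfS0X ⟨litS0X, 1, fsS0X⟩
      [(1, true), (2, false), (1, true), (2, false), (2, false), (0, true), (1, false), (2, false), (0, false), (2, false), (0, true), (2, false)]) :=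
  Check.check_sound
    (.node 2
    (.node 0
    (.node 2
    (.node 0
    (.leaf (lf 1024 0 0 208 106 (-220) 113 0 174 255 255 255))
    (.leaf (lf 1024 0 0 219 113 (-233) 129 0 203 255 255 255)))
    (.node 0
    (.leaf (lf 1024 0 0 205 103 (-213) 101 0 148 255 255 255))
    (.leaf (lf 1024 0 0 217 109 (-226) 115 0 172 255 255 255))))
    (.node 2
    (.node 0
    (.leaf (lf 1024 0 0 230 120 (-245) 147 0 234 255 255 255))
    (.leaf (lf 1024 0 0 241 127 (-256) 167 0 268 255 255 255)))
    (.node 0
    (.leaf (lf 1024 0 0 228 116 (-238) 131 0 199 255 255 255))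
    (.leaf (lf 1024 0 0 239 123 (-249) 148 0 228 255 255 255)))))
    (.node 0
    (.node 0
    (.node 2
    (.leaf (lf 1024 0 0 202 100 (-206) 91 0 128 255 255 255))
    (.leaf (lf 1024 0 0 199 97 (-200) 84 0 111 255 255 255)))
    (.node 2
    (.leaf (lf 1024 0 0 214 106 (-219) 104 0 149 255 255 255))
    (.leaf (lf 1024 0 0 211 103 (-213) 95 0 130 255 255 255))))
    (.node 2
    (.node 0
    (.leaf (lf 1024 0 0 226 113 (-231) 118 0 172 255 255 255))
    (.leaf (lf 1024 0 0 237 119 (-242) 133 0 198 255 255 255)))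
    (.node 0
    (.leaf (lf 1024 0 0 223 110 (-225) 108 0 151 255 255 255))
    (.leaf (lf 1024 0 0 235 116 (-236) 122 0 174 255 255 255))))))
    (by decide +kernel)

def goodS0X_284 :
    Check.Good noCone cfS0X (reach cfS0X ⟨litS0X, 1, fsS0X⟩
      [(2, false), (1, true), (2, false), (2, false), (0, true), (1, false), (2, false), (0, false), (2, false), (0, true), (2, false)]) :=
  Check.good_node (a := 1) (by decide +kernel)
    goodS0X_285 goodS0X_288

def goodS0X_291 :
    Check.Good noCone cfS0X (reach cfS0X ⟨litS0X, 1, fsS0X⟩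
      [(0, false), (1, false), (2, true), (1, true), (2, false), (2, false), (0, true), (1, false), (2, false), (0, false), (2, false), (0, true), (2, false)]) :=
  Check.check_sound
    (.node 2
    (.node 0
    (.node 2
    (.node 1
    (.leaf (lf 1024 0 0 119 65 (-131) 55 0 66 255 255 255))
    (.leaf (lf 1024 0 0 146 72 (-146) 66 0 73 255 255 255)))
    (.node 1
    (.leaf (lf 1024 0 0 116 63 (-127) 52 0 58 255 255 255))
    (.leaf (lf 1024 0 0 143 70 (-141) 62 0 65 255 255 255))))
    (.node 2
    (.leaf (lf 1024 0 0 142 77 (-158) 68 0 87 251 255 132))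
    (.leaf (lf 16384 0 0 2237 1215 (-2458) 1019 0 1244 250 255 131))))
    (.node 0
    (.node 1
    (.leaf (lf 1024 0 0 113 61 (-121) 47 0 49 255 255 255))
    (.leaf (lf 1024 0 0 139 67 (-134) 56 0 55 255 255 255)))
    (.node 1
    (.leaf (lf 1024 0 0 122 66 (-130) 53 0 59 255 255 255))
    (.leaf (lf 1024 0 0 151 72 (-145) 63 0 65 255 255 255)))))
    (by decide +kernel)

def goodS0X_292 :
    Check.Good noCone cfS0X (reach cfS0X ⟨litS0X, 1, fsS0X⟩
      [(0, true), (1, false), (2, true), (1, true), (2, false), (2, false), (0, true), (1, false), (2, false), (0, false), (2, false), (0, true), (2, false)]) :=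
  Check.check_sound
    (.node 2
    (.node 0
    (.node 2
    (.leaf (lf 1024 0 0 151 82 (-167) 77 0 100 254 255 136))
    (.leaf (lf 1024 0 0 149 81 (-163) 72 0 90 251 255 135)))
    (.node 2
    (.leaf (lf 1024 0 0 160 86 (-175) 86 0 115 251 255 134))
    (.leaf (lf 1024 0 0 158 85 (-172) 80 0 104 249 255 130))))
    (.node 0
    (.node 1
    (.leaf (lf 1024 0 0 131 70 (-140) 59 0 69 255 255 255))
    (.leaf (lf 1024 0 0 161 77 (-154) 71 0 76 255 255 255)))
    (.node 1
    (.leaf (lf 1024 0 0 139 74 (-148) 66 0 79 255 255 255))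
    (.leaf (lf 1024 0 0 171 82 (-163) 79 0 88 255 255 255)))))
    (by decide +kernel)

def goodS0X_290 :
    Check.Good noCone cfS0X (reach cfS0X ⟨litS0X, 1, fsS0X⟩
      [(1, false), (2, true), (1, true), (2, false), (2, false), (0, true), (1, false), (2, false), (0, false), (2, false), (0, true), (2, false)]) :=
  Check.good_node (a := 0) (by decide +kernel)
    goodS0X_291 goodS0X_292

def goodS0X_293 :
    Check.Good noCone cfS0X (reach cfS0X ⟨litS0X, 1, fsS0X⟩
      [(1, true), (2, true), (1, true), (2, false), (2, false), (0, true), (1, false), (2, false), (0, false), (2, false), (0, true), (2, false)]) :=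
  Check.check_sound
    (.node 0
    (.node 2
    (.node 0
    (.node 2
    (.leaf (lf 1024 0 0 195 95 (-194) 78 0 98 255 255 255))
    (.leaf (lf 1024 0 0 191 92 (-188) 73 0 88 255 255 255)))
    (.node 2
    (.leaf (lf 1024 0 0 208 101 (-207) 88 0 115 255 255 255))
    (.leaf (lf 1024 0 0 205 99 (-201) 82 0 103 255 255 255))))
    (.node 0
    (.node 2
    (.leaf (lf 1024 0 0 187 90 (-182) 68 0 79 255 255 255))
    (.leaf (lf 1024 0 0 183 88 (-177) 65 0 71 255 255 255)))
    (.node 2
    (.leaf (lf 1024 0 0 201 97 (-195) 77 0 93 255 255 255))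
    (.leaf (lf 1024 0 0 197 95 (-190) 73 0 84 255 255 255)))))
    (.node 2
    (.node 0
    (.node 2
    (.leaf (lf 1024 0 0 220 107 (-219) 99 0 134 255 255 255))
    (.leaf (lf 1024 0 0 217 105 (-213) 93 0 120 255 255 255)))
    (.node 2
    (.leaf (lf 1024 0 0 232 114 (-231) 112 0 154 255 255 255))
    (.leaf (lf 1024 0 0 230 111 (-225) 104 0 138 255 255 255))))
    (.node 0
    (.leaf (lf 16384 0 0 3416 1632 (-3281) 1337 0 1638 255 247 163))
    (.leaf (lf 1024 0 0 226 108 (-217) 94 0 118 255 247 166)))))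
    (by decide +kernel)

def goodS0X_289 :
    Check.Good noCone cfS0X (reach cfS0X ⟨litS0X, 1, fsS0X⟩
      [(2, true), (1, true), (2, false), (2, false), (0, true), (1, false), (2, false), (0, false), (2, false), (0, true), (2, false)]) :=
  Check.good_node (a := 1) (by decide +kernel)
    goodS0X_290 goodS0X_293

def goodS0X_283 :
    Check.Good noCone cfS0X (reach cfS0X ⟨litS0X, 1, fsS0X⟩
      [(1, true), (2, false), (2, false), (0, true), (1, false), (2, false), (0, false), (2, false), (0, true), (2, false)]) :=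
  Check.good_node (a := 2) (by decide +kernel)
    goodS0X_284 goodS0X_289

def goodS0X_277 :
    Check.Good noCone cfS0X (reach cfS0X ⟨litS0X, 1, fsS0X⟩
      [(2, false), (2, false), (0, true), (1, false), (2, false), (0, false), (2, false), (0, true), (2, false)]) :=
  Check.good_node (a := 1) (by decide +kernel)
    goodS0X_278 goodS0X_283

def goodS0X_296 :
    Check.Good noCone cfS0X (reach cfS0X ⟨litS0X, 1, fsS0X⟩
      [(1, false), (1, false), (2, true), (2, false), (0, true), (1, false), (2, false), (0, false), (2, false), (0, true), (2, false)]) :=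
  Check.check_sound
    (.node 0
    (.node 1
    (.node 2
    (.leaf (lf 1024 0 0 12 57 (-107) 5 0 38 255 255 255))
    (.leaf (lf 1024 0 0 11 52 (-94) 4 0 27 255 255 255)))
    (.node 2
    (.leaf (lf 793 1024 497 0 125 (-117) 0 0 54 255 194 226))
    (.leaf (lf 763 1024 596 0 119 (-98) 0 0 41 255 255 255))))
    (.node 1
    (.leaf (lf 1024 456 134 0 77 (-126) 0 0 48 204 227 255))
    (.node 2
    (.leaf (lf 831 1024 441 0 143 (-144) 0 0 76 255 255 255))
    (.leaf (lf 1024 0 0 40 61 (-113) 15 0 38 255 241 190)))))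
    (by decide +kernel)

def goodS0X_298 :
    Check.Good noCone cfS0X (reach cfS0X ⟨litS0X, 1, fsS0X⟩
      [(0, false), (1, true), (1, false), (2, true), (2, false), (0, true), (1, false), (2, false), (0, false), (2, false), (0, true), (2, false)]) :=
  Check.check_sound
    (.node 2
    (.node 1
    (.node 2
    (.leaf (lf 1024 0 0 63 58 (-111) 25 0 42 255 247 158))
    (.leaf (lf 1024 0 0 59 55 (-104) 23 0 35 255 251 146)))
    (.node 2
    (.node 0
    (.leaf (lf 1024 0 0 82 55 (-107) 34 0 38 255 255 255))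
    (.leaf (lf 1024 0 0 90 60 (-117) 38 0 46 255 255 255)))
    (.node 0
    (.leaf (lf 1024 0 0 77 52 (-99) 31 0 32 255 255 255))
    (.leaf (lf 1024 0 0 85 57 (-109) 35 0 38 255 255 255)))))
    (.node 1
    (.node 0
    (.leaf (lf 526 1024 945 0 156 (-54) 0 0 46 255 160 209))
    (.leaf (lf 521 1024 877 0 164 (-61) 0 0 52 255 162 203)))
    (.node 0
    (.node 2
    (.leaf (lf 1024 0 0 72 50 (-93) 29 0 27 255 255 255))
    (.leaf (lf 1024 0 0 67 48 (-88) 27 0 23 248 255 140)))
    (.node 2
    (.leaf (lf 1024 0 0 81 54 (-102) 32 0 32 255 255 255))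
    (.leaf (lf 1024 0 0 76 52 (-96) 30 0 28 255 255 255))))))
    (by decide +kernel)

def goodS0X_299 :
    Check.Good noCone cfS0X (reach cfS0X ⟨litS0X, 1, fsS0X⟩
      [(0, true), (1, true), (1, false), (2, true), (2, false), (0, true), (1, false), (2, false), (0, false), (2, false), (0, true), (2, false)]) :=
  Check.check_sound
    (.node 2
    (.node 1
    (.node 2
    (.leaf (lf 1024 0 0 74 67 (-131) 31 0 58 255 255 255))
    (.leaf (lf 1024 0 0 71 65 (-124) 29 0 49 255 246 161)))
    (.node 2
    (.node 0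
    (.leaf (lf 1024 0 0 97 65 (-126) 42 0 54 255 255 255))
    (.leaf (lf 1024 0 0 105 69 (-135) 47 0 63 255 255 255)))
    (.node 0
    (.leaf (lf 1024 0 0 93 62 (-119) 38 0 45 255 255 255))
    (.leaf (lf 1024 0 0 101 67 (-129) 43 0 53 255 255 255)))))
    (.node 1
    (.node 0
    (.leaf (lf 16384 0 0 995 918 (-1710) 393 0 556 255 255 255))
    (.leaf (lf 1024 0 0 68 62 (-117) 27 0 41 255 255 255)))
    (.node 2
    (.node 0
    (.leaf (lf 1024 0 0 89 59 (-112) 36 0 38 255 255 255))
    (.leaf (lf 1024 0 0 97 64 (-122) 39 0 45 255 255 255)))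
    (.node 0
    (.leaf (lf 1024 0 0 84 56 (-105) 33 0 33 255 255 255))
    (.leaf (lf 1024 0 0 92 61 (-115) 37 0 39 255 255 255))))))
    (by decide +kernel)

def goodS0X_297 :
    Check.Good noCone cfS0X (reach cfS0X ⟨litS0X, 1, fsS0X⟩
      [(1, true), (1, false), (2, true), (2, false), (0, true), (1, false), (2, false), (0, false), (2, false), (0, true), (2, false)]) :=
  Check.good_node (a := 0) (by decide +kernel)
    goodS0X_298 goodS0X_299

def goodS0X_295 :
    Check.Good noCone cfS0X (reach cfS0X ⟨litS0X, 1, fsS0X⟩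
      [(1, false), (2, true), (2, false), (0, true), (1, false), (2, false), (0, false), (2, false), (0, true), (2, false)]) :=
  Check.good_node (a := 1) (by decide +kernel)
    goodS0X_296 goodS0X_297

def goodS0X_302 :
    Check.Good noCone cfS0X (reach cfS0X ⟨litS0X, 1, fsS0X⟩
      [(1, false), (0, false), (1, true), (2, true), (2, false), (0, true), (1, false), (2, false), (0, false), (2, false), (0, true), (2, false)]) :=
  Check.check_sound
    (.node 2
    (.node 2
    (.node 0
    (.node 1
    (.leaf (lf 1024 0 0 107 58 (-112) 43 0 40 255 255 255))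
    (.leaf (lf 1024 0 0 133 64 (-125) 51 0 45 255 255 255)))
    (.node 1
    (.leaf (lf 1024 0 0 116 63 (-123) 48 0 48 255 255 255))
    (.leaf (lf 1024 0 0 144 69 (-136) 57 0 54 255 255 255))))
    (.node 0
    (.node 1
    (.leaf (lf 1024 0 0 101 55 (-105) 39 0 34 253 255 160))
    (.leaf (lf 1024 0 0 125 61 (-117) 47 0 38 254 255 166)))
    (.node 1
    (.leaf (lf 1024 0 0 111 60 (-115) 44 0 40 255 255 255))
    (.leaf (lf 1024 0 0 137 66 (-128) 52 0 45 255 255 255)))))
    (.node 0
    (.node 2
    (.node 1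
    (.leaf (lf 1024 0 0 94 52 (-98) 37 0 28 252 255 159))
    (.leaf (lf 1024 0 0 118 58 (-110) 44 0 32 249 255 158)))
    (.node 1
    (.leaf (lf 1024 0 0 88 51 (-92) 34 0 24 250 255 138))
    (.leaf (lf 1024 0 0 110 56 (-104) 41 0 28 248 255 148))))
    (.node 2
    (.node 1
    (.leaf (lf 1024 0 0 105 57 (-107) 41 0 34 255 255 255))
    (.leaf (lf 1024 0 0 130 63 (-120) 49 0 38 255 255 255)))
    (.node 1
    (.leaf (lf 1024 0 0 99 54 (-101) 38 0 29 255 255 255))
    (.leaf (lf 1024 0 0 123 61 (-113) 46 0 33 255 255 255))))))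
    (by decide +kernel)

def goodS0X_303 :
    Check.Good noCone cfS0X (reach cfS0X ⟨litS0X, 1, fsS0X⟩
      [(1, true), (0, false), (1, true), (2, true), (2, false), (0, true), (1, false), (2, false), (0, false), (2, false), (0, true), (2, false)]) :=
  Check.check_sound
    (.node 2
    (.node 2
    (.node 0
    (.node 2
    (.leaf (lf 1024 0 0 179 86 (-171) 62 0 65 249 255 124))
    (.leaf (lf 1024 0 0 175 85 (-166) 59 0 59 255 255 255)))
    (.leaf (lf 1024 0 0 192 92 (-182) 67 0 73 255 252 151)))
    (.node 0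
    (.node 1
    (.leaf (lf 1024 0 0 153 71 (-138) 53 0 45 255 255 255))
    (.leaf (lf 1024 0 0 184 86 (-166) 58 0 54 255 255 255)))
    (.leaf (lf 1024 0 0 184 88 (-173) 62 0 61 255 254 144))))
    (.node 0
    (.node 2
    (.node 1
    (.leaf (lf 1024 0 0 144 68 (-129) 50 0 38 255 255 255))
    (.leaf (lf 1024 0 0 174 82 (-157) 54 0 46 255 255 255)))
    (.node 1
    (.leaf (lf 1024 0 0 135 66 (-122) 47 0 33 255 255 255))
    (.leaf (lf 1024 0 0 164 80 (-148) 51 0 40 255 255 255))))
    (.node 2
    (.leaf (lf 1024 0 0 175 85 (-164) 58 0 52 254 255 140))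
    (.leaf (lf 16384 0 0 2660 1320 (-2490) 869 0 728 248 255 132)))))
    (by decide +kernel)

def goodS0X_301 :
    Check.Good noCone cfS0X (reach cfS0X ⟨litS0X, 1, fsS0X⟩
      [(0, false), (1, true), (2, true), (2, false), (0, true), (1, false), (2, false), (0, false), (2, false), (0, true), (2, false)]) :=
  Check.good_node (a := 1) (by decide +kernel)
    goodS0X_302 goodS0X_303

def goodS0X_305 :
    Check.Good noCone cfS0X (reach cfS0X ⟨litS0X, 1, fsS0X⟩
      [(1, false), (0, true), (1, true), (2, true), (2, false), (0, true), (1, false), (2, false), (0, false), (2, false), (0, true), (2, false)]) :=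
  Check.check_sound
    (.node 2
    (.node 2
    (.node 0
    (.node 1
    (.leaf (lf 1024 0 0 126 67 (-132) 53 0 57 255 255 255))
    (.leaf (lf 1024 0 0 155 74 (-146) 63 0 63 255 255 255)))
    (.node 1
    (.leaf (lf 1024 0 0 135 72 (-141) 59 0 66 255 255 255))
    (.leaf (lf 1024 0 0 166 79 (-156) 71 0 73 255 255 255))))
    (.node 0
    (.node 1
    (.leaf (lf 1024 0 0 120 64 (-125) 49 0 48 255 255 255))
    (.leaf (lf 1024 0 0 149 71 (-138) 58 0 53 255 255 255)))
    (.node 1
    (.leaf (lf 1024 0 0 130 69 (-134) 54 0 56 255 255 255))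
    (.leaf (lf 1024 0 0 161 76 (-148) 65 0 62 255 255 255)))))
    (.node 2
    (.node 0
    (.node 1
    (.leaf (lf 1024 0 0 115 62 (-117) 45 0 40 255 255 255))
    (.leaf (lf 1024 0 0 143 68 (-131) 54 0 45 255 255 255)))
    (.node 1
    (.leaf (lf 1024 0 0 125 66 (-127) 50 0 48 255 255 255))
    (.leaf (lf 1024 0 0 154 73 (-141) 60 0 53 255 255 255))))
    (.node 0
    (.node 1
    (.leaf (lf 1024 0 0 109 59 (-111) 42 0 35 255 255 255))
    (.leaf (lf 1024 0 0 136 65 (-123) 50 0 39 255 255 255)))
    (.node 1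
    (.leaf (lf 1024 0 0 120 64 (-120) 47 0 41 255 255 255))
    (.leaf (lf 1024 0 0 148 70 (-134) 56 0 46 255 255 255))))))
    (by decide +kernel)

def goodS0X_306 :
    Check.Good noCone cfS0X (reach cfS0X ⟨litS0X, 1, fsS0X⟩
      [(1, true), (0, true), (1, true), (2, true), (2, false), (0, true), (1, false), (2, false), (0, false), (2, false), (0, true), (2, false)]) :=
  Check.check_sound
    (.node 2
    (.node 2
    (.node 0
    (.leaf (lf 1024 0 0 206 98 (-195) 75 0 85 255 252 151))
    (.leaf (lf 1024 0 0 220 104 (-207) 84 0 99 255 250 158)))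
    (.node 0
    (.leaf (lf 1024 0 0 199 95 (-186) 69 0 72 255 254 146))
    (.leaf (lf 1024 0 0 213 101 (-198) 77 0 84 255 253 152))))
    (.node 2
    (.node 0
    (.leaf (lf 1024 0 0 190 91 (-177) 64 0 62 252 255 137))
    (.leaf (lf 1024 0 0 205 97 (-190) 71 0 72 253 255 138)))
    (.node 0
    (.leaf (lf 1024 0 0 182 88 (-169) 60 0 54 249 255 131))
    (.leaf (lf 1024 0 0 197 94 (-181) 67 0 63 251 255 141)))))
    (by decide +kernel)

def goodS0X_304 :
    Check.Good noCone cfS0X (reach cfS0X ⟨litS0X, 1, fsS0X⟩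
      [(0, true), (1, true), (2, true), (2, false), (0, true), (1, false), (2, false), (0, false), (2, false), (0, true), (2, false)]) :=
  Check.good_node (a := 1) (by decide +kernel)
    goodS0X_305 goodS0X_306

def goodS0X_300 :
    Check.Good noCone cfS0X (reach cfS0X ⟨litS0X, 1, fsS0X⟩
      [(1, true), (2, true), (2, false), (0, true), (1, false), (2, false), (0, false), (2, false), (0, true), (2, false)]) :=
  Check.good_node (a := 0) (by decide +kernel)
    goodS0X_301 goodS0X_304

def goodS0X_294 :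
    Check.Good noCone cfS0X (reach cfS0X ⟨litS0X, 1, fsS0X⟩
      [(2, true), (2, false), (0, true), (1, false), (2, false), (0, false), (2, false), (0, true), (2, false)]) :=
  Check.good_node (a := 1) (by decide +kernel)
    goodS0X_295 goodS0X_300

def goodS0X_276 :
    Check.Good noCone cfS0X (reach cfS0X ⟨litS0X, 1, fsS0X⟩
      [(2, false), (0, true), (1, false), (2, false), (0, false), (2, false), (0, true), (2, false)]) :=
  Check.good_node (a := 2) (by decide +kernel)
    goodS0X_277 goodS0X_294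

def goodS0X_309 :
    Check.Good noCone cfS0X (reach cfS0X ⟨litS0X, 1, fsS0X⟩
      [(1, false), (1, false), (2, true), (0, true), (1, false), (2, false), (0, false), (2, false), (0, true), (2, false)]) :=
  Check.check_sound
    (.node 2
    (.node 0
    (.node 1
    (.leaf (lf 1024 0 0 9 54 (-91) 4 0 20 255 255 255))
    (.leaf (lf 838 1024 686 0 123 (-99) 0 0 33 255 255 255)))
    (.node 1
    (.leaf (lf 1024 0 0 11 56 (-97) 4 0 26 255 255 255))
    (.leaf (lf 765 1024 640 0 129 (-99) 0 0 40 255 255 255))))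
    (.node 0
    (.node 1
    (.leaf (lf 1024 0 0 6 78 (-121) 3 0 22 255 255 255))
    (.leaf (lf 1024 0 0 18 78 (-121) 9 0 22 255 255 255)))
    (.node 1
    (.leaf (lf 1024 0 0 9 63 (-104) 4 0 22 255 255 255))
    (.leaf (lf 1024 0 0 26 63 (-103) 11 0 22 255 255 255)))))
    (by decide +kernel)

def goodS0X_312 :
    Check.Good noCone cfS0X (reach cfS0X ⟨litS0X, 1, fsS0X⟩
      [(0, false), (2, false), (1, true), (1, false), (2, true), (0, true), (1, false), (2, false), (0, false), (2, false), (0, true), (2, false)]) :=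
  Check.check_sound
    (.node 2
    (.node 1
    (.node 0
    (.leaf (lf 1024 0 0 43 49 (-85) 18 0 20 255 255 255))
    (.leaf (lf 16384 0 0 782 803 (-1426) 319 0 362 255 248 188)))
    (.node 0
    (.node 2
    (.leaf (lf 1024 0 0 62 48 (-85) 26 0 21 255 255 255))
    (.leaf (lf 1024 0 0 57 49 (-86) 25 0 19 255 255 255)))
    (.node 2
    (.leaf (lf 1024 0 0 71 50 (-91) 29 0 24 255 255 255))
    (.leaf (lf 1024 0 0 66 50 (-89) 27 0 22 255 255 255)))))
    (.node 1
    (.leaf (lf 16384 0 0 639 879 (-1478) 275 0 315 255 253 172))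
    (.leaf (lf 388 760 1024 0 157 (-21) 0 0 40 255 143 234))))
    (by decide +kernel)

def goodS0X_313 :
    Check.Good noCone cfS0X (reach cfS0X ⟨litS0X, 1, fsS0X⟩
      [(0, true), (2, false), (1, true), (1, false), (2, true), (0, true), (1, false), (2, false), (0, false), (2, false), (0, true), (2, false)]) :=
  Check.check_sound
    (.node 2
    (.node 1
    (.node 0
    (.leaf (lf 1024 0 0 55 53 (-96) 22 0 26 255 249 186))
    (.leaf (lf 1024 0 0 61 57 (-104) 24 0 31 255 255 255)))
    (.node 0
    (.node 2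
    (.leaf (lf 1024 0 0 79 54 (-99) 32 0 28 255 255 255))
    (.leaf (lf 1024 0 0 75 52 (-95) 30 0 25 255 255 255)))
    (.node 2
    (.leaf (lf 1024 0 0 88 58 (-108) 35 0 34 255 255 255))
    (.leaf (lf 1024 0 0 83 56 (-103) 33 0 30 255 255 255)))))
    (.node 1
    (.node 0
    (.leaf (lf 1024 0 0 48 53 (-91) 20 0 22 255 255 255))
    (.leaf (lf 1024 0 0 55 54 (-96) 22 0 25 255 255 255)))
    (.node 0
    (.leaf (lf 1024 0 0 68 53 (-92) 28 0 22 255 253 179))
    (.leaf (lf 16384 0 0 1231 873 (-1549) 490 0 401 255 255 177)))))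
    (by decide +kernel)

def goodS0X_311 :
    Check.Good noCone cfS0X (reach cfS0X ⟨litS0X, 1, fsS0X⟩
      [(2, false), (1, true), (1, false), (2, true), (0, true), (1, false), (2, false), (0, false), (2, false), (0, true), (2, false)]) :=
  Check.good_node (a := 0) (by decide +kernel)
    goodS0X_312 goodS0X_313

def goodS0X_314 :
    Check.Good noCone cfS0X (reach cfS0X ⟨litS0X, 1, fsS0X⟩
      [(2, true), (1, true), (1, false), (2, true), (0, true), (1, false), (2, false), (0, false), (2, false), (0, true), (2, false)]) :=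
  Check.check_sound
    (.node 0
    (.node 2
    (.node 1
    (.leaf (lf 1024 0 0 33 67 (-107) 16 0 20 255 255 255))
    (.leaf (lf 1024 0 0 47 66 (-107) 22 0 20 255 253 165)))
    (.leaf (lf 1024 0 0 32 87 (-134) 18 0 23 255 252 169)))
    (.node 1
    (.leaf (lf 634 1010 1024 0 181 (-77) 0 0 43 255 255 255))
    (.leaf (lf 409 771 1024 0 177 (-27) 0 0 44 255 181 252))))
    (by decide +kernel)

def goodS0X_310 :
    Check.Good noCone cfS0X (reach cfS0X ⟨litS0X, 1, fsS0X⟩
      [(1, true), (1, false), (2, true), (0, true), (1, false), (2, false), (0, false), (2, false), (0, true), (2, false)]) :=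
  Check.good_node (a := 2) (by decide +kernel)
    goodS0X_311 goodS0X_314

def goodS0X_308 :
    Check.Good noCone cfS0X (reach cfS0X ⟨litS0X, 1, fsS0X⟩
      [(1, false), (2, true), (0, true), (1, false), (2, false), (0, false), (2, false), (0, true), (2, false)]) :=
  Check.good_node (a := 1) (by decide +kernel)
    goodS0X_309 goodS0X_310

def goodS0X_318 :
    Check.Good noCone cfS0X (reach cfS0X ⟨litS0X, 1, fsS0X⟩
      [(1, false), (0, false), (2, false), (1, true), (2, true), (0, true), (1, false), (2, false), (0, false), (2, false), (0, true), (2, false)]) :=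
  Check.check_sound
    (.node 2
    (.node 0
    (.node 2
    (.node 1
    (.leaf (lf 1024 0 0 82 50 (-89) 33 0 22 248 255 161))
    (.leaf (lf 1024 0 0 103 55 (-99) 39 0 24 255 255 255)))
    (.node 1
    (.leaf (lf 1024 0 0 75 51 (-89) 31 0 20 255 255 255))
    (.leaf (lf 1024 0 0 95 56 (-98) 37 0 22 255 255 255))))
    (.node 2
    (.node 1
    (.leaf (lf 1024 0 0 93 53 (-96) 36 0 25 250 255 141))
    (.leaf (lf 1024 0 0 116 59 (-108) 43 0 29 255 255 255)))
    (.node 1
    (.leaf (lf 1024 0 0 86 52 (-93) 34 0 23 242 255 129))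
    (.leaf (lf 1024 0 0 109 58 (-104) 41 0 26 255 255 255)))))
    (.node 0
    (.node 1
    (.leaf (lf 16384 0 0 1069 900 (-1514) 462 0 311 255 254 177))
    (.leaf (lf 16384 0 0 1358 955 (-1618) 551 0 333 254 255 173)))
    (.node 1
    (.node 2
    (.leaf (lf 1024 0 0 80 53 (-92) 33 0 21 255 255 255))
    (.leaf (lf 1024 0 0 74 55 (-94) 32 0 20 255 255 255)))
    (.node 2
    (.leaf (lf 1024 0 0 101 58 (-102) 39 0 24 255 255 255))
    (.leaf (lf 1024 0 0 94 60 (-103) 38 0 22 255 255 255))))))
    (by decide +kernel)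

def goodS0X_319 :
    Check.Good noCone cfS0X (reach cfS0X ⟨litS0X, 1, fsS0X⟩
      [(1, true), (0, false), (2, false), (1, true), (2, true), (0, true), (1, false), (2, false), (0, false), (2, false), (0, true), (2, false)]) :=
  Check.check_sound
    (.node 2
    (.node 0
    (.node 2
    (.node 1
    (.leaf (lf 1024 0 0 127 65 (-117) 44 0 29 255 255 255))
    (.leaf (lf 1024 0 0 154 78 (-142) 49 0 35 255 255 255)))
    (.leaf (lf 16384 0 0 2102 1187 (-2111) 707 0 484 243 255 125)))
    (.node 2
    (.leaf (lf 1024 0 0 157 80 (-148) 51 0 40 246 255 123))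
    (.leaf (lf 1024 0 0 148 79 (-143) 49 0 36 245 255 128))))
    (.node 0
    (.node 2
    (.leaf (lf 1024 0 0 122 74 (-130) 42 0 28 240 255 118))
    (.leaf (lf 1024 0 0 113 76 (-129) 41 0 26 241 255 131)))
    (.node 2
    (.leaf (lf 1024 0 0 139 78 (-138) 47 0 32 244 255 125))
    (.leaf (lf 1024 0 0 130 78 (-136) 45 0 30 242 255 125)))))
    (by decide +kernel)

def goodS0X_317 :
    Check.Good noCone cfS0X (reach cfS0X ⟨litS0X, 1, fsS0X⟩
      [(0, false), (2, false), (1, true), (2, true), (0, true), (1, false), (2, false), (0, false), (2, false), (0, true), (2, false)]) :=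
  Check.good_node (a := 1) (by decide +kernel)
    goodS0X_318 goodS0X_319

def goodS0X_321 :
    Check.Good noCone cfS0X (reach cfS0X ⟨litS0X, 1, fsS0X⟩
      [(1, false), (0, true), (2, false), (1, true), (2, true), (0, true), (1, false), (2, false), (0, false), (2, false), (0, true), (2, false)]) :=
  Check.check_sound
    (.node 2
    (.node 0
    (.node 2
    (.node 1
    (.leaf (lf 1024 0 0 103 57 (-104) 40 0 30 255 255 255))
    (.leaf (lf 1024 0 0 129 63 (-117) 48 0 34 255 255 255)))
    (.node 1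
    (.leaf (lf 1024 0 0 97 55 (-100) 38 0 27 255 255 255))
    (.leaf (lf 1024 0 0 122 61 (-112) 45 0 30 255 255 255))))
    (.node 2
    (.node 1
    (.leaf (lf 1024 0 0 114 61 (-114) 44 0 36 255 255 255))
    (.leaf (lf 1024 0 0 141 68 (-127) 53 0 40 255 255 255)))
    (.node 1
    (.leaf (lf 1024 0 0 108 59 (-108) 42 0 31 255 255 255))
    (.leaf (lf 1024 0 0 135 65 (-121) 50 0 35 255 255 255)))))
    (.node 0
    (.node 1
    (.node 2
    (.leaf (lf 1024 0 0 91 54 (-97) 36 0 24 255 255 255))
    (.leaf (lf 1024 0 0 85 55 (-96) 35 0 22 255 255 255)))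
    (.node 2
    (.leaf (lf 1024 0 0 114 60 (-108) 43 0 27 255 255 255))
    (.leaf (lf 1024 0 0 107 60 (-106) 42 0 25 255 255 255))))
    (.node 1
    (.node 2
    (.leaf (lf 1024 0 0 102 57 (-103) 40 0 28 255 255 255))
    (.leaf (lf 1024 0 0 97 56 (-100) 38 0 25 255 255 255)))
    (.node 2
    (.leaf (lf 1024 0 0 128 64 (-116) 48 0 31 255 255 255))
    (.leaf (lf 1024 0 0 121 63 (-112) 46 0 28 255 255 255))))))
    (by decide +kernel)

def goodS0X_322 :
    Check.Good noCone cfS0X (reach cfS0X ⟨litS0X, 1, fsS0X⟩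
      [(1, true), (0, true), (2, false), (1, true), (2, true), (0, true), (1, false), (2, false), (0, false), (2, false), (0, true), (2, false)]) :=
  Check.check_sound
    (.node 2
    (.node 0
    (.node 2
    (.leaf (lf 1024 0 0 173 86 (-161) 57 0 47 247 255 128))
    (.leaf (lf 1024 0 0 165 84 (-154) 54 0 42 246 255 127)))
    (.node 2
    (.leaf (lf 1024 0 0 189 92 (-174) 63 0 55 249 255 131))
    (.leaf (lf 1024 0 0 181 89 (-167) 60 0 49 245 255 129))))
    (.node 0
    (.node 2
    (.leaf (lf 1024 0 0 156 82 (-149) 52 0 38 245 255 131))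
    (.leaf (lf 1024 0 0 147 81 (-145) 50 0 34 243 255 124)))
    (.node 2
    (.leaf (lf 1024 0 0 172 87 (-160) 57 0 44 245 255 126))
    (.leaf (lf 1024 0 0 163 86 (-155) 55 0 40 245 255 129)))))
    (by decide +kernel)

def goodS0X_320 :
    Check.Good noCone cfS0X (reach cfS0X ⟨litS0X, 1, fsS0X⟩
      [(0, true), (2, false), (1, true), (2, true), (0, true), (1, false), (2, false), (0, false), (2, false), (0, true), (2, false)]) :=
  Check.good_node (a := 1) (by decide +kernel)
    goodS0X_321 goodS0X_322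

def goodS0X_316 :
    Check.Good noCone cfS0X (reach cfS0X ⟨litS0X, 1, fsS0X⟩
      [(2, false), (1, true), (2, true), (0, true), (1, false), (2, false), (0, false), (2, false), (0, true), (2, false)]) :=
  Check.good_node (a := 0) (by decide +kernel)
    goodS0X_317 goodS0X_320

def goodS0X_324 :
    Check.Good noCone cfS0X (reach cfS0X ⟨litS0X, 1, fsS0X⟩
      [(0, false), (2, true), (1, true), (2, true), (0, true), (1, false), (2, false), (0, false), (2, false), (0, true), (2, false)]) :=
  Check.check_sound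
    (.node 1
    (.node 2
    (.node 0
    (.node 1
    (.leaf (lf 1024 0 0 55 69 (-110) 27 0 20 255 255 255))
    (.leaf (lf 1024 0 0 70 70 (-114) 32 0 21 255 255 255)))
    (.node 1
    (.leaf (lf 1024 0 0 66 62 (-103) 30 0 20 255 255 255))
    (.leaf (lf 1024 0 0 84 66 (-109) 35 0 22 255 255 255))))
    (.leaf (lf 439 717 1024 0 215 (-52) 0 0 48 255 151 235)))
    (.node 2
    (.node 0
    (.node 2
    (.leaf (lf 1024 0 0 104 79 (-132) 39 0 25 241 255 121))
    (.leaf (lf 1024 0 0 95 84 (-136) 38 0 25 255 255 255)))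
    (.node 2
    (.leaf (lf 1024 0 0 121 79 (-136) 43 0 28 239 255 114))
    (.leaf (lf 1024 0 0 112 82 (-137) 42 0 27 240 255 128))))
    (.node 0
    (.leaf (lf 1024 0 0 83 94 (-147) 36 0 25 255 255 255))
    (.leaf (lf 1024 0 0 100 90 (-144) 40 0 26 251 255 158)))))
    (by decide +kernel)

def goodS0X_325 :
    Check.Good noCone cfS0X (reach cfS0X ⟨litS0X, 1, fsS0X⟩
      [(0, true), (2, true), (1, true), (2, true), (0, true), (1, false), (2, false), (0, false), (2, false), (0, true), (2, false)]) :=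
  Check.check_sound
    (.node 1
    (.node 2
    (.node 0
    (.node 1
    (.leaf (lf 1024 0 0 77 59 (-100) 33 0 21 255 255 172))
    (.leaf (lf 1024 0 0 97 64 (-108) 39 0 23 253 255 164)))
    (.node 1
    (.leaf (lf 1024 0 0 88 58 (-100) 36 0 23 251 255 168))
    (.leaf (lf 16384 0 0 1772 1019 (-1771) 686 0 409 250 255 163))))
    (.node 0
    (.node 1
    (.leaf (lf 1024 0 0 65 69 (-112) 31 0 22 255 255 255))
    (.leaf (lf 1024 0 0 83 72 (-118) 37 0 23 255 255 255)))
    (.node 1
    (.leaf (lf 1024 0 0 77 64 (-107) 34 0 22 255 255 255))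
    (.leaf (lf 1024 0 0 97 68 (-115) 40 0 24 255 255 255)))))
    (.node 2
    (.node 0
    (.node 2
    (.leaf (lf 1024 0 0 138 81 (-142) 48 0 32 242 255 127))
    (.leaf (lf 1024 0 0 129 83 (-142) 46 0 30 240 255 117)))
    (.node 2
    (.leaf (lf 1024 0 0 155 85 (-151) 53 0 36 243 255 125))
    (.leaf (lf 1024 0 0 146 85 (-149) 51 0 34 241 255 124))))
    (.node 0
    (.node 1
    (.leaf (lf 1024 0 0 104 78 (-130) 42 0 25 255 255 255))
    (.leaf (lf 1024 0 0 128 89 (-148) 46 0 29 255 255 255)))
    (.node 1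
    (.leaf (lf 1024 0 0 120 77 (-130) 46 0 27 255 255 255))
    (.leaf (lf 1024 0 0 146 89 (-153) 51 0 32 255 255 255))))))
    (by decide +kernel)

def goodS0X_323 :
    Check.Good noCone cfS0X (reach cfS0X ⟨litS0X, 1, fsS0X⟩
      [(2, true), (1, true), (2, true), (0, true), (1, false), (2, false), (0, false), (2, false), (0, true), (2, false)]) :=
  Check.good_node (a := 0) (by decide +kernel)
    goodS0X_324 goodS0X_325

def goodS0X_315 :
    Check.Good noCone cfS0X (reach cfS0X ⟨litS0X, 1, fsS0X⟩
      [(1, true), (2, true), (0, true), (1, false), (2, false), (0, false), (2, false), (0, true), (2, false)]) :=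
  Check.good_node (a := 2) (by decide +kernel)
    goodS0X_316 goodS0X_323

def goodS0X_307 :
    Check.Good noCone cfS0X (reach cfS0X ⟨litS0X, 1, fsS0X⟩
      [(2, true), (0, true), (1, false), (2, false), (0, false), (2, false), (0, true), (2, false)]) :=
  Check.good_node (a := 1) (by decide +kernel)
    goodS0X_308 goodS0X_315

def goodS0X_275 :
    Check.Good noCone cfS0X (reach cfS0X ⟨litS0X, 1, fsS0X⟩
      [(0, true), (1, false), (2, false), (0, false), (2, false), (0, true), (2, false)]) :=
  Check.good_node (a := 2) (by decide +kernel)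
    goodS0X_276 goodS0X_307

end

end Vale.Agent.P211.Cert.Interior.Data
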