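import Vale.Agent.P211.Cert.Interior.Data.S0Xr

/-!
P211, a part of a cell of the interior family (generated).
-/

namespace Vale.Agent.P211.Cert.Interior.Data

open Vale.Agent.P098.Check6 (ofChunks eqList reach St Cfg Face)
open Vale.Agent.P098.Cert6.Kron (RootPar parOK)

set_option linter.defProp false

noncomputable section

def goodS0X_332 :
    Check.Good noCone cfS0X (reach cfS0X ⟨litS0X, 1, fsS0X⟩
      [(1, false), (0, false), (2, false), (2, false), (0, false), (2, false), (1, true), (2, false), (0, false), (2, false), (0, true), (2, false)]) :=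
  Check.check_sound
    (.node 2
    (.node 0
    (.node 2
    (.node 1
    (.leaf (lf 1024 0 0 231 110 (-229) 64 0 120 255 255 255))
    (.leaf (lf 1024 0 0 341 147 (-301) 42 0 162 255 255 255)))
    (.node 1
    (.leaf (lf 1024 0 0 224 106 (-219) 59 0 101 255 255 255))
    (.leaf (lf 1024 0 0 330 141 (-289) 41 0 137 255 255 255))))
    (.node 2
    (.node 1
    (.leaf (lf 1024 0 0 250 120 (-251) 74 0 148 255 255 255))
    (.leaf (lf 1024 0 0 369 161 (-329) 46 0 199 255 255 255)))
    (.node 1
    (.leaf (lf 1024 0 0 243 116 (-240) 68 0 124 255 255 255))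
    (.leaf (lf 1024 0 0 359 155 (-317) 45 0 168 255 255 255)))))
    (.node 0
    (.node 2
    (.node 1
    (.leaf (lf 1024 0 0 217 102 (-209) 55 0 86 255 255 255))
    (.leaf (lf 1024 0 0 320 136 (-277) 41 0 117 255 255 255)))
    (.node 1
    (.leaf (lf 1024 0 0 210 99 (-200) 51 0 75 255 255 255))
    (.leaf (lf 1024 0 0 309 132 (-266) 40 0 102 255 255 255))))
    (.node 2
    (.node 1
    (.leaf (lf 1024 0 0 236 112 (-230) 63 0 106 255 255 255))
    (.leaf (lf 1024 0 0 348 149 (-305) 45 0 145 255 255 255)))
    (.node 1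
    (.leaf (lf 1024 0 0 230 108 (-221) 59 0 92 255 255 255))
    (.leaf (lf 1024 0 0 338 145 (-294) 44 0 126 255 255 255))))))
    (by decide +kernel)

def goodS0X_338 :
    Check.Good noCone cfS0X (reach cfS0X ⟨litS0X, 1, fsS0X⟩
      [(0, false), (2, false), (2, false), (0, false), (2, false), (1, true), (0, false), (2, false), (2, false), (0, false), (2, false), (1, true), (2, false), (0, false), (2, false), (0, true), (2, false)]) :=
  Check.check_sound
    (.node 1
    (.leaf (lf 1024 0 0 500 170 (-339) (-15) 0 190 255 255 255))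
    (.node 2
    (.node 0
    (.node 1
    (.leaf (lf 1024 0 0 657 160 (-307) (-84) 0 178 255 255 255))
    (.leaf (lf 884 0 (-1024) 466 151 (-969) 0 0 254 197 79 255)))
    (.node 1
    (.leaf (lf 1024 0 0 671 164 (-314) (-90) 0 187 255 255 255))
    (.leaf (lf 874 0 (-1024) 468 154 (-987) 0 0 268 198 78 255))))
    (.node 0
    (.node 1
    (.leaf (lf 1024 0 0 652 158 (-306) (-78) 0 171 255 255 255))
    (.leaf (lf 898 0 (-1024) 473 151 (-967) 0 0 244 198 78 255)))
    (.node 1
    (.leaf (lf 1024 0 0 666 162 (-312) (-84) 0 180 255 255 255))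
    (.leaf (lf 887 0 (-1024) 475 154 (-984) 0 0 257 199 78 255))))))
    (by decide +kernel)

def goodS0X_339 :
    Check.Good noCone cfS0X (reach cfS0X ⟨litS0X, 1, fsS0X⟩
      [(0, true), (2, false), (2, false), (0, false), (2, false), (1, true), (0, false), (2, false), (2, false), (0, false), (2, false), (1, true), (2, false), (0, false), (2, false), (0, true), (2, false)]) :=
  Check.check_sound
    (.node 1
    (.leaf (lf 1024 0 0 521 179 (-354) (-20) 0 211 255 255 255))
    (.node 2
    (.node 0
    (.node 1
    (.leaf (lf 1024 0 0 685 168 (-320) (-96) 0 197 255 255 255))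
    (.leaf (lf 1024 0 0 818 120 (-220) (-164) 0 139 255 86 193)))
    (.node 1
    (.leaf (lf 1024 0 0 698 172 (-326) (-103) 0 207 255 255 255))
    (.leaf (lf 1024 0 0 833 123 (-224) (-174) 0 146 255 88 192))))
    (.node 0
    (.node 1
    (.leaf (lf 1024 0 0 680 166 (-318) (-90) 0 189 255 255 255))
    (.leaf (lf 877 0 (-1024) 477 157 (-1002) 0 0 270 199 79 255)))
    (.node 1
    (.leaf (lf 1024 0 0 694 171 (-325) (-96) 0 199 255 255 255))
    (.leaf (lf 1024 0 0 829 122 (-224) (-165) 0 140 255 87 194))))))
    (by decide +kernel)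

def goodS0X_337 :
    Check.Good noCone cfS0X (reach cfS0X ⟨litS0X, 1, fsS0X⟩
      [(2, false), (2, false), (0, false), (2, false), (1, true), (0, false), (2, false), (2, false), (0, false), (2, false), (1, true), (2, false), (0, false), (2, false), (0, true), (2, false)]) :=
  Check.good_node (a := 0) (by decide +kernel)
    goodS0X_338 goodS0X_339

def goodS0X_341 :
    Check.Good noCone cfS0X (reach cfS0X ⟨litS0X, 1, fsS0X⟩
      [(0, false), (2, true), (2, false), (0, false), (2, false), (1, true), (0, false), (2, false), (2, false), (0, false), (2, false), (1, true), (2, false), (0, false), (2, false), (0, true), (2, false)]) :=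
  Check.check_sound
    (.node 1
    (.leaf (lf 1024 0 0 491 166 (-333) (-10) 0 174 255 255 255))
    (.node 2
    (.node 0
    (.node 1
    (.leaf (lf 1024 0 0 647 157 (-304) (-73) 0 164 255 255 255))
    (.leaf (lf 1024 0 0 776 112 (-211) (-131) 0 116 255 96 193)))
    (.node 1
    (.leaf (lf 1024 0 0 662 161 (-310) (-79) 0 173 255 255 255))
    (.leaf (lf 1024 0 0 793 115 (-215) (-139) 0 122 255 88 195))))
    (.node 0
    (.node 1
    (.leaf (lf 1024 0 0 643 155 (-302) (-68) 0 157 255 255 255))
    (.leaf (lf 1024 0 0 771 111 (-211) (-124) 0 112 255 97 193)))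
    (.node 1
    (.leaf (lf 1024 0 0 657 159 (-309) (-74) 0 166 255 255 255))
    (.leaf (lf 1024 0 0 788 114 (-215) (-132) 0 118 255 92 196))))))
    (by decide +kernel)

def goodS0X_342 :
    Check.Good noCone cfS0X (reach cfS0X ⟨litS0X, 1, fsS0X⟩
      [(0, true), (2, true), (2, false), (0, false), (2, false), (1, true), (0, false), (2, false), (2, false), (0, false), (2, false), (1, true), (2, false), (0, false), (2, false), (0, true), (2, false)]) :=
  Check.check_sound
    (.node 1
    (.leaf (lf 1024 0 0 513 175 (-349) (-14) 0 194 255 255 255))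
    (.node 2
    (.node 0
    (.node 1
    (.leaf (lf 1024 0 0 676 165 (-317) (-85) 0 182 255 255 255))
    (.leaf (lf 1024 0 0 809 118 (-219) (-148) 0 129 255 89 191)))
    (.node 1
    (.leaf (lf 1024 0 0 689 169 (-323) (-91) 0 191 255 255 255))
    (.leaf (lf 1024 0 0 825 121 (-223) (-157) 0 135 255 88 194))))
    (.node 0
    (.node 1
    (.leaf (lf 1024 0 0 671 163 (-315) (-79) 0 174 255 255 255))
    (.leaf (lf 16384 0 0 12865 1870 (-3503) (-2245) 0 1982 255 90 196)))
    (.node 1
    (.leaf (lf 1024 0 0 685 167 (-322) (-85) 0 183 255 255 255))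
    (.leaf (lf 893 0 (-1024) 492 159 (-1015) 0 0 262 198 80 255))))))
    (by decide +kernel)

def goodS0X_340 :
    Check.Good noCone cfS0X (reach cfS0X ⟨litS0X, 1, fsS0X⟩
      [(2, true), (2, false), (0, false), (2, false), (1, true), (0, false), (2, false), (2, false), (0, false), (2, false), (1, true), (2, false), (0, false), (2, false), (0, true), (2, false)]) :=
  Check.good_node (a := 0) (by decide +kernel)
    goodS0X_341 goodS0X_342

def goodS0X_336 :
    Check.Good noCone cfS0X (reach cfS0X ⟨litS0X, 1, fsS0X⟩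
      [(2, false), (0, false), (2, false), (1, true), (0, false), (2, false), (2, false), (0, false), (2, false), (1, true), (2, false), (0, false), (2, false), (0, true), (2, false)]) :=
  Check.good_node (a := 2) (by decide +kernel)
    goodS0X_337 goodS0X_340

def goodS0X_345 :
    Check.Good noCone cfS0X (reach cfS0X ⟨litS0X, 1, fsS0X⟩
      [(2, false), (0, false), (2, true), (0, false), (2, false), (1, true), (0, false), (2, false), (2, false), (0, false), (2, false), (1, true), (2, false), (0, false), (2, false), (0, true), (2, false)]) :=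
  Check.check_sound
    (.node 1
    (.leaf (lf 1024 0 0 483 163 (-328) (-6) 0 161 255 255 255))
    (.node 2
    (.node 0
    (.node 1
    (.leaf (lf 1024 0 0 638 154 (-300) (-64) 0 151 255 255 255))
    (.leaf (lf 1024 0 0 766 111 (-210) (-117) 0 108 255 92 198)))
    (.node 1
    (.leaf (lf 1024 0 0 652 158 (-307) (-69) 0 159 255 255 255))
    (.leaf (lf 1024 0 0 783 113 (-214) (-125) 0 114 255 91 196))))
    (.node 0
    (.node 1
    (.leaf (lf 1024 0 0 633 152 (-298) (-60) 0 146 255 255 255))
    (.leaf (lf 1024 0 0 761 110 (-210) (-111) 0 105 255 94 198)))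
    (.node 1
    (.leaf (lf 1024 0 0 647 156 (-305) (-65) 0 154 255 255 255))
    (.leaf (lf 1024 0 0 778 112 (-214) (-119) 0 110 255 95 198))))))
    (by decide +kernel)

def goodS0X_346 :
    Check.Good noCone cfS0X (reach cfS0X ⟨litS0X, 1, fsS0X⟩
      [(2, true), (0, false), (2, true), (0, false), (2, false), (1, true), (0, false), (2, false), (2, false), (0, false), (2, false), (1, true), (2, false), (0, false), (2, false), (0, true), (2, false)]) :=
  Check.check_sound
    (.node 1
    (.leaf (lf 1024 0 0 475 160 (-322) (-2) 0 149 255 255 255))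
    (.node 0
    (.node 2
    (.node 1
    (.leaf (lf 1024 0 0 628 151 (-296) (-56) 0 140 255 255 255))
    (.leaf (lf 1024 0 0 756 109 (-209) (-105) 0 101 255 94 201)))
    (.node 1
    (.leaf (lf 1024 0 0 623 150 (-294) (-52) 0 135 255 255 255))
    (.leaf (lf 1024 0 0 751 109 (-208) (-100) 0 98 255 95 200))))
    (.node 2
    (.node 1
    (.leaf (lf 1024 0 0 642 155 (-303) (-61) 0 148 255 255 255))
    (.leaf (lf 1024 0 0 773 112 (-213) (-113) 0 106 255 95 198)))
    (.node 1
    (.leaf (lf 1024 0 0 638 154 (-301) (-57) 0 143 255 255 255))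
    (.leaf (lf 1024 0 0 768 111 (-212) (-107) 0 103 255 93 199))))))
    (by decide +kernel)

def goodS0X_344 :
    Check.Good noCone cfS0X (reach cfS0X ⟨litS0X, 1, fsS0X⟩
      [(0, false), (2, true), (0, false), (2, false), (1, true), (0, false), (2, false), (2, false), (0, false), (2, false), (1, true), (2, false), (0, false), (2, false), (0, true), (2, false)]) :=
  Check.good_node (a := 2) (by decide +kernel)
    goodS0X_345 goodS0X_346

def goodS0X_348 :
    Check.Good noCone cfS0X (reach cfS0X ⟨litS0X, 1, fsS0X⟩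
      [(2, false), (0, true), (2, true), (0, false), (2, false), (1, true), (0, false), (2, false), (2, false), (0, false), (2, false), (1, true), (2, false), (0, false), (2, false), (0, true), (2, false)]) :=
  Check.check_sound
    (.node 1
    (.leaf (lf 1024 0 0 505 171 (-343) (-9) 0 179 255 255 255))
    (.node 2
    (.node 0
    (.node 1
    (.leaf (lf 1024 0 0 666 162 (-313) (-74) 0 168 255 255 255))
    (.leaf (lf 1024 0 0 799 116 (-218) (-133) 0 120 255 90 194)))
    (.node 1
    (.leaf (lf 1024 0 0 680 166 (-320) (-80) 0 177 255 255 255))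
    (.leaf (lf 1024 0 0 816 119 (-222) (-142) 0 125 255 90 196))))
    (.node 0
    (.node 1
    (.leaf (lf 1024 0 0 661 160 (-312) (-70) 0 162 255 255 255))
    (.leaf (lf 1024 0 0 794 115 (-218) (-127) 0 115 255 96 194)))
    (.node 1
    (.leaf (lf 1024 0 0 676 164 (-318) (-75) 0 170 255 255 255))
    (.leaf (lf 1024 0 0 811 118 (-222) (-135) 0 121 255 92 196))))))
    (by decide +kernel)

def goodS0X_349 :
    Check.Good noCone cfS0X (reach cfS0X ⟨litS0X, 1, fsS0X⟩
      [(2, true), (0, true), (2, true), (0, false), (2, false), (1, true), (0, false), (2, false), (2, false), (0, false), (2, false), (1, true), (2, false), (0, false), (2, false), (0, true), (2, false)]) :=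
  Check.check_sound
    (.node 1
    (.leaf (lf 1024 0 0 497 168 (-338) (-5) 0 165 255 255 255))
    (.node 0
    (.node 2
    (.node 1
    (.leaf (lf 1024 0 0 657 159 (-310) (-66) 0 156 255 255 255))
    (.leaf (lf 1024 0 0 789 114 (-217) (-120) 0 112 255 92 197)))
    (.node 1
    (.leaf (lf 1024 0 0 652 157 (-308) (-61) 0 150 255 255 255))
    (.leaf (lf 1024 0 0 785 114 (-217) (-115) 0 108 255 96 198))))
    (.node 2
    (.node 1
    (.leaf (lf 1024 0 0 671 163 (-316) (-71) 0 164 255 255 255))
    (.leaf (lf 1024 0 0 806 117 (-221) (-128) 0 117 255 90 201)))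
    (.node 1
    (.leaf (lf 1024 0 0 666 161 (-314) (-66) 0 158 255 255 255))
    (.leaf (lf 1024 0 0 801 116 (-221) (-122) 0 113 255 92 197))))))
    (by decide +kernel)

def goodS0X_347 :
    Check.Good noCone cfS0X (reach cfS0X ⟨litS0X, 1, fsS0X⟩
      [(0, true), (2, true), (0, false), (2, false), (1, true), (0, false), (2, false), (2, false), (0, false), (2, false), (1, true), (2, false), (0, false), (2, false), (0, true), (2, false)]) :=
  Check.good_node (a := 2) (by decide +kernel)
    goodS0X_348 goodS0X_349

def goodS0X_343 :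
    Check.Good noCone cfS0X (reach cfS0X ⟨litS0X, 1, fsS0X⟩
      [(2, true), (0, false), (2, false), (1, true), (0, false), (2, false), (2, false), (0, false), (2, false), (1, true), (2, false), (0, false), (2, false), (0, true), (2, false)]) :=
  Check.good_node (a := 0) (by decide +kernel)
    goodS0X_344 goodS0X_347

def goodS0X_335 :
    Check.Good noCone cfS0X (reach cfS0X ⟨litS0X, 1, fsS0X⟩
      [(0, false), (2, false), (1, true), (0, false), (2, false), (2, false), (0, false), (2, false), (1, true), (2, false), (0, false), (2, false), (0, true), (2, false)]) :=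
  Check.good_node (a := 2) (by decide +kernel)
    goodS0X_336 goodS0X_343

def goodS0X_353 :
    Check.Good noCone cfS0X (reach cfS0X ⟨litS0X, 1, fsS0X⟩
      [(0, false), (2, false), (2, false), (0, true), (2, false), (1, true), (0, false), (2, false), (2, false), (0, false), (2, false), (1, true), (2, false), (0, false), (2, false), (0, true), (2, false)]) :=
  Check.check_sound
    (.node 1
    (.leaf (lf 1024 0 0 542 188 (-369) (-25) 0 233 255 255 255))
    (.node 2
    (.node 0
    (.node 1
    (.leaf (lf 1024 0 0 712 177 (-332) (-109) 0 217 255 255 255))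
    (.leaf (lf 1024 0 0 849 126 (-229) (-184) 0 153 255 86 193)))
    (.node 1
    (.leaf (lf 1024 0 0 725 181 (-338) (-116) 0 228 255 255 255))
    (.leaf (lf 1024 0 0 864 130 (-233) (-194) 0 160 255 84 193))))
    (.node 0
    (.node 1
    (.leaf (lf 1024 0 0 708 175 (-331) (-103) 0 209 255 255 255))
    (.leaf (lf 1024 0 0 845 125 (-228) (-175) 0 147 255 88 195)))
    (.node 1
    (.leaf (lf 1024 0 0 721 179 (-337) (-109) 0 219 255 255 255))
    (.leaf (lf 1024 0 0 860 128 (-232) (-185) 0 154 255 89 194))))))
    (by decide +kernel)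

def goodS0X_354 :
    Check.Good noCone cfS0X (reach cfS0X ⟨litS0X, 1, fsS0X⟩
      [(0, true), (2, false), (2, false), (0, true), (2, false), (1, true), (0, false), (2, false), (2, false), (0, false), (2, false), (1, true), (2, false), (0, false), (2, false), (0, true), (2, false)]) :=
  Check.check_sound
    (.node 1
    (.leaf (lf 1024 0 0 563 197 (-384) (-30) 0 257 255 255 255))
    (.node 2
    (.node 0
    (.node 1
    (.leaf (lf 1024 0 0 739 185 (-344) (-123) 0 239 255 255 255))
    (.leaf (lf 1024 0 0 879 133 (-237) (-205) 0 168 255 88 194)))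
    (.node 1
    (.leaf (lf 1024 0 0 752 190 (-350) (-131) 0 250 255 255 255))
    (.leaf (lf 1024 0 0 894 136 (-241) (-216) 0 176 255 88 195))))
    (.node 0
    (.node 1
    (.leaf (lf 1024 0 0 735 183 (-343) (-116) 0 229 255 255 255))
    (.leaf (lf 1024 0 0 876 131 (-236) (-195) 0 162 255 85 194)))
    (.node 1
    (.leaf (lf 1024 0 0 748 188 (-349) (-123) 0 240 255 255 255))
    (.leaf (lf 1024 0 0 891 135 (-240) (-205) 0 169 255 86 197))))))
    (by decide +kernel)

def goodS0X_352 :
    Check.Good noCone cfS0X (reach cfS0X ⟨litS0X, 1, fsS0X⟩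
      [(2, false), (2, false), (0, true), (2, false), (1, true), (0, false), (2, false), (2, false), (0, false), (2, false), (1, true), (2, false), (0, false), (2, false), (0, true), (2, false)]) :=
  Check.good_node (a := 0) (by decide +kernel)
    goodS0X_353 goodS0X_354

def goodS0X_356 :
    Check.Good noCone cfS0X (reach cfS0X ⟨litS0X, 1, fsS0X⟩
      [(0, false), (2, true), (2, false), (0, true), (2, false), (1, true), (0, false), (2, false), (2, false), (0, false), (2, false), (1, true), (2, false), (0, false), (2, false), (0, true), (2, false)]) :=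
  Check.check_sound
    (.node 1
    (.leaf (lf 1024 0 0 534 184 (-364) (-19) 0 214 255 255 255))
    (.node 2
    (.node 0
    (.node 1
    (.leaf (lf 1024 0 0 703 173 (-329) (-97) 0 200 255 255 255))
    (.leaf (lf 1024 0 0 841 124 (-228) (-166) 0 142 255 86 196)))
    (.node 1
    (.leaf (lf 1024 0 0 717 177 (-336) (-103) 0 210 255 255 255))
    (.leaf (lf 1024 0 0 856 127 (-232) (-176) 0 148 255 89 192))))
    (.node 0
    (.node 1
    (.leaf (lf 1024 0 0 699 171 (-328) (-91) 0 193 255 255 255))
    (.leaf (lf 1024 0 0 836 123 (-227) (-158) 0 136 255 88 195)))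
    (.node 1
    (.leaf (lf 1024 0 0 712 175 (-334) (-97) 0 202 255 255 255))
    (.leaf (lf 1024 0 0 852 126 (-231) (-167) 0 143 255 86 198))))))
    (by decide +kernel)

def goodS0X_357 :
    Check.Good noCone cfS0X (reach cfS0X ⟨litS0X, 1, fsS0X⟩
      [(0, true), (2, true), (2, false), (0, true), (2, false), (1, true), (0, false), (2, false), (2, false), (0, false), (2, false), (1, true), (2, false), (0, false), (2, false), (0, true), (2, false)]) :=
  Check.check_sound
    (.node 1
    (.leaf (lf 1024 0 0 556 192 (-379) (-24) 0 236 255 255 255))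
    (.node 2
    (.node 0
    (.node 1
    (.leaf (lf 1024 0 0 730 181 (-342) (-110) 0 220 255 255 255))
    (.leaf (lf 1024 0 0 872 130 (-236) (-186) 0 155 255 88 193)))
    (.node 1
    (.leaf (lf 1024 0 0 744 186 (-348) (-116) 0 231 255 255 255))
    (.leaf (lf 1024 0 0 887 133 (-240) (-196) 0 163 255 89 197))))
    (.node 0
    (.node 1
    (.leaf (lf 1024 0 0 726 180 (-341) (-103) 0 212 255 255 255))
    (.leaf (lf 1024 0 0 868 129 (-235) (-177) 0 150 255 87 196)))
    (.node 1
    (.leaf (lf 1024 0 0 740 184 (-347) (-110) 0 222 255 255 255))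
    (.leaf (lf 1024 0 0 883 132 (-239) (-187) 0 157 255 90 195))))))
    (by decide +kernel)

def goodS0X_355 :
    Check.Good noCone cfS0X (reach cfS0X ⟨litS0X, 1, fsS0X⟩
      [(2, true), (2, false), (0, true), (2, false), (1, true), (0, false), (2, false), (2, false), (0, false), (2, false), (1, true), (2, false), (0, false), (2, false), (0, true), (2, false)]) :=
  Check.good_node (a := 0) (by decide +kernel)
    goodS0X_356 goodS0X_357

def goodS0X_351 :
    Check.Good noCone cfS0X (reach cfS0X ⟨litS0X, 1, fsS0X⟩
      [(2, false), (0, true), (2, false), (1, true), (0, false), (2, false), (2, false), (0, false), (2, false), (1, true), (2, false), (0, false), (2, false), (0, true), (2, false)]) :=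
  Check.good_node (a := 2) (by decide +kernel)
    goodS0X_352 goodS0X_355

def goodS0X_360 :
    Check.Good noCone cfS0X (reach cfS0X ⟨litS0X, 1, fsS0X⟩
      [(2, false), (0, false), (2, true), (0, true), (2, false), (1, true), (0, false), (2, false), (2, false), (0, false), (2, false), (1, true), (2, false), (0, false), (2, false), (0, true), (2, false)]) :=
  Check.check_sound
    (.node 1
    (.leaf (lf 1024 0 0 527 180 (-358) (-14) 0 198 255 255 255))
    (.node 2
    (.node 0
    (.node 1
    (.leaf (lf 1024 0 0 694 170 (-326) (-86) 0 185 255 255 255))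
    (.leaf (lf 1024 0 0 832 122 (-227) (-150) 0 132 255 86 198)))
    (.node 1
    (.leaf (lf 1024 0 0 708 174 (-333) (-91) 0 195 255 255 255))
    (.leaf (lf 1024 0 0 848 124 (-231) (-159) 0 138 255 86 197))))
    (.node 0
    (.node 1
    (.leaf (lf 1024 0 0 690 168 (-325) (-81) 0 179 255 255 255))
    (.leaf (lf 1024 0 0 827 121 (-226) (-143) 0 127 255 89 198)))
    (.node 1
    (.leaf (lf 1024 0 0 704 172 (-331) (-86) 0 188 255 255 255))
    (.leaf (lf 16384 0 0 13496 1974 (-3681) (-2431) 0 2131 255 89 198))))))
    (by decide +kernel)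

def goodS0X_361 :
    Check.Good noCone cfS0X (reach cfS0X ⟨litS0X, 1, fsS0X⟩
      [(2, true), (0, false), (2, true), (0, true), (2, false), (1, true), (0, false), (2, false), (2, false), (0, false), (2, false), (1, true), (2, false), (0, false), (2, false), (0, true), (2, false)]) :=
  Check.check_sound
    (.node 1
    (.leaf (lf 1024 0 0 519 176 (-353) (-9) 0 183 255 255 255))
    (.node 2
    (.node 0
    (.node 1
    (.leaf (lf 1024 0 0 685 166 (-323) (-76) 0 172 255 255 255))
    (.leaf (lf 1024 0 0 823 120 (-225) (-136) 0 123 255 88 198)))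
    (.node 1
    (.leaf (lf 1024 0 0 699 170 (-329) (-81) 0 181 255 255 255))
    (.leaf (lf 1024 0 0 839 122 (-230) (-145) 0 129 255 91 198))))
    (.node 0
    (.node 1
    (.leaf (lf 1024 0 0 680 165 (-321) (-71) 0 166 255 255 255))
    (.leaf (lf 1024 0 0 818 119 (-225) (-130) 0 119 255 91 200)))
    (.node 1
    (.leaf (lf 1024 0 0 695 169 (-328) (-77) 0 175 255 255 255))
    (.leaf (lf 1024 0 0 834 122 (-229) (-138) 0 125 255 91 198))))))
    (by decide +kernel)

def goodS0X_359 :
    Check.Good noCone cfS0X (reach cfS0X ⟨litS0X, 1, fsS0X⟩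
      [(0, false), (2, true), (0, true), (2, false), (1, true), (0, false), (2, false), (2, false), (0, false), (2, false), (1, true), (2, false), (0, false), (2, false), (0, true), (2, false)]) :=
  Check.good_node (a := 2) (by decide +kernel)
    goodS0X_360 goodS0X_361

def goodS0X_363 :
    Check.Good noCone cfS0X (reach cfS0X ⟨litS0X, 1, fsS0X⟩
      [(2, false), (0, true), (2, true), (0, true), (2, false), (1, true), (0, false), (2, false), (2, false), (0, false), (2, false), (1, true), (2, false), (0, false), (2, false), (0, true), (2, false)]) :=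
  Check.check_sound
    (.node 1
    (.leaf (lf 1024 0 0 548 188 (-373) (-18) 0 218 255 255 255))
    (.node 2
    (.node 0
    (.node 1
    (.leaf (lf 1024 0 0 722 178 (-339) (-98) 0 204 255 255 255))
    (.leaf (lf 1024 0 0 864 127 (-235) (-169) 0 145 255 90 195)))
    (.node 1
    (.leaf (lf 1024 0 0 735 182 (-345) (-104) 0 214 255 255 255))
    (.leaf (lf 1024 0 0 879 130 (-239) (-178) 0 151 255 88 196))))
    (.node 0
    (.node 1
    (.leaf (lf 1024 0 0 717 176 (-338) (-92) 0 197 255 255 255))
    (.leaf (lf 1024 0 0 860 126 (-234) (-161) 0 140 255 88 195)))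
    (.node 1
    (.leaf (lf 1024 0 0 731 180 (-344) (-98) 0 206 255 255 255))
    (.leaf (lf 1024 0 0 875 129 (-238) (-170) 0 146 255 89 199))))))
    (by decide +kernel)

def goodS0X_364 :
    Check.Good noCone cfS0X (reach cfS0X ⟨litS0X, 1, fsS0X⟩
      [(2, true), (0, true), (2, true), (0, true), (2, false), (1, true), (0, false), (2, false), (2, false), (0, false), (2, false), (1, true), (2, false), (0, false), (2, false), (0, true), (2, false)]) :=
  Check.check_sound
    (.node 1
    (.leaf (lf 1024 0 0 540 185 (-368) (-13) 0 202 255 255 255))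
    (.node 2
    (.node 0
    (.node 1
    (.leaf (lf 1024 0 0 713 175 (-336) (-87) 0 190 255 255 255))
    (.leaf (lf 1024 0 0 855 125 (-234) (-154) 0 135 255 94 196)))
    (.node 1
    (.leaf (lf 1024 0 0 727 179 (-342) (-93) 0 199 255 255 255))
    (.leaf (lf 1024 0 0 871 128 (-238) (-162) 0 141 255 86 198))))
    (.node 0
    (.node 1
    (.leaf (lf 1024 0 0 709 173 (-334) (-82) 0 183 255 255 255))
    (.leaf (lf 1024 0 0 851 124 (-233) (-147) 0 131 255 92 196)))
    (.node 1
    (.leaf (lf 1024 0 0 723 177 (-341) (-88) 0 192 255 255 255))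
    (.leaf (lf 1024 0 0 867 127 (-237) (-155) 0 137 255 87 198))))))
    (by decide +kernel)

def goodS0X_362 :
    Check.Good noCone cfS0X (reach cfS0X ⟨litS0X, 1, fsS0X⟩
      [(0, true), (2, true), (0, true), (2, false), (1, true), (0, false), (2, false), (2, false), (0, false), (2, false), (1, true), (2, false), (0, false), (2, false), (0, true), (2, false)]) :=
  Check.good_node (a := 2) (by decide +kernel)
    goodS0X_363 goodS0X_364

def goodS0X_358 :
    Check.Good noCone cfS0X (reach cfS0X ⟨litS0X, 1, fsS0X⟩
      [(2, true), (0, true), (2, false), (1, true), (0, false), (2, false), (2, false), (0, false), (2, false), (1, true), (2, false), (0, false), (2, false), (0, true), (2, false)]) :=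
  Check.good_node (a := 0) (by decide +kernel)
    goodS0X_359 goodS0X_362

def goodS0X_350 :
    Check.Good noCone cfS0X (reach cfS0X ⟨litS0X, 1, fsS0X⟩
      [(0, true), (2, false), (1, true), (0, false), (2, false), (2, false), (0, false), (2, false), (1, true), (2, false), (0, false), (2, false), (0, true), (2, false)]) :=
  Check.good_node (a := 2) (by decide +kernel)
    goodS0X_351 goodS0X_358

def goodS0X_334 :
    Check.Good noCone cfS0X (reach cfS0X ⟨litS0X, 1, fsS0X⟩
      [(2, false), (1, true), (0, false), (2, false), (2, false), (0, false), (2, false), (1, true), (2, false), (0, false), (2, false), (0, true), (2, false)]) :=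
  Check.good_node (a := 0) (by decide +kernel)
    goodS0X_335 goodS0X_350

def goodS0X_366 :
    Check.Good noCone cfS0X (reach cfS0X ⟨litS0X, 1, fsS0X⟩
      [(0, false), (2, true), (1, true), (0, false), (2, false), (2, false), (0, false), (2, false), (1, true), (2, false), (0, false), (2, false), (0, true), (2, false)]) :=
  Check.check_sound
    (.node 2
    (.node 0
    (.node 1
    (.leaf (lf 1024 0 0 464 156 (-313) 2 0 133 255 255 255))
    (.node 1
    (.leaf (lf 1024 0 0 618 149 (-292) (-46) 0 127 255 255 255))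
    (.leaf (lf 1024 0 0 745 109 (-209) (-91) 0 93 255 111 173))))
    (.node 1
    (.leaf (lf 1024 0 0 486 164 (-329) 0 0 148 255 255 255))
    (.node 1
    (.leaf (lf 1024 0 0 647 156 (-306) (-54) 0 141 255 255 255))
    (.leaf (lf 1024 0 0 780 114 (-217) (-104) 0 102 255 105 174)))))
    (.node 0
    (.node 1
    (.leaf (lf 1024 0 0 449 151 (-302) 7 0 116 255 255 255))
    (.node 1
    (.leaf (lf 1024 0 0 600 145 (-284) (-35) 0 112 255 255 255))
    (.leaf (lf 1024 0 0 725 107 (-206) (-75) 0 83 255 137 208))))
    (.node 1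
    (.leaf (lf 1024 0 0 471 159 (-318) 5 0 129 255 255 255))
    (.node 1
    (.leaf (lf 1024 0 0 629 152 (-298) (-42) 0 124 255 255 255))
    (.leaf (lf 1024 0 0 760 111 (-214) (-86) 0 91 255 108 179))))))
    (by decide +kernel)

def goodS0X_367 :
    Check.Good noCone cfS0X (reach cfS0X ⟨litS0X, 1, fsS0X⟩
      [(0, true), (2, true), (1, true), (0, false), (2, false), (2, false), (0, false), (2, false), (1, true), (2, false), (0, false), (2, false), (0, true), (2, false)]) :=
  Check.check_sound
    (.node 2
    (.node 1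
    (.leaf (lf 1024 0 0 519 176 (-352) (-6) 0 172 255 255 255))
    (.node 0
    (.node 1
    (.leaf (lf 1024 0 0 676 164 (-319) (-64) 0 156 255 255 255))
    (.leaf (lf 1024 0 0 813 119 (-226) (-119) 0 113 255 106 170)))
    (.node 1
    (.leaf (lf 1024 0 0 704 172 (-333) (-73) 0 172 255 255 255))
    (.leaf (lf 1024 0 0 847 124 (-234) (-134) 0 124 255 102 170)))))
    (.node 1
    (.leaf (lf 1024 0 0 505 171 (-342) 0 0 151 255 255 255))
    (.node 0
    (.node 1
    (.leaf (lf 1024 0 0 658 159 (-312) (-50) 0 138 255 255 255))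
    (.leaf (lf 1024 0 0 794 116 (-223) (-99) 0 100 255 108 176)))
    (.node 1
    (.leaf (lf 1024 0 0 687 167 (-326) (-59) 0 152 255 255 255))
    (.leaf (lf 1024 0 0 829 121 (-231) (-113) 0 110 255 106 174))))))
    (by decide +kernel)

def goodS0X_365 :
    Check.Good noCone cfS0X (reach cfS0X ⟨litS0X, 1, fsS0X⟩
      [(2, true), (1, true), (0, false), (2, false), (2, false), (0, false), (2, false), (1, true), (2, false), (0, false), (2, false), (0, true), (2, false)]) :=
  Check.good_node (a := 0) (by decide +kernel)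
    goodS0X_366 goodS0X_367

def goodS0X_333 :
    Check.Good noCone cfS0X (reach cfS0X ⟨litS0X, 1, fsS0X⟩
      [(1, true), (0, false), (2, false), (2, false), (0, false), (2, false), (1, true), (2, false), (0, false), (2, false), (0, true), (2, false)]) :=
  Check.good_node (a := 2) (by decide +kernel)
    goodS0X_334 goodS0X_365

def goodS0X_331 :
    Check.Good noCone cfS0X (reach cfS0X ⟨litS0X, 1, fsS0X⟩
      [(0, false), (2, false), (2, false), (0, false), (2, false), (1, true), (2, false), (0, false), (2, false), (0, true), (2, false)]) :=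
  Check.good_node (a := 1) (by decide +kernel)
    goodS0X_332 goodS0X_333

def goodS0X_369 :
    Check.Good noCone cfS0X (reach cfS0X ⟨litS0X, 1, fsS0X⟩
      [(1, false), (0, true), (2, false), (2, false), (0, false), (2, false), (1, true), (2, false), (0, false), (2, false), (0, true), (2, false)]) :=
  Check.check_sound
    (.node 2
    (.node 2
    (.node 0
    (.leaf (lf 1024 0 0 336 161 (-329) 66 0 220 255 255 255))
    (.leaf (lf 1024 0 0 359 174 (-353) 74 0 262 255 255 255)))
    (.node 0
    (.leaf (lf 1024 0 0 327 155 (-318) 62 0 186 255 255 255))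
    (.leaf (lf 1024 0 0 350 168 (-342) 70 0 223 255 255 255))))
    (.node 0
    (.node 2
    (.leaf (lf 1024 0 0 319 150 (-307) 59 0 160 255 255 255))
    (.leaf (lf 1024 0 0 311 145 (-297) 56 0 140 255 255 255)))
    (.node 2
    (.leaf (lf 1024 0 0 342 162 (-332) 66 0 192 255 255 255))
    (.leaf (lf 1024 0 0 335 157 (-321) 63 0 168 255 255 255)))))
    (by decide +kernel)

def goodS0X_372 :
    Check.Good noCone cfS0X (reach cfS0X ⟨litS0X, 1, fsS0X⟩
      [(2, false), (2, false), (1, true), (0, true), (2, false), (2, false), (0, false), (2, false), (1, true), (2, false), (0, false), (2, false), (0, true), (2, false)]) :=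
  Check.check_sound
    (.node 0
    (.node 2
    (.node 1
    (.leaf (lf 1024 0 0 595 211 (-405) (-40) 0 295 255 255 255))
    (.node 1
    (.leaf (lf 1024 0 0 783 201 (-365) (-146) 0 274 255 255 255))
    (.leaf (lf 1024 0 0 929 145 (-252) (-238) 0 194 255 95 198))))
    (.node 1
    (.leaf (lf 1024 0 0 588 206 (-400) (-32) 0 272 255 255 255))
    (.node 1
    (.leaf (lf 1024 0 0 775 196 (-363) (-131) 0 254 255 255 255))
    (.leaf (lf 1024 0 0 923 142 (-251) (-217) 0 180 255 94 199)))))
    (.node 2
    (.node 1
    (.leaf (lf 1024 0 0 635 230 (-432) (-54) 0 351 255 255 255))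
    (.node 1
    (.leaf (lf 1024 0 0 833 220 (-387) (-178) 0 325 255 255 255))
    (.leaf (lf 1024 0 0 984 161 (-269) (-285) 0 231 255 98 202))))
    (.node 1
    (.leaf (lf 1024 0 0 628 225 (-428) (-45) 0 323 255 255 255))
    (.node 1
    (.leaf (lf 1024 0 0 826 215 (-386) (-161) 0 301 255 255 255))
    (.leaf (lf 1024 0 0 981 156 (-268) (-261) 0 214 255 96 201))))))
    (by decide +kernel)

def goodS0X_373 :
    Check.Good noCone cfS0X (reach cfS0X ⟨litS0X, 1, fsS0X⟩
      [(2, true), (2, false), (1, true), (0, true), (2, false), (2, false), (0, false), (2, false), (1, true), (2, false), (0, false), (2, false), (0, true), (2, false)]) :=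
  Check.check_sound
    (.node 0
    (.node 2
    (.node 1
    (.leaf (lf 1024 0 0 580 202 (-396) (-26) 0 251 255 255 255))
    (.node 1
    (.leaf (lf 1024 0 0 768 192 (-360) (-117) 0 236 255 255 255))
    (.leaf (lf 1024 0 0 916 139 (-250) (-198) 0 167 255 93 198))))
    (.node 1
    (.leaf (lf 1024 0 0 573 198 (-391) (-20) 0 233 255 255 255))
    (.node 1
    (.leaf (lf 1024 0 0 760 189 (-358) (-106) 0 220 255 255 255))
    (.leaf (lf 1024 0 0 909 136 (-249) (-182) 0 156 255 82 164)))))
    (.node 2
    (.node 1
    (.leaf (lf 1024 0 0 621 220 (-424) (-37) 0 300 255 255 255))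
    (.node 1
    (.leaf (lf 1024 0 0 820 210 (-384) (-145) 0 280 255 255 255))
    (.leaf (lf 1024 0 0 976 152 (-267) (-240) 0 199 255 93 201))))
    (.node 1
    (.leaf (lf 1024 0 0 614 216 (-420) (-30) 0 278 255 255 255))
    (.node 1
    (.leaf (lf 1024 0 0 813 206 (-382) (-132) 0 261 255 255 255))
    (.leaf (lf 1024 0 0 970 149 (-266) (-221) 0 186 255 90 202))))))
    (by decide +kernel)

def goodS0X_371 :
    Check.Good noCone cfS0X (reach cfS0X ⟨litS0X, 1, fsS0X⟩
      [(2, false), (1, true), (0, true), (2, false), (2, false), (0, false), (2, false), (1, true), (2, false), (0, false), (2, false), (0, true), (2, false)]) :=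
  Check.good_node (a := 2) (by decide +kernel)
    goodS0X_372 goodS0X_373

def goodS0X_375 :
    Check.Good noCone cfS0X (reach cfS0X ⟨litS0X, 1, fsS0X⟩
      [(0, false), (2, true), (1, true), (0, true), (2, false), (2, false), (0, false), (2, false), (1, true), (2, false), (0, false), (2, false), (0, true), (2, false)]) :=
  Check.check_sound
    (.node 2
    (.node 1
    (.leaf (lf 1024 0 0 562 193 (-383) (-13) 0 209 255 255 255))
    (.node 0
    (.node 1
    (.leaf (lf 1024 0 0 732 180 (-346) (-84) 0 189 255 255 255))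
    (.leaf (lf 1024 0 0 879 130 (-243) (-151) 0 135 255 103 169)))
    (.node 1
    (.leaf (lf 1024 0 0 759 188 (-359) (-95) 0 207 255 255 255))
    (.leaf (lf 1024 0 0 911 136 (-251) (-168) 0 148 255 102 170)))))
    (.node 1
    (.leaf (lf 1024 0 0 548 187 (-373) (-6) 0 184 255 255 255))
    (.node 0
    (.node 1
    (.leaf (lf 1024 0 0 715 174 (-339) (-68) 0 167 255 255 255))
    (.leaf (lf 1024 0 0 862 126 (-240) (-127) 0 121 255 102 173)))
    (.node 1
    (.leaf (lf 1024 0 0 743 182 (-353) (-78) 0 183 255 255 255))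
    (.leaf (lf 1024 0 0 895 132 (-249) (-143) 0 132 255 104 173))))))
    (by decide +kernel)

def goodS0X_376 :
    Check.Good noCone cfS0X (reach cfS0X ⟨litS0X, 1, fsS0X⟩
      [(0, true), (2, true), (1, true), (0, true), (2, false), (2, false), (0, false), (2, false), (1, true), (2, false), (0, false), (2, false), (0, true), (2, false)]) :=
  Check.check_sound
    (.node 2
    (.node 1
    (.leaf (lf 1024 0 0 604 210 (-412) (-22) 0 250 255 255 255))
    (.node 2
    (.node 1
    (.leaf (lf 1024 0 0 805 202 (-380) (-120) 0 245 255 255 255))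
    (.leaf (lf 1024 0 0 963 146 (-265) (-204) 0 174 255 92 201)))
    (.node 1
    (.leaf (lf 1024 0 0 798 199 (-377) (-109) 0 230 255 255 255))
    (.leaf (lf 1024 0 0 956 144 (-264) (-189) 0 164 255 95 202)))))
    (.node 1
    (.leaf (lf 1024 0 0 590 204 (-403) (-13) 0 220 255 255 255))
    (.node 0
    (.node 1
    (.leaf (lf 1024 0 0 771 190 (-366) (-88) 0 200 255 255 255))
    (.leaf (lf 1024 0 0 928 138 (-257) (-159) 0 144 255 100 172)))
    (.node 1
    (.leaf (lf 1024 0 0 798 198 (-379) (-99) 0 218 255 255 255))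
    (.leaf (lf 1024 0 0 960 144 (-266) (-176) 0 157 255 98 173))))))
    (by decide +kernel)

def goodS0X_374 :
    Check.Good noCone cfS0X (reach cfS0X ⟨litS0X, 1, fsS0X⟩
      [(2, true), (1, true), (0, true), (2, false), (2, false), (0, false), (2, false), (1, true), (2, false), (0, false), (2, false), (0, true), (2, false)]) :=
  Check.good_node (a := 0) (by decide +kernel)
    goodS0X_375 goodS0X_376

def goodS0X_370 :
    Check.Good noCone cfS0X (reach cfS0X ⟨litS0X, 1, fsS0X⟩
      [(1, true), (0, true), (2, false), (2, false), (0, false), (2, false), (1, true), (2, false), (0, false), (2, false), (0, true), (2, false)]) :=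
  Check.good_node (a := 2) (by decide +kernel)
    goodS0X_371 goodS0X_374

def goodS0X_368 :
    Check.Good noCone cfS0X (reach cfS0X ⟨litS0X, 1, fsS0X⟩
      [(0, true), (2, false), (2, false), (0, false), (2, false), (1, true), (2, false), (0, false), (2, false), (0, true), (2, false)]) :=
  Check.good_node (a := 1) (by decide +kernel)
    goodS0X_369 goodS0X_370

def goodS0X_330 :
    Check.Good noCone cfS0X (reach cfS0X ⟨litS0X, 1, fsS0X⟩
      [(2, false), (2, false), (0, false), (2, false), (1, true), (2, false), (0, false), (2, false), (0, true), (2, false)]) :=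
  Check.good_node (a := 0) (by decide +kernel)
    goodS0X_331 goodS0X_368

def goodS0X_379 :
    Check.Good noCone cfS0X (reach cfS0X ⟨litS0X, 1, fsS0X⟩
      [(1, false), (0, false), (2, true), (2, false), (0, false), (2, false), (1, true), (2, false), (0, false), (2, false), (0, true), (2, false)]) :=
  Check.check_sound
    (.node 2
    (.node 0
    (.node 1
    (.leaf (lf 1024 0 0 200 95 (-187) 47 0 61 255 242 157))
    (.leaf (lf 1024 0 0 295 126 (-250) 38 0 84 255 255 255)))
    (.node 1
    (.leaf (lf 1024 0 0 221 104 (-208) 54 0 76 255 242 165))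
    (.leaf (lf 1024 0 0 325 139 (-277) 42 0 104 255 255 255))))
    (.node 0
    (.node 1
    (.leaf (lf 1024 0 0 186 90 (-172) 43 0 49 255 247 143))
    (.leaf (lf 1024 0 0 276 120 (-232) 37 0 67 255 255 255)))
    (.node 1
    (.leaf (lf 1024 0 0 207 99 (-193) 49 0 61 255 255 255))
    (.leaf (lf 1024 0 0 306 132 (-259) 41 0 83 255 255 255)))))
    (by decide +kernel)

def goodS0X_382 :
    Check.Good noCone cfS0X (reach cfS0X ⟨litS0X, 1, fsS0X⟩
      [(0, false), (2, false), (1, true), (0, false), (2, true), (2, false), (0, false), (2, false), (1, true), (2, false), (0, false), (2, false), (0, true), (2, false)]) :=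
  Check.check_sound
    (.node 2
    (.node 0
    (.node 1
    (.leaf (lf 1024 0 0 435 147 (-292) 11 0 102 255 255 255))
    (.node 1
    (.leaf (lf 1024 0 0 582 141 (-276) (-26) 0 99 255 255 255))
    (.leaf (lf 1024 0 0 705 105 (-203) (-61) 0 74 255 131 217))))
    (.node 1
    (.leaf (lf 1024 0 0 457 154 (-308) 9 0 114 255 255 255))
    (.node 1
    (.leaf (lf 1024 0 0 611 148 (-291) (-33) 0 110 255 255 255))
    (.leaf (lf 1024 0 0 740 109 (-211) (-72) 0 82 255 136 213)))))
    (.node 0
    (.node 1
    (.leaf (lf 1024 0 0 421 143 (-282) 13 0 91 255 255 255))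
    (.leaf (lf 1024 0 0 626 272 0 (-35) (-72) 37 255 207 60)))
    (.node 1
    (.leaf (lf 1024 0 0 443 151 (-298) 12 0 102 255 255 255))
    (.node 1
    (.leaf (lf 1024 0 0 594 145 (-283) (-25) 0 99 255 255 255))
    (.leaf (lf 1024 0 0 721 108 (-208) (-60) 0 74 255 137 218))))))
    (by decide +kernel)

def goodS0X_383 :
    Check.Good noCone cfS0X (reach cfS0X ⟨litS0X, 1, fsS0X⟩
      [(0, true), (2, false), (1, true), (0, false), (2, true), (2, false), (0, false), (2, false), (1, true), (2, false), (0, false), (2, false), (0, true), (2, false)]) :=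
  Check.check_sound
    (.node 2
    (.node 1
    (.leaf (lf 1024 0 0 491 166 (-332) 5 0 134 255 255 255))
    (.node 0
    (.node 1
    (.leaf (lf 1024 0 0 641 155 (-305) (-40) 0 122 255 255 255))
    (.leaf (lf 1024 0 0 775 114 (-220) (-83) 0 90 255 111 181)))
    (.node 1
    (.leaf (lf 1024 0 0 670 162 (-319) (-47) 0 135 255 255 255))
    (.leaf (lf 1024 0 0 810 119 (-228) (-95) 0 99 255 106 179)))))
    (.node 1
    (.leaf (lf 1024 0 0 478 162 (-322) 9 0 119 255 255 255))
    (.node 0
    (.node 1
    (.leaf (lf 1024 0 0 624 151 (-297) (-31) 0 110 255 255 255))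
    (.leaf (lf 1024 0 0 757 112 (-217) (-70) 0 82 255 131 215)))
    (.node 1
    (.leaf (lf 1024 0 0 653 158 (-311) (-37) 0 121 255 255 255))
    (.leaf (lf 1024 0 0 792 116 (-225) (-81) 0 90 255 129 212))))))
    (by decide +kernel)

def goodS0X_381 :
    Check.Good noCone cfS0X (reach cfS0X ⟨litS0X, 1, fsS0X⟩
      [(2, false), (1, true), (0, false), (2, true), (2, false), (0, false), (2, false), (1, true), (2, false), (0, false), (2, false), (0, true), (2, false)]) :=
  Check.good_node (a := 0) (by decide +kernel)
    goodS0X_382 goodS0X_383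

def goodS0X_384 :
    Check.Good noCone cfS0X (reach cfS0X ⟨litS0X, 1, fsS0X⟩
      [(2, true), (1, true), (0, false), (2, true), (2, false), (0, false), (2, false), (1, true), (2, false), (0, false), (2, false), (0, true), (2, false)]) :=
  Check.check_sound
    (.node 0
    (.node 2
    (.node 1
    (.leaf (lf 1024 0 0 420 144 (-281) 15 0 86 255 255 255))
    (.leaf (lf 1024 0 0 626 273 0 (-31) (-68) 36 255 217 56)))
    (.node 1
    (.leaf (lf 1024 0 0 407 141 (-272) 17 0 78 255 255 255))
    (.leaf (lf 1024 0 0 608 267 0 (-25) (-62) 33 255 221 61))))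
    (.node 2
    (.node 1
    (.leaf (lf 1024 0 0 465 158 (-312) 12 0 107 255 255 255))
    (.node 0
    (.node 1
    (.leaf (lf 1024 0 0 607 148 (-290) (-24) 0 99 255 255 255))
    (.leaf (lf 1024 0 0 738 110 (-213) (-59) 0 74 255 135 219)))
    (.node 1
    (.leaf (lf 1024 0 0 637 155 (-304) (-29) 0 110 255 255 255))
    (.leaf (lf 1024 0 0 773 115 (-222) (-69) 0 82 255 136 215)))))
    (.node 1
    (.leaf (lf 1024 0 0 452 155 (-303) 15 0 97 255 255 255))
    (.leaf (lf 1024 0 0 674 294 0 (-38) (-77) 40 255 201 55)))))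
    (by decide +kernel)

def goodS0X_380 :
    Check.Good noCone cfS0X (reach cfS0X ⟨litS0X, 1, fsS0X⟩
      [(1, true), (0, false), (2, true), (2, false), (0, false), (2, false), (1, true), (2, false), (0, false), (2, false), (0, true), (2, false)]) :=
  Check.good_node (a := 2) (by decide +kernel)
    goodS0X_381 goodS0X_384

def goodS0X_378 :
    Check.Good noCone cfS0X (reach cfS0X ⟨litS0X, 1, fsS0X⟩
      [(0, false), (2, true), (2, false), (0, false), (2, false), (1, true), (2, false), (0, false), (2, false), (0, true), (2, false)]) :=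
  Check.good_node (a := 1) (by decide +kernel)
    goodS0X_379 goodS0X_380

def goodS0X_386 :
    Check.Good noCone cfS0X (reach cfS0X ⟨litS0X, 1, fsS0X⟩
      [(1, false), (0, true), (2, true), (2, false), (0, false), (2, false), (1, true), (2, false), (0, false), (2, false), (0, true), (2, false)]) :=
  Check.check_sound
    (.node 2
    (.node 0
    (.node 1
    (.leaf (lf 1024 0 0 241 113 (-228) 61 0 93 255 255 255))
    (.leaf (lf 1024 0 0 354 151 (-305) 46 0 127 255 255 255)))
    (.node 1
    (.leaf (lf 1024 0 0 260 122 (-248) 69 0 112 255 255 255))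
    (.leaf (lf 1024 0 0 382 164 (-332) 50 0 153 255 255 255))))
    (.node 0
    (.node 1
    (.leaf (lf 1024 0 0 228 107 (-213) 55 0 74 255 255 255))
    (.leaf (lf 1024 0 0 336 144 (-286) 45 0 102 255 255 255)))
    (.node 1
    (.leaf (lf 1024 0 0 248 117 (-233) 62 0 90 255 255 255))
    (.leaf (lf 1024 0 0 365 156 (-314) 49 0 124 255 255 255)))))
    (by decide +kernel)

def goodS0X_389 :
    Check.Good noCone cfS0X (reach cfS0X ⟨litS0X, 1, fsS0X⟩
      [(0, false), (2, false), (1, true), (0, true), (2, true), (2, false), (0, false), (2, false), (1, true), (2, false), (0, false), (2, false), (0, true), (2, false)]) :=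
  Check.check_sound
    (.node 2
    (.node 1
    (.leaf (lf 1024 0 0 534 182 (-363) 0 0 163 255 255 255))
    (.node 0
    (.node 1
    (.leaf (lf 1024 0 0 699 170 (-332) (-55) 0 149 255 255 255))
    (.leaf (lf 1024 0 0 844 123 (-237) (-108) 0 108 255 105 178)))
    (.node 1
    (.leaf (lf 1024 0 0 727 177 (-346) (-64) 0 164 255 255 255))
    (.leaf (lf 1024 0 0 878 129 (-246) (-122) 0 118 255 102 176)))))
    (.node 1
    (.leaf (lf 1024 0 0 521 177 (-353) 5 0 146 255 255 255))
    (.node 0
    (.node 1
    (.leaf (lf 1024 0 0 682 166 (-325) (-45) 0 134 255 255 255))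
    (.leaf (lf 1024 0 0 827 121 (-234) (-93) 0 98 255 110 180)))
    (.node 1
    (.leaf (lf 1024 0 0 711 173 (-339) (-52) 0 147 255 255 255))
    (.leaf (lf 1024 0 0 861 126 (-243) (-105) 0 107 255 105 180))))))
    (by decide +kernel)

def goodS0X_390 :
    Check.Good noCone cfS0X (reach cfS0X ⟨litS0X, 1, fsS0X⟩
      [(0, true), (2, false), (1, true), (0, true), (2, true), (2, false), (0, false), (2, false), (1, true), (2, false), (0, false), (2, false), (0, true), (2, false)]) :=
  Check.check_sound
    (.node 2
    (.node 1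
    (.leaf (lf 1024 0 0 577 198 (-394) (-6) 0 196 255 255 255))
    (.node 0
    (.node 1
    (.leaf (lf 1024 0 0 755 185 (-360) (-73) 0 179 255 255 255))
    (.leaf (lf 1024 0 0 912 134 (-255) (-137) 0 129 255 101 175)))
    (.node 1
    (.leaf (lf 1024 0 0 783 193 (-373) (-83) 0 195 255 255 255))
    (.leaf (lf 1024 0 0 944 140 (-263) (-153) 0 141 255 104 173)))))
    (.node 1
    (.leaf (lf 1024 0 0 564 193 (-385) 0 0 175 255 255 255))
    (.node 0
    (.node 1
    (.leaf (lf 1024 0 0 740 180 (-353) (-60) 0 161 255 255 255))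
    (.leaf (lf 1024 0 0 895 131 (-252) (-118) 0 117 255 101 180)))
    (.node 1
    (.leaf (lf 1024 0 0 768 188 (-367) (-69) 0 176 255 255 255))
    (.leaf (lf 1024 0 0 929 137 (-261) (-133) 0 128 255 103 176))))))
    (by decide +kernel)

def goodS0X_388 :
    Check.Good noCone cfS0X (reach cfS0X ⟨litS0X, 1, fsS0X⟩
      [(2, false), (1, true), (0, true), (2, true), (2, false), (0, false), (2, false), (1, true), (2, false), (0, false), (2, false), (0, true), (2, false)]) :=
  Check.good_node (a := 0) (by decide +kernel)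
    goodS0X_389 goodS0X_390

def goodS0X_392 :
    Check.Good noCone cfS0X (reach cfS0X ⟨litS0X, 1, fsS0X⟩
      [(0, false), (2, true), (1, true), (0, true), (2, true), (2, false), (0, false), (2, false), (1, true), (2, false), (0, false), (2, false), (0, true), (2, false)]) :=
  Check.check_sound
    (.node 2
    (.node 1
    (.leaf (lf 1024 0 0 508 173 (-344) 9 0 131 255 255 255))
    (.node 0
    (.node 1
    (.leaf (lf 1024 0 0 666 162 (-318) (-36) 0 121 255 255 255))
    (.leaf (lf 1024 0 0 809 119 (-231) (-79) 0 90 255 124 215)))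
    (.node 1
    (.leaf (lf 1024 0 0 695 169 (-332) (-43) 0 133 255 255 255))
    (.leaf (lf 1024 0 0 844 124 (-240) (-91) 0 98 255 110 182)))))
    (.node 1
    (.leaf (lf 1024 0 0 496 169 (-335) 12 0 119 255 255 255))
    (.node 0
    (.node 1
    (.leaf (lf 1024 0 0 650 159 (-311) (-28) 0 110 255 255 255))
    (.leaf (lf 1024 0 0 791 117 (-228) (-68) 0 82 255 131 219)))
    (.node 1
    (.leaf (lf 1024 0 0 680 166 (-326) (-34) 0 121 255 255 255))
    (.leaf (lf 1024 0 0 826 122 (-237) (-78) 0 90 255 109 187))))))
    (by decide +kernel)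

def goodS0X_393 :
    Check.Good noCone cfS0X (reach cfS0X ⟨litS0X, 1, fsS0X⟩
      [(0, true), (2, true), (1, true), (0, true), (2, true), (2, false), (0, false), (2, false), (1, true), (2, false), (0, false), (2, false), (0, true), (2, false)]) :=
  Check.check_sound
    (.node 2
    (.node 1
    (.leaf (lf 1024 0 0 551 188 (-375) 5 0 158 255 255 255))
    (.node 0
    (.node 1
    (.leaf (lf 1024 0 0 724 176 (-347) (-50) 0 146 255 255 255))
    (.leaf (lf 1024 0 0 878 129 (-249) (-103) 0 107 255 108 181)))
    (.node 1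
    (.leaf (lf 1024 0 0 753 184 (-361) (-58) 0 160 255 255 255))
    (.leaf (lf 1024 0 0 912 134 (-258) (-116) 0 116 255 106 178)))))
    (.node 1
    (.leaf (lf 1024 0 0 539 184 (-367) 8 0 144 255 255 255))
    (.node 0
    (.node 1
    (.leaf (lf 1024 0 0 709 173 (-340) (-41) 0 133 255 255 255))
    (.leaf (lf 1024 0 0 861 127 (-246) (-89) 0 98 255 106 185)))
    (.node 1
    (.leaf (lf 1024 0 0 738 180 (-354) (-48) 0 146 255 255 255))
    (.leaf (lf 1024 0 0 896 132 (-255) (-101) 0 107 255 105 184))))))
    (by decide +kernel)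

def goodS0X_391 :
    Check.Good noCone cfS0X (reach cfS0X ⟨litS0X, 1, fsS0X⟩
      [(2, true), (1, true), (0, true), (2, true), (2, false), (0, false), (2, false), (1, true), (2, false), (0, false), (2, false), (0, true), (2, false)]) :=
  Check.good_node (a := 0) (by decide +kernel)
    goodS0X_392 goodS0X_393

def goodS0X_387 :
    Check.Good noCone cfS0X (reach cfS0X ⟨litS0X, 1, fsS0X⟩
      [(1, true), (0, true), (2, true), (2, false), (0, false), (2, false), (1, true), (2, false), (0, false), (2, false), (0, true), (2, false)]) :=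
  Check.good_node (a := 2) (by decide +kernel)
    goodS0X_388 goodS0X_391

def goodS0X_385 :
    Check.Good noCone cfS0X (reach cfS0X ⟨litS0X, 1, fsS0X⟩
      [(0, true), (2, true), (2, false), (0, false), (2, false), (1, true), (2, false), (0, false), (2, false), (0, true), (2, false)]) :=
  Check.good_node (a := 1) (by decide +kernel)
    goodS0X_386 goodS0X_387

def goodS0X_377 :
    Check.Good noCone cfS0X (reach cfS0X ⟨litS0X, 1, fsS0X⟩
      [(2, true), (2, false), (0, false), (2, false), (1, true), (2, false), (0, false), (2, false), (0, true), (2, false)]) :=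
  Check.good_node (a := 0) (by decide +kernel)
    goodS0X_378 goodS0X_385

def goodS0X_329 :
    Check.Good noCone cfS0X (reach cfS0X ⟨litS0X, 1, fsS0X⟩
      [(2, false), (0, false), (2, false), (1, true), (2, false), (0, false), (2, false), (0, true), (2, false)]) :=
  Check.good_node (a := 2) (by decide +kernel)
    goodS0X_330 goodS0X_377

def goodS0X_397 :
    Check.Good noCone cfS0X (reach cfS0X ⟨litS0X, 1, fsS0X⟩
      [(1, false), (2, false), (0, false), (2, true), (0, false), (2, false), (1, true), (2, false), (0, false), (2, false), (0, true), (2, false)]) :=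
  Check.check_sound
    (.node 0
    (.node 2
    (.node 1
    (.leaf (lf 1024 0 0 172 86 (-159) 40 0 40 255 251 132))
    (.leaf (lf 1024 0 0 258 115 (-216) 36 0 55 255 255 255)))
    (.node 1
    (.leaf (lf 1024 0 0 158 83 (-149) 38 0 33 255 252 128))
    (.leaf (lf 1024 0 0 240 111 (-202) 35 0 46 255 255 255))))
    (.node 2
    (.node 1
    (.leaf (lf 1024 0 0 194 94 (-179) 46 0 50 255 250 145))
    (.leaf (lf 1024 0 0 288 126 (-243) 40 0 69 255 255 255)))
    (.node 1
    (.leaf (lf 1024 0 0 180 90 (-168) 43 0 42 255 254 132))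
    (.leaf (lf 1024 0 0 270 122 (-228) 39 0 58 255 255 255)))))
    (by decide +kernel)

def goodS0X_398 :
    Check.Good noCone cfS0X (reach cfS0X ⟨litS0X, 1, fsS0X⟩
      [(1, true), (2, false), (0, false), (2, true), (0, false), (2, false), (1, true), (2, false), (0, false), (2, false), (0, true), (2, false)]) :=
  Check.check_sound
    (.node 0
    (.node 2
    (.node 2
    (.node 1
    (.leaf (lf 1024 0 0 395 138 (-263) 18 0 71 255 255 255))
    (.node 0
    (.leaf (lf 1024 0 0 573 119 (-225) (-16) 0 61 255 140 202))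
    (.leaf (lf 1024 0 0 606 124 (-237) (-21) 0 68 255 134 201))))
    (.node 1
    (.leaf (lf 1024 0 0 382 136 (-255) 20 0 65 255 255 255))
    (.leaf (lf 1024 0 (-246) 520 124 (-365) 0 0 63 252 162 255))))
    (.node 1
    (.leaf (lf 1024 0 0 364 132 (-244) 21 0 57 255 255 255))
    (.node 0
    (.leaf (lf 1024 0 0 531 116 (-212) (-6) 0 50 255 146 203))
    (.leaf (lf 1024 0 0 565 120 (-224) (-10) 0 55 255 140 202)))))
    (.node 2
    (.node 2
    (.node 1
    (.leaf (lf 1024 0 0 439 152 (-295) 17 0 88 255 255 255))
    (.leaf (lf 1024 0 0 657 288 0 (-31) (-70) 36 255 206 56)))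
    (.node 1
    (.leaf (lf 1024 0 0 427 149 (-286) 19 0 81 255 255 255))
    (.leaf (lf 1024 0 0 640 283 0 (-25) (-65) 34 255 219 61))))
    (.node 1
    (.leaf (lf 1024 0 0 409 145 (-274) 21 0 71 255 255 255))
    (.leaf (lf 1024 0 0 616 275 0 (-17) (-57) 30 255 218 73)))))
    (by decide +kernel)

def goodS0X_396 :
    Check.Good noCone cfS0X (reach cfS0X ⟨litS0X, 1, fsS0X⟩
      [(2, false), (0, false), (2, true), (0, false), (2, false), (1, true), (2, false), (0, false), (2, false), (0, true), (2, false)]) :=
  Check.good_node (a := 1) (by decide +kernel)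
    goodS0X_397 goodS0X_398

def goodS0X_400 :
    Check.Good noCone cfS0X (reach cfS0X ⟨litS0X, 1, fsS0X⟩
      [(1, false), (2, true), (0, false), (2, true), (0, false), (2, false), (1, true), (2, false), (0, false), (2, false), (0, true), (2, false)]) :=
  Check.check_sound
    (.node 0
    (.node 2
    (.node 1
    (.leaf (lf 1024 0 0 145 81 (-141) 36 0 29 250 255 124))
    (.leaf (lf 1024 0 0 222 108 (-190) 34 0 40 255 255 255)))
    (.node 1
    (.leaf (lf 1024 0 0 132 81 (-136) 34 0 26 255 255 255))
    (.leaf (lf 1024 0 0 205 106 (-181) 33 0 35 255 255 255))))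
    (.node 2
    (.node 1
    (.leaf (lf 1024 0 0 167 88 (-158) 41 0 36 254 255 133))
    (.leaf (lf 1024 0 0 253 118 (-215) 38 0 50 255 255 255)))
    (.node 1
    (.leaf (lf 1024 0 0 154 86 (-151) 39 0 31 255 255 255))
    (.leaf (lf 1024 0 0 236 115 (-204) 37 0 43 255 255 255)))))
    (by decide +kernel)

def goodS0X_401 :
    Check.Good noCone cfS0X (reach cfS0X ⟨litS0X, 1, fsS0X⟩
      [(1, true), (2, true), (0, false), (2, true), (0, false), (2, false), (1, true), (2, false), (0, false), (2, false), (0, true), (2, false)]) :=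
  Check.check_sound
    (.node 0
    (.node 2
    (.node 1
    (.leaf (lf 1024 0 0 341 129 (-230) 23 0 49 255 255 255))
    (.node 0
    (.leaf (lf 1024 0 0 500 114 (-203) 0 0 43 255 157 205))
    (.leaf (lf 1024 0 0 533 118 (-215) (-4) 0 48 255 154 202))))
    (.node 1
    (.leaf (lf 1024 0 0 319 126 (-219) 24 0 43 255 255 255))
    (.leaf (lf 1024 0 0 488 115 (-202) 3 0 41 255 194 214))))
    (.node 2
    (.node 1
    (.leaf (lf 1024 0 0 386 141 (-260) 23 0 61 255 255 255))
    (.leaf (lf 16384 0 0 9347 4246 0 (-148) (-797) 430 255 221 77)))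
    (.node 1
    (.leaf (lf 1024 0 0 363 138 (-248) 24 0 53 255 255 255))
    (.leaf (lf 16384 0 (-1047) 8633 1992 (-4170) 0 0 803 255 180 230)))))
    (by decide +kernel)

def goodS0X_399 :
    Check.Good noCone cfS0X (reach cfS0X ⟨litS0X, 1, fsS0X⟩
      [(2, true), (0, false), (2, true), (0, false), (2, false), (1, true), (2, false), (0, false), (2, false), (0, true), (2, false)]) :=
  Check.good_node (a := 1) (by decide +kernel)
    goodS0X_400 goodS0X_401

def goodS0X_395 :
    Check.Good noCone cfS0X (reach cfS0X ⟨litS0X, 1, fsS0X⟩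
      [(0, false), (2, true), (0, false), (2, false), (1, true), (2, false), (0, false), (2, false), (0, true), (2, false)]) :=
  Check.good_node (a := 2) (by decide +kernel)
    goodS0X_396 goodS0X_399

def goodS0X_404 :
    Check.Good noCone cfS0X (reach cfS0X ⟨litS0X, 1, fsS0X⟩
      [(1, false), (2, false), (0, true), (2, true), (0, false), (2, false), (1, true), (2, false), (0, false), (2, false), (0, true), (2, false)]) :=
  Check.check_sound
    (.node 2
    (.node 0
    (.node 1
    (.leaf (lf 1024 0 0 215 103 (-199) 51 0 61 255 255 255))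
    (.leaf (lf 1024 0 0 318 138 (-270) 43 0 85 255 255 255)))
    (.node 1
    (.leaf (lf 1024 0 0 236 112 (-219) 58 0 74 255 255 255))
    (.leaf (lf 1024 0 0 348 150 (-297) 47 0 103 255 255 255))))
    (.node 0
    (.node 1
    (.leaf (lf 1024 0 0 202 99 (-187) 48 0 51 255 255 255))
    (.leaf (lf 1024 0 0 301 133 (-255) 42 0 71 255 255 255)))
    (.node 1
    (.leaf (lf 1024 0 0 224 107 (-207) 54 0 62 255 255 255))
    (.leaf (lf 1024 0 0 331 145 (-281) 46 0 87 255 255 255)))))
    (by decide +kernel)

def goodS0X_406 :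
    Check.Good noCone cfS0X (reach cfS0X ⟨litS0X, 1, fsS0X⟩
      [(2, false), (1, true), (2, false), (0, true), (2, true), (0, false), (2, false), (1, true), (2, false), (0, false), (2, false), (0, true), (2, false)]) :=
  Check.check_sound
    (.node 0
    (.node 2
    (.node 1
    (.leaf (lf 1024 0 0 483 166 (-326) 15 0 108 255 255 255))
    (.node 0
    (.leaf (lf 16384 0 (-7250) 9350 2462 (-9372) 0 0 1750 221 103 255))
    (.node 1
    (.leaf (lf 1024 0 0 664 163 (-319) (-28) 0 111 255 255 255))
    (.leaf (lf 1024 0 0 809 120 (-233) (-68) 0 83 255 134 218)))))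
    (.node 1
    (.leaf (lf 1024 0 0 471 163 (-318) 17 0 99 255 255 255))
    (.leaf (lf 1024 0 0 707 309 0 (-37) (-79) 41 255 202 51))))
    (.node 2
    (.node 1
    (.leaf (lf 1024 0 0 527 180 (-358) 12 0 131 255 255 255))
    (.node 0
    (.node 1
    (.leaf (lf 1024 0 0 694 170 (-333) (-34) 0 122 255 255 255))
    (.leaf (lf 1024 0 0 844 125 (-242) (-78) 0 90 255 112 186)))
    (.node 1
    (.leaf (lf 1024 0 0 723 177 (-347) (-40) 0 134 255 255 255))
    (.leaf (lf 1024 0 0 880 130 (-251) (-89) 0 98 255 109 184)))))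
    (.node 1
    (.leaf (lf 1024 0 0 515 177 (-350) 14 0 120 255 255 255))
    (.node 0
    (.node 1
    (.leaf (lf 1024 0 0 679 167 (-326) (-27) 0 112 255 255 255))
    (.leaf (lf 1024 0 0 828 123 (-239) (-68) 0 84 255 132 220)))
    (.node 1
    (.leaf (lf 1024 0 0 708 173 (-341) (-33) 0 123 255 255 255))
    (.leaf (lf 1024 0 0 863 128 (-248) (-78) 0 91 255 112 187)))))))
    (by decide +kernel)

def goodS0X_407 :
    Check.Good noCone cfS0X (reach cfS0X ⟨litS0X, 1, fsS0X⟩
      [(2, true), (1, true), (2, false), (0, true), (2, true), (0, false), (2, false), (1, true), (2, false), (0, false), (2, false), (0, true), (2, false)]) :=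
  Check.check_sound
    (.node 0
    (.node 1
    (.leaf (lf 1024 0 0 454 159 (-305) 19 0 88 255 255 255))
    (.leaf (lf 1024 0 0 682 301 0 (-28) (-70) 37 255 212 71)))
    (.node 1
    (.leaf (lf 1024 0 0 498 172 (-337) 18 0 106 255 255 255))
    (.leaf (lf 1024 0 0 748 328 0 (-41) (-84) 44 255 197 65))))
    (by decide +kernel)

def goodS0X_405 :
    Check.Good noCone cfS0X (reach cfS0X ⟨litS0X, 1, fsS0X⟩
      [(1, true), (2, false), (0, true), (2, true), (0, false), (2, false), (1, true), (2, false), (0, false), (2, false), (0, true), (2, false)]) :=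
  Check.good_node (a := 2) (by decide +kernel)
    goodS0X_406 goodS0X_407

def goodS0X_403 :
    Check.Good noCone cfS0X (reach cfS0X ⟨litS0X, 1, fsS0X⟩
      [(2, false), (0, true), (2, true), (0, false), (2, false), (1, true), (2, false), (0, false), (2, false), (0, true), (2, false)]) :=
  Check.good_node (a := 1) (by decide +kernel)
    goodS0X_404 goodS0X_405

def goodS0X_408 :
    Check.Good noCone cfS0X (reach cfS0X ⟨litS0X, 1, fsS0X⟩
      [(2, true), (0, true), (2, true), (0, false), (2, false), (1, true), (2, false), (0, false), (2, false), (0, true), (2, false)]) :=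
  Check.check_sound
    (.node 1
    (.node 0
    (.node 2
    (.node 1
    (.leaf (lf 1024 0 0 189 95 (-177) 46 0 44 255 255 255))
    (.leaf (lf 1024 0 0 284 129 (-241) 41 0 61 255 255 255)))
    (.node 1
    (.leaf (lf 1024 0 0 176 93 (-168) 43 0 38 255 255 255))
    (.leaf (lf 1024 0 0 267 125 (-229) 40 0 53 255 255 255))))
    (.node 2
    (.node 1
    (.leaf (lf 1024 0 0 211 104 (-196) 51 0 53 255 255 255))
    (.leaf (lf 1024 0 0 314 140 (-267) 45 0 74 255 255 255)))
    (.node 1
    (.leaf (lf 1024 0 0 199 101 (-186) 49 0 46 255 255 255))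
    (.leaf (lf 1024 0 0 298 136 (-255) 44 0 65 255 255 255)))))
    (.node 0
    (.node 2
    (.node 1
    (.leaf (lf 1024 0 0 430 154 (-291) 22 0 75 255 255 255))
    (.leaf (lf 1024 0 0 651 291 0 (-18) (-61) 32 255 215 70)))
    (.node 1
    (.leaf (lf 1024 0 0 408 150 (-277) 24 0 66 255 255 255))
    (.leaf (lf 16384 0 0 9927 4520 0 (-169) (-856) 460 255 221 72))))
    (.node 2
    (.node 1
    (.leaf (lf 1024 0 0 475 167 (-322) 21 0 92 255 255 255))
    (.leaf (lf 1024 0 0 717 318 0 (-29) (-73) 38 255 202 64)))
    (.node 1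
    (.leaf (lf 1024 0 0 453 163 (-308) 24 0 80 255 255 255))
    (.leaf (lf 1024 0 0 687 309 0 (-20) (-65) 34 255 217 71))))))
    (by decide +kernel)

def goodS0X_402 :
    Check.Good noCone cfS0X (reach cfS0X ⟨litS0X, 1, fsS0X⟩
      [(0, true), (2, true), (0, false), (2, false), (1, true), (2, false), (0, false), (2, false), (0, true), (2, false)]) :=
  Check.good_node (a := 2) (by decide +kernel)
    goodS0X_403 goodS0X_408

def goodS0X_394 :
    Check.Good noCone cfS0X (reach cfS0X ⟨litS0X, 1, fsS0X⟩
      [(2, true), (0, false), (2, false), (1, true), (2, false), (0, false), (2, false), (0, true), (2, false)]) :=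
  Check.good_node (a := 0) (by decide +kernel)
    goodS0X_395 goodS0X_402

def goodS0X_328 :
    Check.Good noCone cfS0X (reach cfS0X ⟨litS0X, 1, fsS0X⟩
      [(0, false), (2, false), (1, true), (2, false), (0, false), (2, false), (0, true), (2, false)]) :=
  Check.good_node (a := 2) (by decide +kernel)
    goodS0X_329 goodS0X_394

end

end Vale.Agent.P211.Cert.Interior.Data
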