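import Vale.Agent.P211.Cert.Interior.Data.S0Xr

/-!
P211, a part of a cell of the interior family (generated).
-/

namespace Vale.Agent.P211.Cert.Interior.Data

open Vale.Agent.P098.Check6 (ofChunks eqList reach St Cfg Face)
open Vale.Agent.P098.Cert6.Kron (RootPar parOK)

set_option linter.defProp false

noncomputable section

def goodS0X_413 :
    Check.Good noCone cfS0X (reach cfS0X ⟨litS0X, 1, fsS0X⟩
      [(1, false), (0, false), (2, false), (2, false), (0, true), (2, false), (1, true), (2, false), (0, false), (2, false), (0, true), (2, false)]) :=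
  Check.check_sound
    (.node 2
    (.node 2
    (.node 0
    (.leaf (lf 1024 0 0 381 188 (-376) 83 0 310 255 255 255))
    (.leaf (lf 1024 0 0 403 203 (-399) 92 0 362 255 255 255)))
    (.node 0
    (.leaf (lf 1024 0 0 373 181 (-366) 78 0 263 255 255 255))
    (.leaf (lf 1024 0 0 395 195 (-389) 87 0 308 255 255 255))))
    (.node 0
    (.node 2
    (.leaf (lf 1024 0 0 365 175 (-355) 74 0 228 255 255 255))
    (.leaf (lf 1024 0 0 358 170 (-345) 70 0 199 255 255 255)))
    (.node 2
    (.leaf (lf 1024 0 0 387 188 (-379) 82 0 267 255 255 255))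
    (.leaf (lf 1024 0 0 380 182 (-369) 78 0 234 255 255 255)))))
    (by decide +kernel)

def goodS0X_416 :
    Check.Good noCone cfS0X (reach cfS0X ⟨litS0X, 1, fsS0X⟩
      [(2, false), (2, false), (1, true), (0, false), (2, false), (2, false), (0, true), (2, false), (1, true), (2, false), (0, false), (2, false), (0, true), (2, false)]) :=
  Check.check_sound
    (.node 0
    (.node 2
    (.node 1
    (.leaf (lf 1024 0 0 674 250 (-457) (-69) 0 412 255 255 255))
    (.node 1
    (.leaf (lf 1024 0 0 880 240 (-409) (-213) 0 381 255 255 255))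
    (.leaf (lf 1012 0 0 1024 176 (-282) (-331) 0 271 255 101 208))))
    (.node 1
    (.leaf (lf 1024 0 0 668 245 (-455) (-58) 0 381 255 255 255))
    (.node 1
    (.leaf (lf 1024 0 0 875 234 (-408) (-194) 0 354 255 255 255))
    (.leaf (lf 1013 0 0 1024 171 (-282) (-306) 0 251 255 99 206)))))
    (.node 2
    (.node 1
    (.leaf (lf 1024 0 0 712 271 (-481) (-85) 0 480 255 255 255))
    (.leaf (lf 1024 0 0 1010 235 (-373) (-323) 0 391 255 90 192)))
    (.node 1
    (.leaf (lf 1024 0 0 706 265 (-480) (-74) 0 444 255 255 255))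
    (.leaf (lf 873 0 (-716) 598 252 (-1024) 0 0 518 203 100 255)))))
    (by decide +kernel)

def goodS0X_417 :
    Check.Good noCone cfS0X (reach cfS0X ⟨litS0X, 1, fsS0X⟩
      [(2, true), (2, false), (1, true), (0, false), (2, false), (2, false), (0, true), (2, false), (1, true), (2, false), (0, false), (2, false), (0, true), (2, false)]) :=
  Check.check_sound
    (.node 0
    (.node 1
    (.leaf (lf 1024 0 0 657 237 (-449) (-45) 0 340 255 255 255))
    (.node 2
    (.node 1
    (.leaf (lf 1024 0 0 870 229 (-407) (-176) 0 329 255 255 255))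
    (.leaf (lf 1016 0 0 1024 167 (-282) (-284) 0 234 255 95 205)))
    (.node 1
    (.leaf (lf 1024 0 0 864 225 (-406) (-161) 0 308 255 255 255))
    (.leaf (lf 1021 0 0 1024 163 (-282) (-264) 0 219 255 95 205)))))
    (.node 1
    (.leaf (lf 1024 0 0 696 257 (-475) (-58) 0 397 255 255 255))
    (.node 2
    (.node 1
    (.leaf (lf 1024 0 0 918 249 (-430) (-210) 0 384 255 255 255))
    (.leaf (lf 967 0 0 1024 174 (-285) (-316) 0 261 255 99 209)))
    (.node 1
    (.leaf (lf 1024 0 0 913 244 (-429) (-192) 0 359 255 255 255))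
    (.leaf (lf 969 0 0 1024 170 (-284) (-295) 0 244 255 96 209))))))
    (by decide +kernel)

def goodS0X_415 :
    Check.Good noCone cfS0X (reach cfS0X ⟨litS0X, 1, fsS0X⟩
      [(2, false), (1, true), (0, false), (2, false), (2, false), (0, true), (2, false), (1, true), (2, false), (0, false), (2, false), (0, true), (2, false)]) :=
  Check.good_node (a := 2) (by decide +kernel)
    goodS0X_416 goodS0X_417

def goodS0X_419 :
    Check.Good noCone cfS0X (reach cfS0X ⟨litS0X, 1, fsS0X⟩
      [(0, false), (2, true), (1, true), (0, false), (2, false), (2, false), (0, true), (2, false), (1, true), (2, false), (0, false), (2, false), (0, true), (2, false)]) :=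
  Check.check_sound
    (.node 2
    (.node 1
    (.leaf (lf 1024 0 0 644 228 (-441) (-32) 0 296 255 255 255))
    (.node 2
    (.node 1
    (.leaf (lf 1024 0 0 857 220 (-404) (-147) 0 288 255 255 255))
    (.leaf (lf 1024 0 0 1023 160 (-282) (-246) 0 206 255 93 205)))
    (.node 1
    (.leaf (lf 1024 0 0 850 217 (-402) (-134) 0 271 255 255 255))
    (.leaf (lf 1024 0 0 1017 157 (-281) (-228) 0 194 255 92 205)))))
    (.node 1
    (.leaf (lf 1024 0 0 631 221 (-433) (-21) 0 261 255 255 255))
    (.node 0
    (.node 1
    (.leaf (lf 1024 0 0 825 207 (-392) (-111) 0 238 255 255 255))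
    (.leaf (lf 1024 0 0 991 150 (-275) (-195) 0 170 255 102 174)))
    (.node 1
    (.leaf (lf 1024 0 0 852 216 (-405) (-123) 0 258 255 255 255))
    (.leaf (lf 1024 0 0 1021 157 (-284) (-213) 0 185 255 101 175))))))
    (by decide +kernel)

def goodS0X_420 :
    Check.Good noCone cfS0X (reach cfS0X ⟨litS0X, 1, fsS0X⟩
      [(0, true), (2, true), (1, true), (0, false), (2, false), (2, false), (0, true), (2, false), (1, true), (2, false), (0, false), (2, false), (0, true), (2, false)]) :=
  Check.check_sound
    (.node 2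
    (.node 1
    (.leaf (lf 1024 0 0 684 247 (-469) (-43) 0 347 255 255 255))
    (.node 2
    (.node 1
    (.leaf (lf 1024 0 0 907 239 (-428) (-177) 0 337 255 255 255))
    (.leaf (lf 972 0 0 1024 167 (-284) (-275) 0 229 255 94 208)))
    (.node 1
    (.leaf (lf 1024 0 0 901 235 (-427) (-163) 0 317 255 255 255))
    (.leaf (lf 976 0 0 1024 164 (-285) (-258) 0 217 255 94 208)))))
    (.node 1
    (.leaf (lf 1024 0 0 671 239 (-461) (-31) 0 307 255 255 255))
    (.node 2
    (.node 1
    (.leaf (lf 1024 0 0 895 231 (-425) (-150) 0 299 255 255 255))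
    (.leaf (lf 980 0 0 1024 162 (-285) (-242) 0 205 255 92 207)))
    (.node 1
    (.leaf (lf 1024 0 0 889 228 (-423) (-138) 0 283 255 255 255))
    (.leaf (lf 985 0 0 1024 160 (-285) (-227) 0 195 255 90 208))))))
    (by decide +kernel)

def goodS0X_418 :
    Check.Good noCone cfS0X (reach cfS0X ⟨litS0X, 1, fsS0X⟩
      [(2, true), (1, true), (0, false), (2, false), (2, false), (0, true), (2, false), (1, true), (2, false), (0, false), (2, false), (0, true), (2, false)]) :=
  Check.good_node (a := 0) (by decide +kernel)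
    goodS0X_419 goodS0X_420

def goodS0X_414 :
    Check.Good noCone cfS0X (reach cfS0X ⟨litS0X, 1, fsS0X⟩
      [(1, true), (0, false), (2, false), (2, false), (0, true), (2, false), (1, true), (2, false), (0, false), (2, false), (0, true), (2, false)]) :=
  Check.good_node (a := 2) (by decide +kernel)
    goodS0X_415 goodS0X_418

def goodS0X_412 :
    Check.Good noCone cfS0X (reach cfS0X ⟨litS0X, 1, fsS0X⟩
      [(0, false), (2, false), (2, false), (0, true), (2, false), (1, true), (2, false), (0, false), (2, false), (0, true), (2, false)]) :=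
  Check.good_node (a := 1) (by decide +kernel)
    goodS0X_413 goodS0X_414

def goodS0X_422 :
    Check.Good noCone cfS0X (reach cfS0X ⟨litS0X, 1, fsS0X⟩
      [(1, false), (0, true), (2, false), (2, false), (0, true), (2, false), (1, true), (2, false), (0, false), (2, false), (0, true), (2, false)]) :=
  Check.check_sound
    (.node 2
    (.node 2
    (.node 0
    (.leaf (lf 1024 0 0 424 218 (-421) 103 0 420 255 255 255))
    (.leaf (lf 1024 0 0 445 233 (-442) 114 0 482 255 255 255)))
    (.node 0
    (.leaf (lf 1024 0 0 416 209 (-411) 97 0 358 255 255 255))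
    (.leaf (lf 1024 0 0 437 223 (-433) 107 0 412 255 255 255))))
    (.node 2
    (.node 0
    (.leaf (lf 1024 0 0 409 201 (-401) 91 0 310 255 255 255))
    (.leaf (lf 1024 0 0 430 215 (-423) 102 0 358 255 255 255)))
    (.node 0
    (.leaf (lf 1024 0 0 402 195 (-392) 87 0 273 255 255 255))
    (.leaf (lf 1024 0 0 423 209 (-414) 96 0 315 255 255 255)))))
    (by decide +kernel)

def goodS0X_424 :
    Check.Good noCone cfS0X (reach cfS0X ⟨litS0X, 1, fsS0X⟩
      [(2, false), (1, true), (0, true), (2, false), (2, false), (0, true), (2, false), (1, true), (2, false), (0, false), (2, false), (0, true), (2, false)]) :=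
  Check.check_sound
    (.node 2
    (.node 0
    (.node 1
    (.leaf (lf 1024 0 0 745 290 (-503) (-96) 0 531 255 255 255))
    (.leaf (lf 995 0 0 1024 246 (-380) (-346) 0 423 255 104 189)))
    (.node 1
    (.leaf (lf 1024 0 0 781 312 (-525) (-114) 0 608 255 255 255))
    (.leaf (lf 956 0 0 1024 257 (-381) (-379) 0 466 255 119 219))))
    (.node 0
    (.node 1
    (.leaf (lf 1024 0 0 734 277 (-500) (-73) 0 460 255 255 255))
    (.leaf (lf 843 0 (-682) 604 255 (-1024) 0 0 516 199 110 255)))
    (.node 1
    (.leaf (lf 1024 0 0 771 298 (-524) (-88) 0 528 255 255 255))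
    (.leaf (lf 955 0 0 1024 244 (-384) (-329) 0 406 255 102 191)))))
    (by decide +kernel)

def goodS0X_425 :
    Check.Good noCone cfS0X (reach cfS0X ⟨litS0X, 1, fsS0X⟩
      [(2, true), (1, true), (0, true), (2, false), (2, false), (0, true), (2, false), (1, true), (2, false), (0, false), (2, false), (0, true), (2, false)]) :=
  Check.check_sound
    (.node 2
    (.node 0
    (.node 1
    (.leaf (lf 1024 0 0 722 267 (-495) (-55) 0 403 255 255 255))
    (.node 2
    (.node 1
    (.leaf (lf 1024 0 0 955 259 (-450) (-209) 0 390 255 255 255))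
    (.leaf (lf 926 0 0 1024 174 (-287) (-305) 0 255 255 99 212)))
    (.node 1
    (.leaf (lf 1024 0 0 950 255 (-450) (-193) 0 368 255 255 255))
    (.leaf (lf 928 0 0 1024 171 (-287) (-287) 0 240 255 94 210)))))
    (.node 1
    (.leaf (lf 1024 0 0 760 287 (-521) (-68) 0 464 255 255 255))
    (.leaf (lf 815 0 (-651) 609 255 (-1024) 0 0 502 200 106 255))))
    (.node 0
    (.node 1
    (.leaf (lf 1024 0 0 710 258 (-489) (-41) 0 357 255 255 255))
    (.node 2
    (.node 1
    (.leaf (lf 1024 0 0 945 250 (-449) (-179) 0 347 255 255 255))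
    (.leaf (lf 931 0 0 1024 168 (-287) (-270) 0 227 255 94 210)))
    (.node 1
    (.leaf (lf 1024 0 0 939 246 (-447) (-166) 0 328 255 255 255))
    (.leaf (lf 934 0 0 1024 165 (-287) (-254) 0 216 255 92 211)))))
    (.node 1
    (.leaf (lf 1024 0 0 749 277 (-516) (-52) 0 412 255 255 255))
    (.node 2
    (.leaf (lf 823 0 (-650) 615 248 (-1024) 0 0 462 201 95 255))
    (.node 1
    (.leaf (lf 1024 0 0 988 266 (-471) (-195) 0 378 255 255 255))
    (.leaf (lf 891 0 0 1024 171 (-290) (-281) 0 239 255 95 214)))))))
    (by decide +kernel)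

def goodS0X_423 :
    Check.Good noCone cfS0X (reach cfS0X ⟨litS0X, 1, fsS0X⟩
      [(1, true), (0, true), (2, false), (2, false), (0, true), (2, false), (1, true), (2, false), (0, false), (2, false), (0, true), (2, false)]) :=
  Check.good_node (a := 2) (by decide +kernel)
    goodS0X_424 goodS0X_425

def goodS0X_421 :
    Check.Good noCone cfS0X (reach cfS0X ⟨litS0X, 1, fsS0X⟩
      [(0, true), (2, false), (2, false), (0, true), (2, false), (1, true), (2, false), (0, false), (2, false), (0, true), (2, false)]) :=
  Check.good_node (a := 1) (by decide +kernel)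
    goodS0X_422 goodS0X_423

def goodS0X_411 :
    Check.Good noCone cfS0X (reach cfS0X ⟨litS0X, 1, fsS0X⟩
      [(2, false), (2, false), (0, true), (2, false), (1, true), (2, false), (0, false), (2, false), (0, true), (2, false)]) :=
  Check.good_node (a := 0) (by decide +kernel)
    goodS0X_412 goodS0X_421

def goodS0X_428 :
    Check.Good noCone cfS0X (reach cfS0X ⟨litS0X, 1, fsS0X⟩
      [(1, false), (0, false), (2, true), (2, false), (0, true), (2, false), (1, true), (2, false), (0, false), (2, false), (0, true), (2, false)]) :=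
  Check.check_sound
    (.node 2
    (.node 0
    (.node 1
    (.leaf (lf 1024 0 0 279 132 (-268) 78 0 133 255 255 255))
    (.leaf (lf 1024 0 0 410 178 (-359) 55 0 182 255 255 255)))
    (.node 1
    (.leaf (lf 1024 0 0 297 141 (-287) 87 0 156 255 255 255))
    (.leaf (lf 1024 0 0 436 191 (-385) 60 0 215 255 255 255))))
    (.node 0
    (.node 1
    (.leaf (lf 1024 0 0 268 126 (-253) 70 0 107 255 255 255))
    (.leaf (lf 1024 0 0 393 169 (-340) 53 0 148 255 255 255)))
    (.node 1
    (.leaf (lf 1024 0 0 287 135 (-272) 79 0 127 255 255 255))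
    (.leaf (lf 1024 0 0 420 182 (-367) 58 0 175 255 255 255)))))
    (by decide +kernel)

def goodS0X_431 :
    Check.Good noCone cfS0X (reach cfS0X ⟨litS0X, 1, fsS0X⟩
      [(0, false), (2, false), (1, true), (0, false), (2, true), (2, false), (0, true), (2, false), (1, true), (2, false), (0, false), (2, false), (0, true), (2, false)]) :=
  Check.check_sound
    (.node 2
    (.node 1
    (.leaf (lf 1024 0 0 618 215 (-424) (-13) 0 233 255 255 255))
    (.node 0
    (.node 1
    (.leaf (lf 1024 0 0 811 201 (-387) (-93) 0 213 255 255 255))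
    (.leaf (lf 1024 0 0 977 146 (-272) (-169) 0 153 255 100 176)))
    (.node 1
    (.leaf (lf 1024 0 0 838 209 (-400) (-104) 0 231 255 255 255))
    (.leaf (lf 1024 0 0 1008 152 (-281) (-186) 0 166 255 100 176)))))
    (.node 1
    (.leaf (lf 1024 0 0 606 209 (-415) (-6) 0 209 255 255 255))
    (.node 0
    (.node 1
    (.leaf (lf 1024 0 0 796 196 (-381) (-79) 0 192 255 255 255))
    (.leaf (lf 1024 0 0 962 142 (-270) (-148) 0 139 255 103 177)))
    (.node 1
    (.leaf (lf 1024 0 0 823 204 (-394) (-88) 0 208 255 255 255))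
    (.leaf (lf 1024 0 0 994 148 (-279) (-163) 0 150 255 99 178))))))
    (by decide +kernel)

def goodS0X_432 :
    Check.Good noCone cfS0X (reach cfS0X ⟨litS0X, 1, fsS0X⟩
      [(0, true), (2, false), (1, true), (0, false), (2, true), (2, false), (0, true), (2, false), (1, true), (2, false), (0, false), (2, false), (0, true), (2, false)]) :=
  Check.check_sound
    (.node 2
    (.node 1
    (.leaf (lf 1024 0 0 659 232 (-453) (-21) 0 274 255 255 255))
    (.node 0
    (.node 1
    (.leaf (lf 1024 0 0 864 218 (-413) (-116) 0 250 255 255 255))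
    (.leaf (lf 1009 0 0 1024 156 (-286) (-201) 0 177 255 100 178)))
    (.node 1
    (.leaf (lf 1024 0 0 890 227 (-425) (-128) 0 270 255 255 255))
    (.leaf (lf 980 0 0 1024 158 (-287) (-214) 0 186 255 102 177)))))
    (.node 1
    (.leaf (lf 1024 0 0 647 226 (-445) (-13) 0 246 255 255 255))
    (.node 0
    (.node 1
    (.leaf (lf 1024 0 0 850 212 (-407) (-99) 0 226 255 255 255))
    (.leaf (lf 1022 0 0 1024 154 (-287) (-179) 0 163 255 98 179)))
    (.node 1
    (.leaf (lf 1024 0 0 877 221 (-421) (-110) 0 245 255 255 255))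
    (.leaf (lf 992 0 0 1024 156 (-287) (-191) 0 171 255 100 178))))))
    (by decide +kernel)

def goodS0X_430 :
    Check.Good noCone cfS0X (reach cfS0X ⟨litS0X, 1, fsS0X⟩
      [(2, false), (1, true), (0, false), (2, true), (2, false), (0, true), (2, false), (1, true), (2, false), (0, false), (2, false), (0, true), (2, false)]) :=
  Check.good_node (a := 0) (by decide +kernel)
    goodS0X_431 goodS0X_432

def goodS0X_434 :
    Check.Good noCone cfS0X (reach cfS0X ⟨litS0X, 1, fsS0X⟩
      [(0, false), (2, true), (1, true), (0, false), (2, true), (2, false), (0, true), (2, false), (1, true), (2, false), (0, false), (2, false), (0, true), (2, false)]) :=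
  Check.check_sound
    (.node 2
    (.node 1
    (.leaf (lf 1024 0 0 594 204 (-406) 0 0 189 255 255 255))
    (.node 0
    (.node 1
    (.leaf (lf 1024 0 0 781 191 (-374) (-66) 0 174 255 255 255))
    (.leaf (lf 1024 0 0 946 139 (-267) (-129) 0 126 255 100 180)))
    (.node 1
    (.leaf (lf 1024 0 0 809 199 (-388) (-75) 0 189 255 255 255))
    (.leaf (lf 1024 0 0 979 145 (-276) (-144) 0 137 255 103 179)))))
    (.node 1
    (.leaf (lf 1024 0 0 582 199 (-398) 4 0 172 255 255 255))
    (.node 0
    (.node 1
    (.leaf (lf 1024 0 0 766 187 (-368) (-56) 0 159 255 255 255))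
    (.leaf (lf 1024 0 0 930 137 (-264) (-114) 0 116 255 106 181)))
    (.node 1
    (.leaf (lf 1024 0 0 794 195 (-382) (-64) 0 173 255 255 255))
    (.leaf (lf 1024 0 0 964 142 (-273) (-127) 0 126 255 103 182))))))
    (by decide +kernel)

def goodS0X_435 :
    Check.Good noCone cfS0X (reach cfS0X ⟨litS0X, 1, fsS0X⟩
      [(0, true), (2, true), (1, true), (0, false), (2, true), (2, false), (0, true), (2, false), (1, true), (2, false), (0, false), (2, false), (0, true), (2, false)]) :=
  Check.check_sound
    (.node 2
    (.node 1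
    (.leaf (lf 1024 0 0 635 220 (-437) (-6) 0 223 255 255 255))
    (.node 0
    (.node 1
    (.leaf (lf 1024 0 0 836 207 (-402) (-85) 0 206 255 255 255))
    (.leaf (lf 1024 0 0 1012 151 (-285) (-159) 0 149 255 101 180)))
    (.node 1
    (.leaf (lf 1024 0 0 864 215 (-415) (-95) 0 223 255 255 255))
    (.leaf (lf 1004 0 0 1024 154 (-288) (-171) 0 158 255 97 181)))))
    (.node 1
    (.leaf (lf 1024 0 0 623 215 (-428) (-1) 0 203 255 255 255))
    (.node 0
    (.node 1
    (.leaf (lf 1024 0 0 822 203 (-396) (-72) 0 188 255 255 255))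
    (.leaf (lf 1024 0 0 998 148 (-282) (-141) 0 137 255 100 180)))
    (.node 1
    (.leaf (lf 1024 0 0 850 211 (-410) (-81) 0 204 255 255 255))
    (.leaf (lf 1018 0 0 1024 152 (-290) (-155) 0 147 255 103 181))))))
    (by decide +kernel)

def goodS0X_433 :
    Check.Good noCone cfS0X (reach cfS0X ⟨litS0X, 1, fsS0X⟩
      [(2, true), (1, true), (0, false), (2, true), (2, false), (0, true), (2, false), (1, true), (2, false), (0, false), (2, false), (0, true), (2, false)]) :=
  Check.good_node (a := 0) (by decide +kernel)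
    goodS0X_434 goodS0X_435

def goodS0X_429 :
    Check.Good noCone cfS0X (reach cfS0X ⟨litS0X, 1, fsS0X⟩
      [(1, true), (0, false), (2, true), (2, false), (0, true), (2, false), (1, true), (2, false), (0, false), (2, false), (0, true), (2, false)]) :=
  Check.good_node (a := 2) (by decide +kernel)
    goodS0X_430 goodS0X_433

def goodS0X_427 :
    Check.Good noCone cfS0X (reach cfS0X ⟨litS0X, 1, fsS0X⟩
      [(0, false), (2, true), (2, false), (0, true), (2, false), (1, true), (2, false), (0, false), (2, false), (0, true), (2, false)]) :=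
  Check.good_node (a := 1) (by decide +kernel)
    goodS0X_428 goodS0X_429

def goodS0X_437 :
    Check.Good noCone cfS0X (reach cfS0X ⟨litS0X, 1, fsS0X⟩
      [(1, false), (0, true), (2, true), (2, false), (0, true), (2, false), (1, true), (2, false), (0, false), (2, false), (0, true), (2, false)]) :=
  Check.check_sound
    (.node 2
    (.node 0
    (.leaf (lf 1024 0 0 392 187 (-376) 80 0 227 255 255 255))
    (.leaf (lf 1024 0 0 414 200 (-398) 89 0 263 255 255 255)))
    (.node 0
    (.leaf (lf 1024 0 0 379 179 (-360) 74 0 185 255 255 255))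
    (.leaf (lf 1024 0 0 401 191 (-382) 82 0 215 255 255 255))))
    (by decide +kernel)

def goodS0X_440 :
    Check.Good noCone cfS0X (reach cfS0X ⟨litS0X, 1, fsS0X⟩
      [(0, false), (2, false), (1, true), (0, true), (2, true), (2, false), (0, true), (2, false), (1, true), (2, false), (0, false), (2, false), (0, true), (2, false)]) :=
  Check.check_sound
    (.node 2
    (.node 1
    (.leaf (lf 1024 0 0 699 250 (-482) (-30) 0 319 255 255 255))
    (.node 0
    (.node 1
    (.leaf (lf 1024 0 0 916 236 (-438) (-141) 0 292 255 255 255))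
    (.leaf (lf 954 0 0 1024 161 (-287) (-226) 0 196 255 118 211)))
    (.node 1
    (.leaf (lf 1024 0 0 942 245 (-450) (-154) 0 314 255 255 255))
    (.leaf (lf 929 0 0 1024 163 (-288) (-239) 0 206 255 119 212)))))
    (.node 1
    (.leaf (lf 1024 0 0 687 243 (-474) (-21) 0 287 255 255 255))
    (.node 0
    (.node 1
    (.leaf (lf 1024 0 0 903 229 (-434) (-121) 0 264 255 255 255))
    (.leaf (lf 964 0 0 1024 158 (-288) (-203) 0 179 255 102 180)))
    (.node 1
    (.leaf (lf 1024 0 0 929 238 (-446) (-133) 0 284 255 255 255))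
    (.leaf (lf 938 0 0 1024 160 (-289) (-214) 0 188 255 116 215))))))
    (by decide +kernel)

def goodS0X_441 :
    Check.Good noCone cfS0X (reach cfS0X ⟨litS0X, 1, fsS0X⟩
      [(0, true), (2, false), (1, true), (0, true), (2, true), (2, false), (0, true), (2, false), (1, true), (2, false), (0, false), (2, false), (0, true), (2, false)]) :=
  Check.check_sound
    (.node 2
    (.node 1
    (.leaf (lf 1024 0 0 737 269 (-510) (-40) 0 369 255 255 255))
    (.node 2
    (.node 1
    (.leaf (lf 1024 0 0 983 261 (-470) (-182) 0 359 255 255 255))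
    (.leaf (lf 893 0 0 1024 169 (-290) (-266) 0 227 255 93 213)))
    (.node 1
    (.leaf (lf 1024 0 0 977 258 (-468) (-170) 0 341 255 255 255))
    (.leaf (lf 896 0 0 1024 166 (-290) (-252) 0 216 255 91 212)))))
    (.node 1
    (.leaf (lf 1024 0 0 726 261 (-503) (-29) 0 333 255 255 255))
    (.node 0
    (.node 1
    (.leaf (lf 1024 0 0 955 247 (-459) (-146) 0 306 255 255 255))
    (.leaf (lf 914 0 0 1024 162 (-290) (-226) 0 197 255 117 215)))
    (.node 1
    (.leaf (lf 1024 0 0 980 257 (-471) (-159) 0 328 255 255 255))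
    (.leaf (lf 891 0 0 1024 165 (-291) (-238) 0 207 255 115 217))))))
    (by decide +kernel)

def goodS0X_439 :
    Check.Good noCone cfS0X (reach cfS0X ⟨litS0X, 1, fsS0X⟩
      [(2, false), (1, true), (0, true), (2, true), (2, false), (0, true), (2, false), (1, true), (2, false), (0, false), (2, false), (0, true), (2, false)]) :=
  Check.good_node (a := 0) (by decide +kernel)
    goodS0X_440 goodS0X_441

def goodS0X_443 :
    Check.Good noCone cfS0X (reach cfS0X ⟨litS0X, 1, fsS0X⟩
      [(0, false), (2, true), (1, true), (0, true), (2, true), (2, false), (0, true), (2, false), (1, true), (2, false), (0, false), (2, false), (0, true), (2, false)]) :=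
  Check.check_sound
    (.node 2
    (.node 1
    (.leaf (lf 1024 0 0 675 237 (-466) (-13) 0 261 255 255 255))
    (.node 0
    (.node 1
    (.leaf (lf 1024 0 0 890 224 (-429) (-105) 0 240 255 255 255))
    (.leaf (lf 975 0 0 1024 155 (-289) (-182) 0 165 255 99 181)))
    (.node 1
    (.leaf (lf 1024 0 0 917 232 (-442) (-116) 0 259 255 255 255))
    (.leaf (lf 947 0 0 1024 157 (-290) (-193) 0 173 255 97 182)))))
    (.node 1
    (.leaf (lf 1024 0 0 664 232 (-458) (-7) 0 238 255 255 255))
    (.node 0
    (.node 1
    (.leaf (lf 1024 0 0 877 219 (-423) (-91) 0 220 255 255 255))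
    (.leaf (lf 987 0 0 1024 154 (-290) (-165) 0 154 255 101 182)))
    (.node 1
    (.leaf (lf 1024 0 0 904 227 (-437) (-101) 0 238 255 255 255))
    (.leaf (lf 958 0 0 1024 155 (-290) (-175) 0 161 255 99 184))))))
    (by decide +kernel)

def goodS0X_444 :
    Check.Good noCone cfS0X (reach cfS0X ⟨litS0X, 1, fsS0X⟩
      [(0, true), (2, true), (1, true), (0, true), (2, true), (2, false), (0, true), (2, false), (1, true), (2, false), (0, false), (2, false), (0, true), (2, false)]) :=
  Check.check_sound
    (.node 2
    (.node 1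
    (.leaf (lf 1024 0 0 715 255 (-495) (-20) 0 302 255 255 255))
    (.node 0
    (.node 1
    (.leaf (lf 1024 0 0 943 241 (-455) (-127) 0 279 255 255 255))
    (.leaf (lf 922 0 0 1024 159 (-290) (-204) 0 182 255 113 216)))
    (.node 1
    (.leaf (lf 1024 0 0 968 250 (-468) (-139) 0 300 255 255 255))
    (.leaf (lf 898 0 0 1024 161 (-291) (-216) 0 191 255 116 215)))))
    (.node 1
    (.leaf (lf 1024 0 0 704 249 (-488) (-13) 0 276 255 255 255))
    (.node 0
    (.node 1
    (.leaf (lf 1024 0 0 931 236 (-450) (-111) 0 256 255 255 255))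
    (.leaf (lf 931 0 0 1024 157 (-291) (-185) 0 169 255 96 185)))
    (.node 1
    (.leaf (lf 1024 0 0 957 245 (-463) (-122) 0 275 255 255 255))
    (.leaf (lf 907 0 0 1024 159 (-292) (-196) 0 177 255 114 218))))))
    (by decide +kernel)

def goodS0X_442 :
    Check.Good noCone cfS0X (reach cfS0X ⟨litS0X, 1, fsS0X⟩
      [(2, true), (1, true), (0, true), (2, true), (2, false), (0, true), (2, false), (1, true), (2, false), (0, false), (2, false), (0, true), (2, false)]) :=
  Check.good_node (a := 0) (by decide +kernel)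
    goodS0X_443 goodS0X_444

def goodS0X_438 :
    Check.Good noCone cfS0X (reach cfS0X ⟨litS0X, 1, fsS0X⟩
      [(1, true), (0, true), (2, true), (2, false), (0, true), (2, false), (1, true), (2, false), (0, false), (2, false), (0, true), (2, false)]) :=
  Check.good_node (a := 2) (by decide +kernel)
    goodS0X_439 goodS0X_442

def goodS0X_436 :
    Check.Good noCone cfS0X (reach cfS0X ⟨litS0X, 1, fsS0X⟩
      [(0, true), (2, true), (2, false), (0, true), (2, false), (1, true), (2, false), (0, false), (2, false), (0, true), (2, false)]) :=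
  Check.good_node (a := 1) (by decide +kernel)
    goodS0X_437 goodS0X_438

def goodS0X_426 :
    Check.Good noCone cfS0X (reach cfS0X ⟨litS0X, 1, fsS0X⟩
      [(2, true), (2, false), (0, true), (2, false), (1, true), (2, false), (0, false), (2, false), (0, true), (2, false)]) :=
  Check.good_node (a := 0) (by decide +kernel)
    goodS0X_427 goodS0X_436

def goodS0X_410 :
    Check.Good noCone cfS0X (reach cfS0X ⟨litS0X, 1, fsS0X⟩
      [(2, false), (0, true), (2, false), (1, true), (2, false), (0, false), (2, false), (0, true), (2, false)]) :=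
  Check.good_node (a := 2) (by decide +kernel)
    goodS0X_411 goodS0X_426

def goodS0X_448 :
    Check.Good noCone cfS0X (reach cfS0X ⟨litS0X, 1, fsS0X⟩
      [(1, false), (2, false), (0, false), (2, true), (0, true), (2, false), (1, true), (2, false), (0, false), (2, false), (0, true), (2, false)]) :=
  Check.check_sound
    (.node 2
    (.node 0
    (.node 1
    (.leaf (lf 1024 0 0 256 120 (-239) 64 0 89 255 255 255))
    (.leaf (lf 1024 0 0 376 162 (-324) 51 0 123 255 255 255)))
    (.node 1
    (.leaf (lf 1024 0 0 276 129 (-258) 72 0 105 255 255 255))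
    (.leaf (lf 1024 0 0 404 175 (-350) 56 0 145 255 255 255))))
    (.node 0
    (.node 1
    (.leaf (lf 1024 0 0 244 116 (-227) 60 0 75 255 255 255))
    (.leaf (lf 1024 0 0 360 156 (-308) 50 0 104 255 255 255)))
    (.node 1
    (.leaf (lf 1024 0 0 265 125 (-246) 67 0 89 255 255 255))
    (.leaf (lf 1024 0 0 389 168 (-334) 54 0 123 255 255 255)))))
    (by decide +kernel)

def goodS0X_451 :
    Check.Good noCone cfS0X (reach cfS0X ⟨litS0X, 1, fsS0X⟩
      [(0, false), (2, false), (1, true), (2, false), (0, false), (2, true), (0, true), (2, false), (1, true), (2, false), (0, false), (2, false), (0, true), (2, false)]) :=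
  Check.check_sound
    (.node 2
    (.node 1
    (.leaf (lf 1024 0 0 570 195 (-389) 8 0 157 255 255 255))
    (.node 0
    (.node 1
    (.leaf (lf 1024 0 0 752 184 (-362) (-47) 0 146 255 255 255))
    (.leaf (lf 1024 0 0 914 134 (-261) (-100) 0 107 255 106 184)))
    (.node 1
    (.leaf (lf 1024 0 0 780 191 (-376) (-54) 0 159 255 255 255))
    (.leaf (lf 1024 0 0 949 140 (-270) (-112) 0 116 255 100 185)))))
    (.node 1
    (.leaf (lf 1024 0 0 558 192 (-381) 11 0 144 255 255 255))
    (.node 0
    (.node 1
    (.leaf (lf 1024 0 0 737 181 (-355) (-39) 0 134 255 255 255))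
    (.leaf (lf 1024 0 0 898 132 (-257) (-88) 0 99 255 106 189)))
    (.node 1
    (.leaf (lf 1024 0 0 766 188 (-369) (-46) 0 147 255 255 255))
    (.leaf (lf 1024 0 0 933 137 (-267) (-100) 0 108 255 109 184))))))
    (by decide +kernel)

def goodS0X_452 :
    Check.Good noCone cfS0X (reach cfS0X ⟨litS0X, 1, fsS0X⟩
      [(0, true), (2, false), (1, true), (2, false), (0, false), (2, true), (0, true), (2, false), (1, true), (2, false), (0, false), (2, false), (0, true), (2, false)]) :=
  Check.check_sound
    (.node 2
    (.node 1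
    (.leaf (lf 1024 0 0 612 211 (-420) 4 0 186 255 255 255))
    (.node 0
    (.node 1
    (.leaf (lf 1024 0 0 808 199 (-390) (-62) 0 173 255 255 255))
    (.leaf (lf 1024 0 0 983 145 (-279) (-125) 0 126 255 100 185)))
    (.node 1
    (.leaf (lf 1024 0 0 836 207 (-404) (-70) 0 187 255 255 255))
    (.leaf (lf 1024 0 0 1016 150 (-288) (-139) 0 136 255 102 183)))))
    (.node 1
    (.leaf (lf 1024 0 0 601 207 (-412) 7 0 171 255 255 255))
    (.node 0
    (.node 1
    (.leaf (lf 1024 0 0 794 195 (-384) (-53) 0 159 255 255 255))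
    (.leaf (lf 1024 0 0 968 143 (-276) (-111) 0 117 255 98 187)))
    (.node 1
    (.leaf (lf 1024 0 0 823 203 (-398) (-60) 0 173 255 255 255))
    (.leaf (lf 1024 0 0 1002 148 (-285) (-124) 0 126 255 100 186))))))
    (by decide +kernel)

def goodS0X_450 :
    Check.Good noCone cfS0X (reach cfS0X ⟨litS0X, 1, fsS0X⟩
      [(2, false), (1, true), (2, false), (0, false), (2, true), (0, true), (2, false), (1, true), (2, false), (0, false), (2, false), (0, true), (2, false)]) :=
  Check.good_node (a := 0) (by decide +kernel)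
    goodS0X_451 goodS0X_452

def goodS0X_454 :
    Check.Good noCone cfS0X (reach cfS0X ⟨litS0X, 1, fsS0X⟩
      [(0, false), (2, true), (1, true), (2, false), (0, false), (2, true), (0, true), (2, false), (1, true), (2, false), (0, false), (2, false), (0, true), (2, false)]) :=
  Check.check_sound
    (.node 1
    (.leaf (lf 1024 0 0 541 187 (-368) 15 0 128 255 255 255))
    (.node 2
    (.node 0
    (.node 1
    (.leaf (lf 1024 0 0 723 178 (-349) (-32) 0 124 255 255 255))
    (.leaf (lf 1024 0 0 882 131 (-254) (-78) 0 92 255 110 188)))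
    (.node 1
    (.leaf (lf 1024 0 0 752 185 (-363) (-38) 0 136 255 255 255))
    (.leaf (lf 1024 0 0 918 135 (-263) (-88) 0 100 255 103 190))))
    (.node 0
    (.leaf (lf 1024 0 (-469) 648 173 (-669) 0 0 127 219 99 255))
    (.node 1
    (.leaf (lf 1024 0 0 738 182 (-357) (-32) 0 126 255 255 255))
    (.leaf (lf 1024 0 0 902 134 (-260) (-79) 0 94 255 112 185))))))
    (by decide +kernel)

def goodS0X_455 :
    Check.Good noCone cfS0X (reach cfS0X ⟨litS0X, 1, fsS0X⟩
      [(0, true), (2, true), (1, true), (2, false), (0, false), (2, true), (0, true), (2, false), (1, true), (2, false), (0, false), (2, false), (0, true), (2, false)]) :=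
  Check.check_sound
    (.node 1
    (.leaf (lf 1024 0 0 584 201 (-399) 12 0 151 255 255 255))
    (.node 2
    (.node 0
    (.node 1
    (.leaf (lf 1024 0 0 781 192 (-378) (-45) 0 148 255 255 255))
    (.leaf (lf 1024 0 0 952 140 (-273) (-99) 0 109 255 103 187)))
    (.node 1
    (.leaf (lf 1024 0 0 809 199 (-392) (-52) 0 160 255 255 255))
    (.leaf (lf 1024 0 0 987 146 (-282) (-111) 0 117 255 100 186))))
    (.node 0
    (.node 1
    (.leaf (lf 1024 0 0 767 189 (-371) (-38) 0 137 255 255 255))
    (.leaf (lf 1024 0 0 937 139 (-270) (-89) 0 101 255 107 186)))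
    (.node 1
    (.leaf (lf 1024 0 0 796 196 (-386) (-44) 0 149 255 255 255))
    (.leaf (lf 1024 0 0 972 143 (-279) (-100) 0 110 255 107 186))))))
    (by decide +kernel)

def goodS0X_453 :
    Check.Good noCone cfS0X (reach cfS0X ⟨litS0X, 1, fsS0X⟩
      [(2, true), (1, true), (2, false), (0, false), (2, true), (0, true), (2, false), (1, true), (2, false), (0, false), (2, false), (0, true), (2, false)]) :=
  Check.good_node (a := 0) (by decide +kernel)
    goodS0X_454 goodS0X_455

def goodS0X_449 :
    Check.Good noCone cfS0X (reach cfS0X ⟨litS0X, 1, fsS0X⟩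
      [(1, true), (2, false), (0, false), (2, true), (0, true), (2, false), (1, true), (2, false), (0, false), (2, false), (0, true), (2, false)]) :=
  Check.good_node (a := 2) (by decide +kernel)
    goodS0X_450 goodS0X_453

def goodS0X_447 :
    Check.Good noCone cfS0X (reach cfS0X ⟨litS0X, 1, fsS0X⟩
      [(2, false), (0, false), (2, true), (0, true), (2, false), (1, true), (2, false), (0, false), (2, false), (0, true), (2, false)]) :=
  Check.good_node (a := 1) (by decide +kernel)
    goodS0X_448 goodS0X_449

def goodS0X_457 :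
    Check.Good noCone cfS0X (reach cfS0X ⟨litS0X, 1, fsS0X⟩
      [(1, false), (2, true), (0, false), (2, true), (0, true), (2, false), (1, true), (2, false), (0, false), (2, false), (0, true), (2, false)]) :=
  Check.check_sound
    (.node 0
    (.node 2
    (.node 1
    (.leaf (lf 1024 0 0 232 112 (-215) 57 0 64 255 255 255))
    (.leaf (lf 1024 0 0 344 151 (-294) 49 0 89 255 255 255)))
    (.node 1
    (.leaf (lf 1024 0 0 220 109 (-205) 54 0 56 255 255 255))
    (.leaf (lf 1024 0 0 328 147 (-280) 48 0 78 255 255 255))))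
    (.node 2
    (.node 1
    (.leaf (lf 1024 0 0 253 120 (-234) 63 0 76 255 255 255))
    (.leaf (lf 1024 0 0 373 163 (-320) 53 0 106 255 255 255)))
    (.node 1
    (.leaf (lf 1024 0 0 242 117 (-223) 60 0 66 255 255 255))
    (.leaf (lf 1024 0 0 358 158 (-306) 52 0 93 255 255 255)))))
    (by decide +kernel)

def goodS0X_459 :
    Check.Good noCone cfS0X (reach cfS0X ⟨litS0X, 1, fsS0X⟩
      [(0, false), (1, true), (2, true), (0, false), (2, true), (0, true), (2, false), (1, true), (2, false), (0, false), (2, false), (0, true), (2, false)]) :=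
  Check.check_sound
    (.node 2
    (.node 1
    (.leaf (lf 1024 0 0 519 181 (-353) 19 0 110 255 255 255))
    (.node 2
    (.node 0
    (.leaf (lf 1024 0 (-432) 646 169 (-629) 0 0 115 217 86 255))
    (.leaf (lf 16384 0 (-7429) 10620 2836 (-10894) 0 0 2054 219 96 255)))
    (.node 0
    (.leaf (lf 1024 0 (-394) 644 165 (-590) 0 0 105 245 93 255))
    (.leaf (lf 1024 0 (-429) 662 173 (-642) 0 0 117 217 85 255)))))
    (.node 1
    (.leaf (lf 1024 0 0 497 176 (-339) 23 0 96 255 255 255))
    (.leaf (lf 1024 0 0 754 335 0 (-30) (-77) 40 255 202 60))))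
    (by decide +kernel)

def goodS0X_460 :
    Check.Good noCone cfS0X (reach cfS0X ⟨litS0X, 1, fsS0X⟩
      [(0, true), (1, true), (2, true), (0, false), (2, true), (0, true), (2, false), (1, true), (2, false), (0, false), (2, false), (0, true), (2, false)]) :=
  Check.check_sound
    (.node 2
    (.node 1
    (.leaf (lf 1024 0 0 562 195 (-384) 17 0 131 255 255 255))
    (.node 2
    (.node 0
    (.node 1
    (.leaf (lf 1024 0 0 753 186 (-365) (-32) 0 128 255 255 255))
    (.leaf (lf 1024 0 0 922 137 (-266) (-79) 0 95 255 105 192)))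
    (.node 1
    (.leaf (lf 1024 0 0 782 193 (-380) (-38) 0 139 255 255 255))
    (.leaf (lf 1024 0 0 957 142 (-276) (-89) 0 103 255 102 191))))
    (.node 0
    (.leaf (lf 1024 0 (-461) 679 181 (-694) 0 0 130 219 97 255))
    (.node 1
    (.leaf (lf 1024 0 0 769 190 (-374) (-32) 0 130 255 255 255))
    (.leaf (lf 1024 0 0 942 140 (-273) (-80) 0 97 255 105 190))))))
    (.node 1
    (.leaf (lf 1024 0 0 541 190 (-370) 21 0 115 255 255 255))
    (.node 2
    (.node 0
    (.leaf (lf 1024 0 (-427) 677 177 (-656) 0 0 120 221 86 255))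
    (.leaf (lf 1024 0 (-458) 695 185 (-708) 0 0 133 223 96 255)))
    (.node 0
    (.leaf (lf 1024 0 (-393) 675 173 (-619) 0 0 110 245 91 255))
    (.leaf (lf 1024 0 (-426) 693 181 (-671) 0 0 122 218 84 255))))))
    (by decide +kernel)

def goodS0X_458 :
    Check.Good noCone cfS0X (reach cfS0X ⟨litS0X, 1, fsS0X⟩
      [(1, true), (2, true), (0, false), (2, true), (0, true), (2, false), (1, true), (2, false), (0, false), (2, false), (0, true), (2, false)]) :=
  Check.good_node (a := 0) (by decide +kernel)
    goodS0X_459 goodS0X_460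

def goodS0X_456 :
    Check.Good noCone cfS0X (reach cfS0X ⟨litS0X, 1, fsS0X⟩
      [(2, true), (0, false), (2, true), (0, true), (2, false), (1, true), (2, false), (0, false), (2, false), (0, true), (2, false)]) :=
  Check.good_node (a := 1) (by decide +kernel)
    goodS0X_457 goodS0X_458

def goodS0X_446 :
    Check.Good noCone cfS0X (reach cfS0X ⟨litS0X, 1, fsS0X⟩
      [(0, false), (2, true), (0, true), (2, false), (1, true), (2, false), (0, false), (2, false), (0, true), (2, false)]) :=
  Check.good_node (a := 2) (by decide +kernel)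
    goodS0X_447 goodS0X_456

def goodS0X_463 :
    Check.Good noCone cfS0X (reach cfS0X ⟨litS0X, 1, fsS0X⟩
      [(1, false), (2, false), (0, true), (2, true), (0, true), (2, false), (1, true), (2, false), (0, false), (2, false), (0, true), (2, false)]) :=
  Check.check_sound
    (.node 2
    (.node 0
    (.leaf (lf 16384 0 0 5860 2751 (-5511) 1114 0 2475 255 255 255))
    (.leaf (lf 1024 0 0 389 183 (-367) 77 0 179 255 255 255)))
    (.node 0
    (.node 1
    (.leaf (lf 1024 0 0 284 133 (-264) 74 0 104 255 255 255))
    (.leaf (lf 1024 0 0 417 181 (-360) 59 0 145 255 255 255)))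
    (.leaf (lf 1024 0 0 377 177 (-353) 72 0 153 255 255 255))))
    (by decide +kernel)

def goodS0X_466 :
    Check.Good noCone cfS0X (reach cfS0X ⟨litS0X, 1, fsS0X⟩
      [(0, false), (2, false), (1, true), (2, false), (0, true), (2, true), (0, true), (2, false), (1, true), (2, false), (0, false), (2, false), (0, true), (2, false)]) :=
  Check.check_sound
    (.node 2
    (.node 1
    (.leaf (lf 1024 0 0 653 227 (-450) (-1) 0 218 255 255 255))
    (.node 0
    (.node 1
    (.leaf (lf 1024 0 0 864 214 (-418) (-79) 0 203 255 255 255))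
    (.leaf (lf 999 0 0 1024 152 (-291) (-149) 0 144 255 97 185)))
    (.node 1
    (.leaf (lf 1024 0 0 891 223 (-431) (-88) 0 219 255 255 255))
    (.leaf (lf 969 0 0 1024 154 (-291) (-159) 0 150 255 97 184)))))
    (.node 1
    (.leaf (lf 1024 0 0 642 223 (-443) 3 0 201 255 255 255))
    (.node 0
    (.node 1
    (.leaf (lf 1024 0 0 851 210 (-412) (-68) 0 187 255 255 255))
    (.leaf (lf 1013 0 0 1024 152 (-292) (-136) 0 135 255 101 185)))
    (.node 1
    (.leaf (lf 1024 0 0 878 218 (-426) (-77) 0 202 255 255 255))
    (.leaf (lf 982 0 0 1024 153 (-292) (-145) 0 141 255 99 185))))))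
    (by decide +kernel)

def goodS0X_467 :
    Check.Good noCone cfS0X (reach cfS0X ⟨litS0X, 1, fsS0X⟩
      [(0, true), (2, false), (1, true), (2, false), (0, true), (2, true), (0, true), (2, false), (1, true), (2, false), (0, false), (2, false), (0, true), (2, false)]) :=
  Check.check_sound
    (.node 2
    (.node 1
    (.leaf (lf 1024 0 0 693 244 (-480) (-7) 0 253 255 255 255))
    (.node 0
    (.node 1
    (.leaf (lf 1024 0 0 918 231 (-445) (-98) 0 236 255 255 255))
    (.leaf (lf 942 0 0 1024 155 (-291) (-169) 0 157 255 100 185)))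
    (.node 1
    (.leaf (lf 1024 0 0 945 239 (-459) (-108) 0 253 255 255 255))
    (.leaf (lf 916 0 0 1024 157 (-292) (-179) 0 165 255 99 185)))))
    (.node 1
    (.leaf (lf 1024 0 0 682 239 (-473) (-2) 0 233 255 255 255))
    (.node 0
    (.node 1
    (.leaf (lf 1024 0 0 905 226 (-440) (-86) 0 218 255 255 255))
    (.leaf (lf 952 0 0 1024 154 (-292) (-154) 0 148 255 96 185)))
    (.node 1
    (.leaf (lf 1024 0 0 932 235 (-453) (-95) 0 234 255 255 255))
    (.leaf (lf 926 0 0 1024 155 (-293) (-164) 0 154 255 100 185))))))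
    (by decide +kernel)

def goodS0X_465 :
    Check.Good noCone cfS0X (reach cfS0X ⟨litS0X, 1, fsS0X⟩
      [(2, false), (1, true), (2, false), (0, true), (2, true), (0, true), (2, false), (1, true), (2, false), (0, false), (2, false), (0, true), (2, false)]) :=
  Check.good_node (a := 0) (by decide +kernel)
    goodS0X_466 goodS0X_467

def goodS0X_469 :
    Check.Good noCone cfS0X (reach cfS0X ⟨litS0X, 1, fsS0X⟩
      [(0, false), (2, true), (1, true), (2, false), (0, true), (2, true), (0, true), (2, false), (1, true), (2, false), (0, false), (2, false), (0, true), (2, false)]) :=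
  Check.check_sound
    (.node 1
    (.leaf (lf 1024 0 0 626 217 (-430) 9 0 178 255 255 255))
    (.node 2
    (.node 0
    (.node 1
    (.leaf (lf 1024 0 0 837 207 (-406) (-59) 0 174 255 255 255))
    (.leaf (lf 1024 0 0 1021 151 (-292) (-123) 0 127 255 98 188)))
    (.node 1
    (.leaf (lf 1024 0 0 865 214 (-420) (-67) 0 188 255 255 255))
    (.leaf (lf 994 0 0 1024 152 (-292) (-132) 0 133 255 96 188))))
    (.node 0
    (.node 1
    (.leaf (lf 1024 0 0 824 203 (-400) (-51) 0 161 255 255 255))
    (.leaf (lf 1024 0 0 1007 149 (-288) (-111) 0 119 255 99 186)))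
    (.node 1
    (.leaf (lf 1024 0 0 852 211 (-414) (-58) 0 175 255 255 255))
    (.leaf (lf 1007 0 0 1024 151 (-293) (-121) 0 126 255 97 188))))))
    (by decide +kernel)

def goodS0X_470 :
    Check.Good noCone cfS0X (reach cfS0X ⟨litS0X, 1, fsS0X⟩
      [(0, true), (2, true), (1, true), (2, false), (0, true), (2, true), (0, true), (2, false), (1, true), (2, false), (0, false), (2, false), (0, true), (2, false)]) :=
  Check.check_sound
    (.node 1
    (.leaf (lf 1024 0 0 667 232 (-460) 5 0 207 255 255 255))
    (.node 2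
    (.node 0
    (.node 1
    (.leaf (lf 1024 0 0 893 222 (-434) (-75) 0 202 255 255 255))
    (.leaf (lf 964 0 0 1024 153 (-293) (-141) 0 139 255 97 188)))
    (.node 1
    (.leaf (lf 1024 0 0 920 230 (-448) (-84) 0 218 255 255 255))
    (.leaf (lf 936 0 0 1024 154 (-293) (-150) 0 145 255 97 188))))
    (.node 0
    (.node 1
    (.leaf (lf 1024 0 0 880 219 (-429) (-66) 0 188 255 255 255))
    (.leaf (lf 976 0 0 1024 152 (-293) (-130) 0 131 255 101 187)))
    (.node 1
    (.leaf (lf 1024 0 0 908 226 (-443) (-74) 0 203 255 255 255))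
    (.leaf (lf 947 0 0 1024 153 (-294) (-138) 0 137 255 97 188))))))
    (by decide +kernel)

def goodS0X_468 :
    Check.Good noCone cfS0X (reach cfS0X ⟨litS0X, 1, fsS0X⟩
      [(2, true), (1, true), (2, false), (0, true), (2, true), (0, true), (2, false), (1, true), (2, false), (0, false), (2, false), (0, true), (2, false)]) :=
  Check.good_node (a := 0) (by decide +kernel)
    goodS0X_469 goodS0X_470

def goodS0X_464 :
    Check.Good noCone cfS0X (reach cfS0X ⟨litS0X, 1, fsS0X⟩
      [(1, true), (2, false), (0, true), (2, true), (0, true), (2, false), (1, true), (2, false), (0, false), (2, false), (0, true), (2, false)]) :=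
  Check.good_node (a := 2) (by decide +kernel)
    goodS0X_465 goodS0X_468

def goodS0X_462 :
    Check.Good noCone cfS0X (reach cfS0X ⟨litS0X, 1, fsS0X⟩
      [(2, false), (0, true), (2, true), (0, true), (2, false), (1, true), (2, false), (0, false), (2, false), (0, true), (2, false)]) :=
  Check.good_node (a := 1) (by decide +kernel)
    goodS0X_463 goodS0X_464

def goodS0X_472 :
    Check.Good noCone cfS0X (reach cfS0X ⟨litS0X, 1, fsS0X⟩
      [(1, false), (2, true), (0, true), (2, true), (0, true), (2, false), (1, true), (2, false), (0, false), (2, false), (0, true), (2, false)]) :=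
  Check.check_sound
    (.node 2
    (.node 0
    (.node 1
    (.leaf (lf 1024 0 0 274 129 (-253) 70 0 90 255 255 255))
    (.leaf (lf 1024 0 0 402 175 (-346) 57 0 125 255 255 255)))
    (.leaf (lf 1024 0 0 364 172 (-340) 69 0 132 255 255 255)))
    (.node 0
    (.leaf (lf 1024 0 0 327 157 (-305) 60 0 99 255 255 255))
    (.leaf (lf 1024 0 0 352 167 (-327) 66 0 116 255 255 255))))
    (by decide +kernel)

def goodS0X_475 :
    Check.Good noCone cfS0X (reach cfS0X ⟨litS0X, 1, fsS0X⟩
      [(0, false), (2, false), (1, true), (2, true), (0, true), (2, true), (0, true), (2, false), (1, true), (2, false), (0, false), (2, false), (0, true), (2, false)]) :=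
  Check.check_sound
    (.node 1
    (.leaf (lf 1024 0 0 605 210 (-415) 15 0 154 255 255 255))
    (.node 2
    (.node 0
    (.node 1
    (.leaf (lf 1024 0 0 811 200 (-394) (-44) 0 151 255 255 255))
    (.leaf (lf 1024 0 0 992 147 (-285) (-100) 0 111 255 102 190)))
    (.node 1
    (.leaf (lf 1024 0 0 839 208 (-409) (-51) 0 163 255 255 255))
    (.leaf (lf 1021 0 0 1024 151 (-294) (-111) 0 119 255 98 188))))
    (.node 0
    (.node 1
    (.leaf (lf 1024 0 0 798 197 (-388) (-38) 0 141 255 255 255))
    (.leaf (lf 1024 0 0 978 145 (-282) (-90) 0 104 255 100 192)))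
    (.node 1
    (.leaf (lf 1024 0 0 826 205 (-403) (-44) 0 153 255 255 255))
    (.leaf (lf 1024 0 0 1013 150 (-292) (-101) 0 113 255 101 189))))))
    (by decide +kernel)

def goodS0X_476 :
    Check.Good noCone cfS0X (reach cfS0X ⟨litS0X, 1, fsS0X⟩
      [(0, true), (2, false), (1, true), (2, true), (0, true), (2, true), (0, true), (2, false), (1, true), (2, false), (0, false), (2, false), (0, true), (2, false)]) :=
  Check.check_sound
    (.node 1
    (.leaf (lf 1024 0 0 646 225 (-446) 11 0 180 255 255 255))
    (.node 2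
    (.node 0
    (.node 1
    (.leaf (lf 1024 0 0 868 215 (-423) (-58) 0 176 255 255 255))
    (.leaf (lf 988 0 0 1024 152 (-294) (-119) 0 125 255 97 188)))
    (.node 1
    (.leaf (lf 1024 0 0 895 223 (-437) (-65) 0 190 255 255 255))
    (.leaf (lf 958 0 0 1024 152 (-294) (-127) 0 130 255 97 190))))
    (.node 0
    (.node 1
    (.leaf (lf 1024 0 0 855 212 (-417) (-50) 0 165 255 255 255))
    (.leaf (lf 1001 0 0 1024 152 (-295) (-110) 0 119 255 101 188)))
    (.node 1
    (.leaf (lf 1024 0 0 883 220 (-432) (-57) 0 178 255 255 255))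
    (.leaf (lf 970 0 0 1024 152 (-295) (-118) 0 124 255 103 187))))))
    (by decide +kernel)

def goodS0X_474 :
    Check.Good noCone cfS0X (reach cfS0X ⟨litS0X, 1, fsS0X⟩
      [(2, false), (1, true), (2, true), (0, true), (2, true), (0, true), (2, false), (1, true), (2, false), (0, false), (2, false), (0, true), (2, false)]) :=
  Check.good_node (a := 0) (by decide +kernel)
    goodS0X_475 goodS0X_476

def goodS0X_478 :
    Check.Good noCone cfS0X (reach cfS0X ⟨litS0X, 1, fsS0X⟩
      [(0, false), (2, true), (1, true), (2, true), (0, true), (2, true), (0, true), (2, false), (1, true), (2, false), (0, false), (2, false), (0, true), (2, false)]) :=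
  Check.check_sound
    (.node 1
    (.leaf (lf 1024 0 0 584 204 (-401) 19 0 136 255 255 255))
    (.node 2
    (.node 0
    (.node 1
    (.leaf (lf 1024 0 0 785 195 (-383) (-32) 0 132 255 255 255))
    (.leaf (lf 1024 0 0 963 143 (-279) (-82) 0 98 255 110 189)))
    (.node 1
    (.leaf (lf 1024 0 0 814 202 (-397) (-38) 0 143 255 255 255))
    (.leaf (lf 1024 0 0 998 148 (-289) (-92) 0 106 255 108 189))))
    (.node 0
    (.leaf (lf 1024 0 (-457) 710 190 (-723) 0 0 135 220 95 255))
    (.node 1
    (.leaf (lf 1024 0 0 801 199 (-392) (-32) 0 135 255 255 255))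
    (.leaf (lf 1024 0 0 984 146 (-286) (-83) 0 100 255 106 191))))))
    (by decide +kernel)

def goodS0X_479 :
    Check.Good noCone cfS0X (reach cfS0X ⟨litS0X, 1, fsS0X⟩
      [(0, true), (2, true), (1, true), (2, true), (0, true), (2, true), (0, true), (2, false), (1, true), (2, false), (0, false), (2, false), (0, true), (2, false)]) :=
  Check.check_sound
    (.node 1
    (.leaf (lf 1024 0 0 626 219 (-432) 17 0 158 255 255 255))
    (.node 2
    (.node 0
    (.node 1
    (.leaf (lf 1024 0 0 842 209 (-412) (-44) 0 155 255 255 255))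
    (.leaf (lf 1015 0 0 1024 152 (-296) (-101) 0 113 255 100 190)))
    (.node 1
    (.leaf (lf 1024 0 0 871 216 (-426) (-50) 0 167 255 255 255))
    (.leaf (lf 982 0 0 1024 152 (-295) (-109) 0 118 255 103 188))))
    (.node 0
    (.node 1
    (.leaf (lf 1024 0 0 830 206 (-406) (-38) 0 146 255 255 255))
    (.leaf (lf 1024 0 0 1019 151 (-295) (-93) 0 108 255 105 190)))
    (.node 1
    (.leaf (lf 1024 0 0 858 214 (-421) (-44) 0 157 255 255 255))
    (.leaf (lf 995 0 0 1024 152 (-296) (-100) 0 113 255 98 191))))))
    (by decide +kernel)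

def goodS0X_477 :
    Check.Good noCone cfS0X (reach cfS0X ⟨litS0X, 1, fsS0X⟩
      [(2, true), (1, true), (2, true), (0, true), (2, true), (0, true), (2, false), (1, true), (2, false), (0, false), (2, false), (0, true), (2, false)]) :=
  Check.good_node (a := 0) (by decide +kernel)
    goodS0X_478 goodS0X_479

def goodS0X_473 :
    Check.Good noCone cfS0X (reach cfS0X ⟨litS0X, 1, fsS0X⟩
      [(1, true), (2, true), (0, true), (2, true), (0, true), (2, false), (1, true), (2, false), (0, false), (2, false), (0, true), (2, false)]) :=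
  Check.good_node (a := 2) (by decide +kernel)
    goodS0X_474 goodS0X_477

def goodS0X_471 :
    Check.Good noCone cfS0X (reach cfS0X ⟨litS0X, 1, fsS0X⟩
      [(2, true), (0, true), (2, true), (0, true), (2, false), (1, true), (2, false), (0, false), (2, false), (0, true), (2, false)]) :=
  Check.good_node (a := 1) (by decide +kernel)
    goodS0X_472 goodS0X_473

def goodS0X_461 :
    Check.Good noCone cfS0X (reach cfS0X ⟨litS0X, 1, fsS0X⟩
      [(0, true), (2, true), (0, true), (2, false), (1, true), (2, false), (0, false), (2, false), (0, true), (2, false)]) :=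
  Check.good_node (a := 2) (by decide +kernel)
    goodS0X_462 goodS0X_471

def goodS0X_445 :
    Check.Good noCone cfS0X (reach cfS0X ⟨litS0X, 1, fsS0X⟩
      [(2, true), (0, true), (2, false), (1, true), (2, false), (0, false), (2, false), (0, true), (2, false)]) :=
  Check.good_node (a := 0) (by decide +kernel)
    goodS0X_446 goodS0X_461

def goodS0X_409 :
    Check.Good noCone cfS0X (reach cfS0X ⟨litS0X, 1, fsS0X⟩
      [(0, true), (2, false), (1, true), (2, false), (0, false), (2, false), (0, true), (2, false)]) :=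
  Check.good_node (a := 2) (by decide +kernel)
    goodS0X_410 goodS0X_445

end

end Vale.Agent.P211.Cert.Interior.Data
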