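import Vale.Agent.P211.Cert.Interior.Data.S0Xp1
import Vale.Agent.P211.Cert.Interior.Data.S0Xp10
import Vale.Agent.P211.Cert.Interior.Data.S0Xp11
import Vale.Agent.P211.Cert.Interior.Data.S0Xp12
import Vale.Agent.P211.Cert.Interior.Data.S0Xp13
import Vale.Agent.P211.Cert.Interior.Data.S0Xp14
import Vale.Agent.P211.Cert.Interior.Data.S0Xp15
import Vale.Agent.P211.Cert.Interior.Data.S0Xp16
import Vale.Agent.P211.Cert.Interior.Data.S0Xp17
import Vale.Agent.P211.Cert.Interior.Data.S0Xp18
import Vale.Agent.P211.Cert.Interior.Data.S0Xp19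
import Vale.Agent.P211.Cert.Interior.Data.S0Xp2
import Vale.Agent.P211.Cert.Interior.Data.S0Xp20
import Vale.Agent.P211.Cert.Interior.Data.S0Xp3
import Vale.Agent.P211.Cert.Interior.Data.S0Xp4
import Vale.Agent.P211.Cert.Interior.Data.S0Xp5
import Vale.Agent.P211.Cert.Interior.Data.S0Xp6
import Vale.Agent.P211.Cert.Interior.Data.S0Xp7
import Vale.Agent.P211.Cert.Interior.Data.S0Xp8
import Vale.Agent.P211.Cert.Interior.Data.S0Xp9

/-!
P211, a cell of the interior family (generated).
-/

namespace Vale.Agent.P211.Cert.Interior.Data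

open Vale.Agent.P098.Check6 (ofChunks eqList reach St Cfg Face)
open Vale.Agent.P098.Cert6.Kron (RootPar parOK)

set_option linter.defProp false

noncomputable section

def goodS0X_22 :
    Check.Good noCone cfS0X (reach cfS0X ⟨litS0X, 1, fsS0X⟩
      [(0, true), (2, false), (2, false), (0, false), (2, false)]) :=
  Check.good_node (a := 1) (by decide +kernel)
    goodS0X_23 goodS0X_110

def goodS0X_4 :
    Check.Good noCone cfS0X (reach cfS0X ⟨litS0X, 1, fsS0X⟩
      [(2, false), (2, false), (0, false), (2, false)]) :=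
  Check.good_node (a := 0) (by decide +kernel)
    goodS0X_5 goodS0X_22

def goodS0X_3 :
    Check.Good noCone cfS0X (reach cfS0X ⟨litS0X, 1, fsS0X⟩
      [(2, false), (0, false), (2, false)]) :=
  Check.good_node (a := 2) (by decide +kernel)
    goodS0X_4 goodS0X_215

def goodS0X_2 :
    Check.Good noCone cfS0X (reach cfS0X ⟨litS0X, 1, fsS0X⟩
      [(0, false), (2, false)]) :=
  Check.good_node (a := 2) (by decide +kernel)
    goodS0X_3 goodS0X_216

def goodS0X_221 :
    Check.Good noCone cfS0X (reach cfS0X ⟨litS0X, 1, fsS0X⟩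
      [(1, false), (2, false), (0, false), (2, false), (0, true), (2, false)]) :=
  Check.good_node (a := 0) (by decide +kernel)
    goodS0X_222 goodS0X_275

def goodS0X_327 :
    Check.Good noCone cfS0X (reach cfS0X ⟨litS0X, 1, fsS0X⟩
      [(2, false), (1, true), (2, false), (0, false), (2, false), (0, true), (2, false)]) :=
  Check.good_node (a := 0) (by decide +kernel)
    goodS0X_328 goodS0X_409

def goodS0X_326 :
    Check.Good noCone cfS0X (reach cfS0X ⟨litS0X, 1, fsS0X⟩
      [(1, true), (2, false), (0, false), (2, false), (0, true), (2, false)]) :=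
  Check.good_node (a := 2) (by decide +kernel)
    goodS0X_327 goodS0X_480

def goodS0X_220 :
    Check.Good noCone cfS0X (reach cfS0X ⟨litS0X, 1, fsS0X⟩
      [(2, false), (0, false), (2, false), (0, true), (2, false)]) :=
  Check.good_node (a := 1) (by decide +kernel)
    goodS0X_221 goodS0X_326

def goodS0X_219 :
    Check.Good noCone cfS0X (reach cfS0X ⟨litS0X, 1, fsS0X⟩
      [(0, false), (2, false), (0, true), (2, false)]) :=
  Check.good_node (a := 2) (by decide +kernel)
    goodS0X_220 goodS0X_511

def goodS0X_673 :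
    Check.Good noCone cfS0X (reach cfS0X ⟨litS0X, 1, fsS0X⟩
      [(2, true), (1, true), (2, false), (0, true), (2, false), (0, true), (2, false)]) :=
  Check.good_node (a := 0) (by decide +kernel)
    goodS0X_674 goodS0X_733

def goodS0X_597 :
    Check.Good noCone cfS0X (reach cfS0X ⟨litS0X, 1, fsS0X⟩
      [(1, true), (2, false), (0, true), (2, false), (0, true), (2, false)]) :=
  Check.good_node (a := 2) (by decide +kernel)
    goodS0X_598 goodS0X_673

def goodS0X_525 :
    Check.Good noCone cfS0X (reach cfS0X ⟨litS0X, 1, fsS0X⟩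
      [(2, false), (0, true), (2, false), (0, true), (2, false)]) :=
  Check.good_node (a := 1) (by decide +kernel)
    goodS0X_526 goodS0X_597

def goodS0X_880 :
    Check.Good noCone cfS0X (reach cfS0X ⟨litS0X, 1, fsS0X⟩
      [(1, true), (2, true), (0, true), (2, false), (0, true), (2, false)]) :=
  Check.good_node (a := 0) (by decide +kernel)
    goodS0X_881 goodS0X_898

def goodS0X_852 :
    Check.Good noCone cfS0X (reach cfS0X ⟨litS0X, 1, fsS0X⟩
      [(2, true), (0, true), (2, false), (0, true), (2, false)]) :=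
  Check.good_node (a := 1) (by decide +kernel)
    goodS0X_853 goodS0X_880

def goodS0X_524 :
    Check.Good noCone cfS0X (reach cfS0X ⟨litS0X, 1, fsS0X⟩
      [(0, true), (2, false), (0, true), (2, false)]) :=
  Check.good_node (a := 2) (by decide +kernel)
    goodS0X_525 goodS0X_852

def goodS0X_218 :
    Check.Good noCone cfS0X (reach cfS0X ⟨litS0X, 1, fsS0X⟩
      [(2, false), (0, true), (2, false)]) :=
  Check.good_node (a := 0) (by decide +kernel)
    goodS0X_219 goodS0X_524

def goodS0X_217 :
    Check.Good noCone cfS0X (reach cfS0X ⟨litS0X, 1, fsS0X⟩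
      [(0, true), (2, false)]) :=
  Check.good_node (a := 2) (by decide +kernel)
    goodS0X_218 goodS0X_1031

def goodS0X_1 :
    Check.Good noCone cfS0X (reach cfS0X ⟨litS0X, 1, fsS0X⟩
      [(2, false)]) :=
  Check.good_node (a := 0) (by decide +kernel)
    goodS0X_2 goodS0X_217

def goodS0X_0 :
    Check.Good noCone cfS0X (reach cfS0X ⟨litS0X, 1, fsS0X⟩
      []) :=
  Check.good_node (a := 2) (by decide +kernel)
    goodS0X_1 goodS0X_1040

/-- The chart is positive. -/
theorem posS0X : Pos vecV wgtV false
    (segV 0).chX :=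
  pos_of_literal (c := cellS0X) (R := parS0X) (fs := fsS0X) rfl (by decide +kernel)
    (by decide +kernel) (by decide +kernel) (lit := litS0X) (by decide +kernel) goodS0X_0

end

end Vale.Agent.P211.Cert.Interior.Data
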