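import Vale.Agent.P211.Cert.Interior.Data.S0Xr

/-!
P211, a part of a cell of the interior family (generated).
-/

namespace Vale.Agent.P211.Cert.Interior.Data

open Vale.Agent.P098.Check6 (ofChunks eqList reach St Cfg Face)
open Vale.Agent.P098.Cert6.Kron (RootPar parOK)

set_option linter.defProp false

noncomputable section

def goodS0X_6 :
    Check.Good noCone cfS0X (reach cfS0X ⟨litS0X, 1, fsS0X⟩
      [(1, false), (0, false), (2, false), (2, false), (0, false), (2, false)]) :=
  Check.check_sound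
    (.node 2
    (.node 2
    (.node 0
    (.leaf (lf 1024 0 0 (-15) 309 (-101) 0 0 10 255 145 205))
    (.node 2
    (.node 0
    (.leaf (lf 1024 0 0 (-11) 138 (-118) 2 0 10 255 191 210))
    (.node 1
    (.node 2
    (.leaf (lf 1024 0 0 3 68 (-86) 3 0 10 255 255 255))
    (.leaf (lf 1024 0 0 (-1) 95 (-108) 2 0 11 255 255 255)))
    (.node 0
    (.node 2
    (.leaf (lf 1024 0 0 2 68 (-83) 6 0 9 255 243 187))
    (.leaf (lf 1024 0 0 (-8) 97 (-105) 6 0 10 255 255 255)))
    (.node 2
    (.node 0
    (.leaf (lf 764 803 1024 0 116 (-69) 0 0 18 183 183 255))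
    (.leaf (lf 9702 12336 16384 0 1716 (-776) 0 0 291 215 168 255)))
    (.leaf (lf 1024 0 0 4 74 (-92) 8 0 10 255 255 255))))))
    (.node 0
    (.leaf (lf 1024 0 0 (-19) 211 (-143) 2 0 12 255 255 255))
    (.leaf (lf 1024 0 0 (-7) 139 (-136) 4 0 13 255 221 226)))))
    (.node 0
    (.leaf (lf 1024 0 0 (-13) 411 (-94) 0 0 14 255 255 255))
    (.leaf (lf 1024 0 0 (-15) 271 (-167) 2 0 15 255 148 177))))
    (.leaf (lf 1024 0 0 (-12) 489 (-131) 1 0 20 255 255 255)))
    (by decide +kernel)

def goodS0X_9 :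
    Check.Good noCone cfS0X (reach cfS0X ⟨litS0X, 1, fsS0X⟩
      [(0, false), (2, false), (1, true), (0, false), (2, false), (2, false), (0, false), (2, false)]) :=
  Check.check_sound
    (.node 2
    (.node 2
    (.leaf (lf 1024 0 0 (-37) 239 (-96) 1 0 8 255 130 143))
    (.leaf (lf 1024 0 0 (-39) 310 (-98) 1 0 10 255 255 255)))
    (.leaf (lf 1024 0 0 (-35) 401 (-94) 1 0 14 255 255 255)))
    (by decide +kernel)

def goodS0X_12 :
    Check.Good noCone cfS0X (reach cfS0X ⟨litS0X, 1, fsS0X⟩
      [(0, false), (2, false), (0, true), (2, false), (1, true), (0, false), (2, false), (2, false), (0, false), (2, false)]) :=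
  Check.check_sound
    (.node 2
    (.node 1
    (.node 2
    (.node 0
    (.leaf (lf 1024 0 0 (-24) 108 (-95) 5 0 8 255 255 255))
    (.leaf (lf 1024 0 0 (-2) 76 (-82) 7 0 8 255 255 255)))
    (.leaf (lf 1024 0 0 (-20) 128 (-108) 5 0 9 255 162 115)))
    (.node 0
    (.leaf (lf 1024 0 0 (-18) 114 (-94) 5 0 7 255 204 223))
    (.node 2
    (.node 0
    (.leaf (lf 16384 0 0 334 1063 (-1123) 103 0 102 255 255 255))
    (.leaf (lf 547 744 1024 0 130 (-16) 0 0 13 255 255 255)))
    (.leaf (lf 1024 0 0 10 90 (-87) 6 0 8 255 255 255)))))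
    (.leaf (lf 1024 0 436 24 191 (-137) 0 0 12 255 255 255)))
    (by decide +kernel)

def goodS0X_15 :
    Check.Good noCone cfS0X (reach cfS0X ⟨litS0X, 1, fsS0X⟩
      [(1, false), (2, false), (0, true), (2, false), (0, true), (2, false), (1, true), (0, false), (2, false), (2, false), (0, false), (2, false)]) :=
  Check.check_sound
    (.node 0
    (.node 2
    (.node 0
    (.leaf (lf 614 660 1024 0 115 (-48) 0 0 15 157 183 255))
    (.leaf (lf 478 645 1024 0 110 (-25) 0 0 16 235 228 255)))
    (.leaf (lf 1024 0 0 6 80 (-89) 8 0 9 255 255 255)))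
    (.node 2
    (.node 0
    (.node 2
    (.node 1
    (.leaf (lf 16384 0 0 518 637 (-905) 183 0 118 255 255 255))
    (.leaf (lf 1024 0 0 57 42 (-61) 12 0 8 255 255 255)))
    (.leaf (lf 1024 0 0 35 50 (-67) 11 0 8 244 255 127)))
    (.node 2
    (.node 1
    (.leaf (lf 1024 0 0 43 37 (-56) 13 0 8 244 255 138))
    (.leaf (lf 1024 0 0 73 43 (-66) 13 0 10 255 253 117)))
    (.node 1
    (.leaf (lf 1024 0 0 34 43 (-61) 12 0 8 255 255 255))
    (.leaf (lf 1024 0 0 61 46 (-66) 13 0 9 249 255 141)))))
    (.node 0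
    (.leaf (lf 1024 0 0 22 64 (-80) 10 0 9 255 255 255))
    (.leaf (lf 466 654 1024 0 127 (-25) 0 0 18 255 255 255)))))
    (by decide +kernel)

def goodS0X_17 :
    Check.Good noCone cfS0X (reach cfS0X ⟨litS0X, 1, fsS0X⟩
      [(0, false), (1, true), (2, false), (0, true), (2, false), (0, true), (2, false), (1, true), (0, false), (2, false), (2, false), (0, false), (2, false)]) :=
  Check.check_sound
    (.node 2
    (.node 0
    (.leaf (lf 442 786 1024 0 141 9 0 0 14 255 255 255))
    (.node 2
    (.node 0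
    (.leaf (lf 363 850 1024 0 158 35 0 0 15 255 255 255))
    (.node 1
    (.leaf (lf 1024 0 0 79 45 (-62) 10 0 8 255 255 255))
    (.leaf (lf 1024 0 0 128 44 (-62) 7 0 8 255 255 255))))
    (.leaf (lf 399 816 1024 0 156 23 0 0 15 255 255 255))))
    (.leaf (lf 596 809 1024 0 162 (-24) 0 0 16 255 255 255)))
    (by decide +kernel)

def goodS0X_18 :
    Check.Good noCone cfS0X (reach cfS0X ⟨litS0X, 1, fsS0X⟩
      [(0, true), (1, true), (2, false), (0, true), (2, false), (0, true), (2, false), (1, true), (0, false), (2, false), (2, false), (0, false), (2, false)]) :=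
  Check.check_sound
    (.node 2
    (.node 0
    (.node 2
    (.node 1
    (.leaf (lf 1024 0 0 95 47 (-68) 11 0 9 255 255 255))
    (.leaf (lf 1024 0 0 150 46 (-67) 7 0 9 255 255 255)))
    (.node 1
    (.leaf (lf 1024 0 0 81 49 (-68) 10 0 8 255 255 255))
    (.leaf (lf 1024 0 0 131 48 (-66) 8 0 8 255 255 255))))
    (.node 2
    (.node 1
    (.leaf (lf 1024 0 0 117 51 (-77) 11 0 11 255 255 255))
    (.leaf (lf 16384 0 0 2874 784 (-1213) 105 0 184 255 255 255)))
    (.node 1
    (.leaf (lf 1024 0 0 102 51 (-74) 11 0 10 255 255 255))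
    (.leaf (lf 1024 0 0 160 49 (-73) 8 0 10 255 255 255)))))
    (.node 0
    (.leaf (lf 438 836 1024 0 173 15 0 0 17 255 255 255))
    (.node 2
    (.node 1
    (.leaf (lf 1024 0 0 88 53 (-73) 11 0 9 255 255 255))
    (.leaf (lf 1024 0 0 142 51 (-72) 8 0 9 255 255 255)))
    (.leaf (lf 408 876 1024 0 192 28 0 0 19 255 255 255)))))
    (by decide +kernel)

def goodS0X_16 :
    Check.Good noCone cfS0X (reach cfS0X ⟨litS0X, 1, fsS0X⟩
      [(1, true), (2, false), (0, true), (2, false), (0, true), (2, false), (1, true), (0, false), (2, false), (2, false), (0, false), (2, false)]) :=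
  Check.good_node (a := 0) (by decide +kernel)
    goodS0X_17 goodS0X_18

def goodS0X_14 :
    Check.Good noCone cfS0X (reach cfS0X ⟨litS0X, 1, fsS0X⟩
      [(2, false), (0, true), (2, false), (0, true), (2, false), (1, true), (0, false), (2, false), (2, false), (0, false), (2, false)]) :=
  Check.good_node (a := 1) (by decide +kernel)
    goodS0X_15 goodS0X_16

def goodS0X_19 :
    Check.Good noCone cfS0X (reach cfS0X ⟨litS0X, 1, fsS0X⟩
      [(2, true), (0, true), (2, false), (0, true), (2, false), (1, true), (0, false), (2, false), (2, false), (0, false), (2, false)]) :=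
  Check.check_sound
    (.node 1
    (.leaf (lf 1024 0 0 3 114 (-115) 8 0 11 255 237 198))
    (.node 0
    (.leaf (lf 1024 0 0 20 107 (-105) 7 0 9 255 255 255))
    (.node 2
    (.leaf (lf 552 855 1024 0 190 (-14) 0 0 18 255 255 255))
    (.leaf (lf 1024 0 0 51 92 (-101) 9 0 10 255 255 255)))))
    (by decide +kernel)

def goodS0X_13 :
    Check.Good noCone cfS0X (reach cfS0X ⟨litS0X, 1, fsS0X⟩
      [(0, true), (2, false), (0, true), (2, false), (1, true), (0, false), (2, false), (2, false), (0, false), (2, false)]) :=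
  Check.good_node (a := 2) (by decide +kernel)
    goodS0X_14 goodS0X_19

def goodS0X_11 :
    Check.Good noCone cfS0X (reach cfS0X ⟨litS0X, 1, fsS0X⟩
      [(2, false), (0, true), (2, false), (1, true), (0, false), (2, false), (2, false), (0, false), (2, false)]) :=
  Check.good_node (a := 0) (by decide +kernel)
    goodS0X_12 goodS0X_13

def goodS0X_20 :
    Check.Good noCone cfS0X (reach cfS0X ⟨litS0X, 1, fsS0X⟩
      [(2, true), (0, true), (2, false), (1, true), (0, false), (2, false), (2, false), (0, false), (2, false)]) :=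
  Check.check_sound
    (.node 0
    (.leaf (lf 1024 0 0 (-44) 284 (-148) 3 0 13 255 127 157))
    (.leaf (lf 16384 0 0 (-168) 3161 (-2466) 101 0 218 255 207 199)))
    (by decide +kernel)

def goodS0X_10 :
    Check.Good noCone cfS0X (reach cfS0X ⟨litS0X, 1, fsS0X⟩
      [(0, true), (2, false), (1, true), (0, false), (2, false), (2, false), (0, false), (2, false)]) :=
  Check.good_node (a := 2) (by decide +kernel)
    goodS0X_11 goodS0X_20

def goodS0X_8 :
    Check.Good noCone cfS0X (reach cfS0X ⟨litS0X, 1, fsS0X⟩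
      [(2, false), (1, true), (0, false), (2, false), (2, false), (0, false), (2, false)]) :=
  Check.good_node (a := 0) (by decide +kernel)
    goodS0X_9 goodS0X_10

def goodS0X_21 :
    Check.Good noCone cfS0X (reach cfS0X ⟨litS0X, 1, fsS0X⟩
      [(2, true), (1, true), (0, false), (2, false), (2, false), (0, false), (2, false)]) :=
  Check.check_sound
    (.node 2
    (.node 0
    (.leaf (lf 1024 0 0 (-28) 484 (-85) 0 0 17 255 255 255))
    (.leaf (lf 1024 0 0 (-33) 347 (-168) 3 0 17 255 191 143)))
    (.leaf (lf 1024 0 0 (-26) 495 (-129) 1 0 20 255 255 255)))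
    (by decide +kernel)

def goodS0X_7 :
    Check.Good noCone cfS0X (reach cfS0X ⟨litS0X, 1, fsS0X⟩
      [(1, true), (0, false), (2, false), (2, false), (0, false), (2, false)]) :=
  Check.good_node (a := 2) (by decide +kernel)
    goodS0X_8 goodS0X_21

def goodS0X_5 :
    Check.Good noCone cfS0X (reach cfS0X ⟨litS0X, 1, fsS0X⟩
      [(0, false), (2, false), (2, false), (0, false), (2, false)]) :=
  Check.good_node (a := 1) (by decide +kernel)
    goodS0X_6 goodS0X_7

end

end Vale.Agent.P211.Cert.Interior.Data
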