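import Vale.Agent.P211.Cert.Interior.Data.S0Xr

/-!
P211, a part of a cell of the interior family (generated).
-/

namespace Vale.Agent.P211.Cert.Interior.Data

open Vale.Agent.P098.Check6 (ofChunks eqList reach St Cfg Face)
open Vale.Agent.P098.Cert6.Kron (RootPar parOK)

set_option linter.defProp false

noncomputable section

def goodS0X_1032 :
    Check.Good noCone cfS0X (reach cfS0X ⟨litS0X, 1, fsS0X⟩
      [(0, false), (2, true), (0, true), (2, false)]) :=
  Check.check_sound
    (.node 2
    (.node 1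
    (.leaf (lf 1024 0 0 (-3) 545 (-401) 9 0 47 255 187 246))
    (.node 0
    (.leaf (lf 1024 0 0 39 578 (-398) 14 0 46 255 201 235))
    (.node 2
    (.node 0
    (.leaf (lf 1024 0 0 98 387 (-385) 25 0 44 255 255 255))
    (.leaf (lf 1024 1001 963 0 802 (-405) 0 0 95 164 255 179)))
    (.leaf (lf 1024 0 0 78 497 (-441) 24 0 51 255 255 255)))))
    (.leaf (lf 1024 0 0 12 818 (-444) 10 0 57 255 176 176)))
    (by decide +kernel)

def goodS0X_1035 :
    Check.Good noCone cfS0X (reach cfS0X ⟨litS0X, 1, fsS0X⟩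
      [(1, false), (2, false), (0, true), (2, true), (0, true), (2, false)]) :=
  Check.check_sound
    (.node 0
    (.node 2
    (.node 1
    (.leaf (lf 1024 0 0 6 280 (-328) 11 0 44 255 255 255))
    (.leaf (lf 1024 0 0 29 277 (-333) 32 0 45 255 255 255)))
    (.leaf (lf 1024 0 0 0 414 (-422) 18 0 52 255 255 255)))
    (.node 1
    (.node 2
    (.node 1
    (.leaf (lf 1024 0 0 11 186 (-249) 8 0 40 255 255 255))
    (.leaf (lf 1024 0 0 34 187 (-253) 24 0 40 255 255 255)))
    (.leaf (lf 1024 0 0 9 297 (-354) 14 0 50 255 255 255)))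
    (.node 2
    (.node 0
    (.node 2
    (.node 1
    (.leaf (lf 1024 0 0 50 178 (-248) 38 0 39 255 255 255))
    (.leaf (lf 1024 0 0 81 184 (-263) 51 0 42 255 255 255)))
    (.leaf (lf 1024 0 0 45 236 (-312) 41 0 46 255 255 255)))
    (.node 1
    (.leaf (lf 1024 0 0 66 173 (-244) 42 0 41 255 255 255))
    (.leaf (lf 450 669 1024 0 418 (-107) 0 0 92 197 143 255))))
    (.leaf (lf 1024 0 0 36 299 (-368) 40 0 52 255 255 255)))))
    (by decide +kernel)

def goodS0X_1037 :
    Check.Good noCone cfS0X (reach cfS0X ⟨litS0X, 1, fsS0X⟩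
      [(0, false), (1, true), (2, false), (0, true), (2, true), (0, true), (2, false)]) :=
  Check.check_sound
    (.node 2
    (.node 0
    (.leaf (lf 810 1024 979 0 788 (-308) 0 0 101 255 255 255))
    (.node 1
    (.leaf (lf 1024 0 0 118 263 (-352) 50 0 49 255 255 255))
    (.leaf (lf 519 1024 782 0 823 (-149) 0 0 93 163 255 197))))
    (.node 0
    (.leaf (lf 1024 0 0 125 412 (-445) 34 0 54 255 255 255))
    (.leaf (lf 948 1024 1018 0 919 (-439) 0 0 119 163 255 185))))
    (by decide +kernel)

def goodS0X_1038 :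
    Check.Good noCone cfS0X (reach cfS0X ⟨litS0X, 1, fsS0X⟩
      [(0, true), (1, true), (2, false), (0, true), (2, true), (0, true), (2, false)]) :=
  Check.check_sound
    (.node 2
    (.node 0
    (.node 1
    (.leaf (lf 512 775 1024 0 592 (-156) 0 0 108 255 255 255))
    (.node 2
    (.node 1
    (.leaf (lf 1024 0 0 379 255 (-405) 54 0 66 255 255 255))
    (.leaf (lf 1024 0 0 654 457 0 26 (-56) 34 255 232 132)))
    (.node 1
    (.leaf (lf 1024 0 0 319 276 (-412) 54 0 62 255 255 255))
    (.leaf (lf 1024 0 0 567 257 (-402) 32 0 61 255 223 210)))))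
    (.node 1
    (.node 2
    (.node 1
    (.leaf (lf 1024 0 0 174 187 (-291) 70 0 51 255 255 255))
    (.leaf (lf 1024 0 0 276 226 (-365) 72 0 65 255 255 255)))
    (.leaf (lf 1024 0 0 183 238 (-357) 68 0 58 255 255 255)))
    (.node 2
    (.node 1
    (.leaf (lf 1024 0 0 459 262 (-442) 59 0 79 255 255 255))
    (.node 0
    (.leaf (lf 1024 0 0 748 238 (-415) 22 0 74 255 166 215))
    (.leaf (lf 1024 0 0 815 498 0 18 (-71) 40 255 228 92))))
    (.node 1
    (.leaf (lf 1024 0 0 392 274 (-439) 60 0 72 255 255 255))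
    (.leaf (lf 1024 0 0 689 497 0 29 (-61) 37 255 236 122))))))
    (.node 0
    (.leaf (lf 768 1024 1017 0 904 (-342) 0 0 125 255 255 255))
    (.node 1
    (.leaf (lf 1024 0 0 129 293 (-402) 63 0 59 255 255 255))
    (.leaf (lf 512 1024 809 0 949 (-180) 0 0 116 145 255 201)))))
    (by decide +kernel)

def goodS0X_1036 :
    Check.Good noCone cfS0X (reach cfS0X ⟨litS0X, 1, fsS0X⟩
      [(1, true), (2, false), (0, true), (2, true), (0, true), (2, false)]) :=
  Check.good_node (a := 0) (by decide +kernel)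
    goodS0X_1037 goodS0X_1038

def goodS0X_1034 :
    Check.Good noCone cfS0X (reach cfS0X ⟨litS0X, 1, fsS0X⟩
      [(2, false), (0, true), (2, true), (0, true), (2, false)]) :=
  Check.good_node (a := 1) (by decide +kernel)
    goodS0X_1035 goodS0X_1036

def goodS0X_1039 :
    Check.Good noCone cfS0X (reach cfS0X ⟨litS0X, 1, fsS0X⟩
      [(2, true), (0, true), (2, true), (0, true), (2, false)]) :=
  Check.check_sound
    (.node 1
    (.leaf (lf 1024 0 0 0 561 (-497) 18 0 62 255 211 232))
    (.node 0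
    (.leaf (lf 1024 0 0 80 597 (-538) 31 0 63 255 222 246))
    (.node 2
    (.node 0
    (.leaf (lf 1024 0 0 147 435 (-505) 45 0 64 255 255 255))
    (.leaf (lf 842 984 1024 0 985 (-447) 0 0 139 161 255 188)))
    (.leaf (lf 1024 0 0 116 530 (-568) 45 0 70 255 255 255)))))
    (by decide +kernel)

def goodS0X_1033 :
    Check.Good noCone cfS0X (reach cfS0X ⟨litS0X, 1, fsS0X⟩
      [(0, true), (2, true), (0, true), (2, false)]) :=
  Check.good_node (a := 2) (by decide +kernel)
    goodS0X_1034 goodS0X_1039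

def goodS0X_1031 :
    Check.Good noCone cfS0X (reach cfS0X ⟨litS0X, 1, fsS0X⟩
      [(2, true), (0, true), (2, false)]) :=
  Check.good_node (a := 0) (by decide +kernel)
    goodS0X_1032 goodS0X_1033

end

end Vale.Agent.P211.Cert.Interior.Data
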