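import Vale.Agent.P211.Cert.Interior.Data.S1Xr

/-!
P211, a part of a cell of the interior family (generated).
-/

namespace Vale.Agent.P211.Cert.Interior.Data

open Vale.Agent.P098.Check6 (ofChunks eqList reach St Cfg Face)
open Vale.Agent.P098.Cert6.Kron (RootPar parOK)

set_option linter.defProp false

noncomputable section

def goodS1X_82 :
    Check.Good noCone cfS1X (reach cfS1X ⟨litS1X, 1, fsS1X⟩
      [(1, false), (0, false), (1, false), (1, false), (2, true), (2, false), (2, false)]) :=
  Check.check_sound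
    (.node 2
    (.node 1
    (.node 0
    (.leaf (lf 1024 0 0 19 165 0 6 (-37) 23 205 153 255))
    (.leaf (lf 1024 0 0 21 103 (-170) 7 0 62 250 234 255)))
    (.node 0
    (.node 2
    (.leaf (lf 1024 0 0 59 89 (-152) 21 0 52 255 255 255))
    (.leaf (lf 1024 0 0 52 80 (-132) 19 0 38 255 255 255)))
    (.node 2
    (.leaf (lf 1024 0 0 65 107 (-181) 23 0 73 255 255 255))
    (.leaf (lf 1024 0 0 60 97 (-161) 21 0 54 255 255 255)))))
    (.node 1
    (.node 0
    (.leaf (lf 1024 0 0 14 81 (-127) 5 0 29 255 255 255))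
    (.leaf (lf 1024 0 0 18 85 (-135) 6 0 36 255 255 255)))
    (.leaf (lf 817 1024 677 0 192 (-133) 0 0 53 255 255 255))))
    (by decide +kernel)

def goodS1X_84 :
    Check.Good noCone cfS1X (reach cfS1X ⟨litS1X, 1, fsS1X⟩
      [(2, false), (1, true), (0, false), (1, false), (1, false), (2, true), (2, false), (2, false)]) :=
  Check.check_sound
    (.node 2
    (.node 0
    (.node 1
    (.node 0
    (.leaf (lf 1024 0 0 93 82 (-142) 34 0 46 255 255 255))
    (.leaf (lf 1024 0 0 99 91 (-156) 36 0 55 255 255 255)))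
    (.node 0
    (.leaf (lf 389 915 1024 0 289 (-6) 0 0 91 255 132 211))
    (.leaf (lf 1024 0 0 138 89 (-153) 50 0 54 255 255 255))))
    (.node 1
    (.leaf (lf 1024 0 0 108 105 (-177) 39 0 72 255 255 255))
    (.leaf (lf 462 1024 879 0 343 (-60) 0 0 123 255 142 211))))
    (.node 0
    (.node 1
    (.node 0
    (.leaf (lf 1024 0 0 82 74 (-124) 31 0 34 255 255 255))
    (.leaf (lf 1024 0 0 89 81 (-136) 32 0 40 255 255 255)))
    (.node 0
    (.node 2
    (.leaf (lf 1024 0 0 117 75 (-127) 44 0 36 255 255 255))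
    (.leaf (lf 1024 0 0 110 73 (-122) 42 0 32 255 255 255)))
    (.leaf (lf 1024 0 0 124 80 (-134) 45 0 40 255 255 255))))
    (.node 1
    (.leaf (lf 1024 0 0 100 94 (-157) 35 0 53 255 255 255))
    (.leaf (lf 445 1000 1024 0 331 (-26) 0 0 104 255 130 211)))))
    (by decide +kernel)

def goodS1X_85 :
    Check.Good noCone cfS1X (reach cfS1X ⟨litS1X, 1, fsS1X⟩
      [(2, true), (1, true), (0, false), (1, false), (1, false), (2, true), (2, false), (2, false)]) :=
  Check.check_sound
    (.node 0
    (.node 2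
    (.node 1
    (.leaf (lf 513 944 1024 0 230 (-53) 0 0 61 255 134 215))
    (.node 0
    (.leaf (lf 1024 0 0 98 75 (-122) 39 0 29 255 254 174))
    (.leaf (lf 1024 0 0 109 76 (-124) 42 0 32 255 252 184))))
    (.node 1
    (.leaf (lf 1024 0 0 64 85 (-132) 27 0 29 255 255 255))
    (.leaf (lf 16384 0 0 1433 1382 (-2170) 601 0 475 255 255 168))))
    (.node 2
    (.node 1
    (.leaf (lf 1024 0 0 91 85 (-139) 32 0 40 255 255 255))
    (.node 0
    (.leaf (lf 1024 0 0 120 80 (-131) 44 0 37 255 255 255))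
    (.leaf (lf 1024 0 0 130 86 (-142) 46 0 43 255 255 255))))
    (.node 1
    (.leaf (lf 1024 0 0 81 81 (-129) 30 0 33 255 251 169))
    (.node 0
    (.leaf (lf 1024 0 0 105 79 (-127) 41 0 31 255 255 255))
    (.leaf (lf 1024 0 0 116 81 (-130) 43 0 35 255 255 255))))))
    (by decide +kernel)

def goodS1X_83 :
    Check.Good noCone cfS1X (reach cfS1X ⟨litS1X, 1, fsS1X⟩
      [(1, true), (0, false), (1, false), (1, false), (2, true), (2, false), (2, false)]) :=
  Check.good_node (a := 2) (by decide +kernel)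
    goodS1X_84 goodS1X_85

def goodS1X_81 :
    Check.Good noCone cfS1X (reach cfS1X ⟨litS1X, 1, fsS1X⟩
      [(0, false), (1, false), (1, false), (2, true), (2, false), (2, false)]) :=
  Check.good_node (a := 1) (by decide +kernel)
    goodS1X_82 goodS1X_83

def goodS1X_87 :
    Check.Good noCone cfS1X (reach cfS1X ⟨litS1X, 1, fsS1X⟩
      [(1, false), (0, true), (1, false), (1, false), (2, true), (2, false), (2, false)]) :=
  Check.check_sound
    (.node 2
    (.node 1
    (.node 2
    (.leaf (lf 1024 0 0 25 137 (-222) 9 0 115 255 255 255))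
    (.leaf (lf 1024 0 0 24 129 (-207) 8 0 89 255 255 255)))
    (.node 2
    (.leaf (lf 1024 0 0 74 135 (-218) 28 0 113 255 255 255))
    (.leaf (lf 1024 0 0 71 127 (-204) 24 0 88 255 196 134))))
    (.node 1
    (.leaf (lf 1024 0 0 22 113 (-177) 7 0 60 255 191 161))
    (.node 0
    (.leaf (lf 1024 0 0 61 100 (-158) 20 0 50 255 255 255))
    (.leaf (lf 1024 0 0 68 119 (-188) 22 0 69 255 255 255)))))
    (by decide +kernel)

def goodS1X_88 :
    Check.Good noCone cfS1X (reach cfS1X ⟨litS1X, 1, fsS1X⟩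
      [(1, true), (0, true), (1, false), (1, false), (2, true), (2, false), (2, false)]) :=
  Check.check_sound
    (.node 2
    (.node 2
    (.node 0
    (.node 1
    (.leaf (lf 1024 0 0 117 121 (-202) 44 0 96 255 255 255))
    (.leaf (lf 1024 0 0 162 117 (-195) 62 0 93 255 255 255)))
    (.leaf (lf 626 1024 561 0 351 (-188) 0 0 183 255 221 213)))
    (.node 0
    (.node 1
    (.leaf (lf 1024 0 0 111 112 (-185) 39 0 73 255 255 255))
    (.leaf (lf 1024 0 0 154 108 (-179) 55 0 71 255 255 255)))
    (.node 1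
    (.leaf (lf 1024 0 0 120 130 (-210) 44 0 97 255 255 255))
    (.leaf (lf 1024 0 0 167 125 (-203) 61 0 94 255 255 255)))))
    (.node 0
    (.node 2
    (.node 1
    (.leaf (lf 1024 0 0 104 102 (-166) 35 0 56 255 255 255))
    (.leaf (lf 1024 0 0 144 99 (-161) 50 0 55 255 255 255)))
    (.node 1
    (.leaf (lf 1024 0 0 95 92 (-148) 33 0 44 255 255 255))
    (.leaf (lf 1024 0 0 133 90 (-145) 46 0 43 255 251 166))))
    (.node 2
    (.node 1
    (.leaf (lf 1024 0 0 115 121 (-194) 39 0 77 255 255 255))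
    (.leaf (lf 1024 0 0 159 116 (-187) 55 0 74 255 255 255)))
    (.node 1
    (.leaf (lf 1024 0 0 108 111 (-176) 36 0 60 255 255 255))
    (.leaf (lf 1024 0 0 150 107 (-170) 51 0 58 255 255 255))))))
    (by decide +kernel)

def goodS1X_86 :
    Check.Good noCone cfS1X (reach cfS1X ⟨litS1X, 1, fsS1X⟩
      [(0, true), (1, false), (1, false), (2, true), (2, false), (2, false)]) :=
  Check.good_node (a := 1) (by decide +kernel)
    goodS1X_87 goodS1X_88

def goodS1X_80 :
    Check.Good noCone cfS1X (reach cfS1X ⟨litS1X, 1, fsS1X⟩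
      [(1, false), (1, false), (2, true), (2, false), (2, false)]) :=
  Check.good_node (a := 0) (by decide +kernel)
    goodS1X_81 goodS1X_86

def goodS1X_93 :
    Check.Good noCone cfS1X (reach cfS1X ⟨litS1X, 1, fsS1X⟩
      [(0, false), (2, false), (2, false), (0, false), (1, true), (1, false), (2, true), (2, false), (2, false)]) :=
  Check.check_sound
    (.node 1
    (.node 2
    (.node 0
    (.node 1
    (.leaf (lf 1024 0 0 169 84 (-148) 63 0 51 255 255 255))
    (.leaf (lf 1024 0 0 206 90 (-160) 76 0 55 255 255 255)))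
    (.node 1
    (.leaf (lf 1024 0 0 179 90 (-158) 67 0 60 255 255 255))
    (.leaf (lf 1024 0 0 218 94 (-167) 81 0 63 255 255 255))))
    (.node 0
    (.node 1
    (.leaf (lf 1024 0 0 160 80 (-139) 59 0 43 255 255 255))
    (.leaf (lf 1024 0 0 196 86 (-151) 71 0 47 255 255 255)))
    (.node 1
    (.leaf (lf 1024 0 0 171 86 (-149) 63 0 51 255 255 255))
    (.leaf (lf 1024 0 0 208 90 (-158) 76 0 54 255 255 255)))))
    (.node 2
    (.node 0
    (.leaf (lf 1024 0 0 267 119 (-215) 92 0 75 252 255 147))
    (.leaf (lf 1024 0 0 279 120 (-216) 100 0 82 252 255 153)))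
    (.node 0
    (.leaf (lf 1024 0 0 254 115 (-206) 87 0 65 248 255 142))
    (.leaf (lf 16384 0 0 4283 1868 (-3330) 1497 0 1144 249 255 144)))))
    (by decide +kernel)

def goodS1X_94 :
    Check.Good noCone cfS1X (reach cfS1X ⟨litS1X, 1, fsS1X⟩
      [(0, true), (2, false), (2, false), (0, false), (1, true), (1, false), (2, true), (2, false), (2, false)]) :=
  Check.check_sound
    (.node 1
    (.node 2
    (.node 0
    (.node 1
    (.leaf (lf 1024 0 0 187 97 (-169) 71 0 69 255 255 255))
    (.leaf (lf 1024 0 0 228 99 (-174) 87 0 71 255 255 255)))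
    (.leaf (lf 1024 0 0 217 112 (-193) 84 0 86 250 255 150)))
    (.node 0
    (.node 1
    (.leaf (lf 1024 0 0 181 93 (-160) 67 0 59 255 255 255))
    (.leaf (lf 1024 0 0 220 95 (-166) 81 0 62 255 255 255)))
    (.leaf (lf 1024 0 0 210 108 (-186) 79 0 75 249 255 147))))
    (.node 2
    (.node 0
    (.leaf (lf 1024 0 0 290 122 (-218) 107 0 90 251 255 148))
    (.leaf (lf 1024 0 0 300 124 (-220) 116 0 98 252 255 154)))
    (.node 0
    (.leaf (lf 1024 0 0 280 119 (-210) 100 0 79 250 255 145))
    (.leaf (lf 1024 0 0 292 121 (-212) 108 0 86 249 255 150)))))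
    (by decide +kernel)

def goodS1X_92 :
    Check.Good noCone cfS1X (reach cfS1X ⟨litS1X, 1, fsS1X⟩
      [(2, false), (2, false), (0, false), (1, true), (1, false), (2, true), (2, false), (2, false)]) :=
  Check.good_node (a := 0) (by decide +kernel)
    goodS1X_93 goodS1X_94

def goodS1X_96 :
    Check.Good noCone cfS1X (reach cfS1X ⟨litS1X, 1, fsS1X⟩
      [(0, false), (2, true), (2, false), (0, false), (1, true), (1, false), (2, true), (2, false), (2, false)]) :=
  Check.check_sound
    (.node 1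
    (.node 2
    (.node 0
    (.node 1
    (.leaf (lf 1024 0 0 151 77 (-131) 56 0 38 255 255 255))
    (.leaf (lf 1024 0 0 184 83 (-145) 68 0 42 255 255 255)))
    (.node 1
    (.leaf (lf 1024 0 0 162 82 (-141) 60 0 44 255 255 255))
    (.leaf (lf 1024 0 0 198 87 (-150) 72 0 47 255 255 255))))
    (.node 0
    (.node 1
    (.leaf (lf 1024 0 0 141 75 (-127) 54 0 34 255 255 255))
    (.leaf (lf 1024 0 0 173 82 (-140) 65 0 37 255 255 255)))
    (.node 1
    (.leaf (lf 1024 0 0 153 79 (-133) 57 0 38 255 255 255))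
    (.leaf (lf 1024 0 0 187 84 (-144) 69 0 42 255 255 255)))))
    (.node 2
    (.node 0
    (.leaf (lf 16384 0 0 3842 1808 (-3189) 1321 0 921 247 255 138))
    (.leaf (lf 1024 0 0 255 114 (-201) 89 0 63 248 255 143)))
    (.node 0
    (.leaf (lf 1024 0 0 225 112 (-194) 79 0 52 245 255 138))
    (.leaf (lf 1024 0 0 242 112 (-195) 84 0 56 247 255 132)))))
    (by decide +kernel)

def goodS1X_97 :
    Check.Good noCone cfS1X (reach cfS1X ⟨litS1X, 1, fsS1X⟩
      [(0, true), (2, true), (2, false), (0, false), (1, true), (1, false), (2, true), (2, false), (2, false)]) :=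
  Check.check_sound
    (.node 1
    (.node 2
    (.node 0
    (.node 1
    (.leaf (lf 1024 0 0 173 88 (-151) 63 0 51 255 255 255))
    (.leaf (lf 1024 0 0 211 91 (-158) 77 0 54 255 255 255)))
    (.node 1
    (.leaf (lf 1024 0 0 183 95 (-162) 67 0 60 255 255 255))
    (.leaf (lf 1024 0 0 222 96 (-166) 81 0 61 255 255 255))))
    (.node 0
    (.node 1
    (.leaf (lf 1024 0 0 165 84 (-143) 60 0 45 255 255 255))
    (.leaf (lf 1024 0 0 201 88 (-150) 73 0 47 255 255 255)))
    (.node 1
    (.leaf (lf 1024 0 0 176 91 (-153) 64 0 52 255 255 255))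
    (.leaf (lf 1024 0 0 214 92 (-158) 77 0 54 255 255 255)))))
    (.node 2
    (.node 0
    (.leaf (lf 1024 0 0 269 115 (-203) 95 0 69 248 255 141))
    (.leaf (lf 1024 0 0 282 117 (-205) 101 0 76 246 255 138)))
    (.node 0
    (.leaf (lf 1024 0 0 257 113 (-196) 90 0 62 246 255 138))
    (.leaf (lf 1024 0 0 272 114 (-198) 96 0 67 246 255 137)))))
    (by decide +kernel)

def goodS1X_95 :
    Check.Good noCone cfS1X (reach cfS1X ⟨litS1X, 1, fsS1X⟩
      [(2, true), (2, false), (0, false), (1, true), (1, false), (2, true), (2, false), (2, false)]) :=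
  Check.good_node (a := 0) (by decide +kernel)
    goodS1X_96 goodS1X_97

def goodS1X_91 :
    Check.Good noCone cfS1X (reach cfS1X ⟨litS1X, 1, fsS1X⟩
      [(2, false), (0, false), (1, true), (1, false), (2, true), (2, false), (2, false)]) :=
  Check.good_node (a := 2) (by decide +kernel)
    goodS1X_92 goodS1X_95

def goodS1X_100 :
    Check.Good noCone cfS1X (reach cfS1X ⟨litS1X, 1, fsS1X⟩
      [(2, false), (0, false), (2, true), (0, false), (1, true), (1, false), (2, true), (2, false), (2, false)]) :=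
  Check.check_sound
    (.node 1
    (.node 1
    (.node 0
    (.leaf (lf 16384 0 0 2021 1259 (-2063) 802 0 490 255 253 177))
    (.leaf (lf 1024 0 0 140 78 (-129) 53 0 33 255 254 176)))
    (.node 0
    (.leaf (lf 1024 0 0 155 86 (-143) 60 0 34 254 255 167))
    (.leaf (lf 1024 0 0 171 85 (-141) 64 0 36 255 253 173))))
    (.node 0
    (.node 0
    (.node 2
    (.leaf (lf 1024 0 0 205 112 (-192) 75 0 47 255 255 255))
    (.leaf (lf 1024 0 0 189 115 (-193) 72 0 44 255 255 255)))
    (.node 2
    (.leaf (lf 1024 0 0 214 111 (-191) 77 0 48 255 255 255))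
    (.leaf (lf 1024 0 0 198 113 (-191) 75 0 45 255 255 255))))
    (.node 0
    (.node 2
    (.leaf (lf 1024 0 0 223 111 (-190) 80 0 50 255 255 255))
    (.leaf (lf 1024 0 0 208 112 (-189) 77 0 47 255 255 255)))
    (.node 2
    (.leaf (lf 1024 0 0 231 110 (-190) 82 0 52 255 255 255))
    (.leaf (lf 1024 0 0 217 111 (-188) 79 0 48 255 255 255))))))
    (by decide +kernel)

def goodS1X_101 :
    Check.Good noCone cfS1X (reach cfS1X ⟨litS1X, 1, fsS1X⟩
      [(2, true), (0, false), (2, true), (0, false), (1, true), (1, false), (2, true), (2, false), (2, false)]) :=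
  Check.check_sound
    (.node 1
    (.node 1
    (.leaf (lf 296 599 1024 0 243 22 0 0 68 255 137 244))
    (.node 0
    (.leaf (lf 1024 0 0 130 100 (-159) 57 0 34 255 255 255))
    (.leaf (lf 1024 0 0 148 92 (-149) 60 0 34 255 255 255))))
    (.node 0
    (.node 0
    (.leaf (lf 1024 0 0 166 126 (-204) 68 0 42 255 255 255))
    (.leaf (lf 1024 0 0 176 122 (-199) 71 0 43 255 255 255)))
    (.node 0
    (.leaf (lf 1024 0 0 186 119 (-195) 73 0 44 255 254 166))
    (.leaf (lf 1024 0 0 196 116 (-191) 75 0 45 255 254 166)))))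
    (by decide +kernel)

def goodS1X_99 :
    Check.Good noCone cfS1X (reach cfS1X ⟨litS1X, 1, fsS1X⟩
      [(0, false), (2, true), (0, false), (1, true), (1, false), (2, true), (2, false), (2, false)]) :=
  Check.good_node (a := 2) (by decide +kernel)
    goodS1X_100 goodS1X_101

def goodS1X_103 :
    Check.Good noCone cfS1X (reach cfS1X ⟨litS1X, 1, fsS1X⟩
      [(2, false), (0, true), (2, true), (0, false), (1, true), (1, false), (2, true), (2, false), (2, false)]) :=
  Check.check_sound
    (.node 1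
    (.node 1
    (.node 0
    (.leaf (lf 1024 0 0 153 81 (-134) 56 0 37 255 254 178))
    (.leaf (lf 1024 0 0 165 85 (-142) 59 0 43 255 255 255)))
    (.node 0
    (.leaf (lf 1024 0 0 187 85 (-143) 68 0 40 253 255 176))
    (.leaf (lf 1024 0 0 201 88 (-148) 72 0 45 254 255 181))))
    (.node 2
    (.node 0
    (.leaf (lf 1024 0 0 245 111 (-191) 86 0 56 244 255 134))
    (.leaf (lf 1024 0 0 260 112 (-192) 92 0 61 245 255 139)))
    (.node 0
    (.leaf (lf 1024 0 0 231 110 (-187) 83 0 51 242 255 133))
    (.leaf (lf 1024 0 0 248 110 (-187) 88 0 55 241 255 131)))))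
    (by decide +kernel)

def goodS1X_104 :
    Check.Good noCone cfS1X (reach cfS1X ⟨litS1X, 1, fsS1X⟩
      [(2, true), (0, true), (2, true), (0, false), (1, true), (1, false), (2, true), (2, false), (2, false)]) :=
  Check.check_sound
    (.node 1
    (.node 1
    (.node 0
    (.leaf (lf 1024 0 0 135 82 (-132) 52 0 32 255 255 255))
    (.leaf (lf 1024 0 0 149 82 (-133) 55 0 35 255 255 255)))
    (.node 0
    (.leaf (lf 1024 0 0 164 88 (-143) 63 0 35 255 255 255))
    (.leaf (lf 1024 0 0 181 87 (-142) 67 0 38 254 255 174))))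
    (.node 0
    (.node 0
    (.leaf (lf 16384 0 0 3292 1819 (-3019) 1241 0 730 252 255 161))
    (.node 2
    (.leaf (lf 1024 0 0 221 110 (-185) 82 0 48 255 255 255))
    (.leaf (lf 1024 0 0 207 112 (-186) 79 0 46 255 255 255))))
    (.node 0
    (.node 2
    (.leaf (lf 1024 0 0 231 109 (-184) 84 0 50 255 255 255))
    (.leaf (lf 1024 0 0 217 111 (-184) 81 0 47 255 255 255)))
    (.node 2
    (.leaf (lf 1024 0 0 240 109 (-184) 86 0 51 255 255 255))
    (.leaf (lf 1024 0 0 227 110 (-183) 84 0 48 255 255 255))))))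
    (by decide +kernel)

def goodS1X_102 :
    Check.Good noCone cfS1X (reach cfS1X ⟨litS1X, 1, fsS1X⟩
      [(0, true), (2, true), (0, false), (1, true), (1, false), (2, true), (2, false), (2, false)]) :=
  Check.good_node (a := 2) (by decide +kernel)
    goodS1X_103 goodS1X_104

def goodS1X_98 :
    Check.Good noCone cfS1X (reach cfS1X ⟨litS1X, 1, fsS1X⟩
      [(2, true), (0, false), (1, true), (1, false), (2, true), (2, false), (2, false)]) :=
  Check.good_node (a := 0) (by decide +kernel)
    goodS1X_99 goodS1X_102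

def goodS1X_90 :
    Check.Good noCone cfS1X (reach cfS1X ⟨litS1X, 1, fsS1X⟩
      [(0, false), (1, true), (1, false), (2, true), (2, false), (2, false)]) :=
  Check.good_node (a := 2) (by decide +kernel)
    goodS1X_91 goodS1X_98

def goodS1X_107 :
    Check.Good noCone cfS1X (reach cfS1X ⟨litS1X, 1, fsS1X⟩
      [(2, false), (2, false), (0, true), (1, true), (1, false), (2, true), (2, false), (2, false)]) :=
  Check.check_sound
    (.node 0
    (.node 1
    (.node 2
    (.node 0
    (.leaf (lf 1024 0 0 224 117 (-201) 90 0 97 250 255 150))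
    (.leaf (lf 1024 0 0 232 123 (-208) 96 0 109 255 255 255)))
    (.node 0
    (.leaf (lf 1024 0 0 219 114 (-194) 84 0 85 249 255 148))
    (.leaf (lf 1024 0 0 227 120 (-202) 89 0 96 255 255 255))))
    (.node 2
    (.node 0
    (.leaf (lf 1024 0 0 310 127 (-221) 124 0 108 252 255 156))
    (.leaf (lf 1024 0 0 318 129 (-223) 134 0 117 255 255 255)))
    (.node 0
    (.leaf (lf 1024 0 0 303 123 (-214) 116 0 94 249 255 153))
    (.leaf (lf 1024 0 0 313 126 (-216) 124 0 103 250 255 154)))))
    (.node 1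
    (.node 2
    (.leaf (lf 1024 0 0 242 132 (-218) 106 0 129 255 254 154))
    (.leaf (lf 1024 0 0 239 130 (-214) 98 0 114 255 255 150)))
    (.node 2
    (.node 0
    (.leaf (lf 1024 0 0 326 132 (-224) 144 0 127 255 255 255))
    (.leaf (lf 1024 0 0 334 134 (-225) 154 0 138 255 255 255)))
    (.node 0
    (.leaf (lf 1024 0 0 322 129 (-218) 132 0 112 255 255 255))
    (.leaf (lf 1024 0 0 330 132 (-220) 142 0 122 255 255 255))))))
    (by decide +kernel)

def goodS1X_108 :
    Check.Good noCone cfS1X (reach cfS1X ⟨litS1X, 1, fsS1X⟩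
      [(2, true), (2, false), (0, true), (1, true), (1, false), (2, true), (2, false), (2, false)]) :=
  Check.check_sound
    (.node 0
    (.node 1
    (.node 2
    (.node 0
    (.leaf (lf 1024 0 0 213 110 (-187) 79 0 75 247 255 145))
    (.leaf (lf 1024 0 0 222 116 (-196) 84 0 85 247 255 146)))
    (.node 0
    (.leaf (lf 1024 0 0 206 106 (-179) 74 0 66 244 255 135))
    (.leaf (lf 1024 0 0 216 113 (-189) 79 0 75 245 255 139))))
    (.node 2
    (.node 0
    (.leaf (lf 1024 0 0 294 120 (-207) 108 0 83 247 255 141))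
    (.leaf (lf 1024 0 0 306 122 (-210) 116 0 91 247 255 147)))
    (.node 0
    (.leaf (lf 1024 0 0 285 116 (-201) 102 0 74 244 255 134))
    (.leaf (lf 1024 0 0 298 119 (-203) 109 0 81 245 255 141)))))
    (.node 1
    (.node 2
    (.leaf (lf 1024 0 0 235 127 (-209) 91 0 101 254 255 142))
    (.leaf (lf 16384 0 0 3696 1975 (-3242) 1370 0 1443 251 255 138)))
    (.node 2
    (.node 0
    (.leaf (lf 1024 0 0 316 125 (-212) 124 0 99 255 255 255))
    (.leaf (lf 1024 0 0 326 129 (-215) 132 0 108 255 255 255)))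
    (.node 0
    (.leaf (lf 1024 0 0 310 122 (-206) 116 0 89 246 255 144))
    (.leaf (lf 1024 0 0 320 126 (-209) 124 0 97 255 255 255))))))
    (by decide +kernel)

def goodS1X_106 :
    Check.Good noCone cfS1X (reach cfS1X ⟨litS1X, 1, fsS1X⟩
      [(2, false), (0, true), (1, true), (1, false), (2, true), (2, false), (2, false)]) :=
  Check.good_node (a := 2) (by decide +kernel)
    goodS1X_107 goodS1X_108

def goodS1X_111 :
    Check.Good noCone cfS1X (reach cfS1X ⟨litS1X, 1, fsS1X⟩
      [(2, false), (0, false), (2, true), (0, true), (1, true), (1, false), (2, true), (2, false), (2, false)]) :=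
  Check.check_sound
    (.node 1
    (.node 1
    (.node 0
    (.leaf (lf 1024 0 0 177 92 (-152) 62 0 50 255 255 255))
    (.leaf (lf 1024 0 0 187 99 (-163) 66 0 58 255 255 255)))
    (.node 0
    (.leaf (lf 1024 0 0 214 93 (-155) 76 0 51 255 255 255))
    (.leaf (lf 1024 0 0 227 98 (-163) 80 0 58 255 255 255))))
    (.node 2
    (.node 0
    (.leaf (lf 1024 0 0 275 114 (-194) 98 0 66 244 255 139))
    (.leaf (lf 1024 0 0 289 116 (-197) 104 0 73 245 255 142)))
    (.node 0
    (.leaf (lf 1024 0 0 265 111 (-189) 93 0 60 241 255 129))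
    (.leaf (lf 1024 0 0 280 113 (-191) 99 0 65 243 255 134)))))
    (by decide +kernel)

def goodS1X_112 :
    Check.Good noCone cfS1X (reach cfS1X ⟨litS1X, 1, fsS1X⟩
      [(2, true), (0, false), (2, true), (0, true), (1, true), (1, false), (2, true), (2, false), (2, false)]) :=
  Check.check_sound
    (.node 1
    (.node 1
    (.node 0
    (.leaf (lf 1024 0 0 161 86 (-139) 58 0 40 255 255 255))
    (.leaf (lf 1024 0 0 174 91 (-148) 61 0 45 255 255 255)))
    (.node 0
    (.leaf (lf 1024 0 0 196 88 (-145) 70 0 41 255 255 255))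
    (.leaf (lf 1024 0 0 210 92 (-150) 74 0 46 255 255 255))))
    (.node 0
    (.node 0
    (.node 2
    (.leaf (lf 1024 0 0 248 109 (-184) 89 0 53 255 255 255))
    (.leaf (lf 1024 0 0 236 109 (-182) 86 0 50 255 255 255)))
    (.node 2
    (.leaf (lf 1024 0 0 257 110 (-184) 91 0 56 255 255 255))
    (.leaf (lf 1024 0 0 245 109 (-181) 88 0 51 255 255 255))))
    (.node 0
    (.node 2
    (.leaf (lf 1024 0 0 265 110 (-185) 94 0 58 255 255 255))
    (.leaf (lf 1024 0 0 254 109 (-181) 91 0 53 255 255 255)))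
    (.node 2
    (.leaf (lf 1024 0 0 273 111 (-186) 97 0 61 255 255 255))
    (.leaf (lf 1024 0 0 262 110 (-182) 93 0 55 255 255 255))))))
    (by decide +kernel)

def goodS1X_110 :
    Check.Good noCone cfS1X (reach cfS1X ⟨litS1X, 1, fsS1X⟩
      [(0, false), (2, true), (0, true), (1, true), (1, false), (2, true), (2, false), (2, false)]) :=
  Check.good_node (a := 2) (by decide +kernel)
    goodS1X_111 goodS1X_112

def goodS1X_113 :
    Check.Good noCone cfS1X (reach cfS1X ⟨litS1X, 1, fsS1X⟩
      [(0, true), (2, true), (0, true), (1, true), (1, false), (2, true), (2, false), (2, false)]) :=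
  Check.check_sound
    (.node 2
    (.node 1
    (.node 1
    (.leaf (lf 1024 0 0 203 112 (-181) 71 0 71 255 255 255))
    (.leaf (lf 1024 0 0 245 109 (-177) 87 0 70 255 248 187)))
    (.node 2
    (.node 0
    (.leaf (lf 1024 0 0 302 119 (-200) 110 0 79 244 255 138))
    (.leaf (lf 1024 0 0 314 122 (-204) 117 0 87 255 255 255)))
    (.node 0
    (.leaf (lf 1024 0 0 294 116 (-194) 105 0 72 244 255 139))
    (.leaf (lf 1024 0 0 307 119 (-198) 111 0 78 255 255 255)))))
    (.node 1
    (.node 1
    (.leaf (lf 1024 0 0 191 103 (-165) 65 0 57 255 255 255))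
    (.leaf (lf 1024 0 0 231 101 (-164) 80 0 56 255 252 174)))
    (.node 2
    (.node 0
    (.leaf (lf 1024 0 0 285 113 (-189) 101 0 65 241 255 136))
    (.leaf (lf 1024 0 0 299 116 (-192) 106 0 71 240 255 132)))
    (.node 0
    (.leaf (lf 1024 0 0 275 111 (-184) 97 0 59 241 255 132))
    (.leaf (lf 1024 0 0 291 114 (-187) 102 0 65 241 255 133))))))
    (by decide +kernel)

def goodS1X_109 :
    Check.Good noCone cfS1X (reach cfS1X ⟨litS1X, 1, fsS1X⟩
      [(2, true), (0, true), (1, true), (1, false), (2, true), (2, false), (2, false)]) :=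
  Check.good_node (a := 0) (by decide +kernel)
    goodS1X_110 goodS1X_113

def goodS1X_105 :
    Check.Good noCone cfS1X (reach cfS1X ⟨litS1X, 1, fsS1X⟩
      [(0, true), (1, true), (1, false), (2, true), (2, false), (2, false)]) :=
  Check.good_node (a := 2) (by decide +kernel)
    goodS1X_106 goodS1X_109

def goodS1X_89 :
    Check.Good noCone cfS1X (reach cfS1X ⟨litS1X, 1, fsS1X⟩
      [(1, true), (1, false), (2, true), (2, false), (2, false)]) :=
  Check.good_node (a := 0) (by decide +kernel)
    goodS1X_90 goodS1X_105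

def goodS1X_79 :
    Check.Good noCone cfS1X (reach cfS1X ⟨litS1X, 1, fsS1X⟩
      [(1, false), (2, true), (2, false), (2, false)]) :=
  Check.good_node (a := 1) (by decide +kernel)
    goodS1X_80 goodS1X_89

def goodS1X_118 :
    Check.Good noCone cfS1X (reach cfS1X ⟨litS1X, 1, fsS1X⟩
      [(2, false), (2, false), (0, false), (0, false), (1, true), (2, true), (2, false), (2, false)]) :=
  Check.check_sound
    (.node 1
    (.node 2
    (.node 0
    (.leaf (lf 1024 0 0 447 463 0 101 (-127) 68 255 186 235))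
    (.leaf (lf 1024 0 0 451 218 (-407) 114 0 157 255 246 118)))
    (.node 0
    (.leaf (lf 1024 0 0 427 448 0 97 (-112) 60 255 183 235))
    (.leaf (lf 1024 0 0 434 212 (-394) 108 0 137 255 247 113))))
    (.node 2
    (.node 0
    (.node 1
    (.leaf (lf 1024 0 0 785 302 (-589) 47 0 214 255 255 255))
    (.node 2
    (.leaf (lf 1016 0 (-368) 1019 312 (-1024) 0 0 250 239 104 255))
    (.node 0
    (.leaf (lf 1015 0 (-397) 1010 296 (-1024) 0 0 223 227 86 255))
    (.leaf (lf 871 0 0 1024 258 (-509) (-55) 0 188 255 82 138)))))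
    (.leaf (lf 1024 0 0 967 337 (-657) 9 0 262 255 255 255)))
    (.node 0
    (.node 1
    (.leaf (lf 1024 0 0 754 294 (-571) 51 0 188 255 255 255))
    (.node 2
    (.node 0
    (.leaf (lf 1024 0 (-372) 1016 291 (-984) 0 0 207 233 89 255))
    (.leaf (lf 885 0 0 1024 258 (-511) (-48) 0 180 255 82 137)))
    (.node 0
    (.node 2
    (.leaf (lf 1024 0 (-350) 1014 286 (-947) 0 0 196 247 77 255))
    (.leaf (lf 1024 0 (-335) 1013 283 (-923) 0 0 188 255 78 255)))
    (.leaf (lf 901 0 0 1024 259 (-514) (-41) 0 172 255 80 137)))))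
    (.leaf (lf 1024 0 0 935 328 (-640) 18 0 231 255 255 255)))))
    (by decide +kernel)

def goodS1X_120 :
    Check.Good noCone cfS1X (reach cfS1X ⟨litS1X, 1, fsS1X⟩
      [(1, false), (2, true), (2, false), (0, false), (0, false), (1, true), (2, true), (2, false), (2, false)]) :=
  Check.check_sound
    (.node 2
    (.node 0
    (.leaf (lf 1024 0 0 406 435 0 93 (-99) 54 255 183 235))
    (.leaf (lf 1024 0 0 415 208 (-382) 103 0 122 255 250 109)))
    (.node 0
    (.leaf (lf 1024 0 0 384 204 (-371) 90 0 101 255 251 102))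
    (.leaf (lf 1024 0 0 395 204 (-371) 100 0 109 255 252 111))))
    (by decide +kernel)

def goodS1X_121 :
    Check.Good noCone cfS1X (reach cfS1X ⟨litS1X, 1, fsS1X⟩
      [(1, true), (2, true), (2, false), (0, false), (0, false), (1, true), (2, true), (2, false), (2, false)]) :=
  Check.check_sound
    (.node 2
    (.node 0
    (.node 1
    (.leaf (lf 1024 0 0 722 287 (-554) 54 0 166 255 255 255))
    (.node 2
    (.node 0
    (.leaf (lf 1024 0 (-311) 1010 279 (-885) 0 0 178 255 90 252))
    (.leaf (lf 917 0 0 1024 260 (-516) (-35) 0 165 255 80 136)))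
    (.node 0
    (.node 1
    (.leaf (lf 1024 0 0 1011 286 (-563) (-9) 0 165 255 255 255))
    (.node 2
    (.leaf (lf 881 0 (-506) 890 223 (-1024) 0 0 154 240 69 255))
    (.leaf (lf 907 0 (-503) 915 227 (-1024) 0 0 152 241 69 255))))
    (.leaf (lf 934 0 0 1024 262 (-519) (-29) 0 159 255 79 135)))))
    (.leaf (lf 1024 0 0 901 320 (-623) 26 0 205 255 255 255)))
    (.node 0
    (.node 1
    (.leaf (lf 1024 0 0 689 281 (-537) 57 0 149 255 255 255))
    (.node 2
    (.node 0
    (.node 1
    (.leaf (lf 1024 0 0 990 283 (-556) (-4) 0 156 255 255 255))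
    (.leaf (lf 950 0 (-498) 955 233 (-1024) 0 0 149 243 73 255)))
    (.leaf (lf 952 0 0 1024 264 (-523) (-24) 0 154 255 80 132)))
    (.node 0
    (.node 1
    (.leaf (lf 1024 0 0 968 280 (-548) 1 0 148 255 255 255))
    (.leaf (lf 1013 0 (-489) 1015 243 (-1024) 0 0 146 255 255 255)))
    (.leaf (lf 972 0 0 1024 267 (-527) (-18) 0 149 255 79 134)))))
    (.leaf (lf 1024 0 0 866 312 (-607) 32 0 184 255 255 255))))
    (by decide +kernel)

def goodS1X_119 :
    Check.Good noCone cfS1X (reach cfS1X ⟨litS1X, 1, fsS1X⟩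
      [(2, true), (2, false), (0, false), (0, false), (1, true), (2, true), (2, false), (2, false)]) :=
  Check.good_node (a := 1) (by decide +kernel)
    goodS1X_120 goodS1X_121

def goodS1X_117 :
    Check.Good noCone cfS1X (reach cfS1X ⟨litS1X, 1, fsS1X⟩
      [(2, false), (0, false), (0, false), (1, true), (2, true), (2, false), (2, false)]) :=
  Check.good_node (a := 2) (by decide +kernel)
    goodS1X_118 goodS1X_119

def goodS1X_124 :
    Check.Good noCone cfS1X (reach cfS1X ⟨litS1X, 1, fsS1X⟩
      [(1, false), (2, false), (2, true), (0, false), (0, false), (1, true), (2, true), (2, false), (2, false)]) :=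
  Check.check_sound
    (.node 0
    (.node 1
    (.leaf (lf 1024 0 0 285 159 (-277) 87 0 67 255 255 255))
    (.leaf (lf 1024 0 0 414 219 (-395) 86 0 96 255 255 255)))
    (.node 1
    (.leaf (lf 1024 0 0 303 156 (-274) 94 0 72 255 255 255))
    (.leaf (lf 1024 0 0 425 218 (-395) 96 0 104 255 255 255))))
    (by decide +kernel)

def goodS1X_125 :
    Check.Good noCone cfS1X (reach cfS1X ⟨litS1X, 1, fsS1X⟩
      [(1, true), (2, false), (2, true), (0, false), (0, false), (1, true), (2, true), (2, false), (2, false)]) :=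
  Check.check_sound
    (.node 0
    (.node 2
    (.node 1
    (.leaf (lf 1024 0 0 654 276 (-522) 60 0 134 255 255 255))
    (.node 2
    (.node 0
    (.node 1
    (.leaf (lf 1024 0 0 946 278 (-541) 5 0 141 255 255 255))
    (.leaf (lf 1024 0 (-449) 1021 240 (-966) 0 0 136 255 255 255)))
    (.leaf (lf 992 0 0 1024 271 (-532) (-13) 0 145 255 79 133)))
    (.node 0
    (.node 1
    (.leaf (lf 1024 0 0 924 276 (-534) 10 0 134 255 255 255))
    (.leaf (lf 1024 0 (-403) 1016 235 (-897) 0 0 126 255 64 222)))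
    (.leaf (lf 1014 0 0 1024 274 (-537) (-8) 0 141 255 80 133)))))
    (.node 1
    (.leaf (lf 1024 0 0 619 272 (-508) 62 0 122 255 255 255))
    (.node 0
    (.node 2
    (.node 1
    (.leaf (lf 1024 0 0 901 274 (-528) 14 0 128 255 255 255))
    (.leaf (lf 1024 0 (-355) 1012 231 (-829) 0 0 117 255 62 196)))
    (.node 1
    (.leaf (lf 1024 0 0 878 272 (-521) 17 0 122 255 255 255))
    (.leaf (lf 1024 0 (-306) 1006 228 (-763) 0 0 110 255 90 255))))
    (.leaf (lf 1024 0 0 999 274 (-533) (-1) 0 133 255 92 146)))))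
    (.leaf (lf 1024 0 0 811 304 (-582) 41 0 157 255 205 251)))
    (by decide +kernel)

def goodS1X_123 :
    Check.Good noCone cfS1X (reach cfS1X ⟨litS1X, 1, fsS1X⟩
      [(2, false), (2, true), (0, false), (0, false), (1, true), (2, true), (2, false), (2, false)]) :=
  Check.good_node (a := 1) (by decide +kernel)
    goodS1X_124 goodS1X_125

def goodS1X_126 :
    Check.Good noCone cfS1X (reach cfS1X ⟨litS1X, 1, fsS1X⟩
      [(2, true), (2, true), (0, false), (0, false), (1, true), (2, true), (2, false), (2, false)]) :=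
  Check.check_sound
    (.node 1
    (.node 0
    (.node 1
    (.leaf (lf 1024 0 0 244 163 (-274) 82 0 58 255 255 255))
    (.leaf (lf 1024 0 0 361 217 (-379) 84 0 82 255 255 255)))
    (.node 1
    (.leaf (lf 1024 0 0 264 158 (-269) 88 0 62 255 255 255))
    (.leaf (lf 1024 0 0 375 215 (-379) 92 0 88 255 255 255))))
    (.node 0
    (.node 2
    (.node 1
    (.leaf (lf 1024 0 0 584 269 (-495) 64 0 111 255 255 255))
    (.node 0
    (.leaf (lf 263 1011 9 0 1024 (-483) 0 0 110 108 255 193))
    (.leaf (lf 1024 0 0 951 272 (-522) 8 0 122 255 94 145))))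
    (.node 1
    (.leaf (lf 1024 0 0 549 267 (-483) 66 0 102 255 255 255))
    (.leaf (lf 1024 0 0 911 559 0 12 (-94) 50 255 149 72))))
    (.leaf (lf 1024 0 0 735 296 (-555) 50 0 131 255 255 255))))
    (by decide +kernel)

def goodS1X_122 :
    Check.Good noCone cfS1X (reach cfS1X ⟨litS1X, 1, fsS1X⟩
      [(2, true), (0, false), (0, false), (1, true), (2, true), (2, false), (2, false)]) :=
  Check.good_node (a := 2) (by decide +kernel)
    goodS1X_123 goodS1X_126

def goodS1X_116 :
    Check.Good noCone cfS1X (reach cfS1X ⟨litS1X, 1, fsS1X⟩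
      [(0, false), (0, false), (1, true), (2, true), (2, false), (2, false)]) :=
  Check.good_node (a := 2) (by decide +kernel)
    goodS1X_117 goodS1X_122

def goodS1X_128 :
    Check.Good noCone cfS1X (reach cfS1X ⟨litS1X, 1, fsS1X⟩
      [(2, false), (0, true), (0, false), (1, true), (2, true), (2, false), (2, false)]) :=
  Check.check_sound
    (.node 2
    (.node 1
    (.node 2
    (.node 1
    (.leaf (lf 1024 0 0 394 169 (-307) 132 0 133 255 252 158))
    (.leaf (lf 1024 0 0 526 240 (-446) 134 0 196 255 255 255)))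
    (.node 1
    (.leaf (lf 1024 0 0 382 165 (-297) 124 0 117 255 254 155))
    (.leaf (lf 1024 0 0 510 233 (-433) 127 0 172 255 255 255))))
    (.leaf (lf 1024 0 164 1015 360 (-533) 0 0 296 255 219 251)))
    (.node 1
    (.node 2
    (.node 1
    (.leaf (lf 1024 0 0 369 161 (-288) 117 0 103 255 255 150))
    (.leaf (lf 1024 0 0 493 227 (-420) 121 0 152 255 255 255)))
    (.node 1
    (.leaf (lf 1024 0 0 354 157 (-280) 111 0 93 251 255 139))
    (.leaf (lf 1024 0 0 475 222 (-409) 116 0 136 255 255 255))))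
    (.leaf (lf 1024 0 0 851 338 (-647) 55 0 229 255 255 255))))
    (by decide +kernel)

def goodS1X_129 :
    Check.Good noCone cfS1X (reach cfS1X ⟨litS1X, 1, fsS1X⟩
      [(2, true), (0, true), (0, false), (1, true), (2, true), (2, false), (2, false)]) :=
  Check.check_sound
    (.node 2
    (.node 1
    (.node 1
    (.node 2
    (.leaf (lf 1024 0 0 339 155 (-273) 107 0 84 250 255 140))
    (.leaf (lf 1024 0 0 323 153 (-268) 103 0 76 251 255 137)))
    (.leaf (lf 1024 0 0 446 217 (-393) 110 0 117 255 255 255)))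
    (.leaf (lf 1024 0 0 790 323 (-617) 63 0 187 255 255 255)))
    (.node 1
    (.node 1
    (.node 0
    (.leaf (lf 1024 0 0 285 154 (-263) 95 0 65 255 255 255))
    (.leaf (lf 1024 0 0 305 150 (-259) 101 0 69 255 255 255)))
    (.leaf (lf 1024 0 0 403 213 (-377) 105 0 98 255 255 255)))
    (.leaf (lf 1024 0 0 725 313 (-590) 69 0 156 255 255 255))))
    (by decide +kernel)

def goodS1X_127 :
    Check.Good noCone cfS1X (reach cfS1X ⟨litS1X, 1, fsS1X⟩
      [(0, true), (0, false), (1, true), (2, true), (2, false), (2, false)]) :=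
  Check.good_node (a := 2) (by decide +kernel)
    goodS1X_128 goodS1X_129

def goodS1X_115 :
    Check.Good noCone cfS1X (reach cfS1X ⟨litS1X, 1, fsS1X⟩
      [(0, false), (1, true), (2, true), (2, false), (2, false)]) :=
  Check.good_node (a := 0) (by decide +kernel)
    goodS1X_116 goodS1X_127

def goodS1X_132 :
    Check.Good noCone cfS1X (reach cfS1X ⟨litS1X, 1, fsS1X⟩
      [(2, false), (0, false), (0, true), (1, true), (2, true), (2, false), (2, false)]) :=
  Check.check_sound
    (.node 2
    (.node 1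
    (.node 2
    (.node 1
    (.leaf (lf 1024 0 0 410 168 (-297) 157 0 152 255 254 163))
    (.leaf (lf 1024 0 0 530 239 (-432) 168 0 222 255 255 255)))
    (.node 1
    (.leaf (lf 1024 0 0 401 163 (-289) 146 0 133 255 255 158))
    (.leaf (lf 1024 0 0 519 232 (-420) 157 0 195 255 255 255))))
    (.leaf (lf 1024 0 0 860 375 (-697) 94 0 346 255 255 255)))
    (.node 1
    (.node 2
    (.node 1
    (.leaf (lf 1024 0 0 392 159 (-281) 137 0 118 253 255 154))
    (.leaf (lf 1024 0 0 506 225 (-408) 148 0 173 255 255 255)))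
    (.node 1
    (.leaf (lf 1024 0 0 381 156 (-273) 129 0 105 252 255 147))
    (.leaf (lf 1024 0 0 492 220 (-398) 141 0 155 255 255 255))))
    (.leaf (lf 1024 0 0 817 354 (-667) 94 0 274 255 255 255))))
    (by decide +kernel)

def goodS1X_133 :
    Check.Good noCone cfS1X (reach cfS1X ⟨litS1X, 1, fsS1X⟩
      [(2, true), (0, false), (0, true), (1, true), (2, true), (2, false), (2, false)]) :=
  Check.check_sound
    (.node 2
    (.node 1
    (.node 1
    (.node 2
    (.leaf (lf 1024 0 0 369 152 (-266) 123 0 95 249 255 142))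
    (.leaf (lf 1024 0 0 356 150 (-260) 118 0 86 249 255 140)))
    (.leaf (lf 1024 0 0 470 214 (-383) 131 0 132 255 255 255)))
    (.leaf (lf 1024 0 0 769 338 (-638) 95 0 224 255 255 255)))
    (.node 1
    (.node 1
    (.node 0
    (.leaf (lf 1024 0 0 324 148 (-254) 108 0 73 255 255 255))
    (.leaf (lf 1024 0 0 342 146 (-250) 115 0 77 255 255 255)))
    (.leaf (lf 1024 0 0 435 208 (-368) 123 0 111 255 255 255)))
    (.leaf (lf 1024 0 0 716 326 (-612) 96 0 187 255 255 255))))
    (by decide +kernel)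

def goodS1X_131 :
    Check.Good noCone cfS1X (reach cfS1X ⟨litS1X, 1, fsS1X⟩
      [(0, false), (0, true), (1, true), (2, true), (2, false), (2, false)]) :=
  Check.good_node (a := 2) (by decide +kernel)
    goodS1X_132 goodS1X_133

def goodS1X_135 :
    Check.Good noCone cfS1X (reach cfS1X ⟨litS1X, 1, fsS1X⟩
      [(2, false), (0, true), (0, true), (1, true), (2, true), (2, false), (2, false)]) :=
  Check.check_sound
    (.node 2
    (.node 1
    (.node 2
    (.node 1
    (.leaf (lf 1024 0 0 424 167 (-287) 185 0 171 255 254 167))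
    (.leaf (lf 1024 0 0 536 236 (-415) 206 0 249 255 255 255)))
    (.node 1
    (.leaf (lf 1024 0 0 419 163 (-279) 170 0 150 254 255 160))
    (.leaf (lf 1024 0 0 528 229 (-403) 190 0 218 255 255 255))))
    (.leaf (lf 1024 0 0 826 386 (-697) 145 0 401 255 255 255)))
    (.node 1
    (.node 2
    (.node 1
    (.leaf (lf 1024 0 0 412 158 (-272) 159 0 133 252 255 156))
    (.leaf (lf 1024 0 0 519 223 (-393) 178 0 193 255 255 255)))
    (.node 1
    (.leaf (lf 1024 0 0 405 155 (-265) 149 0 119 250 255 151))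
    (.leaf (lf 1024 0 0 509 217 (-383) 167 0 173 255 255 255))))
    (.leaf (lf 1024 0 0 793 364 (-667) 136 0 318 255 255 255))))
    (by decide +kernel)

def goodS1X_136 :
    Check.Good noCone cfS1X (reach cfS1X ⟨litS1X, 1, fsS1X⟩
      [(2, true), (0, true), (0, true), (1, true), (2, true), (2, false), (2, false)]) :=
  Check.check_sound
    (.node 2
    (.node 1
    (.node 1
    (.node 2
    (.leaf (lf 1024 0 0 396 151 (-259) 141 0 107 249 255 146))
    (.leaf (lf 1024 0 0 386 148 (-253) 134 0 97 248 255 140)))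
    (.leaf (lf 1024 0 0 494 210 (-369) 154 0 148 255 255 255)))
    (.leaf (lf 1024 0 0 756 347 (-640) 129 0 259 255 255 255)))
    (.node 1
    (.node 1
    (.node 2
    (.leaf (lf 1024 0 0 376 146 (-247) 128 0 89 246 255 136))
    (.leaf (lf 1024 0 0 364 144 (-243) 124 0 81 247 255 137)))
    (.leaf (lf 1024 0 0 466 203 (-354) 142 0 123 255 255 255)))
    (.leaf (lf 1024 0 0 714 333 (-615) 125 0 216 255 255 255))))
    (by decide +kernel)

def goodS1X_134 :
    Check.Good noCone cfS1X (reach cfS1X ⟨litS1X, 1, fsS1X⟩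
      [(0, true), (0, true), (1, true), (2, true), (2, false), (2, false)]) :=
  Check.good_node (a := 2) (by decide +kernel)
    goodS1X_135 goodS1X_136

def goodS1X_130 :
    Check.Good noCone cfS1X (reach cfS1X ⟨litS1X, 1, fsS1X⟩
      [(0, true), (1, true), (2, true), (2, false), (2, false)]) :=
  Check.good_node (a := 0) (by decide +kernel)
    goodS1X_131 goodS1X_134

def goodS1X_114 :
    Check.Good noCone cfS1X (reach cfS1X ⟨litS1X, 1, fsS1X⟩
      [(1, true), (2, true), (2, false), (2, false)]) :=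
  Check.good_node (a := 0) (by decide +kernel)
    goodS1X_115 goodS1X_130

def goodS1X_78 :
    Check.Good noCone cfS1X (reach cfS1X ⟨litS1X, 1, fsS1X⟩
      [(2, true), (2, false), (2, false)]) :=
  Check.good_node (a := 1) (by decide +kernel)
    goodS1X_79 goodS1X_114

end

end Vale.Agent.P211.Cert.Interior.Data
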