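import Vale.Agent.P211.Cert.Interior.Data.S1Xr

/-!
P211, a part of a cell of the interior family (generated).
-/

namespace Vale.Agent.P211.Cert.Interior.Data

open Vale.Agent.P098.Check6 (ofChunks eqList reach St Cfg Face)
open Vale.Agent.P098.Cert6.Kron (RootPar parOK)

set_option linter.defProp false

noncomputable section

def goodS1X_141 :
    Check.Good noCone cfS1X (reach cfS1X ⟨litS1X, 1, fsS1X⟩
      [(0, false), (1, false), (2, false), (1, false), (2, true), (2, false)]) :=
  Check.check_sound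
    (.node 1
    (.node 2
    (.node 1
    (.leaf (lf 1024 0 0 12 109 (-160) 5 0 32 255 255 255))
    (.leaf (lf 1024 0 0 37 110 (-161) 15 0 33 255 255 255)))
    (.leaf (lf 1024 0 0 16 182 (-245) 9 0 42 255 255 255)))
    (.node 2
    (.node 0
    (.node 2
    (.node 1
    (.leaf (lf 1024 0 0 53 107 (-161) 25 0 32 255 255 255))
    (.leaf (lf 1024 0 0 74 109 (-165) 35 0 32 255 255 255)))
    (.leaf (lf 1024 0 0 50 147 (-211) 29 0 38 255 255 255)))
    (.node 1
    (.leaf (lf 1024 0 0 66 97 (-147) 27 0 32 255 255 255))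
    (.leaf (lf 437 766 1024 0 265 (-38) 0 0 66 255 255 255))))
    (.leaf (lf 1024 0 0 49 185 (-252) 28 0 43 255 255 255))))
    (by decide +kernel)

def goodS1X_142 :
    Check.Good noCone cfS1X (reach cfS1X ⟨litS1X, 1, fsS1X⟩
      [(0, true), (1, false), (2, false), (1, false), (2, true), (2, false)]) :=
  Check.check_sound
    (.node 1
    (.node 2
    (.node 1
    (.leaf (lf 1024 0 0 19 96 (-145) 6 0 39 255 255 255))
    (.leaf (lf 865 1024 631 0 214 (-155) 0 0 62 255 255 255)))
    (.node 1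
    (.leaf (lf 1024 0 0 15 106 (-154) 6 0 34 255 255 255))
    (.leaf (lf 1024 0 0 46 107 (-155) 17 0 35 255 255 255))))
    (.node 2
    (.node 0
    (.node 1
    (.leaf (lf 589 1009 1024 0 267 (-73) 0 0 69 255 255 255))
    (.node 2
    (.leaf (lf 1024 0 0 120 86 (-136) 43 0 36 252 255 154))
    (.leaf (lf 1024 0 0 107 91 (-139) 41 0 33 255 255 255))))
    (.node 1
    (.leaf (lf 16384 0 0 1566 1559 (-2401) 521 0 689 255 255 255))
    (.node 2
    (.leaf (lf 1024 0 0 140 98 (-154) 47 0 47 255 255 255))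
    (.leaf (lf 1024 0 0 129 92 (-143) 45 0 39 255 255 255)))))
    (.node 0
    (.node 1
    (.leaf (lf 1024 0 0 63 117 (-170) 27 0 35 255 255 255))
    (.leaf (lf 1024 0 0 88 120 (-175) 38 0 36 255 255 255)))
    (.node 1
    (.leaf (lf 1024 0 0 81 99 (-147) 30 0 35 255 255 255))
    (.leaf (lf 413 767 1024 0 278 (-15) 0 0 72 255 255 255))))))
    (by decide +kernel)

def goodS1X_140 :
    Check.Good noCone cfS1X (reach cfS1X ⟨litS1X, 1, fsS1X⟩
      [(1, false), (2, false), (1, false), (2, true), (2, false)]) :=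
  Check.good_node (a := 0) (by decide +kernel)
    goodS1X_141 goodS1X_142

def goodS1X_145 :
    Check.Good noCone cfS1X (reach cfS1X ⟨litS1X, 1, fsS1X⟩
      [(2, false), (0, false), (1, true), (2, false), (1, false), (2, true), (2, false)]) :=
  Check.check_sound
    (.node 0
    (.node 1
    (.node 2
    (.node 1
    (.leaf (lf 1024 0 0 95 113 (-171) 45 0 34 255 255 255))
    (.leaf (lf 1024 0 0 117 119 (-182) 55 0 36 255 255 255)))
    (.leaf (lf 1024 0 0 85 152 (-223) 47 0 40 255 255 255)))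
    (.node 2
    (.node 0
    (.leaf (lf 1024 0 0 141 144 (-224) 65 0 43 255 255 255))
    (.leaf (lf 1024 0 0 162 132 (-210) 70 0 43 255 255 168)))
    (.leaf (lf 1024 0 0 125 166 (-249) 64 0 45 255 255 255))))
    (.node 1
    (.node 2
    (.node 1
    (.leaf (lf 1024 0 0 125 91 (-143) 50 0 33 249 255 155))
    (.leaf (lf 250 538 1024 0 268 63 0 0 81 255 122 246)))
    (.node 1
    (.leaf (lf 1024 0 0 107 111 (-168) 48 0 35 255 255 255))
    (.leaf (lf 1024 0 0 130 117 (-179) 58 0 37 255 255 255))))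
    (.node 2
    (.node 0
    (.node 0
    (.leaf (lf 1024 0 0 177 125 (-200) 73 0 43 255 255 255))
    (.leaf (lf 1024 0 0 187 121 (-195) 75 0 44 255 255 255)))
    (.node 0
    (.leaf (lf 1024 0 0 197 118 (-191) 78 0 44 252 255 159))
    (.leaf (lf 1024 0 0 207 115 (-187) 80 0 45 249 255 159))))
    (.node 0
    (.leaf (lf 1024 0 0 154 142 (-221) 71 0 44 255 255 255))
    (.leaf (lf 1024 0 0 175 131 (-206) 75 0 44 255 255 255))))))
    (by decide +kernel)

def goodS1X_146 :
    Check.Good noCone cfS1X (reach cfS1X ⟨litS1X, 1, fsS1X⟩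
      [(2, true), (0, false), (1, true), (2, false), (1, false), (2, true), (2, false)]) :=
  Check.check_sound
    (.node 0
    (.node 1
    (.leaf (lf 1024 0 0 57 216 (-292) 43 0 47 255 255 255))
    (.leaf (lf 1024 0 0 86 225 (-312) 59 0 50 255 255 255)))
    (.node 1
    (.leaf (lf 1024 0 0 90 168 (-240) 49 0 44 255 255 255))
    (.leaf (lf 396 633 1024 0 424 (-66) 0 0 102 255 171 252))))
    (by decide +kernel)

def goodS1X_144 :
    Check.Good noCone cfS1X (reach cfS1X ⟨litS1X, 1, fsS1X⟩
      [(0, false), (1, true), (2, false), (1, false), (2, true), (2, false)]) :=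
  Check.good_node (a := 2) (by decide +kernel)
    goodS1X_145 goodS1X_146

def goodS1X_149 :
    Check.Good noCone cfS1X (reach cfS1X ⟨litS1X, 1, fsS1X⟩
      [(0, false), (2, false), (0, true), (1, true), (2, false), (1, false), (2, true), (2, false)]) :=
  Check.check_sound
    (.node 1
    (.node 2
    (.node 1
    (.node 0
    (.leaf (lf 1024 0 0 145 85 (-135) 54 0 34 255 255 255))
    (.leaf (lf 1024 0 0 158 87 (-138) 57 0 38 255 255 255)))
    (.node 0
    (.leaf (lf 1024 0 0 176 90 (-144) 66 0 37 255 255 255))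
    (.leaf (lf 1024 0 0 192 89 (-144) 70 0 39 255 255 255))))
    (.node 1
    (.leaf (lf 1024 0 0 137 93 (-144) 53 0 34 251 255 161))
    (.leaf (lf 1024 0 0 166 98 (-154) 64 0 37 248 255 154))))
    (.node 2
    (.node 0
    (.node 0
    (.leaf (lf 1024 0 0 217 113 (-184) 82 0 46 248 255 158))
    (.leaf (lf 16384 0 0 3636 1782 (-2914) 1345 0 756 248 255 157)))
    (.node 0
    (.leaf (lf 16384 0 0 3790 1765 (-2888) 1380 0 777 247 255 156))
    (.node 2
    (.leaf (lf 1024 0 0 251 109 (-179) 90 0 51 255 255 255))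
    (.leaf (lf 1024 0 0 240 110 (-179) 88 0 49 255 255 255)))))
    (.node 0
    (.leaf (lf 16384 0 0 3149 1953 (-3107) 1259 0 715 250 255 160))
    (.node 0
    (.leaf (lf 1024 0 0 212 117 (-187) 82 0 45 248 255 155))
    (.leaf (lf 1024 0 0 222 114 (-183) 84 0 46 246 255 156))))))
    (by decide +kernel)

def goodS1X_150 :
    Check.Good noCone cfS1X (reach cfS1X ⟨litS1X, 1, fsS1X⟩
      [(0, true), (2, false), (0, true), (1, true), (2, false), (1, false), (2, true), (2, false)]) :=
  Check.check_sound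
    (.node 1
    (.node 2
    (.node 1
    (.leaf (lf 1024 0 0 179 95 (-151) 61 0 46 254 255 163))
    (.leaf (lf 1024 0 0 216 95 (-152) 74 0 46 253 255 157)))
    (.node 1
    (.leaf (lf 1024 0 0 165 92 (-143) 58 0 39 253 255 161))
    (.leaf (lf 1024 0 0 199 94 (-147) 70 0 40 250 255 151))))
    (.node 2
    (.node 0
    (.node 0
    (.node 2
    (.leaf (lf 1024 0 0 260 109 (-179) 92 0 53 255 255 255))
    (.leaf (lf 1024 0 0 249 109 (-178) 90 0 50 255 255 255)))
    (.node 2
    (.leaf (lf 1024 0 0 269 110 (-180) 95 0 56 255 255 255))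
    (.leaf (lf 1024 0 0 258 109 (-178) 92 0 52 255 255 255))))
    (.node 0
    (.node 2
    (.leaf (lf 1024 0 0 277 111 (-181) 97 0 58 255 255 255))
    (.leaf (lf 1024 0 0 267 109 (-178) 94 0 54 255 255 255)))
    (.leaf (lf 16384 0 0 4495 1781 (-2890) 1565 0 928 246 255 156))))
    (.node 0
    (.node 0
    (.leaf (lf 1024 0 0 232 113 (-180) 86 0 47 248 255 158))
    (.leaf (lf 1024 0 0 242 111 (-178) 88 0 48 246 255 155)))
    (.node 0
    (.leaf (lf 1024 0 0 252 110 (-177) 90 0 49 244 255 150))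
    (.leaf (lf 1024 0 0 261 110 (-176) 92 0 51 246 255 155))))))
    (by decide +kernel)

def goodS1X_148 :
    Check.Good noCone cfS1X (reach cfS1X ⟨litS1X, 1, fsS1X⟩
      [(2, false), (0, true), (1, true), (2, false), (1, false), (2, true), (2, false)]) :=
  Check.good_node (a := 0) (by decide +kernel)
    goodS1X_149 goodS1X_150

def goodS1X_151 :
    Check.Good noCone cfS1X (reach cfS1X ⟨litS1X, 1, fsS1X⟩
      [(2, true), (0, true), (1, true), (2, false), (1, false), (2, true), (2, false)]) :=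
  Check.check_sound
    (.node 0
    (.node 1
    (.node 2
    (.node 1
    (.leaf (lf 1024 0 0 120 109 (-164) 50 0 36 255 255 255))
    (.leaf (lf 1024 0 0 145 115 (-175) 61 0 38 255 255 255)))
    (.leaf (lf 1024 0 0 114 143 (-210) 53 0 42 255 255 255)))
    (.node 2
    (.node 0
    (.leaf (lf 1024 0 0 170 140 (-216) 75 0 45 255 255 255))
    (.leaf (lf 1024 0 0 192 129 (-201) 79 0 45 249 255 157)))
    (.leaf (lf 1024 0 0 158 159 (-238) 74 0 48 251 255 158))))
    (.node 1
    (.node 2
    (.node 1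
    (.leaf (lf 1024 0 0 150 95 (-146) 55 0 36 255 255 255))
    (.leaf (lf 1024 0 0 181 99 (-153) 67 0 38 246 255 150)))
    (.node 1
    (.leaf (lf 1024 0 0 134 108 (-161) 53 0 37 255 255 255))
    (.leaf (lf 1024 0 0 162 113 (-171) 64 0 39 255 255 255))))
    (.node 2
    (.node 0
    (.leaf (lf 16384 0 0 3421 1937 (-3037) 1327 0 729 247 255 157))
    (.node 0
    (.leaf (lf 1024 0 0 229 116 (-183) 86 0 46 244 255 152))
    (.leaf (lf 1024 0 0 239 114 (-180) 88 0 47 244 255 152))))
    (.node 0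
    (.leaf (lf 1024 0 0 189 137 (-210) 80 0 46 255 255 255))
    (.leaf (lf 1024 0 0 212 127 (-196) 83 0 46 245 255 152))))))
    (by decide +kernel)

def goodS1X_147 :
    Check.Good noCone cfS1X (reach cfS1X ⟨litS1X, 1, fsS1X⟩
      [(0, true), (1, true), (2, false), (1, false), (2, true), (2, false)]) :=
  Check.good_node (a := 2) (by decide +kernel)
    goodS1X_148 goodS1X_151

def goodS1X_143 :
    Check.Good noCone cfS1X (reach cfS1X ⟨litS1X, 1, fsS1X⟩
      [(1, true), (2, false), (1, false), (2, true), (2, false)]) :=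
  Check.good_node (a := 0) (by decide +kernel)
    goodS1X_144 goodS1X_147

def goodS1X_139 :
    Check.Good noCone cfS1X (reach cfS1X ⟨litS1X, 1, fsS1X⟩
      [(2, false), (1, false), (2, true), (2, false)]) :=
  Check.good_node (a := 1) (by decide +kernel)
    goodS1X_140 goodS1X_143

def goodS1X_152 :
    Check.Good noCone cfS1X (reach cfS1X ⟨litS1X, 1, fsS1X⟩
      [(2, true), (1, false), (2, true), (2, false)]) :=
  Check.check_sound
    (.node 1
    (.node 0
    (.node 2
    (.leaf (lf 1024 0 0 18 285 (-351) 17 0 54 255 255 255))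
    (.leaf (lf 1024 0 0 7 388 (-433) 15 0 61 255 255 255)))
    (.node 1
    (.leaf (lf 1024 0 0 20 206 (-269) 10 0 49 255 255 255))
    (.node 2
    (.node 0
    (.leaf (lf 1024 0 0 54 187 (-255) 30 0 46 255 255 255))
    (.leaf (lf 1024 0 0 75 147 (-206) 33 0 42 255 255 255)))
    (.leaf (lf 1024 0 0 48 241 (-310) 29 0 53 255 255 255)))))
    (.node 0
    (.leaf (lf 1024 0 0 44 357 (-426) 46 0 62 255 255 255))
    (.node 2
    (.node 0
    (.node 1
    (.leaf (lf 1024 0 0 88 196 (-271) 50 0 49 255 255 255))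
    (.leaf (lf 1024 0 0 122 209 (-297) 69 0 54 255 255 255)))
    (.node 1
    (.leaf (lf 443 713 1024 0 380 (-59) 0 0 92 244 157 255))
    (.leaf (lf 337 594 1024 0 416 1 0 0 110 255 255 255))))
    (.node 0
    (.leaf (lf 1024 0 0 67 295 (-382) 55 0 62 255 255 255))
    (.node 1
    (.leaf (lf 1024 0 0 89 222 (-299) 52 0 54 255 255 255))
    (.leaf (lf 1024 0 0 122 237 (-325) 71 0 59 255 255 255)))))))
    (by decide +kernel)

def goodS1X_138 :
    Check.Good noCone cfS1X (reach cfS1X ⟨litS1X, 1, fsS1X⟩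
      [(1, false), (2, true), (2, false)]) :=
  Check.good_node (a := 2) (by decide +kernel)
    goodS1X_139 goodS1X_152

def goodS1X_156 :
    Check.Good noCone cfS1X (reach cfS1X ⟨litS1X, 1, fsS1X⟩
      [(0, false), (0, false), (2, false), (1, true), (2, true), (2, false)]) :=
  Check.check_sound
    (.node 2
    (.node 1
    (.node 2
    (.node 0
    (.leaf (lf 1024 0 0 258 210 (-345) 79 0 66 255 252 132))
    (.leaf (lf 1024 0 0 277 204 (-341) 86 0 71 255 252 139)))
    (.node 0
    (.leaf (lf 1024 0 0 214 226 (-354) 76 0 62 255 255 255))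
    (.leaf (lf 1024 0 0 234 216 (-347) 83 0 65 255 255 255))))
    (.node 2
    (.node 0
    (.leaf (lf 1024 0 0 664 571 0 45 (-86) 48 255 245 156))
    (.leaf (lf 1024 0 0 657 292 (-531) 57 0 112 255 255 255)))
    (.node 0
    (.leaf (lf 1024 0 0 583 562 0 51 (-75) 44 255 255 169))
    (.leaf (lf 1024 0 0 580 292 (-513) 62 0 98 255 255 255)))))
    (.node 1
    (.leaf (lf 475 727 1024 0 632 (-158) 0 0 127 255 255 255))
    (.leaf (lf 466 1024 829 0 1015 (-161) 0 0 139 255 255 255))))
    (by decide +kernel)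

def goodS1X_157 :
    Check.Good noCone cfS1X (reach cfS1X ⟨litS1X, 1, fsS1X⟩
      [(0, true), (0, false), (2, false), (1, true), (2, true), (2, false)]) :=
  Check.check_sound
    (.node 2
    (.node 1
    (.node 2
    (.node 1
    (.node 0
    (.leaf (lf 1024 0 0 248 160 (-265) 90 0 59 255 255 255))
    (.leaf (lf 1024 0 0 270 154 (-257) 96 0 61 255 255 255)))
    (.leaf (lf 1024 0 0 358 212 (-367) 100 0 85 255 255 255)))
    (.node 1
    (.leaf (lf 1024 0 0 226 170 (-274) 88 0 57 255 255 151))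
    (.leaf (lf 1024 0 0 311 218 (-365) 97 0 77 255 255 255))))
    (.node 2
    (.leaf (lf 1024 0 0 656 306 (-565) 73 0 133 255 255 255))
    (.leaf (lf 1024 0 0 586 303 (-544) 77 0 116 255 255 255))))
    (.node 1
    (.node 2
    (.node 1
    (.leaf (lf 1024 0 0 190 189 (-294) 84 0 56 255 255 255))
    (.leaf (lf 1024 0 0 266 230 (-372) 94 0 71 255 255 255)))
    (.leaf (lf 1024 0 0 191 242 (-369) 86 0 65 255 254 157)))
    (.node 2
    (.leaf (lf 1024 0 0 516 305 (-530) 79 0 103 255 255 255))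
    (.leaf (lf 1024 0 0 449 312 (-523) 81 0 94 255 255 255)))))
    (by decide +kernel)

def goodS1X_155 :
    Check.Good noCone cfS1X (reach cfS1X ⟨litS1X, 1, fsS1X⟩
      [(0, false), (2, false), (1, true), (2, true), (2, false)]) :=
  Check.good_node (a := 0) (by decide +kernel)
    goodS1X_156 goodS1X_157

def goodS1X_159 :
    Check.Good noCone cfS1X (reach cfS1X ⟨litS1X, 1, fsS1X⟩
      [(0, false), (0, true), (2, false), (1, true), (2, true), (2, false)]) :=
  Check.check_sound
    (.node 2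
    (.node 1
    (.node 2
    (.node 1
    (.node 0
    (.leaf (lf 1024 0 0 292 149 (-250) 102 0 64 255 255 255))
    (.leaf (lf 1024 0 0 313 145 (-244) 108 0 67 255 255 255)))
    (.leaf (lf 1024 0 0 397 205 (-356) 117 0 95 255 255 255)))
    (.node 1
    (.node 0
    (.leaf (lf 1024 0 0 258 156 (-255) 97 0 59 255 255 255))
    (.leaf (lf 1024 0 0 282 149 (-246) 103 0 61 255 255 255)))
    (.leaf (lf 1024 0 0 356 206 (-351) 112 0 84 255 255 255))))
    (.node 2
    (.leaf (lf 1024 0 0 658 317 (-587) 97 0 159 255 255 255))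
    (.leaf (lf 1024 0 0 597 310 (-566) 99 0 137 255 255 255))))
    (.node 1
    (.node 2
    (.node 1
    (.leaf (lf 1024 0 0 240 166 (-266) 95 0 58 252 255 147))
    (.leaf (lf 1024 0 0 313 213 (-353) 108 0 77 255 255 255)))
    (.node 1
    (.leaf (lf 1024 0 0 206 185 (-287) 92 0 58 255 255 255))
    (.leaf (lf 1024 0 0 272 225 (-363) 105 0 73 255 255 255))))
    (.node 2
    (.leaf (lf 1024 0 0 535 308 (-548) 100 0 121 255 255 255))
    (.leaf (lf 1024 0 0 473 309 (-537) 100 0 109 255 255 255)))))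
    (by decide +kernel)

def goodS1X_160 :
    Check.Good noCone cfS1X (reach cfS1X ⟨litS1X, 1, fsS1X⟩
      [(0, true), (0, true), (2, false), (1, true), (2, true), (2, false)]) :=
  Check.check_sound
    (.node 2
    (.node 1
    (.node 2
    (.node 1
    (.node 0
    (.leaf (lf 1024 0 0 333 142 (-239) 114 0 70 253 255 155))
    (.leaf (lf 1024 0 0 353 140 (-234) 121 0 74 252 255 161)))
    (.leaf (lf 1024 0 0 435 198 (-342) 134 0 105 255 255 255)))
    (.node 1
    (.node 0
    (.leaf (lf 1024 0 0 304 144 (-238) 109 0 63 255 255 255))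
    (.leaf (lf 1024 0 0 327 140 (-231) 114 0 65 251 255 153)))
    (.leaf (lf 1024 0 0 400 197 (-335) 127 0 92 255 255 255))))
    (.node 2
    (.leaf (lf 1024 0 0 668 322 (-592) 123 0 183 255 255 255))
    (.leaf (lf 1024 0 0 617 314 (-571) 121 0 158 255 255 255))))
    (.node 1
    (.node 2
    (.node 1
    (.node 0
    (.leaf (lf 1024 0 0 274 152 (-245) 104 0 59 255 255 255))
    (.leaf (lf 1024 0 0 298 145 (-235) 109 0 60 255 255 255)))
    (.leaf (lf 1024 0 0 363 199 (-334) 122 0 83 255 255 255)))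
    (.node 1
    (.leaf (lf 1024 0 0 259 162 (-256) 102 0 58 253 255 150))
    (.leaf (lf 1024 0 0 325 207 (-339) 118 0 78 255 255 255))))
    (.node 2
    (.leaf (lf 1024 0 0 563 308 (-554) 120 0 139 255 255 255))
    (.leaf (lf 1024 0 0 507 307 (-540) 120 0 124 255 255 255)))))
    (by decide +kernel)

def goodS1X_158 :
    Check.Good noCone cfS1X (reach cfS1X ⟨litS1X, 1, fsS1X⟩
      [(0, true), (2, false), (1, true), (2, true), (2, false)]) :=
  Check.good_node (a := 0) (by decide +kernel)
    goodS1X_159 goodS1X_160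

def goodS1X_154 :
    Check.Good noCone cfS1X (reach cfS1X ⟨litS1X, 1, fsS1X⟩
      [(2, false), (1, true), (2, true), (2, false)]) :=
  Check.good_node (a := 0) (by decide +kernel)
    goodS1X_155 goodS1X_158

def goodS1X_162 :
    Check.Good noCone cfS1X (reach cfS1X ⟨litS1X, 1, fsS1X⟩
      [(0, false), (2, true), (1, true), (2, true), (2, false)]) :=
  Check.check_sound
    (.node 0
    (.node 2
    (.leaf (lf 676 934 1024 0 936 (-343) 0 0 148 255 255 255))
    (.leaf (lf 1024 0 0 149 449 (-559) 61 0 75 255 255 255)))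
    (.node 2
    (.node 1
    (.leaf (lf 1024 0 0 139 292 (-415) 80 0 67 255 255 255))
    (.leaf (lf 1024 0 0 357 339 (-531) 81 0 86 255 255 255)))
    (.leaf (lf 1024 0 0 168 400 (-544) 76 0 79 255 255 255))))
    (by decide +kernel)

def goodS1X_163 :
    Check.Good noCone cfS1X (reach cfS1X ⟨litS1X, 1, fsS1X⟩
      [(0, true), (2, true), (1, true), (2, true), (2, false)]) :=
  Check.check_sound
    (.node 0
    (.node 2
    (.node 1
    (.node 2
    (.leaf (lf 1024 0 0 204 238 (-364) 94 0 68 252 255 152))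
    (.leaf (lf 1024 0 0 169 266 (-392) 91 0 69 255 255 255)))
    (.leaf (lf 1024 0 0 384 325 (-534) 99 0 97 255 255 255)))
    (.node 1
    (.leaf (lf 1024 0 0 123 322 (-446) 86 0 72 255 255 255))
    (.leaf (lf 1024 0 0 276 365 (-558) 97 0 90 255 255 255))))
    (.node 2
    (.node 1
    (.node 2
    (.node 1
    (.leaf (lf 1024 0 0 228 181 (-278) 98 0 59 255 255 255))
    (.leaf (lf 1024 0 0 286 220 (-352) 114 0 75 255 255 255)))
    (.leaf (lf 16384 0 0 3587 3753 (-5717) 1642 0 1127 252 255 157)))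
    (.node 2
    (.leaf (lf 1024 0 0 451 309 (-532) 119 0 113 255 255 255))
    (.leaf (lf 1024 0 0 395 317 (-530) 118 0 105 255 255 255))))
    (.node 1
    (.leaf (lf 416 640 1024 0 639 (-125) 0 0 152 255 128 242))
    (.leaf (lf 1024 0 0 318 341 (-544) 115 0 98 255 255 255)))))
    (by decide +kernel)

def goodS1X_161 :
    Check.Good noCone cfS1X (reach cfS1X ⟨litS1X, 1, fsS1X⟩
      [(2, true), (1, true), (2, true), (2, false)]) :=
  Check.good_node (a := 0) (by decide +kernel)
    goodS1X_162 goodS1X_163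

def goodS1X_153 :
    Check.Good noCone cfS1X (reach cfS1X ⟨litS1X, 1, fsS1X⟩
      [(1, true), (2, true), (2, false)]) :=
  Check.good_node (a := 2) (by decide +kernel)
    goodS1X_154 goodS1X_161

def goodS1X_137 :
    Check.Good noCone cfS1X (reach cfS1X ⟨litS1X, 1, fsS1X⟩
      [(2, true), (2, false)]) :=
  Check.good_node (a := 1) (by decide +kernel)
    goodS1X_138 goodS1X_153

end

end Vale.Agent.P211.Cert.Interior.Data
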