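import Vale.Agent.P211.Cert.Interior.Data.S1Xr

/-!
P211, a part of a cell of the interior family (generated).
-/

namespace Vale.Agent.P211.Cert.Interior.Data

open Vale.Agent.P098.Check6 (ofChunks eqList reach St Cfg Face)
open Vale.Agent.P098.Cert6.Kron (RootPar parOK)

set_option linter.defProp false

noncomputable section

def goodS1X_164 :
    Check.Good noCone cfS1X (reach cfS1X ⟨litS1X, 1, fsS1X⟩
      [(2, true)]) :=
  Check.check_sound
    (.node 2
    (.node 2
    (.node 0
    (.node 1
    (.leaf (lf 1024 0 0 (-5) 595 (-571) 25 0 75 255 255 255))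
    (.leaf (lf 1024 0 0 85 596 (-656) 60 0 84 255 255 255)))
    (.node 1
    (.node 0
    (.node 1
    (.leaf (lf 1024 0 0 8 440 (-481) 17 0 69 255 255 255))
    (.leaf (lf 1024 0 0 22 453 (-511) 49 0 74 255 255 255)))
    (.node 1
    (.leaf (lf 1024 0 0 20 362 (-424) 19 0 67 255 255 255))
    (.leaf (lf 1024 0 0 57 379 (-458) 55 0 72 255 255 255))))
    (.node 0
    (.leaf (lf 1024 0 0 104 492 (-622) 82 0 89 255 255 255))
    (.leaf (lf 624 752 1024 0 951 (-420) 0 0 184 242 177 255)))))
    (.node 0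
    (.leaf (lf 1024 0 0 7 869 (-728) 35 0 91 255 255 255))
    (.node 1
    (.leaf (lf 1024 0 0 2 645 (-626) 30 0 86 255 255 255))
    (.leaf (lf 1024 0 0 37 672 (-743) 78 0 100 255 255 255)))))
    (.leaf (lf 886 0 0 (-5) 1024 (-718) 29 0 94 255 255 255)))
    (by decide +kernel)

end

end Vale.Agent.P211.Cert.Interior.Data
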