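import Vale.Agent.P211.Cert.Interior.Data.S1Xr

/-!
P211, a part of a cell of the interior family (generated).
-/

namespace Vale.Agent.P211.Cert.Interior.Data

open Vale.Agent.P098.Check6 (ofChunks eqList reach St Cfg Face)
open Vale.Agent.P098.Cert6.Kron (RootPar parOK)

set_option linter.defProp false

noncomputable section

def goodS1X_9 :
    Check.Good noCone cfS1X (reach cfS1X ⟨litS1X, 1, fsS1X⟩
      [(2, false), (1, false), (1, false), (0, false), (2, false), (2, false), (2, false), (2, false), (2, false)]) :=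
  Check.check_sound
    (.node 1
    (.node 1
    (.node 0
    (.leaf (lf 1024 0 79 40 113 (-195) 0 0 347 255 255 255))
    (.leaf (lf 1024 0 0 25 122 (-205) 32 0 432 255 255 255)))
    (.node 0
    (.leaf (lf 981 1024 335 0 228 (-244) 0 0 496 175 170 255))
    (.leaf (lf 1024 1003 326 0 240 (-258) 0 0 625 160 158 255))))
    (.node 2
    (.node 0
    (.node 1
    (.leaf (lf 1024 0 433 197 116 (-142) 0 0 454 255 255 255))
    (.leaf (lf 465 1024 678 0 331 (-103) 0 0 576 255 145 223)))
    (.node 1
    (.leaf (lf 1024 0 0 117 115 (-197) 197 0 480 255 255 255))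
    (.leaf (lf 1024 0 607 277 132 (-99) 0 0 641 255 255 255))))
    (.node 0
    (.node 1
    (.leaf (lf 1024 0 0 117 109 (-195) 129 0 310 255 255 255))
    (.leaf (lf 1024 0 609 276 125 (-97) 0 0 417 255 255 255)))
    (.node 1
    (.leaf (lf 1024 0 0 119 117 (-203) 155 0 388 255 255 255))
    (.leaf (lf 1024 0 0 164 114 (-198) 221 0 381 255 255 255))))))
    (by decide +kernel)

def goodS1X_10 :
    Check.Good noCone cfS1X (reach cfS1X ⟨litS1X, 1, fsS1X⟩
      [(2, true), (1, false), (1, false), (0, false), (2, false), (2, false), (2, false), (2, false), (2, false)]) :=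
  Check.check_sound
    (.node 1
    (.node 1
    (.leaf (lf 1024 0 75 40 121 (-206) 0 0 277 233 255 224))
    (.leaf (lf 1024 1014 322 0 242 (-264) 0 0 401 248 209 255)))
    (.node 0
    (.node 0
    (.node 2
    (.node 1
    (.leaf (lf 1024 0 0 116 107 (-196) 103 0 243 255 255 255))
    (.leaf (lf 1024 0 0 160 105 (-193) 145 0 240 255 255 255)))
    (.leaf (lf 1024 0 0 138 114 (-208) 106 0 220 255 247 168)))
    (.node 2
    (.leaf (lf 556 1024 546 0 309 (-166) 0 0 402 255 221 202))
    (.leaf (lf 1024 0 0 140 118 (-213) 116 0 248 255 248 168))))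
    (.node 0
    (.node 2
    (.leaf (lf 1024 0 0 141 122 (-215) 149 0 323 255 245 178))
    (.leaf (lf 1024 0 0 142 122 (-217) 127 0 277 255 255 255)))
    (.node 2
    (.leaf (lf 1024 0 0 143 125 (-218) 163 0 358 255 255 255))
    (.leaf (lf 1024 0 0 143 127 (-220) 138 0 308 255 255 255))))))
    (by decide +kernel)

def goodS1X_8 :
    Check.Good noCone cfS1X (reach cfS1X ⟨litS1X, 1, fsS1X⟩
      [(1, false), (1, false), (0, false), (2, false), (2, false), (2, false), (2, false), (2, false)]) :=
  Check.good_node (a := 2) (by decide +kernel)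
    goodS1X_9 goodS1X_10

def goodS1X_13 :
    Check.Good noCone cfS1X (reach cfS1X ⟨litS1X, 1, fsS1X⟩
      [(2, false), (2, false), (1, true), (1, false), (0, false), (2, false), (2, false), (2, false), (2, false), (2, false)]) :=
  Check.check_sound
    (.node 0
    (.node 0
    (.node 1
    (.node 2
    (.leaf (lf 1024 0 0 220 128 (-230) 348 0 482 255 245 174))
    (.leaf (lf 1024 0 0 221 126 (-228) 304 0 417 255 255 255)))
    (.leaf (lf 1024 0 648 531 224 (-125) 0 0 912 255 255 255)))
    (.node 1
    (.node 2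
    (.leaf (lf 1024 0 0 220 130 (-229) 387 0 527 255 255 255))
    (.leaf (lf 1024 0 0 222 128 (-227) 337 0 457 255 255 255)))
    (.leaf (lf 1024 0 675 535 227 (-112) 0 0 1011 255 255 255))))
    (.node 0
    (.node 1
    (.node 2
    (.leaf (lf 1024 0 0 221 132 (-228) 427 0 576 255 255 255))
    (.leaf (lf 1024 0 0 223 130 (-227) 372 0 500 255 255 255)))
    (.leaf (lf 1024 0 0 320 190 (-319) 519 0 760 255 223 208)))
    (.node 1
    (.node 2
    (.leaf (lf 1024 0 0 222 134 (-227) 470 0 628 255 255 255))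
    (.leaf (lf 1024 0 0 223 132 (-226) 410 0 545 255 255 255)))
    (.leaf (lf 1024 0 0 319 191 (-314) 577 0 819 255 223 209)))))
    (by decide +kernel)

def goodS1X_14 :
    Check.Good noCone cfS1X (reach cfS1X ⟨litS1X, 1, fsS1X⟩
      [(2, true), (2, false), (1, true), (1, false), (0, false), (2, false), (2, false), (2, false), (2, false), (2, false)]) :=
  Check.check_sound
    (.node 0
    (.node 0
    (.node 1
    (.node 2
    (.leaf (lf 1024 0 0 222 124 (-226) 270 0 366 255 255 255))
    (.leaf (lf 1024 0 0 223 122 (-225) 242 0 327 255 255 255)))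
    (.leaf (lf 1024 0 0 321 176 (-316) 332 0 490 255 231 195)))
    (.node 1
    (.node 2
    (.leaf (lf 1024 0 0 223 126 (-226) 299 0 402 255 255 255))
    (.leaf (lf 1024 0 0 224 125 (-224) 268 0 359 255 255 255)))
    (.leaf (lf 1024 0 0 319 176 (-310) 373 0 530 255 230 197))))
    (.node 0
    (.node 1
    (.node 2
    (.leaf (lf 1024 0 0 224 128 (-225) 330 0 440 255 255 255))
    (.leaf (lf 1024 0 0 226 127 (-224) 296 0 394 255 255 255)))
    (.leaf (lf 1024 0 0 319 176 (-305) 417 0 571 255 231 198)))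
    (.node 1
    (.node 2
    (.leaf (lf 1024 0 0 225 130 (-225) 362 0 481 255 255 255))
    (.leaf (lf 1024 0 0 227 129 (-224) 325 0 430 255 255 255)))
    (.leaf (lf 1024 0 0 319 177 (-301) 463 0 615 255 231 198)))))
    (by decide +kernel)

def goodS1X_12 :
    Check.Good noCone cfS1X (reach cfS1X ⟨litS1X, 1, fsS1X⟩
      [(2, false), (1, true), (1, false), (0, false), (2, false), (2, false), (2, false), (2, false), (2, false)]) :=
  Check.good_node (a := 2) (by decide +kernel)
    goodS1X_13 goodS1X_14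

def goodS1X_16 :
    Check.Good noCone cfS1X (reach cfS1X ⟨litS1X, 1, fsS1X⟩
      [(0, false), (2, true), (1, true), (1, false), (0, false), (2, false), (2, false), (2, false), (2, false), (2, false)]) :=
  Check.check_sound
    (.node 2
    (.node 0
    (.node 1
    (.node 2
    (.leaf (lf 1024 0 0 224 121 (-223) 220 0 294 255 255 255))
    (.leaf (lf 1024 0 0 224 120 (-222) 201 0 267 255 255 255)))
    (.leaf (lf 1024 0 0 320 166 (-304) 277 0 387 255 237 185)))
    (.node 1
    (.node 2
    (.leaf (lf 1024 0 0 225 123 (-223) 243 0 324 255 255 255))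
    (.leaf (lf 1024 0 0 226 122 (-222) 222 0 295 255 255 255)))
    (.leaf (lf 1024 0 0 319 166 (-299) 310 0 419 255 255 255))))
    (.node 0
    (.node 1
    (.node 1
    (.leaf (lf 1024 0 0 203 107 (-197) 161 0 210 255 255 255))
    (.leaf (lf 1024 0 0 247 117 (-216) 196 0 232 255 255 255)))
    (.leaf (lf 1024 0 0 319 159 (-293) 237 0 317 255 255 255)))
    (.node 1
    (.node 1
    (.leaf (lf 1024 0 0 206 110 (-200) 177 0 234 255 255 255))
    (.leaf (lf 1024 0 0 249 119 (-216) 216 0 255 255 255 255)))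
    (.leaf (lf 1024 0 0 319 159 (-289) 265 0 344 255 255 255)))))
    (by decide +kernel)

def goodS1X_17 :
    Check.Good noCone cfS1X (reach cfS1X ⟨litS1X, 1, fsS1X⟩
      [(0, true), (2, true), (1, true), (1, false), (0, false), (2, false), (2, false), (2, false), (2, false), (2, false)]) :=
  Check.check_sound
    (.node 2
    (.node 0
    (.node 1
    (.node 2
    (.leaf (lf 1024 0 0 227 126 (-223) 268 0 355 255 255 255))
    (.leaf (lf 1024 0 0 228 125 (-222) 245 0 324 255 255 255)))
    (.leaf (lf 1024 0 0 319 167 (-294) 346 0 452 255 255 255)))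
    (.node 1
    (.node 2
    (.leaf (lf 1024 0 0 228 128 (-223) 294 0 389 255 255 255))
    (.leaf (lf 1024 0 0 229 128 (-223) 268 0 354 255 255 255)))
    (.leaf (lf 1024 0 0 320 167 (-290) 383 0 486 255 255 255))))
    (.node 0
    (.node 1
    (.leaf (lf 1024 0 0 230 124 (-221) 215 0 284 255 247 177))
    (.leaf (lf 1024 0 0 320 160 (-285) 295 0 371 255 255 255)))
    (.node 1
    (.leaf (lf 1024 0 0 232 127 (-222) 236 0 312 255 247 179))
    (.leaf (lf 1024 0 0 321 160 (-281) 326 0 399 255 255 255)))))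
    (by decide +kernel)

def goodS1X_15 :
    Check.Good noCone cfS1X (reach cfS1X ⟨litS1X, 1, fsS1X⟩
      [(2, true), (1, true), (1, false), (0, false), (2, false), (2, false), (2, false), (2, false), (2, false)]) :=
  Check.good_node (a := 0) (by decide +kernel)
    goodS1X_16 goodS1X_17

def goodS1X_11 :
    Check.Good noCone cfS1X (reach cfS1X ⟨litS1X, 1, fsS1X⟩
      [(1, true), (1, false), (0, false), (2, false), (2, false), (2, false), (2, false), (2, false)]) :=
  Check.good_node (a := 2) (by decide +kernel)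
    goodS1X_12 goodS1X_15

def goodS1X_7 :
    Check.Good noCone cfS1X (reach cfS1X ⟨litS1X, 1, fsS1X⟩
      [(1, false), (0, false), (2, false), (2, false), (2, false), (2, false), (2, false)]) :=
  Check.good_node (a := 1) (by decide +kernel)
    goodS1X_8 goodS1X_11

def goodS1X_18 :
    Check.Good noCone cfS1X (reach cfS1X ⟨litS1X, 1, fsS1X⟩
      [(1, true), (0, false), (2, false), (2, false), (2, false), (2, false), (2, false)]) :=
  Check.check_sound
    (.node 2
    (.node 2
    (.node 1
    (.node 0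
    (.leaf (lf 836 0 0 483 307 (-470) 253 0 1024 255 211 202))
    (.leaf (lf 710 0 0 393 265 (-393) 326 0 1024 255 213 189)))
    (.node 0
    (.leaf (lf 600 0 (-203) 572 354 (-617) 0 0 1024 255 255 255))
    (.leaf (lf 519 0 0 570 323 (-358) (-182) 0 1024 255 255 255))))
    (.node 0
    (.node 1
    (.leaf (lf 1024 0 0 574 345 (-569) 279 0 967 255 217 182))
    (.leaf (lf 743 0 (-242) 711 401 (-784) 0 0 1024 255 255 255)))
    (.node 1
    (.leaf (lf 925 0 0 495 317 (-504) 372 0 1024 255 218 166))
    (.leaf (lf 637 0 0 697 365 (-466) (-162) 0 1024 255 255 255)))))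
    (.node 0
    (.node 1
    (.node 2
    (.leaf (lf 1024 0 0 561 323 (-556) 250 0 773 255 222 167))
    (.leaf (lf 16384 0 0 8823 4887 (-8667) 3605 0 10174 255 226 154)))
    (.node 2
    (.leaf (lf 899 0 (-277) 863 452 (-948) 0 0 1024 255 255 255))
    (.leaf (lf 986 0 (-283) 948 467 (-1024) 0 0 945 255 255 255))))
    (.node 1
    (.node 2
    (.leaf (lf 1024 0 0 537 327 (-544) 362 0 904 255 223 148))
    (.leaf (lf 1024 0 0 529 309 (-529) 321 0 742 255 226 140)))
    (.leaf (lf 840 0 0 904 438 (-635) (-124) 0 1024 255 255 255)))))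
    (by decide +kernel)

def goodS1X_6 :
    Check.Good noCone cfS1X (reach cfS1X ⟨litS1X, 1, fsS1X⟩
      [(0, false), (2, false), (2, false), (2, false), (2, false), (2, false)]) :=
  Check.good_node (a := 1) (by decide +kernel)
    goodS1X_7 goodS1X_18

def goodS1X_21 :
    Check.Good noCone cfS1X (reach cfS1X ⟨litS1X, 1, fsS1X⟩
      [(1, false), (1, false), (0, true), (2, false), (2, false), (2, false), (2, false), (2, false)]) :=
  Check.check_sound
    (.node 2
    (.node 1
    (.node 1
    (.node 0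
    (.leaf (lf 1024 0 0 25 130 (-211) 38 0 531 255 255 255))
    (.leaf (lf 1024 0 0 25 137 (-216) 45 0 640 255 255 255)))
    (.leaf (lf 1024 923 297 0 244 (-258) 0 0 810 187 177 255)))
    (.node 2
    (.node 0
    (.node 1
    (.leaf (lf 1024 0 0 119 122 (-202) 236 0 586 255 255 255))
    (.leaf (lf 1024 0 0 163 119 (-198) 336 0 576 255 255 255)))
    (.leaf (lf 614 1008 544 0 325 (-171) 0 0 1024 255 214 219)))
    (.node 0
    (.leaf (lf 603 1024 538 0 325 (-176) 0 0 693 255 218 211))
    (.leaf (lf 628 1024 536 0 335 (-183) 0 0 834 255 255 255)))))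
    (.node 1
    (.node 1
    (.leaf (lf 1024 0 0 26 139 (-224) 28 0 420 255 255 255))
    (.leaf (lf 1024 0 213 123 140 (-205) 0 0 431 255 255 255)))
    (.node 0
    (.node 0
    (.leaf (lf 600 1024 521 0 326 (-180) 0 0 497 255 224 229))
    (.leaf (lf 613 1024 518 0 332 (-184) 0 0 549 255 255 255)))
    (.leaf (lf 634 1024 513 0 340 (-189) 0 0 631 255 223 229)))))
    (by decide +kernel)

def goodS1X_24 :
    Check.Good noCone cfS1X (reach cfS1X ⟨litS1X, 1, fsS1X⟩
      [(2, false), (2, false), (1, true), (1, false), (0, true), (2, false), (2, false), (2, false), (2, false), (2, false)]) :=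
  Check.check_sound
    (.node 0
    (.node 0
    (.node 1
    (.node 2
    (.leaf (lf 1024 0 0 222 136 (-226) 515 0 683 255 255 255))
    (.leaf (lf 1024 0 0 224 134 (-225) 449 0 593 255 255 255)))
    (.leaf (lf 1024 0 0 319 192 (-310) 639 0 880 255 223 210)))
    (.node 1
    (.node 2
    (.leaf (lf 1024 0 0 223 138 (-226) 563 0 740 255 255 255))
    (.leaf (lf 1024 0 0 225 136 (-225) 490 0 644 255 255 255)))
    (.leaf (lf 1024 0 0 319 193 (-306) 703 0 945 255 223 211))))
    (.node 0
    (.node 1
    (.node 2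
    (.leaf (lf 1024 0 0 224 140 (-225) 613 0 802 255 255 255))
    (.leaf (lf 1024 0 0 227 138 (-224) 534 0 697 255 255 255)))
    (.leaf (lf 1024 0 0 319 194 (-303) 771 0 1013 255 223 211)))
    (.node 1
    (.node 2
    (.leaf (lf 1024 0 0 225 142 (-225) 665 0 867 255 255 255))
    (.leaf (lf 1024 0 0 228 140 (-224) 580 0 754 255 255 255)))
    (.leaf (lf 966 0 0 301 184 (-283) 795 0 1024 255 223 212)))))
    (by decide +kernel)

def goodS1X_25 :
    Check.Good noCone cfS1X (reach cfS1X ⟨litS1X, 1, fsS1X⟩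
      [(2, true), (2, false), (1, true), (1, false), (0, true), (2, false), (2, false), (2, false), (2, false), (2, false)]) :=
  Check.check_sound
    (.node 0
    (.node 0
    (.node 1
    (.node 2
    (.leaf (lf 1024 0 0 226 132 (-224) 397 0 524 255 255 255))
    (.leaf (lf 1024 0 0 228 131 (-224) 355 0 469 255 255 255)))
    (.leaf (lf 1024 0 0 319 178 (-296) 511 0 661 255 231 200)))
    (.node 1
    (.node 2
    (.leaf (lf 1024 0 0 228 135 (-224) 434 0 569 255 255 255))
    (.leaf (lf 1024 0 0 229 134 (-224) 388 0 510 255 255 255)))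
    (.leaf (lf 1024 0 0 319 179 (-293) 562 0 709 255 231 200))))
    (.node 0
    (.node 1
    (.node 2
    (.leaf (lf 1024 0 0 229 137 (-224) 472 0 617 255 255 255))
    (.leaf (lf 1024 0 0 231 136 (-224) 422 0 553 255 255 255)))
    (.leaf (lf 1024 0 0 319 180 (-289) 616 0 759 255 231 202)))
    (.node 1
    (.leaf (lf 16384 0 0 3724 2229 (-3574) 7649 0 10048 255 255 255))
    (.leaf (lf 1024 0 0 320 181 (-286) 673 0 813 255 232 203)))))
    (by decide +kernel)

def goodS1X_23 :
    Check.Good noCone cfS1X (reach cfS1X ⟨litS1X, 1, fsS1X⟩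
      [(2, false), (1, true), (1, false), (0, true), (2, false), (2, false), (2, false), (2, false), (2, false)]) :=
  Check.good_node (a := 2) (by decide +kernel)
    goodS1X_24 goodS1X_25

def goodS1X_27 :
    Check.Good noCone cfS1X (reach cfS1X ⟨litS1X, 1, fsS1X⟩
      [(0, false), (2, true), (1, true), (1, false), (0, true), (2, false), (2, false), (2, false), (2, false), (2, false)]) :=
  Check.check_sound
    (.node 2
    (.node 0
    (.node 1
    (.node 2
    (.leaf (lf 1024 0 0 230 131 (-223) 322 0 424 255 255 255))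
    (.leaf (lf 1024 0 0 231 130 (-223) 293 0 387 255 255 255)))
    (.leaf (lf 1024 0 0 320 168 (-286) 423 0 522 255 255 255)))
    (.node 1
    (.leaf (lf 1024 0 0 233 133 (-223) 332 0 439 255 255 255))
    (.leaf (lf 1024 0 0 321 169 (-282) 465 0 560 255 255 255))))
    (.node 0
    (.node 1
    (.leaf (lf 1024 0 0 234 130 (-222) 258 0 341 255 255 255))
    (.leaf (lf 1024 0 0 322 161 (-277) 359 0 429 255 255 255)))
    (.node 1
    (.leaf (lf 1024 0 0 236 132 (-223) 281 0 372 255 255 255))
    (.leaf (lf 1024 0 0 323 162 (-273) 394 0 460 255 255 255)))))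
    (by decide +kernel)

def goodS1X_28 :
    Check.Good noCone cfS1X (reach cfS1X ⟨litS1X, 1, fsS1X⟩
      [(0, true), (2, true), (1, true), (1, false), (0, true), (2, false), (2, false), (2, false), (2, false), (2, false)]) :=
  Check.check_sound
    (.node 2
    (.node 0
    (.node 1
    (.leaf (lf 1024 0 0 235 136 (-223) 361 0 477 255 255 255))
    (.leaf (lf 1024 0 0 322 170 (-278) 509 0 600 255 255 255)))
    (.node 1
    (.leaf (lf 1024 0 0 236 138 (-223) 392 0 516 255 255 255))
    (.leaf (lf 1024 0 0 323 171 (-275) 555 0 642 255 255 255))))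
    (.node 0
    (.node 1
    (.leaf (lf 1024 0 0 237 135 (-223) 305 0 404 255 255 255))
    (.leaf (lf 1024 0 0 324 163 (-270) 431 0 492 255 255 255)))
    (.node 1
    (.leaf (lf 1024 0 0 239 138 (-224) 331 0 438 255 255 255))
    (.leaf (lf 1024 0 0 326 164 (-267) 470 0 527 255 255 255)))))
    (by decide +kernel)

def goodS1X_26 :
    Check.Good noCone cfS1X (reach cfS1X ⟨litS1X, 1, fsS1X⟩
      [(2, true), (1, true), (1, false), (0, true), (2, false), (2, false), (2, false), (2, false), (2, false)]) :=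
  Check.good_node (a := 0) (by decide +kernel)
    goodS1X_27 goodS1X_28

def goodS1X_22 :
    Check.Good noCone cfS1X (reach cfS1X ⟨litS1X, 1, fsS1X⟩
      [(1, true), (1, false), (0, true), (2, false), (2, false), (2, false), (2, false), (2, false)]) :=
  Check.good_node (a := 2) (by decide +kernel)
    goodS1X_23 goodS1X_26

def goodS1X_20 :
    Check.Good noCone cfS1X (reach cfS1X ⟨litS1X, 1, fsS1X⟩
      [(1, false), (0, true), (2, false), (2, false), (2, false), (2, false), (2, false)]) :=
  Check.good_node (a := 1) (by decide +kernel)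
    goodS1X_21 goodS1X_22

def goodS1X_29 :
    Check.Good noCone cfS1X (reach cfS1X ⟨litS1X, 1, fsS1X⟩
      [(1, true), (0, true), (2, false), (2, false), (2, false), (2, false), (2, false)]) :=
  Check.check_sound
    (.node 2
    (.node 2
    (.node 1
    (.node 0
    (.leaf (lf 612 0 0 327 232 (-333) 386 0 1024 255 201 168))
    (.leaf (lf 532 0 0 278 205 (-284) 434 0 1024 255 198 164)))
    (.leaf (lf 387 0 0 395 266 (-281) (-28) 0 1024 255 255 255)))
    (.node 1
    (.node 0
    (.leaf (lf 799 0 0 414 277 (-427) 436 0 1024 255 205 152))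
    (.leaf (lf 697 0 0 352 245 (-364) 490 0 1024 255 202 152)))
    (.leaf (lf 474 0 0 478 300 (-365) 0 0 1024 255 255 255))))
    (.node 1
    (.node 0
    (.node 2
    (.leaf (lf 1006 0 0 510 324 (-522) 477 0 1024 255 224 151))
    (.leaf (lf 1024 0 0 513 311 (-515) 427 0 854 255 229 145)))
    (.node 2
    (.leaf (lf 880 0 0 436 286 (-445) 535 0 1024 255 208 144))
    (.leaf (lf 1024 0 0 502 313 (-501) 544 0 973 255 213 139))))
    (.leaf (lf 628 0 0 617 361 (-497) 43 0 1024 255 255 255))))
    (by decide +kernel)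

def goodS1X_19 :
    Check.Good noCone cfS1X (reach cfS1X ⟨litS1X, 1, fsS1X⟩
      [(0, true), (2, false), (2, false), (2, false), (2, false), (2, false)]) :=
  Check.good_node (a := 1) (by decide +kernel)
    goodS1X_20 goodS1X_29

def goodS1X_5 :
    Check.Good noCone cfS1X (reach cfS1X ⟨litS1X, 1, fsS1X⟩
      [(2, false), (2, false), (2, false), (2, false), (2, false)]) :=
  Check.good_node (a := 0) (by decide +kernel)
    goodS1X_6 goodS1X_19

def goodS1X_34 :
    Check.Good noCone cfS1X (reach cfS1X ⟨litS1X, 1, fsS1X⟩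
      [(1, false), (1, false), (1, false), (0, false), (2, true), (2, false), (2, false), (2, false), (2, false)]) :=
  Check.check_sound
    (.node 1
    (.node 2
    (.leaf (lf 1024 0 0 25 122 (-211) 16 0 211 252 255 195))
    (.leaf (lf 1024 0 0 25 122 (-210) 13 0 168 255 255 255)))
    (.node 2
    (.leaf (lf 1024 0 232 122 123 (-191) 0 0 218 239 255 229))
    (.leaf (lf 16384 0 0 1180 1916 (-3314) 619 0 2654 255 225 164))))
    (by decide +kernel)

def goodS1X_35 :
    Check.Good noCone cfS1X (reach cfS1X ⟨litS1X, 1, fsS1X⟩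
      [(1, true), (1, false), (1, false), (0, false), (2, true), (2, false), (2, false), (2, false), (2, false)]) :=
  Check.check_sound
    (.node 2
    (.node 0
    (.node 0
    (.node 1
    (.leaf (lf 1024 0 0 117 107 (-194) 71 0 167 255 255 255))
    (.leaf (lf 1024 0 0 161 105 (-191) 101 0 164 255 255 255)))
    (.node 1
    (.leaf (lf 1024 0 0 118 113 (-201) 78 0 190 255 255 255))
    (.leaf (lf 1024 0 0 164 109 (-196) 110 0 186 255 255 255))))
    (.node 0
    (.node 1
    (.leaf (lf 1024 0 0 120 118 (-207) 85 0 214 255 255 255))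
    (.leaf (lf 1024 0 0 166 114 (-201) 120 0 209 255 255 255)))
    (.leaf (lf 587 1024 526 0 324 (-180) 0 0 345 255 224 218))))
    (.node 0
    (.node 0
    (.node 1
    (.leaf (lf 1024 0 0 114 106 (-191) 59 0 132 255 255 255))
    (.leaf (lf 1024 0 0 158 103 (-187) 83 0 129 255 255 255)))
    (.node 1
    (.leaf (lf 1024 0 0 117 112 (-199) 64 0 151 255 255 255))
    (.leaf (lf 1024 0 0 162 108 (-194) 90 0 147 255 255 255))))
    (.node 0
    (.leaf (lf 570 1024 547 0 319 (-172) 0 0 250 255 222 209))
    (.leaf (lf 1024 0 0 145 128 (-222) 91 0 201 255 243 187)))))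
    (by decide +kernel)

def goodS1X_33 :
    Check.Good noCone cfS1X (reach cfS1X ⟨litS1X, 1, fsS1X⟩
      [(1, false), (1, false), (0, false), (2, true), (2, false), (2, false), (2, false), (2, false)]) :=
  Check.good_node (a := 1) (by decide +kernel)
    goodS1X_34 goodS1X_35

def goodS1X_38 :
    Check.Good noCone cfS1X (reach cfS1X ⟨litS1X, 1, fsS1X⟩
      [(0, false), (2, false), (1, true), (1, false), (0, false), (2, true), (2, false), (2, false), (2, false), (2, false)]) :=
  Check.check_sound
    (.node 1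
    (.node 0
    (.node 2
    (.node 1
    (.leaf (lf 1024 0 0 203 106 (-195) 140 0 181 255 255 255))
    (.leaf (lf 1024 0 0 246 115 (-212) 171 0 197 255 255 255)))
    (.leaf (lf 1024 0 0 224 116 (-214) 138 0 175 255 253 158)))
    (.node 2
    (.leaf (lf 1024 0 0 228 120 (-218) 171 0 222 255 250 169))
    (.leaf (lf 1024 0 0 228 119 (-216) 152 0 194 255 253 162))))
    (.node 0
    (.node 2
    (.leaf (lf 1024 0 0 318 153 (-285) 208 0 267 255 255 255))
    (.leaf (lf 1024 0 0 316 149 (-277) 185 0 229 255 255 255)))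
    (.node 2
    (.leaf (lf 1024 0 0 319 154 (-281) 231 0 289 255 255 255))
    (.leaf (lf 1024 0 0 318 149 (-274) 206 0 249 255 255 255)))))
    (by decide +kernel)

def goodS1X_39 :
    Check.Good noCone cfS1X (reach cfS1X ⟨litS1X, 1, fsS1X⟩
      [(0, true), (2, false), (1, true), (1, false), (0, false), (2, true), (2, false), (2, false), (2, false), (2, false)]) :=
  Check.check_sound
    (.node 1
    (.node 0
    (.node 2
    (.leaf (lf 1024 0 0 231 123 (-220) 187 0 245 255 251 169))
    (.leaf (lf 1024 0 0 231 122 (-218) 166 0 215 255 253 163)))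
    (.node 2
    (.leaf (lf 1024 0 0 233 126 (-221) 205 0 269 255 255 255))
    (.leaf (lf 1024 0 0 234 125 (-220) 181 0 237 255 255 255))))
    (.node 0
    (.node 2
    (.leaf (lf 1024 0 0 320 154 (-277) 257 0 312 255 255 255))
    (.leaf (lf 1024 0 0 320 150 (-270) 228 0 269 255 255 255)))
    (.node 2
    (.leaf (lf 1024 0 0 322 155 (-273) 284 0 336 255 255 255))
    (.leaf (lf 1024 0 0 322 151 (-267) 251 0 290 255 255 255)))))
    (by decide +kernel)

def goodS1X_37 :
    Check.Good noCone cfS1X (reach cfS1X ⟨litS1X, 1, fsS1X⟩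
      [(2, false), (1, true), (1, false), (0, false), (2, true), (2, false), (2, false), (2, false), (2, false)]) :=
  Check.good_node (a := 0) (by decide +kernel)
    goodS1X_38 goodS1X_39

def goodS1X_40 :
    Check.Good noCone cfS1X (reach cfS1X ⟨litS1X, 1, fsS1X⟩
      [(2, true), (1, true), (1, false), (0, false), (2, true), (2, false), (2, false), (2, false), (2, false)]) :=
  Check.check_sound
    (.node 0
    (.node 1
    (.node 0
    (.node 2
    (.leaf (lf 1024 0 0 223 114 (-211) 125 0 154 255 255 153))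
    (.leaf (lf 1024 0 0 221 113 (-208) 114 0 137 254 255 145)))
    (.node 2
    (.leaf (lf 1024 0 0 227 118 (-214) 137 0 172 255 255 156))
    (.leaf (lf 1024 0 0 226 116 (-211) 125 0 154 253 255 151))))
    (.node 0
    (.node 2
    (.leaf (lf 1024 0 0 314 145 (-270) 167 0 200 255 255 255))
    (.leaf (lf 1024 0 0 312 141 (-264) 153 0 177 255 255 255)))
    (.node 2
    (.leaf (lf 1024 0 0 317 145 (-267) 186 0 217 255 255 255))
    (.leaf (lf 1024 0 0 315 142 (-261) 169 0 192 255 255 255)))))
    (.node 1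
    (.node 0
    (.node 2
    (.leaf (lf 1024 0 0 230 121 (-216) 149 0 191 255 255 255))
    (.leaf (lf 1024 0 0 230 120 (-215) 136 0 171 255 255 255)))
    (.node 2
    (.leaf (lf 1024 0 0 234 124 (-219) 163 0 210 255 255 255))
    (.leaf (lf 1024 0 0 233 124 (-218) 148 0 189 255 255 255))))
    (.node 0
    (.node 2
    (.leaf (lf 1024 0 0 320 146 (-264) 205 0 235 255 255 255))
    (.leaf (lf 1024 0 0 319 143 (-259) 186 0 208 255 255 255)))
    (.node 2
    (.leaf (lf 1024 0 0 323 147 (-261) 225 0 253 255 255 255))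
    (.leaf (lf 1024 0 0 322 144 (-257) 205 0 225 255 255 255))))))
    (by decide +kernel)

def goodS1X_36 :
    Check.Good noCone cfS1X (reach cfS1X ⟨litS1X, 1, fsS1X⟩
      [(1, true), (1, false), (0, false), (2, true), (2, false), (2, false), (2, false), (2, false)]) :=
  Check.good_node (a := 2) (by decide +kernel)
    goodS1X_37 goodS1X_40

def goodS1X_32 :
    Check.Good noCone cfS1X (reach cfS1X ⟨litS1X, 1, fsS1X⟩
      [(1, false), (0, false), (2, true), (2, false), (2, false), (2, false), (2, false)]) :=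
  Check.good_node (a := 1) (by decide +kernel)
    goodS1X_33 goodS1X_36

def goodS1X_42 :
    Check.Good noCone cfS1X (reach cfS1X ⟨litS1X, 1, fsS1X⟩
      [(2, false), (1, true), (0, false), (2, true), (2, false), (2, false), (2, false), (2, false)]) :=
  Check.check_sound
    (.node 0
    (.node 1
    (.node 2
    (.node 0
    (.leaf (lf 1024 0 0 547 290 (-532) 187 0 514 255 229 156))
    (.leaf (lf 1024 0 0 535 292 (-526) 226 0 557 255 230 143)))
    (.node 0
    (.leaf (lf 1024 0 0 539 279 (-518) 172 0 441 255 233 146))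
    (.leaf (lf 1024 0 0 528 280 (-512) 207 0 478 255 234 133))))
    (.node 2
    (.leaf (lf 1009 0 (-269) 972 454 (-1024) 0 0 828 255 148 255))
    (.leaf (lf 1024 0 (-251) 988 441 (-1011) 0 0 728 254 151 255))))
    (.node 1
    (.node 2
    (.leaf (lf 1024 0 0 522 294 (-514) 288 0 623 255 230 134))
    (.leaf (lf 1024 0 0 517 282 (-501) 260 0 534 255 233 129)))
    (.leaf (lf 976 0 0 1024 464 (-746) (-70) 0 890 255 255 255))))
    (by decide +kernel)

def goodS1X_43 :
    Check.Good noCone cfS1X (reach cfS1X ⟨litS1X, 1, fsS1X⟩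
      [(2, true), (1, true), (0, false), (2, true), (2, false), (2, false), (2, false), (2, false)]) :=
  Check.check_sound
    (.node 0
    (.node 1
    (.node 2
    (.node 0
    (.leaf (lf 1024 0 0 532 269 (-505) 160 0 384 255 236 139))
    (.leaf (lf 1024 0 0 522 271 (-499) 190 0 416 255 236 124)))
    (.node 0
    (.leaf (lf 1024 0 0 524 261 (-493) 149 0 338 255 255 255))
    (.leaf (lf 1024 0 0 516 262 (-488) 177 0 366 255 238 120))))
    (.node 2
    (.leaf (lf 911 0 0 1024 367 (-642) (-122) 0 541 255 137 185))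
    (.leaf (lf 1024 0 (-210) 989 408 (-949) 0 0 566 253 159 255))))
    (.node 1
    (.node 2
    (.leaf (lf 1024 0 0 513 272 (-488) 238 0 464 255 236 127))
    (.leaf (lf 1024 0 0 509 264 (-477) 219 0 409 255 238 125)))
    (.leaf (lf 1003 0 0 1024 443 (-759) (-28) 0 715 255 255 255))))
    (by decide +kernel)

def goodS1X_41 :
    Check.Good noCone cfS1X (reach cfS1X ⟨litS1X, 1, fsS1X⟩
      [(1, true), (0, false), (2, true), (2, false), (2, false), (2, false), (2, false)]) :=
  Check.good_node (a := 2) (by decide +kernel)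
    goodS1X_42 goodS1X_43

def goodS1X_31 :
    Check.Good noCone cfS1X (reach cfS1X ⟨litS1X, 1, fsS1X⟩
      [(0, false), (2, true), (2, false), (2, false), (2, false), (2, false)]) :=
  Check.good_node (a := 1) (by decide +kernel)
    goodS1X_32 goodS1X_41

def goodS1X_46 :
    Check.Good noCone cfS1X (reach cfS1X ⟨litS1X, 1, fsS1X⟩
      [(1, false), (1, false), (0, true), (2, true), (2, false), (2, false), (2, false), (2, false)]) :=
  Check.check_sound
    (.node 1
    (.node 2
    (.leaf (lf 1024 569 151 0 195 (-267) 0 0 393 255 255 255))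
    (.leaf (lf 1024 566 151 0 197 (-271) 0 0 319 255 255 255)))
    (.node 2
    (.node 0
    (.leaf (lf 611 1024 512 0 333 (-189) 0 0 402 255 222 216))
    (.leaf (lf 639 1024 503 0 345 (-199) 0 0 488 255 255 255)))
    (.node 0
    (.leaf (lf 612 1024 514 0 336 (-192) 0 0 326 255 224 211))
    (.leaf (lf 643 1024 500 0 349 (-205) 0 0 396 255 255 255)))))
    (by decide +kernel)

def goodS1X_48 :
    Check.Good noCone cfS1X (reach cfS1X ⟨litS1X, 1, fsS1X⟩
      [(2, false), (1, true), (1, false), (0, true), (2, true), (2, false), (2, false), (2, false), (2, false)]) :=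
  Check.check_sound
    (.node 0
    (.node 1
    (.node 0
    (.node 2
    (.leaf (lf 1024 0 0 235 129 (-222) 223 0 295 255 255 255))
    (.leaf (lf 1024 0 0 236 128 (-222) 197 0 260 255 255 255)))
    (.node 2
    (.leaf (lf 1024 0 0 237 132 (-223) 243 0 322 255 255 255))
    (.leaf (lf 1024 0 0 239 132 (-223) 215 0 284 255 255 255))))
    (.node 0
    (.node 2
    (.leaf (lf 1024 0 0 323 156 (-270) 312 0 362 255 255 255))
    (.leaf (lf 1024 0 0 325 152 (-264) 276 0 312 255 255 255)))
    (.node 2
    (.leaf (lf 1024 0 0 325 157 (-266) 342 0 388 255 255 255))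
    (.leaf (lf 1024 0 0 327 153 (-261) 302 0 334 255 255 255)))))
    (.node 1
    (.node 0
    (.node 2
    (.leaf (lf 1024 0 0 240 135 (-224) 264 0 351 255 255 255))
    (.leaf (lf 1024 0 0 241 135 (-224) 233 0 310 255 255 255)))
    (.node 2
    (.leaf (lf 1024 0 0 242 138 (-225) 286 0 381 255 255 255))
    (.leaf (lf 1024 0 0 244 138 (-225) 252 0 337 255 255 255))))
    (.node 0
    (.node 2
    (.leaf (lf 1024 0 0 327 158 (-263) 374 0 416 255 255 255))
    (.leaf (lf 1024 0 0 329 154 (-258) 329 0 358 255 255 255)))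
    (.node 2
    (.leaf (lf 1024 0 0 329 159 (-260) 407 0 445 255 255 255))
    (.leaf (lf 1024 0 0 331 155 (-255) 358 0 384 255 255 255))))))
    (by decide +kernel)

def goodS1X_49 :
    Check.Good noCone cfS1X (reach cfS1X ⟨litS1X, 1, fsS1X⟩
      [(2, true), (1, true), (1, false), (0, true), (2, true), (2, false), (2, false), (2, false), (2, false)]) :=
  Check.check_sound
    (.node 0
    (.node 1
    (.node 0
    (.node 2
    (.leaf (lf 1024 0 0 237 128 (-221) 177 0 231 255 255 255))
    (.leaf (lf 1024 0 0 237 127 (-220) 161 0 208 255 255 255)))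
    (.node 2
    (.leaf (lf 1024 0 0 240 131 (-223) 192 0 254 255 255 255))
    (.leaf (lf 1024 0 0 240 131 (-223) 174 0 229 255 255 255))))
    (.node 0
    (.node 2
    (.leaf (lf 1024 0 0 325 148 (-259) 247 0 273 255 255 255))
    (.leaf (lf 1024 0 0 326 145 (-254) 224 0 242 255 255 255)))
    (.node 2
    (.leaf (lf 1024 0 0 328 149 (-256) 270 0 293 255 255 255))
    (.leaf (lf 1024 0 0 329 146 (-252) 244 0 260 255 255 255)))))
    (.node 1
    (.node 0
    (.node 2
    (.leaf (lf 1024 0 0 242 135 (-225) 208 0 277 255 255 255))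
    (.leaf (lf 1024 0 0 243 135 (-225) 188 0 250 255 255 255)))
    (.leaf (lf 1024 0 0 247 138 (-226) 211 0 285 255 255 255)))
    (.node 0
    (.node 2
    (.leaf (lf 1024 0 0 331 150 (-253) 294 0 314 255 255 255))
    (.leaf (lf 1024 0 0 332 148 (-249) 266 0 279 255 255 255)))
    (.leaf (lf 1024 0 0 336 151 (-249) 300 0 316 255 255 255)))))
    (by decide +kernel)

def goodS1X_47 :
    Check.Good noCone cfS1X (reach cfS1X ⟨litS1X, 1, fsS1X⟩
      [(1, true), (1, false), (0, true), (2, true), (2, false), (2, false), (2, false), (2, false)]) :=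
  Check.good_node (a := 2) (by decide +kernel)
    goodS1X_48 goodS1X_49

def goodS1X_45 :
    Check.Good noCone cfS1X (reach cfS1X ⟨litS1X, 1, fsS1X⟩
      [(1, false), (0, true), (2, true), (2, false), (2, false), (2, false), (2, false)]) :=
  Check.good_node (a := 1) (by decide +kernel)
    goodS1X_46 goodS1X_47

def goodS1X_50 :
    Check.Good noCone cfS1X (reach cfS1X ⟨litS1X, 1, fsS1X⟩
      [(1, true), (0, true), (2, true), (2, false), (2, false), (2, false), (2, false)]) :=
  Check.check_sound
    (.node 2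
    (.node 1
    (.node 0
    (.node 2
    (.leaf (lf 1024 0 0 508 296 (-500) 380 0 716 255 232 139))
    (.leaf (lf 1024 0 0 505 283 (-486) 341 0 612 255 236 135)))
    (.node 2
    (.leaf (lf 1024 0 0 499 297 (-485) 481 0 814 255 218 134))
    (.leaf (lf 1024 0 0 497 284 (-471) 430 0 694 255 238 140))))
    (.leaf (lf 847 0 0 806 441 (-672) 91 0 1024 255 255 255)))
    (.node 0
    (.node 1
    (.node 2
    (.leaf (lf 1024 0 0 503 273 (-473) 309 0 531 255 239 133))
    (.leaf (lf 1024 0 0 500 264 (-462) 283 0 467 255 241 130)))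
    (.leaf (lf 1024 0 0 974 481 (-799) 73 0 884 255 255 255)))
    (.node 1
    (.node 2
    (.leaf (lf 1024 0 0 496 274 (-458) 388 0 602 255 241 137))
    (.leaf (lf 1024 0 0 495 265 (-446) 353 0 528 255 244 135)))
    (.leaf (lf 1010 0 0 907 493 (-795) 181 0 1024 255 255 255)))))
    (by decide +kernel)

def goodS1X_44 :
    Check.Good noCone cfS1X (reach cfS1X ⟨litS1X, 1, fsS1X⟩
      [(0, true), (2, true), (2, false), (2, false), (2, false), (2, false)]) :=
  Check.good_node (a := 1) (by decide +kernel)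
    goodS1X_45 goodS1X_50

def goodS1X_30 :
    Check.Good noCone cfS1X (reach cfS1X ⟨litS1X, 1, fsS1X⟩
      [(2, true), (2, false), (2, false), (2, false), (2, false)]) :=
  Check.good_node (a := 0) (by decide +kernel)
    goodS1X_31 goodS1X_44

def goodS1X_4 :
    Check.Good noCone cfS1X (reach cfS1X ⟨litS1X, 1, fsS1X⟩
      [(2, false), (2, false), (2, false), (2, false)]) :=
  Check.good_node (a := 2) (by decide +kernel)
    goodS1X_5 goodS1X_30

def goodS1X_55 :
    Check.Good noCone cfS1X (reach cfS1X ⟨litS1X, 1, fsS1X⟩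
      [(1, false), (1, false), (0, false), (1, false), (2, true), (2, false), (2, false), (2, false)]) :=
  Check.check_sound
    (.node 2
    (.node 1
    (.leaf (lf 1024 0 0 24 119 (-202) 10 0 123 255 243 210))
    (.node 0
    (.leaf (lf 1024 0 0 69 108 (-189) 29 0 105 255 255 255))
    (.leaf (lf 1024 0 0 73 122 (-209) 33 0 138 255 255 255))))
    (.node 1
    (.leaf (lf 1024 0 0 23 112 (-189) 8 0 88 255 233 187))
    (.node 0
    (.leaf (lf 1024 0 0 64 100 (-173) 24 0 73 255 255 255))
    (.leaf (lf 1024 0 0 69 116 (-198) 27 0 100 255 255 255)))))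
    (by decide +kernel)

def goodS1X_56 :
    Check.Good noCone cfS1X (reach cfS1X ⟨litS1X, 1, fsS1X⟩
      [(1, true), (1, false), (0, false), (1, false), (2, true), (2, false), (2, false), (2, false)]) :=
  Check.check_sound
    (.node 2
    (.node 0
    (.node 2
    (.node 0
    (.node 1
    (.leaf (lf 1024 0 0 111 103 (-186) 51 0 107 255 255 255))
    (.leaf (lf 1024 0 0 155 100 (-182) 71 0 105 255 255 255)))
    (.node 1
    (.leaf (lf 1024 0 0 115 110 (-195) 55 0 123 255 255 255))
    (.leaf (lf 1024 0 0 159 106 (-190) 77 0 120 255 255 255))))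
    (.node 0
    (.node 1
    (.leaf (lf 1024 0 0 108 99 (-178) 45 0 88 255 255 255))
    (.leaf (lf 1024 0 0 150 97 (-174) 63 0 86 255 255 255)))
    (.leaf (lf 1024 0 0 134 113 (-201) 58 0 108 255 250 167))))
    (.node 2
    (.node 0
    (.leaf (lf 1024 0 0 140 122 (-214) 71 0 148 255 245 177))
    (.leaf (lf 1024 0 0 143 127 (-221) 77 0 166 255 255 255)))
    (.node 0
    (.leaf (lf 1024 0 0 138 119 (-210) 63 0 124 255 250 168))
    (.leaf (lf 1024 0 0 141 126 (-218) 67 0 140 255 255 255)))))
    (.node 0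
    (.node 1
    (.leaf (lf 569 1024 649 0 262 (-126) 0 0 107 255 149 202))
    (.node 0
    (.leaf (lf 1024 0 0 143 91 (-160) 54 0 64 255 255 255))
    (.leaf (lf 1024 0 0 150 98 (-172) 58 0 76 255 255 255))))
    (.node 1
    (.leaf (lf 1024 0 0 115 113 (-193) 45 0 97 255 255 255))
    (.leaf (lf 473 1024 757 0 346 (-89) 0 0 151 255 137 211)))))
    (by decide +kernel)

def goodS1X_54 :
    Check.Good noCone cfS1X (reach cfS1X ⟨litS1X, 1, fsS1X⟩
      [(1, false), (0, false), (1, false), (2, true), (2, false), (2, false), (2, false)]) :=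
  Check.good_node (a := 1) (by decide +kernel)
    goodS1X_55 goodS1X_56

def goodS1X_59 :
    Check.Good noCone cfS1X (reach cfS1X ⟨litS1X, 1, fsS1X⟩
      [(0, false), (2, false), (1, true), (0, false), (1, false), (2, true), (2, false), (2, false), (2, false)]) :=
  Check.check_sound
    (.node 2
    (.node 1
    (.node 0
    (.node 2
    (.leaf (lf 1024 0 0 219 111 (-204) 106 0 123 252 255 144))
    (.leaf (lf 1024 0 0 216 109 (-201) 98 0 111 250 255 134)))
    (.node 2
    (.leaf (lf 1024 0 0 224 115 (-209) 115 0 138 255 255 255))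
    (.leaf (lf 1024 0 0 222 114 (-206) 107 0 125 255 255 255))))
    (.node 0
    (.node 2
    (.leaf (lf 1024 0 0 309 138 (-258) 141 0 157 255 255 255))
    (.leaf (lf 1024 0 0 305 135 (-252) 132 0 141 255 255 255)))
    (.node 2
    (.leaf (lf 1024 0 0 313 139 (-256) 156 0 171 255 255 255))
    (.leaf (lf 1024 0 0 311 136 (-251) 145 0 154 255 255 255)))))
    (.node 1
    (.node 0
    (.node 1
    (.leaf (lf 1024 0 0 191 97 (-175) 81 0 87 255 255 255))
    (.leaf (lf 1024 0 0 233 102 (-187) 98 0 92 255 255 255)))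
    (.node 1
    (.leaf (lf 1024 0 0 198 102 (-183) 87 0 99 255 255 255))
    (.leaf (lf 1024 0 0 240 106 (-192) 106 0 104 255 255 255))))
    (.node 0
    (.leaf (lf 1024 0 0 300 132 (-244) 119 0 122 255 248 170))
    (.leaf (lf 1024 0 0 307 133 (-244) 131 0 133 255 248 175)))))
    (by decide +kernel)

def goodS1X_60 :
    Check.Good noCone cfS1X (reach cfS1X ⟨litS1X, 1, fsS1X⟩
      [(0, true), (2, false), (1, true), (0, false), (1, false), (2, true), (2, false), (2, false), (2, false)]) :=
  Check.check_sound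
    (.node 2
    (.node 1
    (.node 0
    (.node 2
    (.leaf (lf 1024 0 0 229 119 (-213) 125 0 154 255 255 255))
    (.leaf (lf 1024 0 0 227 118 (-210) 116 0 140 255 255 255)))
    (.node 2
    (.leaf (lf 1024 0 0 233 123 (-216) 136 0 171 255 255 255))
    (.leaf (lf 1024 0 0 232 122 (-215) 126 0 156 255 255 255))))
    (.node 0
    (.leaf (lf 1024 0 0 318 139 (-252) 163 0 176 255 244 185))
    (.leaf (lf 1024 0 0 323 141 (-250) 179 0 190 255 244 187))))
    (.node 1
    (.node 0
    (.node 1
    (.leaf (lf 1024 0 0 203 108 (-191) 94 0 113 255 255 255))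
    (.leaf (lf 1024 0 0 246 110 (-196) 115 0 116 255 255 255)))
    (.node 1
    (.leaf (lf 1024 0 0 208 113 (-197) 102 0 127 255 255 255))
    (.leaf (lf 1024 0 0 252 114 (-200) 124 0 129 255 255 255))))
    (.node 0
    (.leaf (lf 1024 0 0 313 134 (-243) 143 0 145 255 248 177))
    (.leaf (lf 1024 0 0 319 136 (-242) 156 0 157 255 249 179)))))
    (by decide +kernel)

def goodS1X_58 :
    Check.Good noCone cfS1X (reach cfS1X ⟨litS1X, 1, fsS1X⟩
      [(2, false), (1, true), (0, false), (1, false), (2, true), (2, false), (2, false), (2, false)]) :=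
  Check.good_node (a := 0) (by decide +kernel)
    goodS1X_59 goodS1X_60

def goodS1X_62 :
    Check.Good noCone cfS1X (reach cfS1X ⟨litS1X, 1, fsS1X⟩
      [(0, false), (2, true), (1, true), (0, false), (1, false), (2, true), (2, false), (2, false), (2, false)]) :=
  Check.check_sound
    (.node 1
    (.node 2
    (.node 0
    (.node 1
    (.leaf (lf 1024 0 0 185 93 (-167) 73 0 72 255 255 255))
    (.leaf (lf 1024 0 0 225 98 (-178) 88 0 77 255 255 255)))
    (.node 1
    (.leaf (lf 1024 0 0 192 99 (-176) 79 0 83 255 255 255))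
    (.leaf (lf 1024 0 0 234 102 (-184) 95 0 87 255 255 255))))
    (.node 0
    (.node 1
    (.leaf (lf 1024 0 0 177 88 (-157) 67 0 60 255 255 255))
    (.leaf (lf 1024 0 0 216 94 (-169) 81 0 65 255 255 255)))
    (.node 1
    (.leaf (lf 1024 0 0 186 95 (-168) 72 0 70 255 255 255))
    (.leaf (lf 1024 0 0 226 98 (-175) 87 0 74 255 255 255)))))
    (.node 2
    (.node 0
    (.leaf (lf 1024 0 0 291 127 (-234) 108 0 102 255 252 165))
    (.leaf (lf 1024 0 0 299 128 (-234) 117 0 112 255 252 164)))
    (.node 0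
    (.leaf (lf 1024 0 0 280 123 (-224) 99 0 87 255 254 158))
    (.leaf (lf 1024 0 0 290 124 (-225) 107 0 95 254 255 155)))))
    (by decide +kernel)

def goodS1X_63 :
    Check.Good noCone cfS1X (reach cfS1X ⟨litS1X, 1, fsS1X⟩
      [(0, true), (2, true), (1, true), (0, false), (1, false), (2, true), (2, false), (2, false), (2, false)]) :=
  Check.check_sound
    (.node 1
    (.node 2
    (.node 0
    (.node 1
    (.leaf (lf 1024 0 0 199 105 (-185) 85 0 95 255 255 255))
    (.leaf (lf 1024 0 0 241 107 (-189) 103 0 98 255 255 255)))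
    (.leaf (lf 1024 0 0 227 118 (-206) 101 0 116 255 253 169)))
    (.node 0
    (.node 1
    (.leaf (lf 1024 0 0 194 101 (-177) 77 0 81 255 255 255))
    (.leaf (lf 1024 0 0 235 103 (-182) 94 0 83 255 255 255)))
    (.leaf (lf 16384 0 0 3554 1841 (-3205) 1465 0 1595 253 255 158))))
    (.node 2
    (.node 0
    (.leaf (lf 1024 0 0 307 130 (-234) 128 0 122 255 251 171))
    (.leaf (lf 1024 0 0 314 132 (-235) 139 0 133 255 252 171)))
    (.node 0
    (.leaf (lf 1024 0 0 299 126 (-226) 116 0 104 254 255 158))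
    (.leaf (lf 1024 0 0 308 128 (-227) 126 0 114 255 255 165)))))
    (by decide +kernel)

def goodS1X_61 :
    Check.Good noCone cfS1X (reach cfS1X ⟨litS1X, 1, fsS1X⟩
      [(2, true), (1, true), (0, false), (1, false), (2, true), (2, false), (2, false), (2, false)]) :=
  Check.good_node (a := 0) (by decide +kernel)
    goodS1X_62 goodS1X_63

def goodS1X_57 :
    Check.Good noCone cfS1X (reach cfS1X ⟨litS1X, 1, fsS1X⟩
      [(1, true), (0, false), (1, false), (2, true), (2, false), (2, false), (2, false)]) :=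
  Check.good_node (a := 2) (by decide +kernel)
    goodS1X_58 goodS1X_61

def goodS1X_53 :
    Check.Good noCone cfS1X (reach cfS1X ⟨litS1X, 1, fsS1X⟩
      [(0, false), (1, false), (2, true), (2, false), (2, false), (2, false)]) :=
  Check.good_node (a := 1) (by decide +kernel)
    goodS1X_54 goodS1X_57

def goodS1X_65 :
    Check.Good noCone cfS1X (reach cfS1X ⟨litS1X, 1, fsS1X⟩
      [(1, false), (0, true), (1, false), (2, true), (2, false), (2, false), (2, false)]) :=
  Check.check_sound
    (.node 1
    (.node 2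
    (.node 1
    (.leaf (lf 1024 0 0 26 145 (-234) 14 0 200 255 255 255))
    (.leaf (lf 1024 0 212 126 146 (-214) 0 0 206 255 255 255)))
    (.leaf (lf 1024 579 164 0 198 (-267) 0 0 182 255 255 255)))
    (.node 2
    (.node 2
    (.node 0
    (.leaf (lf 612 1024 522 0 337 (-192) 0 0 273 255 225 206))
    (.leaf (lf 1024 0 0 153 146 (-239) 100 0 240 255 255 255)))
    (.node 0
    (.leaf (lf 1024 0 0 147 135 (-228) 75 0 167 255 245 168))
    (.leaf (lf 1024 0 0 152 147 (-240) 86 0 205 255 255 255))))
    (.node 0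
    (.node 1
    (.leaf (lf 1024 0 0 122 128 (-213) 52 0 127 255 255 255))
    (.leaf (lf 1024 0 0 169 123 (-206) 73 0 123 255 255 255)))
    (.leaf (lf 639 1024 523 0 354 (-201) 0 0 230 255 224 220)))))
    (by decide +kernel)

def goodS1X_68 :
    Check.Good noCone cfS1X (reach cfS1X ⟨litS1X, 1, fsS1X⟩
      [(2, false), (2, false), (1, true), (0, true), (1, false), (2, true), (2, false), (2, false), (2, false)]) :=
  Check.check_sound
    (.node 0
    (.node 1
    (.node 0
    (.node 2
    (.leaf (lf 1024 0 0 237 127 (-219) 147 0 189 255 255 255))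
    (.leaf (lf 1024 0 0 236 126 (-218) 136 0 173 255 255 255)))
    (.leaf (lf 1024 0 0 241 131 (-222) 152 0 198 255 246 186)))
    (.node 0
    (.leaf (lf 1024 0 0 327 142 (-248) 195 0 205 255 255 255))
    (.leaf (lf 1024 0 0 331 143 (-246) 213 0 221 255 245 190))))
    (.node 1
    (.node 0
    (.leaf (lf 1024 0 0 245 135 (-224) 164 0 217 255 255 255))
    (.leaf (lf 1024 0 0 248 138 (-227) 177 0 237 255 255 255)))
    (.node 0
    (.leaf (lf 1024 0 0 335 145 (-244) 231 0 238 255 255 255))
    (.leaf (lf 1024 0 0 338 146 (-243) 250 0 255 255 255 255)))))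
    (by decide +kernel)

def goodS1X_69 :
    Check.Good noCone cfS1X (reach cfS1X ⟨litS1X, 1, fsS1X⟩
      [(2, true), (2, false), (1, true), (0, true), (1, false), (2, true), (2, false), (2, false), (2, false)]) :=
  Check.check_sound
    (.node 0
    (.node 1
    (.node 0
    (.leaf (lf 1024 0 0 236 125 (-216) 122 0 151 255 250 176))
    (.leaf (lf 1024 0 0 240 130 (-220) 131 0 168 255 255 255)))
    (.node 0
    (.leaf (lf 1024 0 0 324 138 (-241) 169 0 170 255 255 255))
    (.leaf (lf 1024 0 0 330 139 (-240) 184 0 184 255 255 255))))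
    (.node 1
    (.node 0
    (.leaf (lf 1024 0 0 244 134 (-224) 142 0 184 255 255 255))
    (.leaf (lf 1024 0 0 248 138 (-227) 152 0 202 255 255 255)))
    (.node 0
    (.leaf (lf 1024 0 0 334 141 (-239) 199 0 198 255 255 255))
    (.leaf (lf 1024 0 0 339 143 (-238) 215 0 213 255 255 255)))))
    (by decide +kernel)

def goodS1X_67 :
    Check.Good noCone cfS1X (reach cfS1X ⟨litS1X, 1, fsS1X⟩
      [(2, false), (1, true), (0, true), (1, false), (2, true), (2, false), (2, false), (2, false)]) :=
  Check.good_node (a := 2) (by decide +kernel)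
    goodS1X_68 goodS1X_69

def goodS1X_70 :
    Check.Good noCone cfS1X (reach cfS1X ⟨litS1X, 1, fsS1X⟩
      [(2, true), (1, true), (0, true), (1, false), (2, true), (2, false), (2, false), (2, false)]) :=
  Check.check_sound
    (.node 0
    (.node 1
    (.node 2
    (.node 0
    (.leaf (lf 1024 0 0 233 123 (-212) 108 0 130 255 253 168))
    (.leaf (lf 1024 0 0 238 128 (-217) 117 0 144 255 255 255)))
    (.node 0
    (.leaf (lf 1024 0 0 229 120 (-207) 98 0 112 253 255 159))
    (.leaf (lf 1024 0 0 235 126 (-213) 105 0 125 255 255 255))))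
    (.node 2
    (.node 0
    (.leaf (lf 1024 0 0 321 134 (-234) 150 0 144 255 255 255))
    (.leaf (lf 1024 0 0 327 136 (-234) 162 0 156 255 255 255)))
    (.node 0
    (.leaf (lf 1024 0 0 316 130 (-228) 136 0 124 254 255 166))
    (.leaf (lf 1024 0 0 323 132 (-229) 146 0 134 255 255 255)))))
    (.node 1
    (.node 2
    (.node 0
    (.leaf (lf 1024 0 0 243 133 (-222) 125 0 159 255 255 255))
    (.leaf (lf 1024 0 0 248 137 (-226) 134 0 175 255 255 255)))
    (.leaf (lf 1024 0 0 245 134 (-222) 116 0 146 255 251 159)))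
    (.node 2
    (.node 0
    (.leaf (lf 1024 0 0 333 138 (-234) 175 0 169 255 255 255))
    (.leaf (lf 1024 0 0 338 140 (-234) 189 0 182 255 255 255)))
    (.node 0
    (.leaf (lf 1024 0 0 330 135 (-229) 158 0 146 255 255 255))
    (.leaf (lf 1024 0 0 337 137 (-229) 169 0 158 255 255 255))))))
    (by decide +kernel)

def goodS1X_66 :
    Check.Good noCone cfS1X (reach cfS1X ⟨litS1X, 1, fsS1X⟩
      [(1, true), (0, true), (1, false), (2, true), (2, false), (2, false), (2, false)]) :=
  Check.good_node (a := 2) (by decide +kernel)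
    goodS1X_67 goodS1X_70

def goodS1X_64 :
    Check.Good noCone cfS1X (reach cfS1X ⟨litS1X, 1, fsS1X⟩
      [(0, true), (1, false), (2, true), (2, false), (2, false), (2, false)]) :=
  Check.good_node (a := 1) (by decide +kernel)
    goodS1X_65 goodS1X_66

def goodS1X_52 :
    Check.Good noCone cfS1X (reach cfS1X ⟨litS1X, 1, fsS1X⟩
      [(1, false), (2, true), (2, false), (2, false), (2, false)]) :=
  Check.good_node (a := 0) (by decide +kernel)
    goodS1X_53 goodS1X_64

def goodS1X_73 :
    Check.Good noCone cfS1X (reach cfS1X ⟨litS1X, 1, fsS1X⟩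
      [(2, false), (0, false), (1, true), (2, true), (2, false), (2, false), (2, false)]) :=
  Check.check_sound
    (.node 0
    (.node 2
    (.node 1
    (.node 1
    (.leaf (lf 1024 0 0 426 198 (-368) 159 0 229 255 240 186))
    (.leaf (lf 1024 0 0 598 281 (-527) 135 0 333 255 255 255)))
    (.node 2
    (.leaf (lf 1024 0 (-190) 989 395 (-917) 0 0 505 253 163 255))
    (.node 0
    (.leaf (lf 1024 0 (-229) 981 372 (-934) 0 0 430 234 127 255))
    (.leaf (lf 971 0 0 1024 371 (-686) (-52) 0 450 255 255 255)))))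
    (.node 1
    (.node 0
    (.leaf (lf 1024 0 0 500 515 0 123 (-206) 108 255 184 231))
    (.leaf (lf 1024 0 0 496 512 0 143 (-222) 118 255 175 236)))
    (.node 0
    (.node 1
    (.leaf (lf 1024 0 0 871 338 (-648) 27 0 340 255 255 255))
    (.leaf (lf 787 0 0 1024 541 0 (-124) (-229) 121 255 139 90)))
    (.leaf (lf 992 0 0 1024 365 (-686) (-34) 0 399 255 255 255)))))
    (.node 2
    (.node 1
    (.node 1
    (.leaf (lf 1024 0 0 427 197 (-356) 201 0 263 255 239 191))
    (.leaf (lf 1024 0 0 578 283 (-515) 191 0 387 255 255 255)))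
    (.leaf (lf 1024 0 0 1019 426 (-760) (-1) 0 590 255 255 255)))
    (.node 1
    (.node 1
    (.leaf (lf 1024 0 0 421 188 (-341) 176 0 215 255 244 182))
    (.leaf (lf 1024 0 0 566 269 (-495) 171 0 316 255 255 255)))
    (.leaf (lf 1024 0 0 994 405 (-743) 16 0 490 255 255 255)))))
    (by decide +kernel)

def goodS1X_74 :
    Check.Good noCone cfS1X (reach cfS1X ⟨litS1X, 1, fsS1X⟩
      [(2, true), (0, false), (1, true), (2, true), (2, false), (2, false), (2, false)]) :=
  Check.check_sound
    (.node 0
    (.node 1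
    (.node 2
    (.node 0
    (.leaf (lf 1024 0 0 483 496 0 114 (-173) 91 255 184 232))
    (.leaf (lf 1024 0 0 482 493 0 130 (-187) 99 255 176 236)))
    (.node 0
    (.leaf (lf 1024 0 0 466 479 0 107 (-147) 78 255 184 234))
    (.leaf (lf 1024 0 0 467 224 (-421) 121 0 181 255 243 120))))
    (.node 2
    (.node 0
    (.node 1
    (.leaf (lf 1024 0 0 843 324 (-627) 36 0 287 255 255 255))
    (.leaf (lf 807 0 0 1024 540 0 (-99) (-200) 104 255 140 81)))
    (.leaf (lf 1020 0 0 1024 360 (-689) (-17) 0 347 255 255 255)))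
    (.node 0
    (.node 1
    (.leaf (lf 1024 0 0 815 312 (-608) 42 0 246 255 255 255))
    (.node 2
    (.leaf (lf 937 0 (-383) 943 303 (-1024) 0 0 273 228 102 255))
    (.leaf (lf 975 0 (-376) 979 307 (-1024) 0 0 261 232 102 255))))
    (.leaf (lf 1024 0 0 998 348 (-674) (-3) 0 300 255 255 255)))))
    (.node 1
    (.node 2
    (.node 1
    (.leaf (lf 1024 0 0 413 181 (-328) 157 0 180 255 247 172))
    (.leaf (lf 1024 0 0 554 257 (-477) 156 0 265 255 255 255)))
    (.node 1
    (.leaf (lf 1024 0 0 404 174 (-317) 143 0 154 255 250 164))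
    (.leaf (lf 1024 0 0 541 248 (-461) 144 0 226 255 255 255))))
    (.leaf (lf 1024 0 89 1018 382 (-628) 0 0 382 255 222 252))))
    (by decide +kernel)

def goodS1X_72 :
    Check.Good noCone cfS1X (reach cfS1X ⟨litS1X, 1, fsS1X⟩
      [(0, false), (1, true), (2, true), (2, false), (2, false), (2, false)]) :=
  Check.good_node (a := 2) (by decide +kernel)
    goodS1X_73 goodS1X_74

def goodS1X_76 :
    Check.Good noCone cfS1X (reach cfS1X ⟨litS1X, 1, fsS1X⟩
      [(2, false), (0, true), (1, true), (2, true), (2, false), (2, false), (2, false)]) :=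
  Check.check_sound
    (.node 0
    (.node 2
    (.node 1
    (.node 1
    (.leaf (lf 1024 0 0 430 196 (-342) 247 0 299 255 239 194))
    (.leaf (lf 1024 0 0 565 283 (-499) 254 0 441 255 255 255)))
    (.leaf (lf 1024 0 0 950 452 (-782) 85 0 712 255 255 255)))
    (.node 1
    (.node 1
    (.leaf (lf 1024 0 0 427 187 (-328) 214 0 244 255 244 184))
    (.leaf (lf 1024 0 0 557 268 (-479) 223 0 360 255 255 255)))
    (.leaf (lf 1024 0 0 928 429 (-763) 91 0 589 255 255 255))))
    (.node 2
    (.node 1
    (.node 1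
    (.leaf (lf 1024 0 0 433 195 (-329) 299 0 336 255 239 196))
    (.leaf (lf 1024 0 0 556 283 (-482) 323 0 498 255 255 255)))
    (.leaf (lf 1024 0 0 898 469 (-786) 179 0 833 255 255 255)))
    (.node 1
    (.node 1
    (.leaf (lf 1024 0 0 433 186 (-316) 257 0 275 255 244 187))
    (.leaf (lf 1024 0 0 552 267 (-461) 281 0 405 255 255 255)))
    (.leaf (lf 1024 0 0 879 444 (-765) 172 0 687 255 255 255)))))
    (by decide +kernel)

def goodS1X_77 :
    Check.Good noCone cfS1X (reach cfS1X ⟨litS1X, 1, fsS1X⟩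
      [(2, true), (0, true), (1, true), (2, true), (2, false), (2, false), (2, false)]) :=
  Check.check_sound
    (.node 0
    (.node 1
    (.node 2
    (.node 1
    (.leaf (lf 1024 0 0 422 179 (-317) 190 0 205 255 255 255))
    (.leaf (lf 1024 0 0 549 257 (-461) 200 0 301 255 255 255)))
    (.node 1
    (.leaf (lf 1024 0 0 417 173 (-307) 172 0 175 255 250 172))
    (.leaf (lf 1024 0 0 540 247 (-446) 182 0 257 255 255 255))))
    (.leaf (lf 1024 0 0 899 402 (-730) 93 0 455 255 255 255)))
    (.node 1
    (.node 2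
    (.node 1
    (.leaf (lf 1024 0 0 431 178 (-305) 227 0 230 255 255 255))
    (.leaf (lf 1024 0 0 547 255 (-444) 249 0 338 255 255 255)))
    (.node 1
    (.leaf (lf 1024 0 0 428 172 (-296) 203 0 197 255 255 255))
    (.leaf (lf 1024 0 0 542 245 (-428) 225 0 288 255 255 255))))
    (.leaf (lf 1024 0 0 858 415 (-730) 158 0 529 255 255 255))))
    (by decide +kernel)

def goodS1X_75 :
    Check.Good noCone cfS1X (reach cfS1X ⟨litS1X, 1, fsS1X⟩
      [(0, true), (1, true), (2, true), (2, false), (2, false), (2, false)]) :=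
  Check.good_node (a := 2) (by decide +kernel)
    goodS1X_76 goodS1X_77

def goodS1X_71 :
    Check.Good noCone cfS1X (reach cfS1X ⟨litS1X, 1, fsS1X⟩
      [(1, true), (2, true), (2, false), (2, false), (2, false)]) :=
  Check.good_node (a := 0) (by decide +kernel)
    goodS1X_72 goodS1X_75

def goodS1X_51 :
    Check.Good noCone cfS1X (reach cfS1X ⟨litS1X, 1, fsS1X⟩
      [(2, true), (2, false), (2, false), (2, false)]) :=
  Check.good_node (a := 1) (by decide +kernel)
    goodS1X_52 goodS1X_71

def goodS1X_3 :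
    Check.Good noCone cfS1X (reach cfS1X ⟨litS1X, 1, fsS1X⟩
      [(2, false), (2, false), (2, false)]) :=
  Check.good_node (a := 2) (by decide +kernel)
    goodS1X_4 goodS1X_51

end

end Vale.Agent.P211.Cert.Interior.Data
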