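import Vale.Agent.P211.Cert.Interior.Data.S2Xr

/-!
P211, a part of a cell of the interior family (generated).
-/

namespace Vale.Agent.P211.Cert.Interior.Data

open Vale.Agent.P098.Check6 (ofChunks eqList reach St Cfg Face)
open Vale.Agent.P098.Cert6.Kron (RootPar parOK)

set_option linter.defProp false

noncomputable section

def goodS2X_73 :
    Check.Good noCone cfS2X (reach cfS2X ⟨litS2X, 1, fsS2X⟩
      [(0, false), (0, false), (1, false), (1, false), (2, true), (2, false)]) :=
  Check.check_sound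
    (.node 2
    (.node 1
    (.node 1
    (.leaf (lf 1024 0 0 21 110 (-161) 6 0 46 255 255 255))
    (.leaf (lf 926 1024 584 0 238 (-179) 0 0 73 255 255 255)))
    (.node 2
    (.node 1
    (.leaf (lf 1024 0 0 110 113 (-172) 35 0 55 255 255 255))
    (.node 2
    (.leaf (lf 1024 0 0 156 114 (-175) 51 0 59 255 255 255))
    (.leaf (lf 1024 0 0 148 105 (-160) 48 0 49 255 255 255))))
    (.node 1
    (.leaf (lf 1024 0 0 96 102 (-150) 32 0 40 255 255 255))
    (.leaf (lf 409 811 1024 0 300 1 0 0 80 255 131 242)))))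
    (.node 1
    (.leaf (lf 1024 0 0 30 150 (-204) 11 0 43 255 255 255))
    (.node 2
    (.node 1
    (.leaf (lf 1024 0 0 81 117 (-166) 30 0 38 255 255 255))
    (.leaf (lf 1024 0 0 112 120 (-171) 42 0 39 255 255 255)))
    (.leaf (lf 1024 0 0 78 173 (-234) 34 0 47 255 255 255)))))
    (by decide +kernel)

def goodS2X_74 :
    Check.Good noCone cfS2X (reach cfS2X ⟨litS2X, 1, fsS2X⟩
      [(0, true), (0, false), (1, false), (1, false), (2, true), (2, false)]) :=
  Check.check_sound
    (.node 2
    (.node 1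
    (.node 1
    (.leaf (lf 1024 0 0 25 135 (-195) 7 0 66 255 255 255))
    (.leaf (lf 1024 0 0 74 234 0 22 (-54) 37 231 176 255)))
    (.node 2
    (.node 1
    (.leaf (lf 1024 0 0 125 140 (-208) 39 0 79 255 255 255))
    (.leaf (lf 1024 0 0 174 134 (-200) 55 0 76 255 255 255)))
    (.node 1
    (.leaf (lf 1024 0 0 115 120 (-176) 35 0 55 255 255 255))
    (.leaf (lf 1024 0 0 159 116 (-171) 50 0 53 255 255 255)))))
    (.node 1
    (.node 1
    (.leaf (lf 1024 0 0 20 118 (-163) 6 0 40 255 255 255))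
    (.leaf (lf 1024 0 0 58 119 (-164) 19 0 40 255 255 255)))
    (.node 2
    (.node 1
    (.leaf (lf 1024 0 0 102 110 (-157) 33 0 42 255 255 255))
    (.leaf (lf 1024 0 0 142 109 (-157) 46 0 42 255 255 255)))
    (.node 1
    (.leaf (lf 1024 0 0 89 126 (-173) 31 0 40 255 255 255))
    (.leaf (lf 1024 0 0 123 128 (-178) 43 0 41 255 255 255))))))
    (by decide +kernel)

def goodS2X_72 :
    Check.Good noCone cfS2X (reach cfS2X ⟨litS2X, 1, fsS2X⟩
      [(0, false), (1, false), (1, false), (2, true), (2, false)]) :=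
  Check.good_node (a := 0) (by decide +kernel)
    goodS2X_73 goodS2X_74

def goodS2X_75 :
    Check.Good noCone cfS2X (reach cfS2X ⟨litS2X, 1, fsS2X⟩
      [(0, true), (1, false), (1, false), (2, true), (2, false)]) :=
  Check.check_sound
    (.node 0
    (.node 2
    (.node 1
    (.node 1
    (.leaf (lf 1024 0 0 27 164 (-231) 8 0 92 255 255 255))
    (.leaf (lf 1024 0 0 82 161 (-228) 24 0 91 255 255 255)))
    (.node 2
    (.leaf (lf 16384 0 0 2636 2726 (-3949) 842 0 1762 255 255 255))
    (.node 1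
    (.leaf (lf 1024 0 0 131 147 (-211) 39 0 78 255 255 255))
    (.leaf (lf 1024 0 0 181 141 (-203) 55 0 75 255 255 255)))))
    (.node 1
    (.leaf (lf 1024 694 316 0 204 (-211) 0 0 69 255 255 255))
    (.node 2
    (.node 1
    (.leaf (lf 1024 0 0 121 128 (-181) 36 0 56 255 255 255))
    (.leaf (lf 1024 0 0 168 123 (-175) 51 0 54 255 255 255)))
    (.node 1
    (.leaf (lf 1024 0 0 110 119 (-164) 34 0 44 255 255 255))
    (.leaf (lf 1024 0 0 153 118 (-163) 47 0 44 255 255 255))))))
    (.node 2
    (.node 1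
    (.leaf (lf 1024 0 0 60 197 (-271) 18 0 126 255 240 246))
    (.node 2
    (.leaf (lf 1024 0 0 177 194 (-273) 59 0 143 255 255 255))
    (.leaf (lf 1024 0 0 172 179 (-251) 52 0 107 255 255 255))))
    (.node 1
    (.leaf (lf 1024 624 249 0 223 (-240) 0 0 88 255 255 255))
    (.node 2
    (.leaf (lf 1024 0 0 164 160 (-223) 48 0 81 255 244 170))
    (.leaf (lf 1024 0 0 154 143 (-196) 44 0 61 255 253 160))))))
    (by decide +kernel)

def goodS2X_71 :
    Check.Good noCone cfS2X (reach cfS2X ⟨litS2X, 1, fsS2X⟩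
      [(1, false), (1, false), (2, true), (2, false)]) :=
  Check.good_node (a := 0) (by decide +kernel)
    goodS2X_72 goodS2X_75

def goodS2X_81 :
    Check.Good noCone cfS2X (reach cfS2X ⟨litS2X, 1, fsS2X⟩
      [(1, false), (0, false), (2, false), (0, false), (2, false), (1, true), (1, false), (2, true), (2, false)]) :=
  Check.check_sound
    (.node 2
    (.node 0
    (.node 0
    (.leaf (lf 1024 0 0 205 108 (-170) 70 0 53 246 255 153))
    (.leaf (lf 1024 0 0 213 112 (-175) 72 0 58 248 255 158)))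
    (.node 0
    (.leaf (lf 1024 0 0 221 116 (-182) 74 0 62 246 255 150))
    (.leaf (lf 1024 0 0 228 121 (-188) 76 0 67 246 255 151))))
    (.node 0
    (.node 0
    (.node 1
    (.leaf (lf 1024 0 0 173 94 (-146) 60 0 41 255 255 255))
    (.leaf (lf 1024 0 0 209 94 (-147) 73 0 42 255 255 255)))
    (.leaf (lf 1024 0 0 200 107 (-165) 68 0 49 244 255 152)))
    (.node 0
    (.leaf (lf 1024 0 0 209 110 (-170) 70 0 53 245 255 153))
    (.leaf (lf 1024 0 0 217 114 (-176) 72 0 57 244 255 150)))))
    (by decide +kernel)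

def goodS2X_82 :
    Check.Good noCone cfS2X (reach cfS2X ⟨litS2X, 1, fsS2X⟩
      [(1, true), (0, false), (2, false), (0, false), (2, false), (1, true), (1, false), (2, true), (2, false)]) :=
  Check.check_sound
    (.node 2
    (.node 0
    (.node 0
    (.node 2
    (.leaf (lf 1024 0 0 284 111 (-179) 99 0 58 255 255 255))
    (.leaf (lf 1024 0 0 275 110 (-176) 96 0 54 255 255 255)))
    (.node 2
    (.leaf (lf 1024 0 0 295 113 (-181) 102 0 61 255 255 255))
    (.leaf (lf 1024 0 0 286 111 (-178) 99 0 57 255 255 255))))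
    (.node 0
    (.leaf (lf 1024 0 0 301 114 (-182) 104 0 62 245 255 153))
    (.leaf (lf 1024 0 0 311 117 (-184) 107 0 66 245 255 155))))
    (.node 0
    (.node 0
    (.node 1
    (.leaf (lf 1024 0 0 244 98 (-154) 86 0 44 255 255 255))
    (.leaf (lf 1024 0 0 278 107 (-170) 99 0 48 255 255 255)))
    (.node 1
    (.leaf (lf 1024 0 0 255 99 (-155) 89 0 46 255 255 255))
    (.leaf (lf 1024 0 0 291 106 (-168) 102 0 50 255 255 255))))
    (.node 0
    (.leaf (lf 16384 0 0 4555 1781 (-2804) 1567 0 868 243 255 151))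
    (.leaf (lf 1024 0 0 296 113 (-176) 101 0 57 244 255 152)))))
    (by decide +kernel)

def goodS2X_80 :
    Check.Good noCone cfS2X (reach cfS2X ⟨litS2X, 1, fsS2X⟩
      [(0, false), (2, false), (0, false), (2, false), (1, true), (1, false), (2, true), (2, false)]) :=
  Check.good_node (a := 1) (by decide +kernel)
    goodS2X_81 goodS2X_82

def goodS2X_83 :
    Check.Good noCone cfS2X (reach cfS2X ⟨litS2X, 1, fsS2X⟩
      [(0, true), (2, false), (0, false), (2, false), (1, true), (1, false), (2, true), (2, false)]) :=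
  Check.check_sound
    (.node 1
    (.node 2
    (.node 1
    (.leaf (lf 1024 0 0 224 131 (-199) 74 0 80 255 255 255))
    (.leaf (lf 1024 0 0 271 124 (-189) 90 0 76 255 255 255)))
    (.node 1
    (.leaf (lf 1024 0 0 216 123 (-185) 69 0 66 255 255 255))
    (.leaf (lf 1024 0 0 261 116 (-176) 85 0 64 255 254 157))))
    (.node 2
    (.node 0
    (.node 0
    (.leaf (lf 1024 0 0 321 119 (-187) 110 0 70 245 255 153))
    (.leaf (lf 1024 0 0 330 122 (-190) 114 0 74 245 255 154)))
    (.node 0
    (.leaf (lf 1024 0 0 338 125 (-194) 118 0 79 244 255 155))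
    (.leaf (lf 1024 0 0 347 128 (-197) 122 0 84 255 255 255))))
    (.node 0
    (.node 0
    (.leaf (lf 1024 0 0 307 114 (-178) 104 0 60 242 255 150))
    (.leaf (lf 1024 0 0 317 117 (-181) 107 0 64 244 255 152)))
    (.node 0
    (.leaf (lf 1024 0 0 327 119 (-184) 110 0 67 243 255 147))
    (.leaf (lf 1024 0 0 336 122 (-187) 114 0 72 244 255 153))))))
    (by decide +kernel)

def goodS2X_79 :
    Check.Good noCone cfS2X (reach cfS2X ⟨litS2X, 1, fsS2X⟩
      [(2, false), (0, false), (2, false), (1, true), (1, false), (2, true), (2, false)]) :=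
  Check.good_node (a := 0) (by decide +kernel)
    goodS2X_80 goodS2X_83

def goodS2X_85 :
    Check.Good noCone cfS2X (reach cfS2X ⟨litS2X, 1, fsS2X⟩
      [(0, false), (2, true), (0, false), (2, false), (1, true), (1, false), (2, true), (2, false)]) :=
  Check.check_sound
    (.node 1
    (.node 2
    (.node 0
    (.node 0
    (.leaf (lf 1024 0 0 176 106 (-161) 63 0 42 245 255 153))
    (.leaf (lf 16384 0 0 2974 1696 (-2584) 1043 0 698 242 255 151)))
    (.node 0
    (.leaf (lf 1024 0 0 195 107 (-163) 67 0 46 242 255 150))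
    (.leaf (lf 1024 0 0 205 110 (-167) 69 0 49 241 255 148))))
    (.node 0
    (.node 0
    (.leaf (lf 1024 0 0 160 115 (-171) 61 0 41 255 255 255))
    (.leaf (lf 1024 0 0 171 112 (-167) 63 0 41 245 255 153)))
    (.node 0
    (.leaf (lf 1024 0 0 181 110 (-165) 64 0 43 243 255 151))
    (.leaf (lf 1024 0 0 191 110 (-164) 66 0 44 242 255 149)))))
    (.node 2
    (.node 0
    (.node 0
    (.leaf (lf 1024 0 0 240 116 (-180) 88 0 47 246 255 155))
    (.leaf (lf 1024 0 0 253 114 (-177) 91 0 48 244 255 153)))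
    (.node 0
    (.leaf (lf 1024 0 0 266 112 (-174) 93 0 49 242 255 148))
    (.leaf (lf 1024 0 0 279 112 (-173) 96 0 51 243 255 149))))
    (.node 0
    (.leaf (lf 1024 0 0 226 125 (-192) 86 0 47 244 255 150))
    (.node 0
    (.leaf (lf 1024 0 0 247 119 (-181) 90 0 47 243 255 152))
    (.leaf (lf 1024 0 0 260 116 (-177) 92 0 48 243 255 150))))))
    (by decide +kernel)

def goodS2X_86 :
    Check.Good noCone cfS2X (reach cfS2X ⟨litS2X, 1, fsS2X⟩
      [(0, true), (2, true), (0, false), (2, false), (1, true), (1, false), (2, true), (2, false)]) :=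
  Check.check_sound
    (.node 1
    (.node 2
    (.node 1
    (.leaf (lf 1024 0 0 207 114 (-171) 66 0 56 255 255 255))
    (.leaf (lf 1024 0 0 250 110 (-165) 80 0 54 252 255 144)))
    (.node 1
    (.leaf (lf 1024 0 0 197 108 (-160) 63 0 48 255 255 255))
    (.leaf (lf 1024 0 0 237 106 (-157) 77 0 47 249 255 143))))
    (.node 2
    (.node 0
    (.node 0
    (.leaf (lf 1024 0 0 291 112 (-173) 99 0 53 241 255 147))
    (.leaf (lf 16384 0 0 4832 1813 (-2787) 1626 0 891 241 255 147)))
    (.node 0
    (.leaf (lf 1024 0 0 313 115 (-176) 105 0 59 242 255 151))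
    (.leaf (lf 1024 0 0 323 117 (-178) 108 0 62 242 255 150))))
    (.node 0
    (.node 0
    (.leaf (lf 1024 0 0 273 114 (-174) 95 0 49 241 255 149))
    (.leaf (lf 1024 0 0 286 113 (-173) 97 0 51 241 255 147)))
    (.node 0
    (.leaf (lf 1024 0 0 298 114 (-172) 100 0 52 242 255 145))
    (.leaf (lf 1024 0 0 309 114 (-173) 103 0 55 239 255 146))))))
    (by decide +kernel)

def goodS2X_84 :
    Check.Good noCone cfS2X (reach cfS2X ⟨litS2X, 1, fsS2X⟩
      [(2, true), (0, false), (2, false), (1, true), (1, false), (2, true), (2, false)]) :=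
  Check.good_node (a := 0) (by decide +kernel)
    goodS2X_85 goodS2X_86

def goodS2X_78 :
    Check.Good noCone cfS2X (reach cfS2X ⟨litS2X, 1, fsS2X⟩
      [(0, false), (2, false), (1, true), (1, false), (2, true), (2, false)]) :=
  Check.good_node (a := 2) (by decide +kernel)
    goodS2X_79 goodS2X_84

def goodS2X_88 :
    Check.Good noCone cfS2X (reach cfS2X ⟨litS2X, 1, fsS2X⟩
      [(2, false), (0, true), (2, false), (1, true), (1, false), (2, true), (2, false)]) :=
  Check.check_sound
    (.node 0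
    (.node 1
    (.node 2
    (.leaf (lf 1024 0 0 271 157 (-231) 93 0 109 255 251 155))
    (.leaf (lf 1024 0 0 265 149 (-220) 86 0 93 255 254 144)))
    (.node 2
    (.node 0
    (.leaf (lf 1024 0 0 359 134 (-203) 127 0 92 249 255 160))
    (.leaf (lf 1024 0 0 373 141 (-210) 136 0 103 255 255 255)))
    (.node 0
    (.leaf (lf 16384 0 0 5598 2041 (-3088) 1901 0 1256 247 255 154))
    (.leaf (lf 1024 0 0 366 135 (-201) 126 0 88 249 255 153)))))
    (.node 1
    (.node 2
    (.leaf (lf 1024 0 0 290 177 (-252) 105 0 140 255 255 255))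
    (.leaf (lf 1024 0 0 287 171 (-244) 97 0 121 255 255 255)))
    (.node 2
    (.node 0
    (.leaf (lf 1024 0 0 386 148 (-217) 145 0 115 255 255 255))
    (.leaf (lf 1024 0 0 399 155 (-224) 155 0 129 255 255 255)))
    (.node 0
    (.leaf (lf 1024 0 0 381 142 (-208) 134 0 99 255 255 255))
    (.leaf (lf 1024 0 0 395 150 (-216) 143 0 111 255 255 255))))))
    (by decide +kernel)

def goodS2X_89 :
    Check.Good noCone cfS2X (reach cfS2X ⟨litS2X, 1, fsS2X⟩
      [(2, true), (0, true), (2, false), (1, true), (1, false), (2, true), (2, false)]) :=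
  Check.check_sound
    (.node 0
    (.node 1
    (.node 2
    (.leaf (lf 1024 0 0 258 142 (-207) 81 0 80 252 255 139))
    (.node 1
    (.leaf (lf 1024 0 0 226 129 (-187) 70 0 66 255 255 255))
    (.leaf (lf 1024 0 0 273 121 (-177) 85 0 62 255 255 255))))
    (.node 2
    (.node 0
    (.node 0
    (.leaf (lf 1024 0 0 334 120 (-181) 111 0 65 242 255 146))
    (.leaf (lf 1024 0 0 343 123 (-185) 114 0 69 243 255 146)))
    (.leaf (lf 1024 0 0 357 128 (-191) 119 0 76 246 255 151)))
    (.node 0
    (.node 0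
    (.leaf (lf 1024 0 0 321 116 (-174) 105 0 58 242 255 147))
    (.leaf (lf 1024 0 0 331 118 (-176) 108 0 61 241 255 147)))
    (.node 0
    (.leaf (lf 1024 0 0 342 121 (-179) 111 0 64 240 255 143))
    (.leaf (lf 1024 0 0 351 124 (-183) 114 0 68 255 255 255))))))
    (.node 1
    (.node 2
    (.leaf (lf 1024 0 0 282 164 (-233) 91 0 105 255 255 255))
    (.leaf (lf 1024 0 0 277 156 (-221) 86 0 91 252 255 139)))
    (.node 2
    (.node 0
    (.leaf (lf 1024 0 0 374 136 (-199) 126 0 86 246 255 152))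
    (.leaf (lf 1024 0 0 390 144 (-207) 133 0 97 255 255 255)))
    (.node 0
    (.leaf (lf 1024 0 0 366 130 (-189) 119 0 74 246 255 147))
    (.leaf (lf 1024 0 0 383 137 (-197) 126 0 84 245 255 150))))))
    (by decide +kernel)

def goodS2X_87 :
    Check.Good noCone cfS2X (reach cfS2X ⟨litS2X, 1, fsS2X⟩
      [(0, true), (2, false), (1, true), (1, false), (2, true), (2, false)]) :=
  Check.good_node (a := 2) (by decide +kernel)
    goodS2X_88 goodS2X_89

def goodS2X_77 :
    Check.Good noCone cfS2X (reach cfS2X ⟨litS2X, 1, fsS2X⟩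
      [(2, false), (1, true), (1, false), (2, true), (2, false)]) :=
  Check.good_node (a := 0) (by decide +kernel)
    goodS2X_78 goodS2X_87

def goodS2X_92 :
    Check.Good noCone cfS2X (reach cfS2X ⟨litS2X, 1, fsS2X⟩
      [(0, false), (0, false), (2, true), (1, true), (1, false), (2, true), (2, false)]) :=
  Check.check_sound
    (.node 2
    (.node 1
    (.node 2
    (.node 0
    (.leaf (lf 1024 0 0 151 128 (-187) 60 0 42 255 255 255))
    (.leaf (lf 1024 0 0 172 118 (-173) 63 0 42 245 255 150)))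
    (.leaf (lf 1024 0 0 149 142 (-203) 59 0 45 244 255 142)))
    (.node 2
    (.node 0
    (.leaf (lf 1024 0 0 205 142 (-213) 83 0 48 255 255 255))
    (.leaf (lf 1024 0 0 234 129 (-194) 88 0 47 246 255 152)))
    (.leaf (lf 1024 0 0 202 158 (-230) 82 0 51 246 255 141))))
    (.node 1
    (.leaf (lf 1024 0 0 126 184 (-252) 56 0 51 255 255 255))
    (.leaf (lf 1024 0 0 171 200 (-281) 78 0 56 255 255 255))))
    (by decide +kernel)

def goodS2X_93 :
    Check.Good noCone cfS2X (reach cfS2X ⟨litS2X, 1, fsS2X⟩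
      [(0, true), (0, false), (2, true), (1, true), (1, false), (2, true), (2, false)]) :=
  Check.check_sound
    (.node 2
    (.node 1
    (.node 2
    (.node 1
    (.leaf (lf 1024 0 0 186 107 (-155) 61 0 43 255 255 255))
    (.leaf (lf 1024 0 0 224 106 (-156) 74 0 43 246 255 139)))
    (.node 1
    (.leaf (lf 1024 0 0 174 111 (-159) 59 0 41 255 255 255))
    (.leaf (lf 1024 0 0 210 113 (-164) 72 0 42 244 255 144))))
    (.node 2
    (.node 0
    (.node 0
    (.leaf (lf 1024 0 0 254 122 (-183) 91 0 47 244 255 147))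
    (.leaf (lf 1024 0 0 268 119 (-178) 94 0 48 240 255 148)))
    (.node 0
    (.leaf (lf 1024 0 0 281 116 (-174) 96 0 49 239 255 146))
    (.leaf (lf 1024 0 0 294 115 (-172) 98 0 50 240 255 142))))
    (.node 0
    (.leaf (lf 1024 0 0 243 133 (-196) 89 0 48 243 255 144))
    (.leaf (lf 16384 0 0 4339 1978 (-2915) 1501 0 777 240 255 144)))))
    (.node 1
    (.node 1
    (.leaf (lf 1024 0 0 156 132 (-185) 56 0 43 255 255 255))
    (.leaf (lf 1024 0 0 188 138 (-194) 68 0 45 255 255 255)))
    (.node 2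
    (.node 0
    (.leaf (lf 1024 0 0 223 151 (-219) 87 0 50 255 255 255))
    (.leaf (lf 1024 0 0 253 136 (-198) 91 0 49 255 255 255)))
    (.leaf (lf 1024 0 0 223 166 (-236) 86 0 53 246 255 139)))))
    (by decide +kernel)

def goodS2X_91 :
    Check.Good noCone cfS2X (reach cfS2X ⟨litS2X, 1, fsS2X⟩
      [(0, false), (2, true), (1, true), (1, false), (2, true), (2, false)]) :=
  Check.good_node (a := 0) (by decide +kernel)
    goodS2X_92 goodS2X_93

def goodS2X_96 :
    Check.Good noCone cfS2X (reach cfS2X ⟨litS2X, 1, fsS2X⟩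
      [(0, false), (2, false), (0, true), (2, true), (1, true), (1, false), (2, true), (2, false)]) :=
  Check.check_sound
    (.node 1
    (.node 2
    (.node 1
    (.leaf (lf 1024 0 0 218 121 (-174) 67 0 56 255 255 255))
    (.leaf (lf 1024 0 0 263 115 (-167) 82 0 54 255 255 255)))
    (.node 1
    (.leaf (lf 1024 0 0 209 116 (-165) 64 0 49 255 255 255))
    (.leaf (lf 1024 0 0 252 112 (-161) 79 0 48 255 255 255))))
    (.node 2
    (.node 0
    (.node 0
    (.leaf (lf 1024 0 0 306 115 (-172) 101 0 52 239 255 142))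
    (.leaf (lf 1024 0 0 318 116 (-172) 104 0 54 240 255 142)))
    (.node 0
    (.leaf (lf 1024 0 0 329 118 (-173) 106 0 57 239 255 143))
    (.leaf (lf 1024 0 0 340 120 (-175) 109 0 60 239 255 144))))
    (.node 0
    (.node 0
    (.leaf (lf 1024 0 0 290 119 (-175) 97 0 49 240 255 141))
    (.leaf (lf 1024 0 0 303 118 (-173) 100 0 51 239 255 145)))
    (.node 0
    (.leaf (lf 1024 0 0 316 117 (-171) 102 0 52 237 255 140))
    (.leaf (lf 1024 0 0 328 118 (-171) 105 0 54 237 255 141))))))
    (by decide +kernel)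

def goodS2X_97 :
    Check.Good noCone cfS2X (reach cfS2X ⟨litS2X, 1, fsS2X⟩
      [(0, true), (2, false), (0, true), (2, true), (1, true), (1, false), (2, true), (2, false)]) :=
  Check.check_sound
    (.node 1
    (.node 2
    (.leaf (lf 1024 0 0 271 148 (-209) 82 0 79 250 255 135))
    (.node 1
    (.leaf (lf 1024 0 0 239 135 (-190) 71 0 66 255 255 255))
    (.leaf (lf 1024 0 0 288 127 (-179) 87 0 62 255 255 255))))
    (.node 2
    (.node 0
    (.leaf (lf 1024 0 0 356 124 (-180) 113 0 65 242 255 140))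
    (.leaf (lf 1024 0 0 376 131 (-188) 119 0 73 243 255 141)))
    (.node 0
    (.node 0
    (.leaf (lf 1024 0 0 339 119 (-172) 107 0 57 239 255 143))
    (.leaf (lf 1024 0 0 350 121 (-174) 110 0 59 238 255 139)))
    (.leaf (lf 1024 0 0 366 126 (-179) 114 0 65 242 255 142)))))
    (by decide +kernel)

def goodS2X_95 :
    Check.Good noCone cfS2X (reach cfS2X ⟨litS2X, 1, fsS2X⟩
      [(2, false), (0, true), (2, true), (1, true), (1, false), (2, true), (2, false)]) :=
  Check.good_node (a := 0) (by decide +kernel)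
    goodS2X_96 goodS2X_97

def goodS2X_98 :
    Check.Good noCone cfS2X (reach cfS2X ⟨litS2X, 1, fsS2X⟩
      [(2, true), (0, true), (2, true), (1, true), (1, false), (2, true), (2, false)]) :=
  Check.check_sound
    (.node 0
    (.node 1
    (.node 1
    (.leaf (lf 1024 0 0 194 117 (-163) 61 0 44 255 255 255))
    (.leaf (lf 4008 8927 16384 0 5359 2162 0 0 1625 255 135 252)))
    (.node 2
    (.node 0
    (.leaf (lf 1024 0 0 282 127 (-183) 95 0 49 240 255 140))
    (.node 0
    (.leaf (lf 1024 0 0 301 122 (-176) 99 0 50 255 255 255))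
    (.leaf (lf 1024 0 0 314 120 (-173) 101 0 51 237 255 141))))
    (.node 0
    (.leaf (lf 1024 0 0 265 140 (-200) 93 0 50 255 255 255))
    (.leaf (lf 1024 0 0 293 130 (-185) 97 0 50 239 255 141)))))
    (.node 1
    (.node 1
    (.leaf (lf 1024 0 0 228 126 (-173) 67 0 54 255 255 255))
    (.leaf (lf 1024 0 0 275 120 (-167) 82 0 52 255 254 172)))
    (.node 2
    (.node 0
    (.node 0
    (.leaf (lf 1024 0 0 326 120 (-172) 104 0 52 239 255 140))
    (.leaf (lf 1024 0 0 338 120 (-171) 106 0 54 237 255 139)))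
    (.node 0
    (.leaf (lf 1024 0 0 350 121 (-172) 109 0 57 238 255 142))
    (.leaf (lf 1024 0 0 361 123 (-174) 111 0 59 237 255 136))))
    (.node 0
    (.leaf (lf 1024 0 0 320 124 (-176) 101 0 51 238 255 134))
    (.leaf (lf 1024 0 0 344 123 (-172) 106 0 54 238 255 137))))))
    (by decide +kernel)

def goodS2X_94 :
    Check.Good noCone cfS2X (reach cfS2X ⟨litS2X, 1, fsS2X⟩
      [(0, true), (2, true), (1, true), (1, false), (2, true), (2, false)]) :=
  Check.good_node (a := 2) (by decide +kernel)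
    goodS2X_95 goodS2X_98

def goodS2X_90 :
    Check.Good noCone cfS2X (reach cfS2X ⟨litS2X, 1, fsS2X⟩
      [(2, true), (1, true), (1, false), (2, true), (2, false)]) :=
  Check.good_node (a := 0) (by decide +kernel)
    goodS2X_91 goodS2X_94

def goodS2X_76 :
    Check.Good noCone cfS2X (reach cfS2X ⟨litS2X, 1, fsS2X⟩
      [(1, true), (1, false), (2, true), (2, false)]) :=
  Check.good_node (a := 2) (by decide +kernel)
    goodS2X_77 goodS2X_90

def goodS2X_70 :
    Check.Good noCone cfS2X (reach cfS2X ⟨litS2X, 1, fsS2X⟩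
      [(1, false), (2, true), (2, false)]) :=
  Check.good_node (a := 1) (by decide +kernel)
    goodS2X_71 goodS2X_76

def goodS2X_103 :
    Check.Good noCone cfS2X (reach cfS2X ⟨litS2X, 1, fsS2X⟩
      [(2, false), (0, false), (0, false), (2, false), (1, true), (2, true), (2, false)]) :=
  Check.check_sound
    (.node 1
    (.node 2
    (.node 0
    (.node 1
    (.node 0
    (.leaf (lf 1024 0 0 355 137 (-227) 123 0 71 255 255 255))
    (.leaf (lf 1024 0 0 368 136 (-223) 127 0 74 255 255 255)))
    (.leaf (lf 1024 0 0 447 190 (-323) 145 0 104 255 255 255)))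
    (.node 1
    (.node 0
    (.leaf (lf 1024 0 0 380 135 (-221) 131 0 76 255 255 255))
    (.leaf (lf 1024 0 0 391 134 (-218) 136 0 78 255 255 255)))
    (.leaf (lf 1024 0 0 472 185 (-312) 157 0 110 255 255 255))))
    (.node 0
    (.node 1
    (.leaf (lf 1024 0 0 338 138 (-224) 118 0 65 248 255 152))
    (.leaf (lf 1024 0 0 417 188 (-317) 138 0 92 255 255 255)))
    (.node 1
    (.node 0
    (.leaf (lf 1024 0 0 358 134 (-217) 124 0 67 255 255 255))
    (.leaf (lf 1024 0 0 371 132 (-213) 128 0 69 255 255 255)))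
    (.leaf (lf 1024 0 0 446 183 (-305) 148 0 97 255 255 255)))))
    (.node 2
    (.node 0
    (.leaf (lf 1024 0 0 653 318 (-575) 144 0 187 255 255 255))
    (.leaf (lf 1024 0 0 667 318 (-568) 161 0 201 255 255 255)))
    (.leaf (lf 1024 0 0 625 312 (-555) 147 0 170 255 241 130))))
    (by decide +kernel)

def goodS2X_104 :
    Check.Good noCone cfS2X (reach cfS2X ⟨litS2X, 1, fsS2X⟩
      [(2, true), (0, false), (0, false), (2, false), (1, true), (2, true), (2, false)]) :=
  Check.check_sound
    (.node 1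
    (.node 2
    (.node 0
    (.node 1
    (.leaf (lf 1024 0 0 312 142 (-228) 113 0 60 249 255 150))
    (.leaf (lf 1024 0 0 384 190 (-316) 132 0 84 255 255 255)))
    (.node 1
    (.leaf (lf 1024 0 0 343 136 (-216) 120 0 62 247 255 150))
    (.leaf (lf 1024 0 0 417 183 (-302) 142 0 87 255 255 255))))
    (.node 0
    (.node 1
    (.leaf (lf 1024 0 0 285 152 (-240) 109 0 58 255 255 255))
    (.leaf (lf 1024 0 0 350 197 (-321) 128 0 78 255 255 255)))
    (.node 1
    (.leaf (lf 1024 0 0 318 142 (-224) 115 0 59 246 255 144))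
    (.leaf (lf 1024 0 0 386 187 (-305) 136 0 81 255 255 255)))))
    (.node 2
    (.leaf (lf 16384 0 0 9296 4898 (-8649) 2292 0 2407 255 243 125))
    (.leaf (lf 1024 0 0 534 304 (-529) 141 0 135 255 245 126))))
    (by decide +kernel)

def goodS2X_102 :
    Check.Good noCone cfS2X (reach cfS2X ⟨litS2X, 1, fsS2X⟩
      [(0, false), (0, false), (2, false), (1, true), (2, true), (2, false)]) :=
  Check.good_node (a := 2) (by decide +kernel)
    goodS2X_103 goodS2X_104

def goodS2X_106 :
    Check.Good noCone cfS2X (reach cfS2X ⟨litS2X, 1, fsS2X⟩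
      [(2, false), (0, true), (0, false), (2, false), (1, true), (2, true), (2, false)]) :=
  Check.check_sound
    (.node 1
    (.node 2
    (.node 1
    (.node 0
    (.node 0
    (.leaf (lf 1024 0 0 403 134 (-216) 141 0 81 255 255 255))
    (.leaf (lf 1024 0 0 413 134 (-214) 146 0 84 255 255 255)))
    (.node 0
    (.leaf (lf 1024 0 0 423 134 (-213) 151 0 87 255 255 255))
    (.leaf (lf 1024 0 0 433 134 (-211) 156 0 90 255 255 255))))
    (.node 0
    (.leaf (lf 1024 0 0 495 182 (-301) 169 0 115 255 255 255))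
    (.leaf (lf 1024 0 0 516 178 (-290) 183 0 121 255 255 255))))
    (.node 1
    (.node 0
    (.node 0
    (.leaf (lf 1024 0 0 384 131 (-210) 132 0 71 255 255 255))
    (.leaf (lf 1024 0 0 396 130 (-208) 137 0 73 255 255 255)))
    (.node 0
    (.leaf (lf 1024 0 0 408 130 (-205) 141 0 75 255 255 255))
    (.leaf (lf 1024 0 0 419 130 (-204) 146 0 78 255 255 255))))
    (.node 0
    (.leaf (lf 1024 0 0 473 178 (-293) 160 0 101 255 255 255))
    (.leaf (lf 1024 0 0 498 173 (-281) 171 0 105 255 255 255)))))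
    (.node 2
    (.leaf (lf 1024 0 0 692 319 (-553) 188 0 223 255 240 140))
    (.leaf (lf 1024 0 0 663 309 (-536) 179 0 194 255 242 136))))
    (by decide +kernel)

def goodS2X_107 :
    Check.Good noCone cfS2X (reach cfS2X ⟨litS2X, 1, fsS2X⟩
      [(2, true), (0, true), (0, false), (2, false), (1, true), (2, true), (2, false)]) :=
  Check.check_sound
    (.node 1
    (.node 2
    (.node 1
    (.node 0
    (.node 0
    (.leaf (lf 1024 0 0 364 131 (-208) 126 0 64 255 255 255))
    (.leaf (lf 1024 0 0 377 129 (-204) 130 0 65 255 255 255)))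
    (.node 0
    (.leaf (lf 1024 0 0 391 128 (-201) 134 0 67 255 255 255))
    (.leaf (lf 1024 0 0 403 127 (-198) 138 0 69 243 255 151))))
    (.node 0
    (.leaf (lf 1024 0 0 448 176 (-289) 152 0 90 255 255 255))
    (.leaf (lf 1024 0 0 477 170 (-276) 162 0 94 255 255 255))))
    (.node 1
    (.node 0
    (.leaf (lf 1024 0 0 350 135 (-210) 122 0 60 246 255 147))
    (.node 0
    (.leaf (lf 1024 0 0 371 129 (-202) 128 0 61 255 255 255))
    (.leaf (lf 1024 0 0 385 127 (-197) 131 0 63 255 255 255))))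
    (.node 0
    (.leaf (lf 1024 0 0 421 178 (-289) 145 0 83 255 255 255))
    (.leaf (lf 1024 0 0 453 171 (-274) 155 0 85 255 255 255)))))
    (.node 2
    (.leaf (lf 1024 0 0 629 302 (-522) 172 0 171 255 243 131))
    (.leaf (lf 1024 0 0 593 297 (-510) 167 0 153 255 246 131))))
    (by decide +kernel)

def goodS2X_105 :
    Check.Good noCone cfS2X (reach cfS2X ⟨litS2X, 1, fsS2X⟩
      [(0, true), (0, false), (2, false), (1, true), (2, true), (2, false)]) :=
  Check.good_node (a := 2) (by decide +kernel)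
    goodS2X_106 goodS2X_107

def goodS2X_101 :
    Check.Good noCone cfS2X (reach cfS2X ⟨litS2X, 1, fsS2X⟩
      [(0, false), (2, false), (1, true), (2, true), (2, false)]) :=
  Check.good_node (a := 0) (by decide +kernel)
    goodS2X_102 goodS2X_105

def goodS2X_110 :
    Check.Good noCone cfS2X (reach cfS2X ⟨litS2X, 1, fsS2X⟩
      [(2, false), (0, false), (0, true), (2, false), (1, true), (2, true), (2, false)]) :=
  Check.check_sound
    (.node 1
    (.node 2
    (.node 1
    (.node 0
    (.leaf (lf 1024 0 0 448 136 (-211) 164 0 95 250 255 165))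
    (.leaf (lf 16384 0 0 7438 2194 (-3349) 2816 0 1646 249 255 169)))
    (.node 0
    (.leaf (lf 1024 0 0 536 175 (-280) 198 0 127 255 255 255))
    (.leaf (lf 1024 0 0 554 172 (-270) 213 0 133 255 255 255))))
    (.node 1
    (.node 0
    (.node 0
    (.leaf (lf 1024 0 0 430 130 (-202) 151 0 81 245 255 157))
    (.leaf (lf 1024 0 0 441 130 (-201) 156 0 83 255 255 255)))
    (.leaf (lf 1024 0 0 456 132 (-201) 163 0 88 247 255 159)))
    (.node 0
    (.leaf (lf 1024 0 0 521 169 (-270) 184 0 110 255 255 255))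
    (.leaf (lf 1024 0 0 543 166 (-260) 198 0 115 255 255 255)))))
    (.node 2
    (.leaf (lf 1024 0 0 718 317 (-529) 231 0 250 255 240 151))
    (.leaf (lf 1024 0 0 698 306 (-512) 216 0 217 255 242 144))))
    (by decide +kernel)

def goodS2X_111 :
    Check.Good noCone cfS2X (reach cfS2X ⟨litS2X, 1, fsS2X⟩
      [(2, true), (0, false), (0, true), (2, false), (1, true), (2, true), (2, false)]) :=
  Check.check_sound
    (.node 1
    (.node 2
    (.node 1
    (.node 0
    (.node 0
    (.leaf (lf 1024 0 0 416 126 (-196) 142 0 71 242 255 149))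
    (.leaf (lf 1024 0 0 427 126 (-194) 146 0 73 242 255 149)))
    (.node 0
    (.leaf (lf 1024 0 0 439 126 (-193) 151 0 75 242 255 148))
    (.leaf (lf 1024 0 0 449 127 (-192) 156 0 78 241 255 150))))
    (.node 0
    (.leaf (lf 1024 0 0 504 165 (-263) 173 0 97 255 255 255))
    (.leaf (lf 1024 0 0 529 161 (-252) 185 0 101 255 255 255))))
    (.node 1
    (.node 0
    (.node 0
    (.leaf (lf 1024 0 0 399 125 (-193) 135 0 64 241 255 147))
    (.leaf (lf 1024 0 0 412 124 (-190) 139 0 65 241 255 145)))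
    (.node 0
    (.leaf (lf 1024 0 0 425 123 (-188) 143 0 67 240 255 144))
    (.leaf (lf 1024 0 0 437 123 (-186) 147 0 69 240 255 145))))
    (.node 0
    (.leaf (lf 1024 0 0 484 164 (-260) 165 0 88 255 255 255))
    (.leaf (lf 1024 0 0 512 158 (-247) 176 0 90 255 255 255)))))
    (.node 2
    (.leaf (lf 1024 0 0 675 297 (-497) 205 0 191 255 244 142))
    (.leaf (lf 1024 0 0 648 290 (-485) 196 0 170 255 245 138))))
    (by decide +kernel)

def goodS2X_109 :
    Check.Good noCone cfS2X (reach cfS2X ⟨litS2X, 1, fsS2X⟩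
      [(0, false), (0, true), (2, false), (1, true), (2, true), (2, false)]) :=
  Check.good_node (a := 2) (by decide +kernel)
    goodS2X_110 goodS2X_111

def goodS2X_113 :
    Check.Good noCone cfS2X (reach cfS2X ⟨litS2X, 1, fsS2X⟩
      [(2, false), (0, true), (0, true), (2, false), (1, true), (2, true), (2, false)]) :=
  Check.check_sound
    (.node 1
    (.node 2
    (.node 1
    (.node 0
    (.leaf (lf 1024 0 0 481 139 (-209) 189 0 111 249 255 169))
    (.leaf (lf 1024 0 0 495 142 (-209) 202 0 120 249 255 171)))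
    (.node 0
    (.leaf (lf 1024 0 0 571 170 (-262) 230 0 139 255 255 255))
    (.leaf (lf 1024 0 0 586 168 (-254) 247 0 146 255 255 255))))
    (.node 1
    (.node 0
    (.leaf (lf 1024 0 0 474 134 (-200) 174 0 95 247 255 161))
    (.leaf (lf 1024 0 0 491 136 (-201) 186 0 103 247 255 163)))
    (.node 0
    (.leaf (lf 1024 0 0 563 163 (-251) 212 0 120 255 255 255))
    (.leaf (lf 1024 0 0 581 161 (-243) 228 0 125 255 255 255)))))
    (.node 2
    (.leaf (lf 1024 0 0 742 315 (-505) 278 0 279 255 240 157))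
    (.leaf (lf 1024 0 0 730 303 (-487) 258 0 241 255 242 153))))
    (by decide +kernel)

def goodS2X_114 :
    Check.Good noCone cfS2X (reach cfS2X ⟨litS2X, 1, fsS2X⟩
      [(2, true), (0, true), (0, true), (2, false), (1, true), (2, true), (2, false)]) :=
  Check.check_sound
    (.node 1
    (.node 2
    (.node 1
    (.node 0
    (.node 0
    (.leaf (lf 1024 0 0 460 127 (-191) 161 0 81 242 255 152))
    (.leaf (lf 1024 0 0 470 128 (-191) 166 0 84 241 255 151)))
    (.leaf (lf 1024 0 0 485 131 (-192) 173 0 89 245 255 157)))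
    (.node 0
    (.leaf (lf 1024 0 0 552 157 (-242) 198 0 104 255 255 255))
    (.leaf (lf 1024 0 0 573 154 (-233) 212 0 108 255 255 255))))
    (.node 1
    (.node 0
    (.node 0
    (.leaf (lf 1024 0 0 448 123 (-185) 152 0 71 240 255 146))
    (.leaf (lf 1024 0 0 460 123 (-184) 156 0 74 240 255 147)))
    (.node 0
    (.leaf (lf 1024 0 0 470 124 (-183) 161 0 76 239 255 147))
    (.leaf (lf 1024 0 0 481 125 (-184) 165 0 79 240 255 145))))
    (.node 0
    (.leaf (lf 1024 0 0 538 153 (-235) 187 0 92 255 255 255))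
    (.leaf (lf 1024 0 0 563 149 (-225) 199 0 95 255 255 255)))))
    (.node 2
    (.leaf (lf 16384 0 0 11441 4681 (-7551) 3866 0 3377 255 244 149))
    (.node 0
    (.leaf (lf 1024 0 0 681 283 (-463) 221 0 181 255 250 138))
    (.leaf (lf 1024 0 0 705 281 (-450) 239 0 190 255 252 144)))))
    (by decide +kernel)

def goodS2X_112 :
    Check.Good noCone cfS2X (reach cfS2X ⟨litS2X, 1, fsS2X⟩
      [(0, true), (0, true), (2, false), (1, true), (2, true), (2, false)]) :=
  Check.good_node (a := 2) (by decide +kernel)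
    goodS2X_113 goodS2X_114

def goodS2X_108 :
    Check.Good noCone cfS2X (reach cfS2X ⟨litS2X, 1, fsS2X⟩
      [(0, true), (2, false), (1, true), (2, true), (2, false)]) :=
  Check.good_node (a := 0) (by decide +kernel)
    goodS2X_109 goodS2X_112

def goodS2X_100 :
    Check.Good noCone cfS2X (reach cfS2X ⟨litS2X, 1, fsS2X⟩
      [(2, false), (1, true), (2, true), (2, false)]) :=
  Check.good_node (a := 0) (by decide +kernel)
    goodS2X_101 goodS2X_108

def goodS2X_117 :
    Check.Good noCone cfS2X (reach cfS2X ⟨litS2X, 1, fsS2X⟩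
      [(0, false), (0, false), (2, true), (1, true), (2, true), (2, false)]) :=
  Check.check_sound
    (.node 2
    (.node 1
    (.node 2
    (.node 0
    (.node 1
    (.leaf (lf 1024 0 0 257 168 (-259) 105 0 58 255 255 255))
    (.leaf (lf 1024 0 0 315 208 (-333) 124 0 75 255 255 255)))
    (.node 1
    (.leaf (lf 1024 0 0 292 154 (-238) 111 0 58 255 255 255))
    (.leaf (lf 1024 0 0 354 196 (-314) 132 0 77 255 255 255))))
    (.node 0
    (.leaf (lf 1024 0 0 256 221 (-339) 111 0 71 253 255 165))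
    (.node 1
    (.leaf (lf 1024 0 0 266 171 (-259) 108 0 59 255 255 255))
    (.leaf (lf 1024 0 0 321 209 (-329) 128 0 75 255 255 255)))))
    (.node 2
    (.leaf (lf 1024 0 0 486 304 (-522) 139 0 123 255 248 128))
    (.leaf (lf 1024 0 0 437 309 (-520) 137 0 114 255 255 255))))
    (.node 1
    (.node 0
    (.leaf (lf 1024 0 0 211 260 (-381) 105 0 73 255 255 255))
    (.node 2
    (.leaf (lf 1024 0 0 265 225 (-340) 114 0 73 255 255 255))
    (.leaf (lf 1024 0 0 235 249 (-367) 111 0 74 255 255 255))))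
    (.node 0
    (.leaf (lf 1024 0 0 339 330 (-533) 129 0 102 255 255 255))
    (.leaf (lf 1024 0 0 379 318 (-520) 139 0 107 255 255 255)))))
    (by decide +kernel)

def goodS2X_118 :
    Check.Good noCone cfS2X (reach cfS2X ⟨litS2X, 1, fsS2X⟩
      [(0, true), (0, false), (2, true), (1, true), (2, true), (2, false)]) :=
  Check.check_sound
    (.node 2
    (.node 1
    (.node 2
    (.node 1
    (.node 0
    (.leaf (lf 1024 0 0 326 143 (-220) 118 0 58 247 255 150))
    (.leaf (lf 1024 0 0 358 134 (-206) 124 0 59 243 255 143)))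
    (.node 0
    (.leaf (lf 1024 0 0 391 185 (-295) 140 0 78 255 255 255))
    (.leaf (lf 1024 0 0 427 175 (-278) 149 0 80 255 255 255))))
    (.node 1
    (.node 0
    (.leaf (lf 1024 0 0 302 156 (-237) 114 0 58 255 255 255))
    (.leaf (lf 1024 0 0 336 144 (-218) 120 0 58 255 255 255)))
    (.leaf (lf 1024 0 0 386 192 (-302) 139 0 77 252 255 139))))
    (.node 2
    (.leaf (lf 1024 0 0 553 295 (-502) 163 0 138 255 246 131))
    (.leaf (lf 1024 0 0 512 296 (-498) 159 0 127 255 248 130))))
    (.node 1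
    (.node 2
    (.node 1
    (.node 0
    (.leaf (lf 1024 0 0 277 174 (-260) 111 0 60 255 255 255))
    (.leaf (lf 1024 0 0 313 158 (-236) 116 0 59 255 255 255)))
    (.leaf (lf 1024 0 0 356 206 (-318) 135 0 76 250 255 138)))
    (.node 1
    (.leaf (lf 1024 0 0 275 190 (-278) 110 0 63 246 255 141))
    (.leaf (lf 1024 0 0 325 225 (-341) 132 0 77 255 255 255))))
    (.node 2
    (.leaf (lf 1024 0 0 470 301 (-499) 156 0 119 255 250 134))
    (.leaf (lf 1024 0 0 427 309 (-505) 154 0 113 255 255 255)))))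
    (by decide +kernel)

def goodS2X_116 :
    Check.Good noCone cfS2X (reach cfS2X ⟨litS2X, 1, fsS2X⟩
      [(0, false), (2, true), (1, true), (2, true), (2, false)]) :=
  Check.good_node (a := 0) (by decide +kernel)
    goodS2X_117 goodS2X_118

def goodS2X_121 :
    Check.Good noCone cfS2X (reach cfS2X ⟨litS2X, 1, fsS2X⟩
      [(2, false), (0, false), (0, true), (2, true), (1, true), (2, true), (2, false)]) :=
  Check.check_sound
    (.node 1
    (.node 2
    (.node 1
    (.node 0
    (.node 0
    (.leaf (lf 1024 0 0 380 128 (-196) 130 0 59 255 255 255))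
    (.leaf (lf 1024 0 0 395 126 (-191) 133 0 60 255 255 255)))
    (.node 0
    (.leaf (lf 1024 0 0 409 124 (-187) 137 0 61 241 255 144))
    (.leaf (lf 1024 0 0 422 122 (-183) 141 0 63 241 255 149))))
    (.node 0
    (.leaf (lf 1024 0 0 461 166 (-261) 158 0 81 255 255 255))
    (.leaf (lf 1024 0 0 493 158 (-246) 168 0 82 255 255 255))))
    (.node 1
    (.node 0
    (.leaf (lf 1024 0 0 369 134 (-202) 126 0 58 241 255 140))
    (.node 0
    (.leaf (lf 1024 0 0 391 127 (-191) 132 0 58 255 255 255))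
    (.leaf (lf 1024 0 0 406 124 (-185) 135 0 59 241 255 147))))
    (.node 0
    (.leaf (lf 1024 0 0 437 172 (-268) 152 0 77 255 255 255))
    (.leaf (lf 1024 0 0 472 162 (-250) 161 0 77 255 255 255)))))
    (.node 2
    (.node 0
    (.leaf (lf 1024 0 0 597 285 (-480) 183 0 148 255 255 255))
    (.leaf (lf 1024 0 0 628 281 (-466) 197 0 155 255 251 135)))
    (.leaf (lf 1024 0 0 586 284 (-470) 183 0 140 255 248 135))))
    (by decide +kernel)

def goodS2X_122 :
    Check.Good noCone cfS2X (reach cfS2X ⟨litS2X, 1, fsS2X⟩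
      [(2, true), (0, false), (0, true), (2, true), (1, true), (2, true), (2, false)]) :=
  Check.check_sound
    (.node 1
    (.node 1
    (.node 2
    (.node 0
    (.leaf (lf 1024 0 0 348 145 (-215) 122 0 58 255 255 255))
    (.leaf (lf 1024 0 0 381 134 (-198) 129 0 57 242 255 146)))
    (.node 0
    (.leaf (lf 1024 0 0 327 161 (-236) 119 0 59 255 255 255))
    (.leaf (lf 1024 0 0 362 146 (-214) 125 0 58 255 255 255))))
    (.node 2
    (.node 0
    (.leaf (lf 1024 0 0 411 182 (-280) 148 0 75 255 255 255))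
    (.leaf (lf 1024 0 0 449 169 (-259) 156 0 75 255 255 255)))
    (.leaf (lf 1024 0 0 409 191 (-290) 147 0 75 251 255 139))))
    (.node 2
    (.leaf (lf 1024 0 0 551 286 (-468) 179 0 130 255 250 139))
    (.leaf (lf 1024 0 0 515 290 (-471) 175 0 122 255 251 141))))
    (by decide +kernel)

def goodS2X_120 :
    Check.Good noCone cfS2X (reach cfS2X ⟨litS2X, 1, fsS2X⟩
      [(0, false), (0, true), (2, true), (1, true), (2, true), (2, false)]) :=
  Check.good_node (a := 2) (by decide +kernel)
    goodS2X_121 goodS2X_122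

def goodS2X_124 :
    Check.Good noCone cfS2X (reach cfS2X ⟨litS2X, 1, fsS2X⟩
      [(2, false), (0, true), (0, true), (2, true), (1, true), (2, true), (2, false)]) :=
  Check.check_sound
    (.node 1
    (.node 2
    (.node 1
    (.node 0
    (.node 0
    (.leaf (lf 1024 0 0 435 121 (-181) 144 0 64 239 255 142))
    (.leaf (lf 1024 0 0 448 121 (-179) 148 0 66 239 255 143)))
    (.node 0
    (.leaf (lf 1024 0 0 460 121 (-177) 153 0 68 240 255 147))
    (.leaf (lf 1024 0 0 471 121 (-177) 157 0 70 238 255 143))))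
    (.node 0
    (.leaf (lf 1024 0 0 523 151 (-232) 178 0 84 246 255 152))
    (.leaf (lf 1024 0 0 550 146 (-220) 189 0 86 246 255 155))))
    (.node 1
    (.node 0
    (.node 0
    (.leaf (lf 1024 0 0 420 122 (-181) 139 0 59 239 255 143))
    (.leaf (lf 1024 0 0 434 120 (-177) 142 0 60 238 255 141)))
    (.node 0
    (.leaf (lf 1024 0 0 447 119 (-175) 146 0 62 238 255 143))
    (.leaf (lf 1024 0 0 460 119 (-173) 150 0 63 238 255 141))))
    (.node 0
    (.leaf (lf 1024 0 0 505 153 (-233) 170 0 78 255 255 255))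
    (.leaf (lf 1024 0 0 535 145 (-219) 180 0 78 245 255 145)))))
    (.node 2
    (.node 0
    (.leaf (lf 1024 0 0 658 277 (-452) 212 0 163 255 252 141))
    (.leaf (lf 1024 0 0 686 274 (-439) 227 0 170 255 253 142)))
    (.node 0
    (.leaf (lf 1024 0 0 632 273 (-445) 204 0 148 255 254 141))
    (.leaf (lf 1024 0 0 664 269 (-430) 218 0 154 255 254 144)))))
    (by decide +kernel)

def goodS2X_125 :
    Check.Good noCone cfS2X (reach cfS2X ⟨litS2X, 1, fsS2X⟩
      [(2, true), (0, true), (0, true), (2, true), (1, true), (2, true), (2, false)]) :=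
  Check.check_sound
    (.node 1
    (.node 1
    (.node 2
    (.node 0
    (.node 0
    (.leaf (lf 1024 0 0 404 127 (-187) 134 0 57 255 255 255))
    (.leaf (lf 1024 0 0 419 124 (-181) 137 0 57 238 255 141)))
    (.node 0
    (.leaf (lf 1024 0 0 433 121 (-176) 140 0 58 238 255 142))
    (.leaf (lf 1024 0 0 447 119 (-172) 144 0 59 239 255 144))))
    (.node 0
    (.leaf (lf 1024 0 0 395 135 (-195) 131 0 57 242 255 146))
    (.node 0
    (.leaf (lf 1024 0 0 418 127 (-183) 136 0 56 255 255 255))
    (.leaf (lf 1024 0 0 433 123 (-177) 139 0 56 237 255 139)))))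
    (.node 2
    (.node 0
    (.leaf (lf 1024 0 0 485 158 (-239) 164 0 74 255 255 255))
    (.leaf (lf 1024 0 0 519 148 (-222) 173 0 74 243 255 143)))
    (.node 0
    (.leaf (lf 1024 0 0 464 167 (-251) 159 0 73 255 255 255))
    (.leaf (lf 1024 0 0 500 155 (-230) 167 0 72 255 255 255)))))
    (.node 2
    (.node 0
    (.leaf (lf 1024 0 0 604 273 (-441) 197 0 136 255 254 141))
    (.leaf (lf 1024 0 0 640 267 (-425) 210 0 141 255 255 144)))
    (.node 0
    (.leaf (lf 1024 0 0 574 275 (-441) 192 0 127 255 255 255))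
    (.leaf (lf 1024 0 0 614 267 (-424) 204 0 131 254 255 146)))))
    (by decide +kernel)

def goodS2X_123 :
    Check.Good noCone cfS2X (reach cfS2X ⟨litS2X, 1, fsS2X⟩
      [(0, true), (0, true), (2, true), (1, true), (2, true), (2, false)]) :=
  Check.good_node (a := 2) (by decide +kernel)
    goodS2X_124 goodS2X_125

def goodS2X_119 :
    Check.Good noCone cfS2X (reach cfS2X ⟨litS2X, 1, fsS2X⟩
      [(0, true), (2, true), (1, true), (2, true), (2, false)]) :=
  Check.good_node (a := 0) (by decide +kernel)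
    goodS2X_120 goodS2X_123

def goodS2X_115 :
    Check.Good noCone cfS2X (reach cfS2X ⟨litS2X, 1, fsS2X⟩
      [(2, true), (1, true), (2, true), (2, false)]) :=
  Check.good_node (a := 0) (by decide +kernel)
    goodS2X_116 goodS2X_119

def goodS2X_99 :
    Check.Good noCone cfS2X (reach cfS2X ⟨litS2X, 1, fsS2X⟩
      [(1, true), (2, true), (2, false)]) :=
  Check.good_node (a := 2) (by decide +kernel)
    goodS2X_100 goodS2X_115

def goodS2X_69 :
    Check.Good noCone cfS2X (reach cfS2X ⟨litS2X, 1, fsS2X⟩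
      [(2, true), (2, false)]) :=
  Check.good_node (a := 1) (by decide +kernel)
    goodS2X_70 goodS2X_99

end

end Vale.Agent.P211.Cert.Interior.Data
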