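import Vale.Agent.P211.Cert.Interior.Data.S2Xr

/-!
P211, a part of a cell of the interior family (generated).
-/

namespace Vale.Agent.P211.Cert.Interior.Data

open Vale.Agent.P098.Check6 (ofChunks eqList reach St Cfg Face)
open Vale.Agent.P098.Cert6.Kron (RootPar parOK)

set_option linter.defProp false

noncomputable section

def goodS2X_129 :
    Check.Good noCone cfS2X (reach cfS2X ⟨litS2X, 1, fsS2X⟩
      [(1, false), (1, false), (2, false), (2, true)]) :=
  Check.check_sound
    (.node 2
    (.node 0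
    (.node 1
    (.leaf (lf 1024 0 0 25 243 (-302) 11 0 56 255 255 255))
    (.leaf (lf 1024 0 0 73 251 (-313) 32 0 58 255 255 255)))
    (.node 1
    (.node 1
    (.leaf (lf 1024 0 0 22 142 (-184) 6 0 45 255 255 255))
    (.leaf (lf 1024 0 0 65 143 (-186) 19 0 45 255 255 255)))
    (.node 0
    (.node 2
    (.leaf (lf 1024 0 0 117 144 (-193) 39 0 46 255 254 170))
    (.leaf (lf 1024 0 0 102 184 (-237) 37 0 51 255 255 255)))
    (.node 2
    (.node 1
    (.leaf (lf 1024 0 0 119 127 (-170) 35 0 47 255 255 255))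
    (.leaf (lf 1024 0 0 166 126 (-169) 49 0 47 255 255 255)))
    (.leaf (lf 1024 0 0 130 151 (-196) 40 0 49 255 255 255))))))
    (.node 0
    (.leaf (lf 1024 0 0 29 425 (-471) 19 0 76 255 255 255))
    (.node 1
    (.leaf (lf 1024 0 0 34 241 (-291) 12 0 59 255 255 255))
    (.leaf (lf 1024 0 0 101 250 (-303) 36 0 62 255 255 255)))))
    (by decide +kernel)

def goodS2X_131 :
    Check.Good noCone cfS2X (reach cfS2X ⟨litS2X, 1, fsS2X⟩
      [(0, false), (1, true), (1, false), (2, false), (2, true)]) :=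
  Check.check_sound
    (.node 0
    (.node 2
    (.leaf (lf 1024 0 0 100 321 (-406) 61 0 70 255 255 255))
    (.leaf (lf 1024 0 0 45 502 (-556) 55 0 84 255 255 255)))
    (.node 2
    (.node 2
    (.node 1
    (.leaf (lf 1024 0 0 145 191 (-256) 59 0 53 255 255 255))
    (.leaf (lf 1024 0 0 195 208 (-286) 83 0 59 255 255 255)))
    (.leaf (lf 1024 0 0 139 281 (-363) 67 0 69 255 255 255)))
    (.leaf (lf 1024 0 0 97 405 (-479) 62 0 81 255 255 255))))
    (by decide +kernel)

def goodS2X_133 :
    Check.Good noCone cfS2X (reach cfS2X ⟨litS2X, 1, fsS2X⟩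
      [(0, false), (0, true), (1, true), (1, false), (2, false), (2, true)]) :=
  Check.check_sound
    (.node 2
    (.node 2
    (.node 1
    (.leaf (lf 370 684 1024 0 397 35 0 0 102 255 135 229))
    (.node 2
    (.leaf (lf 16384 0 0 4244 2441 (-3421) 1471 0 842 241 255 134))
    (.leaf (lf 1024 0 0 248 173 (-239) 90 0 56 242 255 137))))
    (.node 1
    (.leaf (lf 1024 0 0 166 196 (-257) 62 0 56 255 255 255))
    (.leaf (lf 1024 0 0 223 215 (-287) 87 0 62 255 255 255))))
    (.leaf (lf 1024 0 0 154 326 (-402) 69 0 76 255 255 255)))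
    (by decide +kernel)

def goodS2X_134 :
    Check.Good noCone cfS2X (reach cfS2X ⟨litS2X, 1, fsS2X⟩
      [(0, true), (0, true), (1, true), (1, false), (2, false), (2, true)]) :=
  Check.check_sound
    (.node 2
    (.node 2
    (.node 1
    (.node 1
    (.leaf (lf 1024 0 0 210 125 (-169) 63 0 46 255 255 255))
    (.leaf (lf 1024 0 0 254 125 (-170) 77 0 47 255 255 255)))
    (.node 2
    (.node 0
    (.leaf (lf 1024 0 0 305 133 (-186) 99 0 51 238 255 143))
    (.leaf (lf 1024 0 0 332 127 (-176) 103 0 52 238 255 139)))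
    (.node 0
    (.leaf (lf 1024 0 0 291 147 (-202) 96 0 52 255 255 255))
    (.leaf (lf 1024 0 0 319 136 (-187) 100 0 52 237 255 137)))))
    (.node 1
    (.leaf (lf 1024 0 0 211 157 (-208) 67 0 51 251 255 157))
    (.node 2
    (.leaf (lf 1024 0 0 293 159 (-216) 96 0 55 239 255 134))
    (.leaf (lf 1024 0 0 278 179 (-240) 94 0 58 255 255 255)))))
    (.node 1
    (.leaf (lf 1024 0 0 180 233 (-291) 63 0 63 255 255 255))
    (.leaf (lf 1024 0 0 242 255 (-324) 88 0 70 255 255 255))))
    (by decide +kernel)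

def goodS2X_132 :
    Check.Good noCone cfS2X (reach cfS2X ⟨litS2X, 1, fsS2X⟩
      [(0, true), (1, true), (1, false), (2, false), (2, true)]) :=
  Check.good_node (a := 0) (by decide +kernel)
    goodS2X_133 goodS2X_134

def goodS2X_130 :
    Check.Good noCone cfS2X (reach cfS2X ⟨litS2X, 1, fsS2X⟩
      [(1, true), (1, false), (2, false), (2, true)]) :=
  Check.good_node (a := 0) (by decide +kernel)
    goodS2X_131 goodS2X_132

def goodS2X_128 :
    Check.Good noCone cfS2X (reach cfS2X ⟨litS2X, 1, fsS2X⟩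
      [(1, false), (2, false), (2, true)]) :=
  Check.good_node (a := 1) (by decide +kernel)
    goodS2X_129 goodS2X_130

def goodS2X_136 :
    Check.Good noCone cfS2X (reach cfS2X ⟨litS2X, 1, fsS2X⟩
      [(0, false), (1, true), (2, false), (2, true)]) :=
  Check.check_sound
    (.node 2
    (.node 0
    (.node 2
    (.node 1
    (.leaf (lf 1024 0 0 178 312 (-436) 103 0 79 255 255 255))
    (.leaf (lf 1024 0 0 275 367 (-564) 129 0 101 255 255 255)))
    (.leaf (lf 1024 0 0 167 428 (-589) 110 0 97 255 255 255)))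
    (.node 2
    (.node 1
    (.node 0
    (.leaf (lf 1024 0 0 236 270 (-387) 113 0 77 255 255 255))
    (.node 1
    (.leaf (lf 1024 0 0 255 218 (-309) 109 0 66 255 255 255))
    (.leaf (lf 1024 0 0 298 249 (-367) 131 0 78 255 255 255))))
    (.leaf (lf 1024 0 0 365 333 (-526) 149 0 108 255 243 170)))
    (.node 1
    (.leaf (lf 1024 0 0 209 322 (-442) 110 0 83 255 255 255))
    (.leaf (lf 1024 0 0 284 379 (-571) 144 0 107 255 255 255)))))
    (.node 0
    (.leaf (lf 1024 0 0 89 563 (-696) 101 0 104 255 255 255))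
    (.node 2
    (.leaf (lf 1024 0 0 193 443 (-603) 121 0 104 255 255 255))
    (.leaf (lf 1024 0 0 141 522 (-671) 115 0 108 255 255 255)))))
    (by decide +kernel)

def goodS2X_139 :
    Check.Good noCone cfS2X (reach cfS2X ⟨litS2X, 1, fsS2X⟩
      [(0, false), (2, false), (0, true), (1, true), (2, false), (2, true)]) :=
  Check.check_sound
    (.node 2
    (.node 1
    (.node 1
    (.node 2
    (.leaf (lf 1024 0 0 327 174 (-251) 118 0 62 244 255 135))
    (.leaf (lf 1024 0 0 305 197 (-279) 115 0 65 255 255 255)))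
    (.node 2
    (.leaf (lf 1024 0 0 383 209 (-311) 143 0 76 255 255 255))
    (.leaf (lf 1024 0 0 356 230 (-338) 140 0 78 255 255 255))))
    (.node 2
    (.leaf (lf 1024 0 0 478 299 (-479) 171 0 117 255 254 143))
    (.leaf (lf 1024 0 0 441 312 (-492) 168 0 113 255 255 255))))
    (.node 1
    (.node 1
    (.leaf (lf 1024 0 0 273 240 (-329) 111 0 71 255 255 255))
    (.leaf (lf 1024 0 0 317 271 (-387) 135 0 83 255 255 255)))
    (.leaf (lf 1024 0 0 387 341 (-523) 163 0 111 255 255 255))))
    (by decide +kernel)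

def goodS2X_140 :
    Check.Good noCone cfS2X (reach cfS2X ⟨litS2X, 1, fsS2X⟩
      [(0, true), (2, false), (0, true), (1, true), (2, false), (2, true)]) :=
  Check.check_sound
    (.node 2
    (.node 1
    (.node 1
    (.node 2
    (.node 0
    (.leaf (lf 1024 0 0 377 148 (-212) 127 0 58 255 255 255))
    (.leaf (lf 1024 0 0 410 135 (-193) 133 0 56 241 255 139)))
    (.node 0
    (.leaf (lf 1024 0 0 358 165 (-234) 124 0 60 255 255 255))
    (.leaf (lf 1024 0 0 393 149 (-210) 129 0 58 255 255 255))))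
    (.node 2
    (.node 0
    (.leaf (lf 1024 0 0 441 180 (-268) 155 0 73 255 255 255))
    (.leaf (lf 1024 0 0 480 166 (-244) 162 0 71 255 255 255)))
    (.leaf (lf 1024 0 0 443 192 (-280) 154 0 75 247 255 138))))
    (.node 2
    (.node 0
    (.leaf (lf 1024 0 0 542 281 (-446) 188 0 121 255 255 255))
    (.leaf (lf 1024 0 0 586 271 (-427) 198 0 124 255 255 255)))
    (.leaf (lf 1024 0 0 539 288 (-450) 188 0 119 255 253 148))))
    (.node 1
    (.node 1
    (.node 2
    (.leaf (lf 1024 0 0 361 179 (-249) 123 0 63 243 255 133))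
    (.leaf (lf 1024 0 0 342 202 (-278) 120 0 67 255 255 255)))
    (.leaf (lf 1024 0 0 409 225 (-321) 148 0 79 255 250 162)))
    (.node 2
    (.leaf (lf 1024 0 0 507 300 (-464) 184 0 116 255 254 150))
    (.leaf (lf 1024 0 0 475 317 (-482) 180 0 114 255 255 255)))))
    (by decide +kernel)

def goodS2X_138 :
    Check.Good noCone cfS2X (reach cfS2X ⟨litS2X, 1, fsS2X⟩
      [(2, false), (0, true), (1, true), (2, false), (2, true)]) :=
  Check.good_node (a := 0) (by decide +kernel)
    goodS2X_139 goodS2X_140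

def goodS2X_141 :
    Check.Good noCone cfS2X (reach cfS2X ⟨litS2X, 1, fsS2X⟩
      [(2, true), (0, true), (1, true), (2, false), (2, true)]) :=
  Check.check_sound
    (.node 0
    (.node 2
    (.node 1
    (.leaf (lf 1024 0 0 249 331 (-445) 117 0 87 255 255 255))
    (.leaf (lf 1024 0 0 315 392 (-577) 158 0 112 255 255 255)))
    (.leaf (lf 1024 0 0 235 458 (-613) 131 0 111 255 255 255)))
    (.node 1
    (.node 2
    (.node 1
    (.leaf (lf 1024 0 0 314 245 (-328) 117 0 73 255 255 255))
    (.leaf (lf 1024 0 0 362 278 (-385) 142 0 86 255 255 255)))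
    (.leaf (lf 1024 0 0 298 338 (-444) 124 0 91 255 255 255)))
    (.leaf (lf 343 614 1024 0 951 18 0 0 251 255 255 255))))
    (by decide +kernel)

def goodS2X_137 :
    Check.Good noCone cfS2X (reach cfS2X ⟨litS2X, 1, fsS2X⟩
      [(0, true), (1, true), (2, false), (2, true)]) :=
  Check.good_node (a := 2) (by decide +kernel)
    goodS2X_138 goodS2X_141

def goodS2X_135 :
    Check.Good noCone cfS2X (reach cfS2X ⟨litS2X, 1, fsS2X⟩
      [(1, true), (2, false), (2, true)]) :=
  Check.good_node (a := 0) (by decide +kernel)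
    goodS2X_136 goodS2X_137

def goodS2X_127 :
    Check.Good noCone cfS2X (reach cfS2X ⟨litS2X, 1, fsS2X⟩
      [(2, false), (2, true)]) :=
  Check.good_node (a := 1) (by decide +kernel)
    goodS2X_128 goodS2X_135

def goodS2X_142 :
    Check.Good noCone cfS2X (reach cfS2X ⟨litS2X, 1, fsS2X⟩
      [(2, true), (2, true)]) :=
  Check.check_sound
    (.node 1
    (.node 1
    (.leaf (lf 1024 0 0 36 618 (-592) 18 0 95 255 180 121))
    (.node 0
    (.leaf (lf 1024 0 0 24 786 (-726) 49 0 104 255 255 255))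
    (.node 0
    (.leaf (lf 1024 0 0 87 604 (-628) 60 0 101 255 255 255))
    (.leaf (lf 1024 0 0 143 500 (-547) 67 0 97 255 255 255)))))
    (.node 0
    (.leaf (lf 1024 0 0 37 862 (-887) 91 0 124 255 255 255))
    (.node 2
    (.node 0
    (.leaf (lf 1024 0 0 167 583 (-721) 122 0 119 255 255 255))
    (.node 1
    (.leaf (lf 1024 0 0 241 455 (-557) 117 0 104 255 255 255))
    (.leaf (lf 1024 0 0 283 517 (-693) 160 0 127 255 255 255))))
    (.leaf (lf 1024 0 0 158 729 (-828) 119 0 132 255 255 255)))))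
    (by decide +kernel)

def goodS2X_126 :
    Check.Good noCone cfS2X (reach cfS2X ⟨litS2X, 1, fsS2X⟩
      [(2, true)]) :=
  Check.good_node (a := 2) (by decide +kernel)
    goodS2X_127 goodS2X_142

end

end Vale.Agent.P211.Cert.Interior.Data
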