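import Vale.Agent.P211.Cert.Interior.Data.S2Xp1
import Vale.Agent.P211.Cert.Interior.Data.S2Xp2
import Vale.Agent.P211.Cert.Interior.Data.S2Xp3

/-!
P211, a cell of the interior family (generated).
-/

namespace Vale.Agent.P211.Cert.Interior.Data

open Vale.Agent.P098.Check6 (ofChunks eqList reach St Cfg Face)
open Vale.Agent.P098.Cert6.Kron (RootPar parOK)

set_option linter.defProp false

noncomputable section

def goodS2X_1 :
    Check.Good noCone cfS2X (reach cfS2X ⟨litS2X, 1, fsS2X⟩
      [(2, false)]) :=
  Check.good_node (a := 2) (by decide +kernel)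
    goodS2X_2 goodS2X_69

def goodS2X_0 :
    Check.Good noCone cfS2X (reach cfS2X ⟨litS2X, 1, fsS2X⟩
      []) :=
  Check.good_node (a := 2) (by decide +kernel)
    goodS2X_1 goodS2X_126

/-- The chart is positive. -/
theorem posS2X : Pos vecV wgtV false
    (segV 2).chX :=
  pos_of_literal (c := cellS2X) (R := parS2X) (fs := fsS2X) rfl (by decide +kernel)
    (by decide +kernel) (by decide +kernel) (lit := litS2X) (by decide +kernel) goodS2X_0

end

end Vale.Agent.P211.Cert.Interior.Data
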