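import Vale.Agent.P211.Cert.Interior.Data.S2Xr

/-!
P211, a part of a cell of the interior family (generated).
-/

namespace Vale.Agent.P211.Cert.Interior.Data

open Vale.Agent.P098.Check6 (ofChunks eqList reach St Cfg Face)
open Vale.Agent.P098.Cert6.Kron (RootPar parOK)

set_option linter.defProp false

noncomputable section

def goodS2X_7 :
    Check.Good noCone cfS2X (reach cfS2X ⟨litS2X, 1, fsS2X⟩
      [(1, false), (0, false), (1, false), (2, false), (2, false), (2, false), (2, false)]) :=
  Check.check_sound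
    (.node 2
    (.node 1
    (.node 2
    (.leaf (lf 1024 518 141 0 209 (-269) 0 0 654 255 255 255))
    (.leaf (lf 1024 0 0 55 170 (-255) 55 0 463 255 235 163)))
    (.node 2
    (.node 0
    (.leaf (lf 666 1024 501 0 356 (-203) 0 0 682 255 255 255))
    (.leaf (lf 697 1024 498 0 370 (-210) 0 0 846 255 255 255)))
    (.node 0
    (.leaf (lf 674 1024 492 0 362 (-213) 0 0 546 255 255 255))
    (.leaf (lf 1024 0 0 160 164 (-245) 189 0 485 255 255 255)))))
    (.node 1
    (.node 1
    (.leaf (lf 1024 0 0 28 171 (-253) 20 0 341 255 255 255))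
    (.leaf (lf 1024 0 187 129 171 (-234) 0 0 347 255 255 255)))
    (.node 0
    (.leaf (lf 680 1024 481 0 368 (-218) 0 0 410 255 255 255))
    (.leaf (lf 717 1024 471 0 386 (-232) 0 0 513 255 255 255)))))
    (by decide +kernel)

def goodS2X_10 :
    Check.Good noCone cfS2X (reach cfS2X ⟨litS2X, 1, fsS2X⟩
      [(2, false), (2, false), (1, true), (0, false), (1, false), (2, false), (2, false), (2, false), (2, false)]) :=
  Check.check_sound
    (.node 0
    (.node 1
    (.node 0
    (.node 2
    (.leaf (lf 1024 0 0 241 141 (-225) 366 0 485 255 255 255))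
    (.leaf (lf 1024 0 0 244 141 (-225) 316 0 423 255 255 255)))
    (.node 2
    (.leaf (lf 1024 0 0 244 145 (-225) 404 0 537 255 255 255))
    (.leaf (lf 1024 0 0 247 145 (-226) 349 0 468 255 255 255))))
    (.node 0
    (.node 2
    (.leaf (lf 1024 0 0 327 166 (-265) 523 0 576 255 255 255))
    (.leaf (lf 1024 0 0 331 161 (-258) 453 0 487 255 255 255)))
    (.node 2
    (.leaf (lf 1024 0 0 329 168 (-262) 582 0 628 255 255 255))
    (.leaf (lf 1024 0 0 333 162 (-255) 503 0 531 255 255 255)))))
    (.node 1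
    (.node 0
    (.node 2
    (.leaf (lf 1024 0 0 246 148 (-226) 445 0 592 255 255 255))
    (.leaf (lf 1024 0 0 249 149 (-227) 384 0 517 255 255 255)))
    (.leaf (lf 462 1024 828 0 505 (-44) 0 0 1019 255 177 228)))
    (.node 0
    (.node 2
    (.leaf (lf 1024 0 0 331 170 (-260) 644 0 683 255 255 255))
    (.leaf (lf 1024 0 0 335 164 (-253) 557 0 578 255 255 255)))
    (.node 2
    (.leaf (lf 1024 0 0 333 172 (-258) 710 0 743 255 255 255))
    (.leaf (lf 1024 0 0 338 167 (-251) 613 0 628 255 255 255))))))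
    (by decide +kernel)

def goodS2X_11 :
    Check.Good noCone cfS2X (reach cfS2X ⟨litS2X, 1, fsS2X⟩
      [(2, true), (2, false), (1, true), (0, false), (1, false), (2, false), (2, false), (2, false), (2, false)]) :=
  Check.check_sound
    (.node 0
    (.node 1
    (.node 0
    (.leaf (lf 434 1024 819 0 490 (-47) 0 0 591 255 178 213))
    (.leaf (lf 443 1024 817 0 497 (-47) 0 0 655 255 181 217)))
    (.node 0
    (.node 2
    (.leaf (lf 1024 0 0 334 157 (-253) 399 0 421 255 255 255))
    (.leaf (lf 1024 0 0 336 154 (-249) 356 0 370 255 255 255)))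
    (.node 2
    (.leaf (lf 1024 0 0 336 159 (-250) 443 0 459 255 255 255))
    (.leaf (lf 1024 0 0 339 156 (-246) 395 0 404 255 255 255)))))
    (.node 1
    (.node 0
    (.leaf (lf 1024 0 0 255 150 (-229) 315 0 432 255 255 255))
    (.leaf (lf 1024 0 0 258 154 (-230) 345 0 476 255 255 255)))
    (.node 0
    (.leaf (lf 1024 0 0 343 160 (-246) 455 0 466 255 255 255))
    (.leaf (lf 1024 0 0 346 162 (-244) 501 0 507 255 255 255)))))
    (by decide +kernel)

def goodS2X_9 :
    Check.Good noCone cfS2X (reach cfS2X ⟨litS2X, 1, fsS2X⟩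
      [(2, false), (1, true), (0, false), (1, false), (2, false), (2, false), (2, false), (2, false)]) :=
  Check.good_node (a := 2) (by decide +kernel)
    goodS2X_10 goodS2X_11

def goodS2X_12 :
    Check.Good noCone cfS2X (reach cfS2X ⟨litS2X, 1, fsS2X⟩
      [(2, true), (1, true), (0, false), (1, false), (2, false), (2, false), (2, false), (2, false)]) :=
  Check.check_sound
    (.node 0
    (.node 2
    (.node 1
    (.node 0
    (.leaf (lf 1024 0 0 251 143 (-228) 213 0 290 255 255 255))
    (.leaf (lf 1024 0 0 255 147 (-230) 234 0 323 255 255 255)))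
    (.node 0
    (.leaf (lf 359 987 1024 0 632 90 0 0 624 255 141 210))
    (.leaf (lf 1024 0 0 345 153 (-242) 336 0 340 255 255 255))))
    (.node 1
    (.node 0
    (.leaf (lf 1024 0 0 252 143 (-230) 181 0 246 255 255 255))
    (.leaf (lf 1024 0 0 257 148 (-233) 198 0 274 255 255 255)))
    (.node 0
    (.leaf (lf 1024 0 0 343 147 (-239) 257 0 257 255 255 255))
    (.leaf (lf 1024 0 0 348 149 (-238) 284 0 281 255 255 255)))))
    (.node 2
    (.node 1
    (.leaf (lf 454 1024 797 0 511 (-52) 0 0 620 255 176 204))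
    (.node 0
    (.leaf (lf 1024 0 0 348 155 (-240) 371 0 371 255 255 255))
    (.leaf (lf 1024 0 0 352 157 (-239) 408 0 403 255 255 255))))
    (.node 1
    (.leaf (lf 1024 0 0 264 156 (-236) 226 0 321 255 244 181))
    (.node 0
    (.leaf (lf 1024 0 0 352 152 (-237) 313 0 307 255 255 255))
    (.leaf (lf 1024 0 0 357 154 (-235) 343 0 335 255 255 255))))))
    (by decide +kernel)

def goodS2X_8 :
    Check.Good noCone cfS2X (reach cfS2X ⟨litS2X, 1, fsS2X⟩
      [(1, true), (0, false), (1, false), (2, false), (2, false), (2, false), (2, false)]) :=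
  Check.good_node (a := 2) (by decide +kernel)
    goodS2X_9 goodS2X_12

def goodS2X_6 :
    Check.Good noCone cfS2X (reach cfS2X ⟨litS2X, 1, fsS2X⟩
      [(0, false), (1, false), (2, false), (2, false), (2, false), (2, false)]) :=
  Check.good_node (a := 1) (by decide +kernel)
    goodS2X_7 goodS2X_8

def goodS2X_14 :
    Check.Good noCone cfS2X (reach cfS2X ⟨litS2X, 1, fsS2X⟩
      [(1, false), (0, true), (1, false), (2, false), (2, false), (2, false), (2, false)]) :=
  Check.check_sound
    (.node 2
    (.node 1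
    (.node 2
    (.leaf (lf 1024 0 0 56 183 (-254) 99 0 842 255 238 187))
    (.leaf (lf 1024 0 0 57 190 (-263) 78 0 681 255 255 255)))
    (.node 2
    (.leaf (lf 667 926 439 0 354 (-198) 0 0 1024 255 255 255))
    (.leaf (lf 751 1024 473 0 401 (-232) 0 0 912 255 255 255))))
    (.node 1
    (.leaf (lf 1024 456 123 0 239 (-291) 0 0 577 255 255 255))
    (.leaf (lf 766 1024 455 0 413 (-245) 0 0 695 255 255 255))))
    (by decide +kernel)

def goodS2X_16 :
    Check.Good noCone cfS2X (reach cfS2X ⟨litS2X, 1, fsS2X⟩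
      [(2, false), (1, true), (0, true), (1, false), (2, false), (2, false), (2, false), (2, false)]) :=
  Check.check_sound
    (.node 2
    (.node 0
    (.node 1
    (.node 0
    (.leaf (lf 431 938 758 0 468 (-41) 0 0 1024 255 178 229))
    (.leaf (lf 1024 0 0 258 160 (-229) 528 0 723 255 255 255)))
    (.node 0
    (.node 2
    (.leaf (lf 1024 0 0 336 175 (-257) 780 0 808 255 255 255))
    (.leaf (lf 1024 0 0 340 169 (-250) 674 0 683 255 255 255)))
    (.leaf (lf 1024 0 0 344 176 (-253) 777 0 801 255 255 255))))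
    (.node 1
    (.leaf (lf 360 754 601 0 388 (-34) 0 0 1024 255 170 222))
    (.node 0
    (.leaf (lf 1024 0 0 346 179 (-253) 848 0 871 255 255 255))
    (.leaf (lf 1024 0 0 349 183 (-255) 923 0 946 255 255 255)))))
    (.node 0
    (.node 1
    (.leaf (lf 471 1024 805 0 520 (-49) 0 0 911 255 175 213))
    (.node 0
    (.leaf (lf 1024 0 0 349 165 (-243) 550 0 551 255 255 255))
    (.leaf (lf 1024 0 0 352 167 (-243) 602 0 598 255 255 255))))
    (.node 1
    (.leaf (lf 459 967 755 0 503 (-47) 0 0 1024 255 161 207))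
    (.node 0
    (.leaf (lf 1024 0 0 355 170 (-243) 656 0 649 255 255 255))
    (.leaf (lf 1024 0 0 358 174 (-243) 714 0 705 255 255 255))))))
    (by decide +kernel)

def goodS2X_17 :
    Check.Good noCone cfS2X (reach cfS2X ⟨litS2X, 1, fsS2X⟩
      [(2, true), (1, true), (0, true), (1, false), (2, false), (2, false), (2, false), (2, false)]) :=
  Check.check_sound
    (.node 2
    (.node 0
    (.node 1
    (.leaf (lf 1024 0 0 267 163 (-236) 319 0 455 255 240 194))
    (.node 0
    (.leaf (lf 1024 0 0 356 160 (-238) 447 0 438 255 255 255))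
    (.leaf (lf 1024 0 0 359 163 (-237) 488 0 476 255 255 255))))
    (.node 1
    (.leaf (lf 1024 0 0 274 171 (-239) 375 0 543 255 255 255))
    (.node 0
    (.leaf (lf 1024 0 0 363 166 (-237) 532 0 517 255 255 255))
    (.leaf (lf 1024 0 0 366 169 (-237) 578 0 561 255 255 255)))))
    (.node 0
    (.node 1
    (.leaf (lf 1024 0 0 271 165 (-240) 269 0 389 255 255 255))
    (.node 0
    (.leaf (lf 1024 0 0 361 157 (-235) 375 0 364 255 255 255))
    (.leaf (lf 1024 0 0 365 160 (-234) 410 0 396 255 255 255))))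
    (.node 1
    (.leaf (lf 1024 0 0 278 174 (-244) 316 0 466 255 255 255))
    (.leaf (lf 358 926 1024 0 639 145 0 0 899 255 145 211)))))
    (by decide +kernel)

def goodS2X_15 :
    Check.Good noCone cfS2X (reach cfS2X ⟨litS2X, 1, fsS2X⟩
      [(1, true), (0, true), (1, false), (2, false), (2, false), (2, false), (2, false)]) :=
  Check.good_node (a := 2) (by decide +kernel)
    goodS2X_16 goodS2X_17

def goodS2X_13 :
    Check.Good noCone cfS2X (reach cfS2X ⟨litS2X, 1, fsS2X⟩
      [(0, true), (1, false), (2, false), (2, false), (2, false), (2, false)]) :=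
  Check.good_node (a := 1) (by decide +kernel)
    goodS2X_14 goodS2X_15

def goodS2X_5 :
    Check.Good noCone cfS2X (reach cfS2X ⟨litS2X, 1, fsS2X⟩
      [(1, false), (2, false), (2, false), (2, false), (2, false)]) :=
  Check.good_node (a := 0) (by decide +kernel)
    goodS2X_6 goodS2X_13

def goodS2X_20 :
    Check.Good noCone cfS2X (reach cfS2X ⟨litS2X, 1, fsS2X⟩
      [(2, false), (0, false), (1, true), (2, false), (2, false), (2, false), (2, false)]) :=
  Check.check_sound
    (.node 2
    (.node 0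
    (.node 1
    (.node 2
    (.leaf (lf 1024 0 0 495 583 0 700 (-955) 622 255 179 226))
    (.node 0
    (.leaf (lf 1024 0 0 492 300 (-476) 581 0 914 255 237 143))
    (.leaf (lf 1024 0 0 489 301 (-468) 661 0 989 255 218 136))))
    (.leaf (lf 563 0 0 504 326 (-456) 193 0 1024 255 255 255)))
    (.node 1
    (.node 2
    (.leaf (lf 948 0 0 452 533 0 829 (-1024) 693 255 167 232))
    (.leaf (lf 942 0 0 448 281 (-422) 725 0 1024 255 218 141)))
    (.leaf (lf 470 0 0 403 283 (-382) 269 0 1024 255 255 255))))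
    (.node 0
    (.node 1
    (.node 2
    (.node 0
    (.leaf (lf 1024 0 0 491 286 (-461) 519 0 780 255 241 140))
    (.leaf (lf 1024 0 0 489 287 (-453) 589 0 842 255 242 144)))
    (.node 0
    (.leaf (lf 1024 0 0 491 275 (-448) 467 0 676 255 245 137))
    (.leaf (lf 1024 0 0 489 276 (-439) 530 0 729 255 246 142))))
    (.leaf (lf 743 0 0 643 393 (-592) 245 0 1024 255 255 255)))
    (.node 1
    (.node 2
    (.leaf (lf 1024 0 0 488 529 0 701 (-790) 519 255 162 238))
    (.node 0
    (.leaf (lf 1024 0 0 488 277 (-432) 597 0 785 255 247 145))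
    (.leaf (lf 1024 0 0 487 278 (-425) 668 0 845 255 248 148))))
    (.leaf (lf 624 0 0 516 341 (-495) 326 0 1024 255 255 255)))))
    (by decide +kernel)

def goodS2X_21 :
    Check.Good noCone cfS2X (reach cfS2X ⟨litS2X, 1, fsS2X⟩
      [(2, true), (0, false), (1, true), (2, false), (2, false), (2, false), (2, false)]) :=
  Check.check_sound
    (.node 0
    (.node 2
    (.node 1
    (.node 1
    (.leaf (lf 381 1024 1006 0 838 83 0 0 865 255 141 214))
    (.leaf (lf 1024 0 0 553 294 (-477) 452 0 651 255 255 255)))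
    (.leaf (lf 943 0 0 796 463 (-732) 289 0 1024 255 255 255)))
    (.node 1
    (.node 1
    (.leaf (lf 357 994 1024 0 812 120 0 0 706 255 140 207))
    (.leaf (lf 1024 0 0 552 276 (-453) 386 0 520 255 255 255)))
    (.leaf (lf 1024 0 0 848 473 (-771) 289 0 903 255 255 255))))
    (.node 2
    (.node 1
    (.node 1
    (.leaf (lf 367 968 1024 0 810 126 0 0 1014 255 142 217))
    (.leaf (lf 1024 0 0 548 295 (-458) 580 0 752 255 182 156)))
    (.leaf (lf 796 0 0 643 403 (-612) 374 0 1024 255 255 255)))
    (.node 1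
    (.node 1
    (.leaf (lf 337 925 1024 0 773 161 0 0 813 255 141 210))
    (.leaf (lf 1024 0 0 550 275 (-433) 493 0 597 255 184 148)))
    (.leaf (lf 985 0 0 782 467 (-731) 416 0 1024 255 255 255)))))
    (by decide +kernel)

def goodS2X_19 :
    Check.Good noCone cfS2X (reach cfS2X ⟨litS2X, 1, fsS2X⟩
      [(0, false), (1, true), (2, false), (2, false), (2, false), (2, false)]) :=
  Check.good_node (a := 2) (by decide +kernel)
    goodS2X_20 goodS2X_21

def goodS2X_23 :
    Check.Good noCone cfS2X (reach cfS2X ⟨litS2X, 1, fsS2X⟩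
      [(2, false), (0, true), (1, true), (2, false), (2, false), (2, false), (2, false)]) :=
  Check.check_sound
    (.node 2
    (.node 1
    (.node 0
    (.node 2
    (.leaf (lf 672 0 0 317 216 (-308) 735 0 1024 255 212 148))
    (.leaf (lf 810 0 0 382 245 (-356) 777 0 1024 255 218 144)))
    (.node 2
    (.leaf (lf 577 0 0 270 190 (-263) 772 0 1024 255 212 150))
    (.leaf (lf 696 0 0 327 215 (-303) 818 0 1024 255 218 148))))
    (.leaf (lf 364 0 0 298 233 (-297) 353 0 1024 255 213 197)))
    (.node 1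
    (.node 0
    (.node 2
    (.leaf (lf 956 0 0 453 275 (-404) 814 0 1024 255 223 142))
    (.leaf (lf 1024 0 0 489 504 0 781 (-783) 529 255 149 245)))
    (.node 2
    (.leaf (lf 824 0 0 390 242 (-344) 858 0 1024 255 223 147))
    (.leaf (lf 960 0 0 458 269 (-385) 894 0 1024 255 227 146))))
    (.leaf (lf 486 0 0 384 281 (-384) 417 0 1024 255 217 175))))
    (by decide +kernel)

def goodS2X_24 :
    Check.Good noCone cfS2X (reach cfS2X ⟨litS2X, 1, fsS2X⟩
      [(2, true), (0, true), (1, true), (2, false), (2, false), (2, false), (2, false)]) :=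
  Check.check_sound
    (.node 1
    (.node 2
    (.node 0
    (.node 1
    (.leaf (lf 856 0 895 637 246 138 0 0 1024 255 255 255))
    (.leaf (lf 1024 0 0 545 297 (-444) 727 0 864 255 229 203)))
    (.node 1
    (.leaf (lf 709 0 773 536 212 135 0 0 1024 255 255 255))
    (.leaf (lf 1024 0 0 543 301 (-434) 893 0 993 255 227 205))))
    (.node 0
    (.node 1
    (.leaf (lf 1024 0 0 453 192 (-287) 514 0 467 255 242 200))
    (.leaf (lf 1024 0 0 549 276 (-417) 615 0 682 255 235 196)))
    (.node 1
    (.leaf (lf 1024 0 0 459 195 (-280) 617 0 537 255 241 203))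
    (.leaf (lf 1024 0 0 550 278 (-405) 753 0 779 255 233 200)))))
    (.node 2
    (.leaf (lf 516 0 237 580 302 (-208) 0 0 1024 255 255 255))
    (.leaf (lf 12477 0 0 9548 6173 (-9049) 8260 0 16384 255 214 146))))
    (by decide +kernel)

def goodS2X_22 :
    Check.Good noCone cfS2X (reach cfS2X ⟨litS2X, 1, fsS2X⟩
      [(0, true), (1, true), (2, false), (2, false), (2, false), (2, false)]) :=
  Check.good_node (a := 2) (by decide +kernel)
    goodS2X_23 goodS2X_24

def goodS2X_18 :
    Check.Good noCone cfS2X (reach cfS2X ⟨litS2X, 1, fsS2X⟩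
      [(1, true), (2, false), (2, false), (2, false), (2, false)]) :=
  Check.good_node (a := 0) (by decide +kernel)
    goodS2X_19 goodS2X_22

def goodS2X_4 :
    Check.Good noCone cfS2X (reach cfS2X ⟨litS2X, 1, fsS2X⟩
      [(2, false), (2, false), (2, false), (2, false)]) :=
  Check.good_node (a := 1) (by decide +kernel)
    goodS2X_5 goodS2X_18

def goodS2X_28 :
    Check.Good noCone cfS2X (reach cfS2X ⟨litS2X, 1, fsS2X⟩
      [(1, false), (0, false), (1, false), (2, true), (2, false), (2, false), (2, false)]) :=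
  Check.check_sound
    (.node 1
    (.node 2
    (.leaf (lf 1024 498 134 0 222 (-290) 0 0 301 255 255 255))
    (.leaf (lf 1024 0 0 56 179 (-269) 26 0 213 255 233 158)))
    (.node 2
    (.node 0
    (.leaf (lf 682 1024 487 0 373 (-224) 0 0 313 255 255 255))
    (.leaf (lf 1024 0 0 165 174 (-260) 106 0 282 255 255 255)))
    (.node 0
    (.leaf (lf 676 1024 505 0 374 (-221) 0 0 249 255 255 255))
    (.leaf (lf 1024 0 0 165 175 (-264) 86 0 226 255 255 255)))))
    (by decide +kernel)

def goodS2X_30 :
    Check.Good noCone cfS2X (reach cfS2X ⟨litS2X, 1, fsS2X⟩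
      [(2, false), (1, true), (0, false), (1, false), (2, true), (2, false), (2, false), (2, false)]) :=
  Check.check_sound
    (.node 0
    (.node 1
    (.node 2
    (.node 0
    (.leaf (lf 1024 0 0 253 143 (-230) 157 0 212 255 255 255))
    (.leaf (lf 1024 0 0 258 149 (-234) 172 0 238 255 255 255)))
    (.leaf (lf 1024 0 0 257 146 (-233) 145 0 198 255 249 161)))
    (.node 2
    (.node 0
    (.leaf (lf 1024 0 0 344 144 (-236) 223 0 218 255 255 255))
    (.leaf (lf 1024 0 0 350 147 (-235) 246 0 239 255 255 255)))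
    (.node 0
    (.leaf (lf 1024 0 0 344 142 (-232) 198 0 188 255 255 255))
    (.leaf (lf 1024 0 0 351 145 (-232) 217 0 207 255 255 255)))))
    (.node 1
    (.node 2
    (.leaf (lf 1024 0 0 266 157 (-239) 196 0 279 255 246 172))
    (.leaf (lf 1024 0 0 267 158 (-241) 173 0 247 255 255 255)))
    (.node 2
    (.node 0
    (.leaf (lf 1024 0 0 355 150 (-234) 270 0 262 255 255 255))
    (.leaf (lf 1024 0 0 360 153 (-233) 296 0 285 255 255 255)))
    (.node 0
    (.leaf (lf 1024 0 0 357 148 (-232) 238 0 227 255 255 255))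
    (.leaf (lf 1024 0 0 363 151 (-232) 260 0 248 255 255 255))))))
    (by decide +kernel)

def goodS2X_31 :
    Check.Good noCone cfS2X (reach cfS2X ⟨litS2X, 1, fsS2X⟩
      [(2, true), (1, true), (0, false), (1, false), (2, true), (2, false), (2, false), (2, false)]) :=
  Check.check_sound
    (.node 0
    (.node 1
    (.node 2
    (.leaf (lf 1024 0 0 257 146 (-232) 131 0 175 255 249 157))
    (.leaf (lf 1024 0 0 255 145 (-230) 119 0 157 255 253 149)))
    (.node 2
    (.node 0
    (.leaf (lf 1024 0 0 343 139 (-229) 178 0 165 255 255 255))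
    (.leaf (lf 1024 0 0 351 143 (-230) 195 0 182 255 255 255)))
    (.node 0
    (.leaf (lf 1024 0 0 341 137 (-225) 162 0 146 255 255 255))
    (.leaf (lf 1024 0 0 350 141 (-227) 177 0 161 255 255 255)))))
    (.node 1
    (.node 2
    (.leaf (lf 1024 0 0 268 159 (-242) 155 0 220 255 255 255))
    (.leaf (lf 1024 0 0 268 158 (-242) 141 0 198 255 255 255)))
    (.node 2
    (.node 0
    (.leaf (lf 1024 0 0 358 146 (-230) 213 0 200 255 255 255))
    (.leaf (lf 1024 0 0 364 150 (-231) 233 0 219 255 255 255)))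
    (.node 0
    (.leaf (lf 1024 0 0 358 145 (-228) 194 0 178 255 255 255))
    (.leaf (lf 1024 0 0 365 149 (-229) 211 0 196 255 255 255))))))
    (by decide +kernel)

def goodS2X_29 :
    Check.Good noCone cfS2X (reach cfS2X ⟨litS2X, 1, fsS2X⟩
      [(1, true), (0, false), (1, false), (2, true), (2, false), (2, false), (2, false)]) :=
  Check.good_node (a := 2) (by decide +kernel)
    goodS2X_30 goodS2X_31

def goodS2X_27 :
    Check.Good noCone cfS2X (reach cfS2X ⟨litS2X, 1, fsS2X⟩
      [(0, false), (1, false), (2, true), (2, false), (2, false), (2, false)]) :=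
  Check.good_node (a := 1) (by decide +kernel)
    goodS2X_28 goodS2X_29

def goodS2X_32 :
    Check.Good noCone cfS2X (reach cfS2X ⟨litS2X, 1, fsS2X⟩
      [(0, true), (1, false), (2, true), (2, false), (2, false), (2, false)]) :=
  Check.check_sound
    (.node 1
    (.node 1
    (.node 2
    (.leaf (lf 1024 0 0 59 205 (-284) 44 0 403 255 255 255))
    (.leaf (lf 1024 0 0 60 210 (-292) 35 0 327 255 255 255)))
    (.node 2
    (.leaf (lf 780 1024 448 0 426 (-262) 0 0 540 255 255 255))
    (.leaf (lf 786 1024 446 0 434 (-272) 0 0 438 255 255 255))))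
    (.node 2
    (.node 0
    (.node 1
    (.leaf (lf 472 1024 762 0 536 (-63) 0 0 508 255 190 224))
    (.node 2
    (.leaf (lf 346 929 1024 0 631 143 0 0 652 255 147 209))
    (.leaf (lf 1024 0 0 373 157 (-233) 295 0 284 255 251 175))))
    (.node 1
    (.leaf (lf 488 1024 748 0 551 (-68) 0 0 605 255 180 221))
    (.node 2
    (.leaf (lf 1024 0 0 378 165 (-234) 398 0 385 255 248 186))
    (.leaf (lf 1024 0 0 383 164 (-234) 349 0 337 255 255 255)))))
    (.node 0
    (.node 1
    (.leaf (lf 472 1024 761 0 543 (-67) 0 0 409 255 174 205))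
    (.node 2
    (.leaf (lf 1024 0 0 375 156 (-232) 263 0 252 255 255 167))
    (.leaf (lf 1024 0 0 377 156 (-232) 238 0 226 254 255 162))))
    (.node 1
    (.leaf (lf 1024 0 0 289 183 (-256) 201 0 308 255 255 255))
    (.node 2
    (.leaf (lf 1024 0 0 387 164 (-234) 310 0 299 255 255 255))
    (.leaf (lf 1024 0 0 390 164 (-235) 279 0 269 255 255 255)))))))
    (by decide +kernel)

def goodS2X_26 :
    Check.Good noCone cfS2X (reach cfS2X ⟨litS2X, 1, fsS2X⟩
      [(1, false), (2, true), (2, false), (2, false), (2, false)]) :=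
  Check.good_node (a := 0) (by decide +kernel)
    goodS2X_27 goodS2X_32

def goodS2X_35 :
    Check.Good noCone cfS2X (reach cfS2X ⟨litS2X, 1, fsS2X⟩
      [(2, false), (0, false), (1, true), (2, true), (2, false), (2, false), (2, false)]) :=
  Check.check_sound
    (.node 0
    (.node 1
    (.node 2
    (.node 1
    (.leaf (lf 333 953 1024 0 778 147 0 0 585 255 140 203))
    (.leaf (lf 1024 0 0 551 261 (-434) 337 0 428 255 255 255)))
    (.node 1
    (.leaf (lf 1024 0 0 442 176 (-289) 262 0 248 255 251 179))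
    (.leaf (lf 1024 0 0 550 250 (-418) 300 0 360 255 255 255))))
    (.leaf (lf 1024 0 0 832 438 (-733) 251 0 683 255 221 205)))
    (.node 1
    (.node 2
    (.node 1
    (.leaf (lf 1024 0 0 450 183 (-286) 365 0 336 255 247 190))
    (.leaf (lf 1024 0 0 552 260 (-413) 428 0 489 255 255 255)))
    (.node 1
    (.leaf (lf 1024 0 0 453 176 (-277) 321 0 285 255 251 183))
    (.leaf (lf 1024 0 0 553 247 (-396) 378 0 410 255 255 255))))
    (.leaf (lf 1024 0 0 802 448 (-718) 366 0 800 255 222 190))))
    (by decide +kernel)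

def goodS2X_36 :
    Check.Good noCone cfS2X (reach cfS2X ⟨litS2X, 1, fsS2X⟩
      [(2, true), (0, false), (1, true), (2, true), (2, false), (2, false), (2, false)]) :=
  Check.check_sound
    (.node 0
    (.node 1
    (.node 2
    (.node 1
    (.leaf (lf 298 883 1024 0 721 186 0 0 431 255 138 197))
    (.leaf (lf 1024 0 0 547 240 (-404) 270 0 309 255 255 255)))
    (.node 0
    (.node 1
    (.leaf (lf 1024 0 0 433 165 (-276) 205 0 180 255 255 255))
    (.leaf (lf 1024 0 0 538 231 (-397) 234 0 259 255 255 255)))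
    (.node 1
    (.leaf (lf 1024 0 0 441 165 (-270) 226 0 193 255 255 255))
    (.leaf (lf 1024 0 0 543 229 (-385) 262 0 276 255 255 255)))))
    (.leaf (lf 1024 0 0 810 404 (-696) 219 0 510 255 225 190)))
    (.node 1
    (.node 2
    (.node 1
    (.leaf (lf 1024 0 0 455 171 (-269) 287 0 246 255 254 178))
    (.leaf (lf 1024 0 0 554 237 (-382) 338 0 350 255 255 255)))
    (.node 1
    (.leaf (lf 1024 0 0 456 166 (-263) 259 0 216 253 255 169))
    (.leaf (lf 1024 0 0 554 228 (-369) 307 0 304 255 255 255))))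
    (.leaf (lf 1024 0 0 787 411 (-678) 309 0 593 255 225 177))))
    (by decide +kernel)

def goodS2X_34 :
    Check.Good noCone cfS2X (reach cfS2X ⟨litS2X, 1, fsS2X⟩
      [(0, false), (1, true), (2, true), (2, false), (2, false), (2, false)]) :=
  Check.good_node (a := 2) (by decide +kernel)
    goodS2X_35 goodS2X_36

def goodS2X_38 :
    Check.Good noCone cfS2X (reach cfS2X ⟨litS2X, 1, fsS2X⟩
      [(2, false), (0, true), (1, true), (2, true), (2, false), (2, false), (2, false)]) :=
  Check.check_sound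
    (.node 1
    (.node 0
    (.node 2
    (.node 1
    (.leaf (lf 1024 0 0 458 184 (-276) 442 0 386 255 247 192))
    (.leaf (lf 1024 0 0 554 259 (-395) 531 0 556 255 240 191)))
    (.node 1
    (.leaf (lf 1024 0 0 463 177 (-267) 387 0 327 255 251 184))
    (.leaf (lf 1024 0 0 558 246 (-378) 466 0 464 255 255 255))))
    (.node 2
    (.node 1
    (.leaf (lf 1024 0 0 466 186 (-269) 529 0 443 255 255 255))
    (.leaf (lf 1024 0 0 557 261 (-382) 648 0 632 255 238 196)))
    (.node 1
    (.leaf (lf 1024 0 0 473 179 (-260) 462 0 374 255 255 255))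
    (.leaf (lf 1024 0 0 563 246 (-363) 567 0 525 255 244 190)))))
    (.node 0
    (.leaf (lf 1024 0 0 781 457 (-703) 495 0 928 255 204 176))
    (.leaf (lf 720 0 433 830 382 (-163) 0 0 1024 255 255 255))))
    (by decide +kernel)

def goodS2X_39 :
    Check.Good noCone cfS2X (reach cfS2X ⟨litS2X, 1, fsS2X⟩
      [(2, true), (0, true), (1, true), (2, true), (2, false), (2, false), (2, false)]) :=
  Check.check_sound
    (.node 1
    (.node 0
    (.node 2
    (.node 1
    (.leaf (lf 1024 0 0 467 172 (-260) 345 0 282 255 254 179))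
    (.leaf (lf 1024 0 0 561 235 (-363) 416 0 395 255 255 255)))
    (.node 1
    (.leaf (lf 1024 0 0 470 167 (-254) 311 0 247 253 255 173))
    (.leaf (lf 1024 0 0 564 226 (-350) 375 0 342 255 255 255))))
    (.node 2
    (.node 1
    (.leaf (lf 1024 0 0 478 174 (-253) 410 0 323 255 255 255))
    (.leaf (lf 1024 0 0 569 235 (-348) 504 0 445 255 255 255)))
    (.node 1
    (.leaf (lf 1024 0 0 482 170 (-247) 369 0 284 253 255 175))
    (.leaf (lf 1024 0 0 574 225 (-334) 453 0 384 255 255 255)))))
    (.node 0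
    (.leaf (lf 1024 0 0 773 417 (-658) 410 0 682 255 207 170))
    (.leaf (lf 878 0 591 1024 437 (-110) 0 0 972 255 255 255))))
    (by decide +kernel)

def goodS2X_37 :
    Check.Good noCone cfS2X (reach cfS2X ⟨litS2X, 1, fsS2X⟩
      [(0, true), (1, true), (2, true), (2, false), (2, false), (2, false)]) :=
  Check.good_node (a := 2) (by decide +kernel)
    goodS2X_38 goodS2X_39

def goodS2X_33 :
    Check.Good noCone cfS2X (reach cfS2X ⟨litS2X, 1, fsS2X⟩
      [(1, true), (2, true), (2, false), (2, false), (2, false)]) :=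
  Check.good_node (a := 0) (by decide +kernel)
    goodS2X_34 goodS2X_37

def goodS2X_25 :
    Check.Good noCone cfS2X (reach cfS2X ⟨litS2X, 1, fsS2X⟩
      [(2, true), (2, false), (2, false), (2, false)]) :=
  Check.good_node (a := 1) (by decide +kernel)
    goodS2X_26 goodS2X_33

def goodS2X_3 :
    Check.Good noCone cfS2X (reach cfS2X ⟨litS2X, 1, fsS2X⟩
      [(2, false), (2, false), (2, false)]) :=
  Check.good_node (a := 2) (by decide +kernel)
    goodS2X_4 goodS2X_25

def goodS2X_42 :
    Check.Good noCone cfS2X (reach cfS2X ⟨litS2X, 1, fsS2X⟩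
      [(1, false), (1, false), (2, true), (2, false), (2, false)]) :=
  Check.check_sound
    (.node 0
    (.node 1
    (.node 2
    (.node 1
    (.leaf (lf 1024 0 0 28 169 (-252) 10 0 149 255 255 255))
    (.leaf (lf 1024 0 209 134 170 (-232) 0 0 153 255 255 255)))
    (.node 1
    (.leaf (lf 1024 0 0 26 155 (-231) 8 0 102 255 220 166))
    (.leaf (lf 1024 0 0 79 153 (-229) 25 0 101 255 224 192))))
    (.node 2
    (.node 0
    (.node 2
    (.leaf (lf 1024 0 0 156 156 (-244) 63 0 143 255 240 181))
    (.leaf (lf 1024 0 0 152 150 (-235) 55 0 117 255 245 166)))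
    (.leaf (lf 707 1024 501 0 398 (-232) 0 0 233 255 229 236)))
    (.node 0
    (.node 2
    (.leaf (lf 1024 0 0 147 143 (-222) 50 0 95 255 245 155))
    (.leaf (lf 1024 0 0 141 134 (-207) 46 0 78 255 248 146)))
    (.leaf (lf 671 1024 571 0 389 (-201) 0 0 169 255 198 198)))))
    (.node 2
    (.node 1
    (.leaf (lf 1024 0 113 93 213 (-287) 0 0 248 255 239 212))
    (.node 2
    (.leaf (lf 1024 0 0 178 200 (-282) 90 0 258 255 237 162))
    (.leaf (lf 1024 0 0 178 200 (-283) 78 0 219 255 238 151))))
    (.node 1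
    (.leaf (lf 1024 0 0 60 207 (-290) 21 0 180 255 201 144))
    (.node 0
    (.leaf (lf 1024 0 0 171 184 (-266) 62 0 151 255 255 255))
    (.leaf (lf 1024 0 0 180 204 (-285) 70 0 190 255 255 255))))))
    (by decide +kernel)

def goodS2X_46 :
    Check.Good noCone cfS2X (reach cfS2X ⟨litS2X, 1, fsS2X⟩
      [(0, false), (2, false), (0, false), (1, true), (1, false), (2, true), (2, false), (2, false)]) :=
  Check.check_sound
    (.node 2
    (.node 1
    (.node 2
    (.leaf (lf 1024 0 0 254 143 (-228) 110 0 140 255 252 145))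
    (.leaf (lf 1024 0 0 252 141 (-225) 103 0 126 255 253 143)))
    (.node 2
    (.node 0
    (.leaf (lf 1024 0 0 339 135 (-221) 150 0 130 255 255 255))
    (.leaf (lf 1024 0 0 348 139 (-224) 163 0 144 255 255 255)))
    (.node 0
    (.leaf (lf 1024 0 0 335 132 (-217) 139 0 116 255 255 255))
    (.leaf (lf 1024 0 0 346 136 (-220) 151 0 130 255 255 255)))))
    (.node 1
    (.node 0
    (.node 0
    (.leaf (lf 1024 0 0 238 129 (-208) 89 0 96 255 255 255))
    (.leaf (lf 1024 0 0 243 134 (-214) 92 0 103 255 255 255)))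
    (.leaf (lf 1024 0 0 251 141 (-222) 97 0 115 255 255 255)))
    (.node 0
    (.node 0
    (.leaf (lf 1024 0 0 326 126 (-208) 124 0 96 253 255 175))
    (.leaf (lf 1024 0 0 332 129 (-210) 129 0 102 255 255 179)))
    (.node 0
    (.leaf (lf 1024 0 0 339 131 (-212) 134 0 108 255 255 180))
    (.leaf (lf 1024 0 0 345 134 (-214) 139 0 114 255 255 255))))))
    (by decide +kernel)

def goodS2X_47 :
    Check.Good noCone cfS2X (reach cfS2X ⟨litS2X, 1, fsS2X⟩
      [(0, true), (2, false), (0, false), (1, true), (1, false), (2, true), (2, false), (2, false)]) :=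
  Check.check_sound
    (.node 2
    (.node 1
    (.node 2
    (.leaf (lf 1024 0 0 267 158 (-242) 130 0 179 255 255 255))
    (.leaf (lf 1024 0 0 267 157 (-240) 120 0 162 255 255 255)))
    (.node 2
    (.leaf (lf 16384 0 0 5818 2342 (-3642) 2948 0 2697 253 255 155))
    (.leaf (lf 1024 0 0 363 145 (-225) 170 0 152 252 255 149))))
    (.node 1
    (.node 1
    (.leaf (lf 1024 0 0 240 152 (-231) 97 0 138 255 255 255))
    (.leaf (lf 1024 0 0 290 143 (-220) 119 0 131 255 255 255)))
    (.node 2
    (.node 0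
    (.leaf (lf 1024 0 0 354 139 (-220) 153 0 130 255 255 255))
    (.leaf (lf 1024 0 0 364 144 (-223) 166 0 144 255 255 255)))
    (.node 0
    (.leaf (lf 1024 0 0 351 137 (-216) 144 0 118 255 255 255))
    (.leaf (lf 1024 0 0 362 142 (-220) 156 0 132 255 255 255))))))
    (by decide +kernel)

def goodS2X_45 :
    Check.Good noCone cfS2X (reach cfS2X ⟨litS2X, 1, fsS2X⟩
      [(2, false), (0, false), (1, true), (1, false), (2, true), (2, false), (2, false)]) :=
  Check.good_node (a := 0) (by decide +kernel)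
    goodS2X_46 goodS2X_47

def goodS2X_49 :
    Check.Good noCone cfS2X (reach cfS2X ⟨litS2X, 1, fsS2X⟩
      [(0, false), (2, true), (0, false), (1, true), (1, false), (2, true), (2, false), (2, false)]) :=
  Check.check_sound
    (.node 1
    (.node 2
    (.node 0
    (.node 0
    (.leaf (lf 1024 0 0 229 122 (-196) 80 0 78 251 255 162))
    (.leaf (lf 1024 0 0 235 127 (-202) 83 0 84 255 255 255)))
    (.leaf (lf 1024 0 0 244 134 (-211) 88 0 95 255 252 175)))
    (.node 0
    (.node 0
    (.leaf (lf 1024 0 0 218 114 (-182) 74 0 64 248 255 156))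
    (.leaf (lf 1024 0 0 225 119 (-189) 77 0 69 249 255 156)))
    (.leaf (lf 1024 0 0 235 127 (-199) 80 0 78 253 255 158))))
    (.node 2
    (.node 0
    (.node 0
    (.leaf (lf 1024 0 0 313 120 (-197) 112 0 79 251 255 167))
    (.leaf (lf 1024 0 0 321 123 (-199) 116 0 84 253 255 171)))
    (.node 0
    (.leaf (lf 1024 0 0 329 125 (-202) 121 0 89 251 255 170))
    (.leaf (lf 1024 0 0 336 128 (-205) 125 0 94 250 255 168))))
    (.node 0
    (.node 0
    (.node 2
    (.leaf (lf 1024 0 0 301 116 (-188) 106 0 68 255 255 255))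
    (.leaf (lf 1024 0 0 293 113 (-184) 102 0 63 255 255 255)))
    (.leaf (lf 1024 0 0 307 117 (-189) 107 0 70 249 255 161)))
    (.node 0
    (.leaf (lf 1024 0 0 316 119 (-191) 111 0 74 248 255 162))
    (.leaf (lf 1024 0 0 325 122 (-194) 115 0 78 247 255 160))))))
    (by decide +kernel)

def goodS2X_50 :
    Check.Good noCone cfS2X (reach cfS2X ⟨litS2X, 1, fsS2X⟩
      [(0, true), (2, true), (0, false), (1, true), (1, false), (2, true), (2, false), (2, false)]) :=
  Check.check_sound
    (.node 1
    (.node 2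
    (.node 1
    (.leaf (lf 1024 0 0 236 147 (-223) 87 0 115 255 255 255))
    (.leaf (lf 1024 0 0 285 138 (-212) 107 0 109 255 255 255)))
    (.node 1
    (.leaf (lf 1024 0 0 231 140 (-212) 79 0 96 255 255 255))
    (.leaf (lf 1024 0 0 279 131 (-201) 97 0 91 255 255 255))))
    (.node 2
    (.node 0
    (.node 0
    (.leaf (lf 1024 0 0 343 131 (-208) 130 0 100 255 255 255))
    (.leaf (lf 1024 0 0 350 134 (-210) 135 0 105 255 255 255)))
    (.leaf (lf 1024 0 0 360 139 (-214) 142 0 115 255 253 180)))
    (.node 0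
    (.node 0
    (.leaf (lf 1024 0 0 333 125 (-197) 119 0 83 248 255 162))
    (.leaf (lf 1024 0 0 341 128 (-201) 123 0 88 255 255 255)))
    (.leaf (lf 1024 0 0 352 133 (-206) 129 0 97 252 255 168)))))
    (by decide +kernel)

def goodS2X_48 :
    Check.Good noCone cfS2X (reach cfS2X ⟨litS2X, 1, fsS2X⟩
      [(2, true), (0, false), (1, true), (1, false), (2, true), (2, false), (2, false)]) :=
  Check.good_node (a := 0) (by decide +kernel)
    goodS2X_49 goodS2X_50

def goodS2X_44 :
    Check.Good noCone cfS2X (reach cfS2X ⟨litS2X, 1, fsS2X⟩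
      [(0, false), (1, true), (1, false), (2, true), (2, false), (2, false)]) :=
  Check.good_node (a := 2) (by decide +kernel)
    goodS2X_45 goodS2X_48

def goodS2X_52 :
    Check.Good noCone cfS2X (reach cfS2X ⟨litS2X, 1, fsS2X⟩
      [(2, false), (0, true), (1, true), (1, false), (2, true), (2, false), (2, false)]) :=
  Check.check_sound
    (.node 2
    (.node 0
    (.node 1
    (.leaf (lf 1024 0 0 280 172 (-252) 144 0 211 255 255 255))
    (.node 2
    (.leaf (lf 1024 0 0 379 155 (-231) 217 0 204 253 255 157))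
    (.leaf (lf 1024 0 0 379 154 (-230) 200 0 185 252 255 151))))
    (.node 1
    (.leaf (lf 1024 0 0 291 185 (-261) 168 0 257 255 255 255))
    (.node 2
    (.leaf (lf 1024 0 0 392 164 (-235) 254 0 243 255 255 255))
    (.leaf (lf 1024 0 0 394 164 (-235) 234 0 222 255 255 255)))))
    (.node 0
    (.node 1
    (.leaf (lf 1024 0 0 280 171 (-251) 125 0 177 255 255 255))
    (.node 2
    (.leaf (lf 1024 0 0 380 153 (-229) 186 0 169 251 255 149))
    (.leaf (lf 1024 0 0 379 151 (-227) 174 0 154 251 255 145))))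
    (.node 1
    (.leaf (lf 1024 0 0 293 186 (-263) 145 0 218 255 255 255))
    (.node 2
    (.leaf (lf 1024 0 0 396 163 (-235) 216 0 204 255 255 255))
    (.leaf (lf 1024 0 0 396 162 (-234) 202 0 187 255 255 255))))))
    (by decide +kernel)

def goodS2X_53 :
    Check.Good noCone cfS2X (reach cfS2X ⟨litS2X, 1, fsS2X⟩
      [(2, true), (0, true), (1, true), (1, false), (2, true), (2, false), (2, false)]) :=
  Check.check_sound
    (.node 0
    (.node 1
    (.node 2
    (.leaf (lf 1024 0 0 278 167 (-247) 111 0 150 255 255 255))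
    (.leaf (lf 1024 0 0 275 163 (-240) 101 0 128 255 250 162)))
    (.node 2
    (.node 0
    (.leaf (lf 1024 0 0 371 145 (-220) 153 0 128 255 255 255))
    (.leaf (lf 1024 0 0 382 151 (-224) 165 0 142 255 255 255)))
    (.node 0
    (.leaf (lf 1024 0 0 366 140 (-212) 139 0 108 253 255 172))
    (.leaf (lf 1024 0 0 378 146 (-218) 148 0 121 255 255 255)))))
    (.node 2
    (.node 1
    (.leaf (lf 1024 0 0 293 184 (-262) 128 0 187 255 255 255))
    (.node 2
    (.leaf (lf 1024 0 0 397 161 (-233) 189 0 173 255 255 255))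
    (.leaf (lf 1024 0 0 397 160 (-231) 178 0 160 255 255 255))))
    (.node 1
    (.leaf (lf 1024 0 0 292 181 (-258) 115 0 162 255 255 255))
    (.node 0
    (.leaf (lf 1024 0 0 390 153 (-224) 159 0 134 255 255 255))
    (.leaf (lf 1024 0 0 400 160 (-229) 170 0 149 255 255 255))))))
    (by decide +kernel)

def goodS2X_51 :
    Check.Good noCone cfS2X (reach cfS2X ⟨litS2X, 1, fsS2X⟩
      [(0, true), (1, true), (1, false), (2, true), (2, false), (2, false)]) :=
  Check.good_node (a := 2) (by decide +kernel)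
    goodS2X_52 goodS2X_53

def goodS2X_43 :
    Check.Good noCone cfS2X (reach cfS2X ⟨litS2X, 1, fsS2X⟩
      [(1, true), (1, false), (2, true), (2, false), (2, false)]) :=
  Check.good_node (a := 0) (by decide +kernel)
    goodS2X_44 goodS2X_51

def goodS2X_41 :
    Check.Good noCone cfS2X (reach cfS2X ⟨litS2X, 1, fsS2X⟩
      [(1, false), (2, true), (2, false), (2, false)]) :=
  Check.good_node (a := 1) (by decide +kernel)
    goodS2X_42 goodS2X_43

def goodS2X_57 :
    Check.Good noCone cfS2X (reach cfS2X ⟨litS2X, 1, fsS2X⟩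
      [(2, false), (0, false), (0, false), (1, true), (2, true), (2, false), (2, false)]) :=
  Check.check_sound
    (.node 2
    (.node 1
    (.node 2
    (.node 0
    (.node 1
    (.leaf (lf 1024 0 0 429 160 (-269) 189 0 159 255 255 255))
    (.leaf (lf 1024 0 0 533 224 (-386) 217 0 228 255 255 255)))
    (.node 1
    (.leaf (lf 1024 0 0 439 160 (-264) 208 0 171 255 255 255))
    (.leaf (lf 1024 0 0 540 222 (-374) 242 0 243 255 255 255))))
    (.node 0
    (.node 1
    (.leaf (lf 1024 0 0 425 156 (-263) 176 0 142 255 255 255))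
    (.leaf (lf 1024 0 0 527 218 (-376) 202 0 203 255 255 255)))
    (.node 1
    (.leaf (lf 1024 0 0 436 157 (-258) 193 0 152 255 255 255))
    (.leaf (lf 1024 0 0 535 216 (-364) 224 0 216 255 255 255)))))
    (.leaf (lf 1024 0 0 788 379 (-665) 195 0 399 255 229 178)))
    (.node 1
    (.node 0
    (.node 1
    (.node 0
    (.leaf (lf 1024 0 0 413 151 (-254) 156 0 118 255 255 255))
    (.leaf (lf 1024 0 0 420 151 (-252) 163 0 123 255 255 255)))
    (.leaf (lf 1024 0 0 517 210 (-362) 183 0 173 255 255 255)))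
    (.node 1
    (.node 0
    (.leaf (lf 1024 0 0 427 151 (-250) 170 0 127 255 255 255))
    (.leaf (lf 1024 0 0 434 151 (-248) 178 0 132 255 255 255)))
    (.leaf (lf 1024 0 0 529 208 (-351) 203 0 183 255 255 255))))
    (.leaf (lf 1024 0 0 763 359 (-638) 178 0 323 255 233 166))))
    (by decide +kernel)

def goodS2X_58 :
    Check.Good noCone cfS2X (reach cfS2X ⟨litS2X, 1, fsS2X⟩
      [(2, true), (0, false), (0, false), (1, true), (2, true), (2, false), (2, false)]) :=
  Check.check_sound
    (.node 1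
    (.node 2
    (.node 0
    (.node 1
    (.node 0
    (.leaf (lf 1024 0 0 397 145 (-243) 141 0 97 255 255 255))
    (.leaf (lf 1024 0 0 406 145 (-241) 147 0 101 255 255 255)))
    (.leaf (lf 1024 0 0 498 201 (-346) 166 0 143 255 255 255)))
    (.node 1
    (.node 0
    (.leaf (lf 1024 0 0 415 145 (-239) 153 0 105 255 255 255))
    (.leaf (lf 1024 0 0 423 145 (-237) 160 0 109 255 255 255)))
    (.leaf (lf 1024 0 0 514 198 (-336) 182 0 151 255 255 255))))
    (.node 0
    (.node 1
    (.node 0
    (.leaf (lf 1024 0 0 377 140 (-233) 131 0 82 255 255 255))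
    (.leaf (lf 1024 0 0 388 139 (-231) 136 0 85 255 255 255)))
    (.leaf (lf 1024 0 0 474 194 (-333) 154 0 121 255 255 255)))
    (.node 1
    (.node 0
    (.leaf (lf 1024 0 0 399 139 (-229) 141 0 88 255 255 255))
    (.leaf (lf 1024 0 0 409 139 (-227) 146 0 91 255 255 255)))
    (.leaf (lf 1024 0 0 494 191 (-322) 168 0 128 255 255 255)))))
    (.node 2
    (.leaf (lf 1024 0 0 735 343 (-614) 166 0 268 255 236 155))
    (.leaf (lf 16384 0 0 11243 5286 (-9482) 2516 0 3623 255 238 144))))
    (by decide +kernel)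

def goodS2X_56 :
    Check.Good noCone cfS2X (reach cfS2X ⟨litS2X, 1, fsS2X⟩
      [(0, false), (0, false), (1, true), (2, true), (2, false), (2, false)]) :=
  Check.good_node (a := 2) (by decide +kernel)
    goodS2X_57 goodS2X_58

def goodS2X_60 :
    Check.Good noCone cfS2X (reach cfS2X ⟨litS2X, 1, fsS2X⟩
      [(2, false), (0, true), (0, false), (1, true), (2, true), (2, false), (2, false)]) :=
  Check.check_sound
    (.node 2
    (.node 1
    (.node 2
    (.node 1
    (.leaf (lf 1024 0 0 456 162 (-257) 237 0 191 251 255 163))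
    (.leaf (lf 1024 0 0 553 221 (-359) 281 0 267 255 255 255)))
    (.node 1
    (.leaf (lf 1024 0 0 455 159 (-252) 219 0 171 250 255 158))
    (.leaf (lf 1024 0 0 552 214 (-349) 260 0 237 255 255 255))))
    (.leaf (lf 1024 0 0 773 384 (-645) 268 0 461 255 229 168)))
    (.node 1
    (.node 1
    (.node 2
    (.leaf (lf 1024 0 0 453 155 (-247) 204 0 154 248 255 153))
    (.leaf (lf 1024 0 0 450 152 (-242) 191 0 139 247 255 148)))
    (.node 2
    (.leaf (lf 1024 0 0 549 208 (-340) 242 0 212 255 255 255))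
    (.leaf (lf 1024 0 0 545 203 (-332) 227 0 191 255 255 255))))
    (.leaf (lf 1024 0 0 758 363 (-617) 238 0 372 255 233 161))))
    (by decide +kernel)

def goodS2X_61 :
    Check.Good noCone cfS2X (reach cfS2X ⟨litS2X, 1, fsS2X⟩
      [(2, true), (0, true), (0, false), (1, true), (2, true), (2, false), (2, false)]) :=
  Check.check_sound
    (.node 1
    (.node 2
    (.node 1
    (.node 0
    (.leaf (lf 1024 0 0 435 145 (-235) 169 0 115 255 254 180))
    (.leaf (lf 1024 0 0 450 146 (-231) 183 0 124 255 254 183)))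
    (.node 0
    (.leaf (lf 1024 0 0 529 196 (-325) 200 0 160 255 255 255))
    (.leaf (lf 1024 0 0 543 193 (-315) 218 0 169 255 255 255))))
    (.node 1
    (.node 0
    (.node 0
    (.leaf (lf 1024 0 0 418 139 (-225) 152 0 95 255 255 255))
    (.leaf (lf 1024 0 0 427 139 (-223) 157 0 98 255 255 255)))
    (.leaf (lf 1024 0 0 441 140 (-222) 166 0 104 252 255 173)))
    (.node 0
    (.leaf (lf 1024 0 0 513 188 (-312) 182 0 135 255 255 255))
    (.leaf (lf 1024 0 0 531 185 (-301) 198 0 142 255 255 255)))))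
    (.node 2
    (.leaf (lf 1024 0 0 740 345 (-593) 217 0 307 255 236 155))
    (.leaf (lf 1024 0 0 718 331 (-572) 200 0 259 255 238 146))))
    (by decide +kernel)

def goodS2X_59 :
    Check.Good noCone cfS2X (reach cfS2X ⟨litS2X, 1, fsS2X⟩
      [(0, true), (0, false), (1, true), (2, true), (2, false), (2, false)]) :=
  Check.good_node (a := 2) (by decide +kernel)
    goodS2X_60 goodS2X_61

def goodS2X_55 :
    Check.Good noCone cfS2X (reach cfS2X ⟨litS2X, 1, fsS2X⟩
      [(0, false), (1, true), (2, true), (2, false), (2, false)]) :=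
  Check.good_node (a := 0) (by decide +kernel)
    goodS2X_56 goodS2X_59

def goodS2X_64 :
    Check.Good noCone cfS2X (reach cfS2X ⟨litS2X, 1, fsS2X⟩
      [(2, false), (0, false), (0, true), (1, true), (2, true), (2, false), (2, false)]) :=
  Check.check_sound
    (.node 2
    (.node 1
    (.node 2
    (.node 1
    (.leaf (lf 1024 0 0 471 164 (-249) 283 0 219 252 255 165))
    (.leaf (lf 1024 0 0 566 218 (-339) 342 0 299 255 255 255)))
    (.node 1
    (.leaf (lf 1024 0 0 473 160 (-244) 261 0 196 250 255 162))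
    (.leaf (lf 1024 0 0 567 211 (-329) 315 0 265 255 255 255))))
    (.leaf (lf 1024 0 0 766 387 (-623) 350 0 527 255 228 175)))
    (.node 1
    (.node 1
    (.node 2
    (.leaf (lf 1024 0 0 473 157 (-240) 242 0 177 249 255 157))
    (.leaf (lf 1024 0 0 473 154 (-236) 226 0 160 248 255 154)))
    (.node 2
    (.leaf (lf 1024 0 0 567 205 (-321) 292 0 237 255 255 255))
    (.leaf (lf 1024 0 0 566 199 (-313) 272 0 213 255 255 255))))
    (.leaf (lf 1024 0 0 758 364 (-594) 306 0 423 255 232 168))))
    (by decide +kernel)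

def goodS2X_65 :
    Check.Good noCone cfS2X (reach cfS2X ⟨litS2X, 1, fsS2X⟩
      [(2, true), (0, false), (0, true), (1, true), (2, true), (2, false), (2, false)]) :=
  Check.check_sound
    (.node 1
    (.node 2
    (.node 1
    (.node 0
    (.leaf (lf 1024 0 0 463 147 (-229) 198 0 133 255 255 184))
    (.leaf (lf 1024 0 0 475 149 (-227) 214 0 144 255 253 187)))
    (.node 2
    (.leaf (lf 1024 0 0 565 194 (-305) 256 0 193 255 255 255))
    (.leaf (lf 1024 0 0 562 189 (-298) 242 0 176 255 255 255))))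
    (.node 1
    (.node 0
    (.leaf (lf 1024 0 0 457 141 (-220) 179 0 112 252 255 174))
    (.leaf (lf 1024 0 0 471 143 (-218) 192 0 121 253 255 177)))
    (.node 0
    (.leaf (lf 1024 0 0 547 182 (-292) 215 0 149 255 255 255))
    (.leaf (lf 1024 0 0 562 180 (-282) 233 0 156 255 255 255)))))
    (.node 2
    (.leaf (lf 1024 0 0 748 346 (-569) 274 0 348 255 235 163))
    (.leaf (lf 1024 0 0 734 330 (-548) 249 0 293 255 238 154))))
    (by decide +kernel)

def goodS2X_63 :
    Check.Good noCone cfS2X (reach cfS2X ⟨litS2X, 1, fsS2X⟩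
      [(0, false), (0, true), (1, true), (2, true), (2, false), (2, false)]) :=
  Check.good_node (a := 2) (by decide +kernel)
    goodS2X_64 goodS2X_65

def goodS2X_67 :
    Check.Good noCone cfS2X (reach cfS2X ⟨litS2X, 1, fsS2X⟩
      [(2, false), (0, true), (0, true), (1, true), (2, true), (2, false), (2, false)]) :=
  Check.check_sound
    (.node 2
    (.node 1
    (.node 2
    (.node 1
    (.leaf (lf 1024 0 0 486 166 (-243) 335 0 252 251 255 168))
    (.leaf (lf 1024 0 0 577 216 (-323) 411 0 335 255 255 255)))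
    (.node 1
    (.leaf (lf 1024 0 0 489 163 (-239) 307 0 226 250 255 162))
    (.leaf (lf 1024 0 0 581 209 (-313) 377 0 296 255 255 255))))
    (.leaf (lf 1024 0 0 761 391 (-604) 443 0 599 255 207 167)))
    (.node 1
    (.node 1
    (.node 2
    (.leaf (lf 1024 0 0 491 160 (-235) 284 0 204 248 255 158))
    (.leaf (lf 1024 0 0 492 157 (-231) 264 0 185 247 255 153)))
    (.node 2
    (.leaf (lf 1024 0 0 583 202 (-304) 348 0 264 255 255 255))
    (.leaf (lf 1024 0 0 585 196 (-296) 324 0 237 255 255 255))))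
    (.leaf (lf 1024 0 0 760 366 (-573) 383 0 477 255 212 161))))
    (by decide +kernel)

def goodS2X_68 :
    Check.Good noCone cfS2X (reach cfS2X ⟨litS2X, 1, fsS2X⟩
      [(2, true), (0, true), (0, true), (1, true), (2, true), (2, false), (2, false)]) :=
  Check.check_sound
    (.node 1
    (.node 2
    (.node 1
    (.node 2
    (.leaf (lf 1024 0 0 493 155 (-228) 247 0 169 247 255 149))
    (.leaf (lf 1024 0 0 493 152 (-224) 233 0 155 245 255 146)))
    (.node 2
    (.leaf (lf 1024 0 0 586 191 (-289) 303 0 214 255 255 255))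
    (.leaf (lf 1024 0 0 586 186 (-282) 285 0 195 255 255 255))))
    (.node 1
    (.node 0
    (.leaf (lf 1024 0 0 485 145 (-217) 207 0 130 252 255 178))
    (.leaf (lf 1024 0 0 497 148 (-217) 222 0 141 255 255 255)))
    (.node 0
    (.leaf (lf 1024 0 0 576 178 (-274) 252 0 164 255 255 255))
    (.leaf (lf 1024 0 0 589 177 (-267) 273 0 173 255 255 255)))))
    (.node 2
    (.leaf (lf 1024 0 0 756 346 (-547) 338 0 391 255 216 155))
    (.node 0
    (.leaf (lf 1024 0 0 743 328 (-529) 291 0 318 255 241 149))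
    (.leaf (lf 1024 0 0 751 328 (-518) 321 0 336 255 242 154)))))
    (by decide +kernel)

def goodS2X_66 :
    Check.Good noCone cfS2X (reach cfS2X ⟨litS2X, 1, fsS2X⟩
      [(0, true), (0, true), (1, true), (2, true), (2, false), (2, false)]) :=
  Check.good_node (a := 2) (by decide +kernel)
    goodS2X_67 goodS2X_68

def goodS2X_62 :
    Check.Good noCone cfS2X (reach cfS2X ⟨litS2X, 1, fsS2X⟩
      [(0, true), (1, true), (2, true), (2, false), (2, false)]) :=
  Check.good_node (a := 0) (by decide +kernel)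
    goodS2X_63 goodS2X_66

def goodS2X_54 :
    Check.Good noCone cfS2X (reach cfS2X ⟨litS2X, 1, fsS2X⟩
      [(1, true), (2, true), (2, false), (2, false)]) :=
  Check.good_node (a := 0) (by decide +kernel)
    goodS2X_55 goodS2X_62

def goodS2X_40 :
    Check.Good noCone cfS2X (reach cfS2X ⟨litS2X, 1, fsS2X⟩
      [(2, true), (2, false), (2, false)]) :=
  Check.good_node (a := 1) (by decide +kernel)
    goodS2X_41 goodS2X_54

def goodS2X_2 :
    Check.Good noCone cfS2X (reach cfS2X ⟨litS2X, 1, fsS2X⟩
      [(2, false), (2, false)]) :=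
  Check.good_node (a := 2) (by decide +kernel)
    goodS2X_3 goodS2X_40

end

end Vale.Agent.P211.Cert.Interior.Data
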