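import Vale.Agent.P211.Cert.Interior.Data.S3Xr

/-!
P211, a part of a cell of the interior family (generated).
-/

namespace Vale.Agent.P211.Cert.Interior.Data

open Vale.Agent.P098.Check6 (ofChunks eqList reach St Cfg Face)
open Vale.Agent.P098.Cert6.Kron (RootPar parOK)

set_option linter.defProp false

noncomputable section

def goodS3X_60 :
    Check.Good noCone cfS3X (reach cfS3X ⟨litS3X, 1, fsS3X⟩
      [(1, false), (1, false), (0, false), (2, true), (2, false)]) :=
  Check.check_sound
    (.node 0
    (.node 2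
    (.node 1
    (.leaf (lf 1024 0 0 65 227 (-298) 20 0 158 255 241 223))
    (.node 2
    (.leaf (lf 1024 0 0 193 222 (-296) 64 0 173 255 255 255))
    (.leaf (lf 1024 0 0 190 209 (-279) 57 0 137 255 255 255))))
    (.node 1
    (.leaf (lf 1024 0 0 62 193 (-253) 16 0 98 255 231 170))
    (.node 2
    (.leaf (lf 1024 0 0 186 193 (-257) 52 0 107 255 240 141))
    (.node 1
    (.leaf (lf 1024 0 0 151 170 (-223) 40 0 82 255 255 255))
    (.leaf (lf 1024 0 0 209 163 (-215) 57 0 79 255 255 255))))))
    (.node 2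
    (.node 1
    (.leaf (lf 1024 0 0 71 267 (-331) 24 0 225 255 255 255))
    (.leaf (lf 1024 0 0 212 254 (-317) 72 0 215 255 255 255)))
    (.node 1
    (.leaf (lf 1024 0 0 71 243 (-304) 19 0 150 255 255 255))
    (.leaf (lf 1024 0 0 210 231 (-290) 59 0 143 255 232 196)))))
    (by decide +kernel)

def goodS3X_63 :
    Check.Good noCone cfS3X (reach cfS3X ⟨litS3X, 1, fsS3X⟩
      [(2, false), (0, false), (1, true), (1, false), (0, false), (2, true), (2, false)]) :=
  Check.check_sound
    (.node 2
    (.node 1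
    (.node 0
    (.leaf (lf 1024 0 0 304 188 (-258) 104 0 141 255 255 255))
    (.leaf (lf 1024 0 0 320 206 (-275) 116 0 171 255 255 255)))
    (.node 0
    (.node 2
    (.leaf (lf 1024 0 0 414 162 (-227) 155 0 131 252 255 155))
    (.leaf (lf 1024 0 0 411 157 (-220) 145 0 115 251 255 150)))
    (.node 2
    (.leaf (lf 1024 0 0 434 177 (-240) 173 0 157 255 255 255))
    (.leaf (lf 1024 0 0 434 172 (-235) 161 0 139 255 255 255)))))
    (.node 1
    (.node 0
    (.leaf (lf 1024 0 0 298 175 (-240) 93 0 110 255 255 255))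
    (.leaf (lf 1024 0 0 317 195 (-261) 102 0 135 255 255 255)))
    (.node 0
    (.node 2
    (.leaf (lf 1024 0 0 407 151 (-212) 136 0 101 249 255 142))
    (.leaf (lf 1024 0 0 402 145 (-203) 129 0 89 247 255 138)))
    (.node 2
    (.leaf (lf 1024 0 0 432 167 (-228) 151 0 123 255 255 255))
    (.leaf (lf 1024 0 0 430 161 (-219) 142 0 109 255 255 255))))))
    (by decide +kernel)

def goodS3X_65 :
    Check.Good noCone cfS3X (reach cfS3X ⟨litS3X, 1, fsS3X⟩
      [(2, false), (2, true), (0, false), (1, true), (1, false), (0, false), (2, true), (2, false)]) :=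
  Check.check_sound
    (.node 1
    (.node 0
    (.node 1
    (.leaf (lf 1024 0 0 262 156 (-213) 76 0 83 255 255 255))
    (.leaf (lf 1024 0 0 316 145 (-198) 94 0 77 255 255 255)))
    (.leaf (lf 1024 0 0 312 181 (-241) 93 0 107 255 255 255)))
    (.node 0
    (.node 2
    (.node 0
    (.leaf (lf 1024 0 0 386 134 (-188) 121 0 74 242 255 144))
    (.leaf (lf 1024 0 0 402 141 (-196) 126 0 82 255 255 255)))
    (.node 0
    (.leaf (lf 1024 0 0 378 128 (-180) 116 0 66 240 255 140))
    (.leaf (lf 1024 0 0 396 135 (-187) 121 0 73 240 255 139))))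
    (.node 2
    (.leaf (lf 1024 0 0 426 155 (-210) 135 0 97 247 255 137))
    (.leaf (lf 1024 0 0 421 148 (-201) 129 0 86 245 255 133)))))
    (by decide +kernel)

def goodS3X_66 :
    Check.Good noCone cfS3X (reach cfS3X ⟨litS3X, 1, fsS3X⟩
      [(2, true), (2, true), (0, false), (1, true), (1, false), (0, false), (2, true), (2, false)]) :=
  Check.check_sound
    (.node 1
    (.node 0
    (.node 1
    (.leaf (lf 1024 0 0 250 140 (-188) 71 0 64 255 255 255))
    (.leaf (lf 1024 0 0 302 131 (-177) 87 0 60 255 255 255)))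
    (.leaf (lf 1024 0 0 303 165 (-219) 86 0 84 255 252 164)))
    (.node 0
    (.node 2
    (.node 0
    (.leaf (lf 1024 0 0 369 125 (-174) 112 0 59 239 255 137))
    (.leaf (lf 1024 0 0 388 130 (-179) 117 0 65 238 255 138)))
    (.node 0
    (.leaf (lf 1024 0 0 359 124 (-172) 108 0 55 236 255 131))
    (.leaf (lf 1024 0 0 379 127 (-174) 113 0 59 238 255 135))))
    (.node 2
    (.node 0
    (.leaf (lf 1024 0 0 406 137 (-186) 122 0 72 239 255 139))
    (.leaf (lf 1024 0 0 423 145 (-195) 127 0 80 255 255 255)))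
    (.node 0
    (.leaf (lf 1024 0 0 398 132 (-179) 117 0 65 237 255 130))
    (.leaf (lf 1024 0 0 417 139 (-186) 122 0 72 255 255 255))))))
    (by decide +kernel)

def goodS3X_64 :
    Check.Good noCone cfS3X (reach cfS3X ⟨litS3X, 1, fsS3X⟩
      [(2, true), (0, false), (1, true), (1, false), (0, false), (2, true), (2, false)]) :=
  Check.good_node (a := 2) (by decide +kernel)
    goodS3X_65 goodS3X_66

def goodS3X_62 :
    Check.Good noCone cfS3X (reach cfS3X ⟨litS3X, 1, fsS3X⟩
      [(0, false), (1, true), (1, false), (0, false), (2, true), (2, false)]) :=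
  Check.good_node (a := 2) (by decide +kernel)
    goodS3X_63 goodS3X_64

def goodS3X_67 :
    Check.Good noCone cfS3X (reach cfS3X ⟨litS3X, 1, fsS3X⟩
      [(0, true), (1, true), (1, false), (0, false), (2, true), (2, false)]) :=
  Check.check_sound
    (.node 2
    (.node 2
    (.node 1
    (.leaf (lf 1024 0 0 344 233 (-295) 134 0 222 255 255 255))
    (.node 0
    (.leaf (lf 1024 0 0 455 190 (-249) 184 0 176 255 255 255))
    (.leaf (lf 1024 0 0 472 205 (-261) 204 0 208 255 255 255))))
    (.node 1
    (.leaf (lf 1024 0 0 345 226 (-288) 117 0 180 255 255 255))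
    (.node 0
    (.leaf (lf 1024 0 0 455 181 (-239) 160 0 140 255 255 255))
    (.leaf (lf 1024 0 0 476 198 (-254) 176 0 168 255 255 255)))))
    (.node 2
    (.node 1
    (.leaf (lf 1024 0 0 344 215 (-274) 105 0 146 255 242 155))
    (.node 0
    (.node 2
    (.leaf (lf 1024 0 0 453 172 (-228) 148 0 119 255 255 255))
    (.leaf (lf 1024 0 0 450 166 (-219) 141 0 106 255 255 255)))
    (.leaf (lf 1024 0 0 477 188 (-241) 157 0 136 255 255 255))))
    (.node 1
    (.leaf (lf 1024 0 0 340 200 (-255) 96 0 119 255 247 143))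
    (.node 0
    (.node 2
    (.leaf (lf 1024 0 0 447 159 (-210) 135 0 94 255 255 255))
    (.leaf (lf 1024 0 0 443 152 (-200) 130 0 84 245 255 130)))
    (.leaf (lf 1024 0 0 474 175 (-224) 143 0 110 255 251 167))))))
    (by decide +kernel)

def goodS3X_61 :
    Check.Good noCone cfS3X (reach cfS3X ⟨litS3X, 1, fsS3X⟩
      [(1, true), (1, false), (0, false), (2, true), (2, false)]) :=
  Check.good_node (a := 0) (by decide +kernel)
    goodS3X_62 goodS3X_67

def goodS3X_59 :
    Check.Good noCone cfS3X (reach cfS3X ⟨litS3X, 1, fsS3X⟩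
      [(1, false), (0, false), (2, true), (2, false)]) :=
  Check.good_node (a := 1) (by decide +kernel)
    goodS3X_60 goodS3X_61

def goodS3X_72 :
    Check.Good noCone cfS3X (reach cfS3X ⟨litS3X, 1, fsS3X⟩
      [(1, false), (2, false), (0, false), (2, false), (1, true), (0, false), (2, true), (2, false)]) :=
  Check.check_sound
    (.node 0
    (.node 2
    (.node 1
    (.node 0
    (.leaf (lf 1024 0 0 505 140 (-202) 198 0 112 246 255 163))
    (.leaf (lf 1024 0 0 519 143 (-204) 210 0 121 255 255 255)))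
    (.node 0
    (.leaf (lf 1024 0 0 597 159 (-237) 243 0 131 255 255 255))
    (.leaf (lf 1024 0 0 611 159 (-232) 259 0 137 255 255 255))))
    (.node 1
    (.node 0
    (.leaf (lf 1024 0 0 501 134 (-194) 184 0 97 244 255 154))
    (.leaf (lf 1024 0 0 516 138 (-196) 195 0 105 245 255 158)))
    (.node 0
    (.leaf (lf 1024 0 0 592 152 (-227) 226 0 114 255 255 255))
    (.leaf (lf 1024 0 0 608 151 (-221) 240 0 119 255 255 255)))))
    (.node 2
    (.node 1
    (.node 0
    (.leaf (lf 1024 0 0 531 148 (-207) 222 0 131 255 255 255))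
    (.leaf (lf 1024 0 0 543 152 (-210) 235 0 141 255 255 255)))
    (.node 0
    (.leaf (lf 1024 0 0 625 159 (-228) 275 0 144 255 255 255))
    (.leaf (lf 1024 0 0 638 160 (-226) 293 0 152 255 255 255))))
    (.node 1
    (.node 0
    (.leaf (lf 1024 0 0 530 142 (-199) 206 0 114 255 255 255))
    (.leaf (lf 1024 0 0 543 147 (-203) 218 0 124 255 255 255)))
    (.node 0
    (.leaf (lf 1024 0 0 624 151 (-217) 255 0 124 255 255 255))
    (.leaf (lf 1024 0 0 638 152 (-215) 270 0 131 255 255 255))))))
    (by decide +kernel)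

def goodS3X_73 :
    Check.Good noCone cfS3X (reach cfS3X ⟨litS3X, 1, fsS3X⟩
      [(1, true), (2, false), (0, false), (2, false), (1, true), (0, false), (2, true), (2, false)]) :=
  Check.check_sound
    (.node 0
    (.node 2
    (.leaf (lf 1024 0 0 756 554 0 303 (-223) 144 255 146 245))
    (.node 1
    (.leaf (lf 1024 0 0 694 220 (-336) 271 0 174 255 255 255))
    (.leaf (lf 1024 0 0 803 328 (-521) 295 0 269 255 255 255))))
    (.node 2
    (.leaf (lf 1024 0 0 779 541 0 351 (-243) 162 255 135 249))
    (.node 1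
    (.leaf (lf 1024 0 0 725 217 (-319) 309 0 188 255 252 175))
    (.leaf (lf 1024 0 0 829 328 (-501) 342 0 294 255 255 255)))))
    (by decide +kernel)

def goodS3X_71 :
    Check.Good noCone cfS3X (reach cfS3X ⟨litS3X, 1, fsS3X⟩
      [(2, false), (0, false), (2, false), (1, true), (0, false), (2, true), (2, false)]) :=
  Check.good_node (a := 1) (by decide +kernel)
    goodS3X_72 goodS3X_73

def goodS3X_76 :
    Check.Good noCone cfS3X (reach cfS3X ⟨litS3X, 1, fsS3X⟩
      [(0, false), (1, false), (2, true), (0, false), (2, false), (1, true), (0, false), (2, true), (2, false)]) :=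
  Check.check_sound
    (.node 2
    (.node 1
    (.node 0
    (.leaf (lf 1024 0 0 496 128 (-186) 173 0 85 242 255 150))
    (.leaf (lf 1024 0 0 512 132 (-188) 183 0 92 243 255 152)))
    (.node 0
    (.leaf (lf 1024 0 0 585 146 (-218) 213 0 100 255 255 255))
    (.leaf (lf 1024 0 0 603 144 (-212) 225 0 104 255 255 255))))
    (.node 1
    (.node 0
    (.node 1
    (.leaf (lf 1024 0 0 465 115 (-165) 155 0 70 255 255 255))
    (.leaf (lf 1024 0 0 511 113 (-164) 174 0 69 255 255 255)))
    (.leaf (lf 1024 0 0 506 126 (-180) 173 0 81 241 255 148)))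
    (.node 0
    (.leaf (lf 1024 0 0 575 142 (-211) 201 0 89 243 255 151))
    (.leaf (lf 1024 0 0 596 139 (-204) 212 0 92 242 255 152)))))
    (by decide +kernel)

def goodS3X_77 :
    Check.Good noCone cfS3X (reach cfS3X ⟨litS3X, 1, fsS3X⟩
      [(0, true), (1, false), (2, true), (0, false), (2, false), (1, true), (0, false), (2, true), (2, false)]) :=
  Check.check_sound
    (.node 2
    (.node 1
    (.node 0
    (.leaf (lf 1024 0 0 527 136 (-191) 193 0 100 243 255 154))
    (.leaf (lf 1024 0 0 542 141 (-195) 203 0 109 255 255 255)))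
    (.node 0
    (.leaf (lf 1024 0 0 621 144 (-207) 238 0 108 255 255 255))
    (.leaf (lf 1024 0 0 637 144 (-205) 252 0 114 255 255 255))))
    (.node 1
    (.node 0
    (.leaf (lf 1024 0 0 524 130 (-183) 182 0 88 241 255 148))
    (.leaf (lf 1024 0 0 540 135 (-187) 191 0 96 242 255 149)))
    (.node 0
    (.leaf (lf 1024 0 0 616 137 (-198) 224 0 95 241 255 154))
    (.leaf (lf 1024 0 0 634 137 (-195) 237 0 99 242 255 156)))))
    (by decide +kernel)

def goodS3X_75 :
    Check.Good noCone cfS3X (reach cfS3X ⟨litS3X, 1, fsS3X⟩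
      [(1, false), (2, true), (0, false), (2, false), (1, true), (0, false), (2, true), (2, false)]) :=
  Check.good_node (a := 0) (by decide +kernel)
    goodS3X_76 goodS3X_77

def goodS3X_78 :
    Check.Good noCone cfS3X (reach cfS3X ⟨litS3X, 1, fsS3X⟩
      [(1, true), (2, true), (0, false), (2, false), (1, true), (0, false), (2, true), (2, false)]) :=
  Check.check_sound
    (.node 0
    (.node 2
    (.node 1
    (.leaf (lf 1024 0 0 686 212 (-324) 254 0 153 255 255 255))
    (.leaf (lf 1024 0 0 791 316 (-504) 277 0 237 255 255 255)))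
    (.node 1
    (.leaf (lf 1024 0 0 675 206 (-314) 240 0 137 255 255 255))
    (.leaf (lf 1024 0 0 777 306 (-489) 263 0 212 255 255 255))))
    (.node 2
    (.node 1
    (.leaf (lf 1024 0 0 722 207 (-305) 288 0 164 255 255 255))
    (.leaf (lf 1024 0 0 823 315 (-483) 319 0 259 255 255 255)))
    (.node 1
    (.leaf (lf 1024 0 0 717 199 (-294) 271 0 145 255 255 255))
    (.leaf (lf 1024 0 0 815 303 (-467) 301 0 230 255 255 255)))))
    (by decide +kernel)

def goodS3X_74 :
    Check.Good noCone cfS3X (reach cfS3X ⟨litS3X, 1, fsS3X⟩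
      [(2, true), (0, false), (2, false), (1, true), (0, false), (2, true), (2, false)]) :=
  Check.good_node (a := 1) (by decide +kernel)
    goodS3X_75 goodS3X_78

def goodS3X_70 :
    Check.Good noCone cfS3X (reach cfS3X ⟨litS3X, 1, fsS3X⟩
      [(0, false), (2, false), (1, true), (0, false), (2, true), (2, false)]) :=
  Check.good_node (a := 2) (by decide +kernel)
    goodS3X_71 goodS3X_74

def goodS3X_80 :
    Check.Good noCone cfS3X (reach cfS3X ⟨litS3X, 1, fsS3X⟩
      [(2, false), (0, true), (2, false), (1, true), (0, false), (2, true), (2, false)]) :=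
  Check.check_sound
    (.node 1
    (.node 0
    (.node 2
    (.node 1
    (.leaf (lf 1024 0 0 560 162 (-217) 255 0 161 251 255 167))
    (.leaf (lf 1024 0 0 657 165 (-227) 320 0 168 251 255 180)))
    (.node 1
    (.leaf (lf 1024 0 0 563 157 (-211) 235 0 142 249 255 159))
    (.node 0
    (.leaf (lf 1024 0 0 652 154 (-214) 286 0 139 255 255 255))
    (.leaf (lf 1024 0 0 665 157 (-215) 303 0 148 255 255 255)))))
    (.node 2
    (.node 1
    (.leaf (lf 1024 0 0 581 174 (-226) 284 0 189 255 255 255))
    (.leaf (lf 1024 0 0 679 173 (-230) 359 0 192 255 255 255)))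
    (.node 1
    (.leaf (lf 1024 0 0 585 170 (-222) 262 0 168 255 255 255))
    (.leaf (lf 1024 0 0 685 164 (-220) 329 0 166 249 255 174)))))
    (.node 2
    (.node 0
    (.leaf (lf 1024 0 0 799 533 0 403 (-265) 184 255 129 251))
    (.leaf (lf 1024 0 0 818 532 0 461 (-292) 209 255 120 253)))
    (.node 0
    (.node 1
    (.leaf (lf 1024 0 0 752 216 (-308) 350 0 205 255 253 178))
    (.leaf (lf 1024 0 0 852 330 (-487) 394 0 324 255 255 255)))
    (.leaf (lf 1024 0 0 825 509 0 423 (-254) 181 255 119 254)))))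
    (by decide +kernel)

def goodS3X_82 :
    Check.Good noCone cfS3X (reach cfS3X ⟨litS3X, 1, fsS3X⟩
      [(1, false), (2, true), (0, true), (2, false), (1, true), (0, false), (2, true), (2, false)]) :=
  Check.check_sound
    (.node 0
    (.node 2
    (.node 1
    (.node 0
    (.leaf (lf 1024 0 0 556 147 (-200) 214 0 119 255 255 255))
    (.leaf (lf 1024 0 0 569 153 (-205) 225 0 130 255 255 255)))
    (.node 0
    (.leaf (lf 1024 0 0 653 146 (-203) 266 0 120 255 255 255))
    (.leaf (lf 1024 0 0 667 148 (-204) 281 0 128 255 255 255))))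
    (.node 1
    (.node 0
    (.leaf (lf 1024 0 0 555 141 (-192) 201 0 105 255 255 255))
    (.leaf (lf 1024 0 0 569 148 (-198) 211 0 115 255 255 255)))
    (.node 0
    (.leaf (lf 1024 0 0 652 138 (-193) 250 0 105 241 255 157))
    (.leaf (lf 1024 0 0 668 141 (-193) 263 0 112 243 255 160)))))
    (.node 2
    (.node 1
    (.leaf (lf 1024 0 0 588 165 (-216) 243 0 149 255 255 255))
    (.node 0
    (.leaf (lf 1024 0 0 681 152 (-206) 297 0 138 255 255 255))
    (.leaf (lf 1024 0 0 695 158 (-210) 314 0 149 255 255 255))))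
    (.node 1
    (.leaf (lf 1024 0 0 590 160 (-209) 227 0 133 248 255 151))
    (.node 0
    (.leaf (lf 1024 0 0 684 144 (-195) 277 0 120 255 255 255))
    (.leaf (lf 1024 0 0 698 150 (-199) 292 0 130 255 255 255))))))
    (by decide +kernel)

def goodS3X_83 :
    Check.Good noCone cfS3X (reach cfS3X ⟨litS3X, 1, fsS3X⟩
      [(1, true), (2, true), (0, true), (2, false), (1, true), (0, false), (2, true), (2, false)]) :=
  Check.check_sound
    (.node 0
    (.node 2
    (.node 1
    (.leaf (lf 1024 0 0 754 205 (-293) 325 0 178 254 255 174))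
    (.leaf (lf 1024 0 0 852 316 (-468) 366 0 284 255 255 255)))
    (.node 1
    (.leaf (lf 1024 0 0 753 196 (-280) 304 0 156 253 255 167))
    (.leaf (lf 1024 0 0 850 303 (-451) 343 0 251 255 255 255))))
    (.node 2
    (.node 1
    (.leaf (lf 1024 0 0 782 209 (-288) 366 0 198 254 255 180))
    (.leaf (lf 1024 0 0 877 320 (-459) 417 0 314 255 255 255)))
    (.node 1
    (.leaf (lf 1024 0 0 786 198 (-274) 341 0 173 251 255 174))
    (.leaf (lf 1024 0 0 880 307 (-440) 389 0 276 255 255 255)))))
    (by decide +kernel)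

def goodS3X_81 :
    Check.Good noCone cfS3X (reach cfS3X ⟨litS3X, 1, fsS3X⟩
      [(2, true), (0, true), (2, false), (1, true), (0, false), (2, true), (2, false)]) :=
  Check.good_node (a := 1) (by decide +kernel)
    goodS3X_82 goodS3X_83

def goodS3X_79 :
    Check.Good noCone cfS3X (reach cfS3X ⟨litS3X, 1, fsS3X⟩
      [(0, true), (2, false), (1, true), (0, false), (2, true), (2, false)]) :=
  Check.good_node (a := 2) (by decide +kernel)
    goodS3X_80 goodS3X_81

def goodS3X_69 :
    Check.Good noCone cfS3X (reach cfS3X ⟨litS3X, 1, fsS3X⟩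
      [(2, false), (1, true), (0, false), (2, true), (2, false)]) :=
  Check.good_node (a := 0) (by decide +kernel)
    goodS3X_70 goodS3X_79

def goodS3X_88 :
    Check.Good noCone cfS3X (reach cfS3X ⟨litS3X, 1, fsS3X⟩
      [(0, false), (1, false), (2, false), (0, false), (2, true), (1, true), (0, false), (2, true), (2, false)]) :=
  Check.check_sound
    (.node 1
    (.node 2
    (.node 0
    (.node 1
    (.leaf (lf 1024 0 0 457 110 (-157) 148 0 62 255 255 255))
    (.leaf (lf 1024 0 0 501 110 (-159) 166 0 62 255 255 255)))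
    (.node 1
    (.leaf (lf 1024 0 0 476 113 (-160) 155 0 67 255 255 255))
    (.leaf (lf 1024 0 0 522 109 (-156) 174 0 65 255 255 255))))
    (.node 0
    (.node 1
    (.leaf (lf 1024 0 0 447 107 (-153) 142 0 55 255 255 255))
    (.leaf (lf 1024 0 0 490 109 (-157) 159 0 57 255 255 255)))
    (.node 1
    (.leaf (lf 1024 0 0 468 109 (-153) 148 0 59 255 255 255))
    (.leaf (lf 1024 0 0 513 106 (-152) 166 0 59 255 255 255)))))
    (.node 2
    (.node 0
    (.leaf (lf 1024 0 0 564 139 (-207) 192 0 81 242 255 149))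
    (.leaf (lf 1024 0 0 587 135 (-198) 202 0 82 242 255 149)))
    (.node 0
    (.leaf (lf 1024 0 0 551 139 (-206) 184 0 75 242 255 147))
    (.leaf (lf 1024 0 0 577 134 (-195) 193 0 75 242 255 146)))))
    (by decide +kernel)

def goodS3X_89 :
    Check.Good noCone cfS3X (reach cfS3X ⟨litS3X, 1, fsS3X⟩
      [(0, true), (1, false), (2, false), (0, false), (2, true), (1, true), (0, false), (2, true), (2, false)]) :=
  Check.check_sound
    (.node 1
    (.node 2
    (.node 0
    (.leaf (lf 1024 0 0 518 125 (-175) 172 0 78 240 255 143))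
    (.leaf (lf 1024 0 0 536 129 (-179) 181 0 84 242 255 144)))
    (.node 0
    (.node 1
    (.leaf (lf 1024 0 0 488 113 (-156) 155 0 65 255 255 255))
    (.leaf (lf 1024 0 0 535 106 (-149) 174 0 62 255 255 255)))
    (.leaf (lf 1024 0 0 531 124 (-171) 172 0 75 239 255 139))))
    (.node 2
    (.node 0
    (.leaf (lf 1024 0 0 609 133 (-191) 213 0 85 241 255 153))
    (.leaf (lf 1024 0 0 630 131 (-186) 224 0 88 240 255 152)))
    (.node 0
    (.leaf (lf 16384 0 0 9617 2070 (-2978) 3244 0 1226 239 255 147))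
    (.node 2
    (.leaf (lf 1024 0 0 625 127 (-181) 216 0 81 232 255 128))
    (.leaf (lf 1024 0 0 622 126 (-178) 211 0 77 233 255 130))))))
    (by decide +kernel)

def goodS3X_87 :
    Check.Good noCone cfS3X (reach cfS3X ⟨litS3X, 1, fsS3X⟩
      [(1, false), (2, false), (0, false), (2, true), (1, true), (0, false), (2, true), (2, false)]) :=
  Check.good_node (a := 0) (by decide +kernel)
    goodS3X_88 goodS3X_89

def goodS3X_90 :
    Check.Good noCone cfS3X (reach cfS3X ⟨litS3X, 1, fsS3X⟩
      [(1, true), (2, false), (0, false), (2, true), (1, true), (0, false), (2, true), (2, false)]) :=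
  Check.check_sound
    (.node 0
    (.node 2
    (.node 1
    (.leaf (lf 1024 0 0 663 201 (-307) 229 0 123 255 255 255))
    (.leaf (lf 1024 0 0 759 298 (-476) 252 0 191 255 255 255)))
    (.node 1
    (.leaf (lf 1024 0 0 648 199 (-303) 219 0 113 255 255 255))
    (.leaf (lf 1024 0 0 740 292 (-467) 242 0 174 255 255 255))))
    (.node 2
    (.node 1
    (.leaf (lf 1024 0 0 710 192 (-284) 256 0 130 255 255 255))
    (.leaf (lf 1024 0 0 805 294 (-453) 285 0 206 255 255 255)))
    (.node 1
    (.leaf (lf 1024 0 0 701 188 (-277) 244 0 117 252 255 151))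
    (.leaf (lf 1024 0 0 793 286 (-442) 273 0 186 255 255 255)))))
    (by decide +kernel)

def goodS3X_86 :
    Check.Good noCone cfS3X (reach cfS3X ⟨litS3X, 1, fsS3X⟩
      [(2, false), (0, false), (2, true), (1, true), (0, false), (2, true), (2, false)]) :=
  Check.good_node (a := 1) (by decide +kernel)
    goodS3X_87 goodS3X_90

def goodS3X_93 :
    Check.Good noCone cfS3X (reach cfS3X ⟨litS3X, 1, fsS3X⟩
      [(0, false), (1, false), (2, true), (0, false), (2, true), (1, true), (0, false), (2, true), (2, false)]) :=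
  Check.check_sound
    (.node 1
    (.node 2
    (.node 0
    (.node 1
    (.leaf (lf 1024 0 0 436 107 (-152) 137 0 52 255 255 255))
    (.leaf (lf 1024 0 0 478 111 (-159) 153 0 54 255 255 255)))
    (.node 1
    (.leaf (lf 1024 0 0 459 106 (-149) 143 0 54 255 255 255))
    (.leaf (lf 1024 0 0 503 106 (-151) 160 0 54 255 255 255))))
    (.node 0
    (.leaf (lf 1024 0 0 444 124 (-175) 140 0 56 237 255 138))
    (.node 1
    (.leaf (lf 1024 0 0 448 107 (-149) 138 0 51 255 255 255))
    (.leaf (lf 1024 0 0 491 109 (-154) 155 0 52 255 255 255)))))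
    (.node 2
    (.node 0
    (.leaf (lf 1024 0 0 537 143 (-210) 177 0 71 255 255 255))
    (.leaf (lf 1024 0 0 565 135 (-196) 186 0 71 241 255 145)))
    (.node 0
    (.leaf (lf 1024 0 0 521 150 (-219) 172 0 70 255 255 255))
    (.leaf (lf 1024 0 0 551 140 (-202) 179 0 68 242 255 139)))))
    (by decide +kernel)

def goodS3X_94 :
    Check.Good noCone cfS3X (reach cfS3X ⟨litS3X, 1, fsS3X⟩
      [(0, true), (1, false), (2, true), (0, false), (2, true), (1, true), (0, false), (2, true), (2, false)]) :=
  Check.check_sound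
    (.node 1
    (.node 2
    (.node 0
    (.node 1
    (.leaf (lf 1024 0 0 480 108 (-150) 149 0 58 255 255 255))
    (.leaf (lf 1024 0 0 526 104 (-145) 167 0 56 255 255 255)))
    (.node 1
    (.leaf (lf 1024 0 0 500 112 (-153) 156 0 63 255 255 255))
    (.leaf (lf 1024 0 0 548 104 (-143) 175 0 59 255 255 255))))
    (.node 0
    (.node 1
    (.leaf (lf 1024 0 0 471 106 (-146) 144 0 53 255 255 255))
    (.leaf (lf 1024 0 0 517 104 (-145) 161 0 53 255 255 255)))
    (.node 1
    (.leaf (lf 1024 0 0 493 108 (-147) 150 0 57 255 255 255))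
    (.leaf (lf 1024 0 0 541 102 (-140) 169 0 54 255 255 255)))))
    (.node 2
    (.node 0
    (.leaf (lf 1024 0 0 591 129 (-185) 194 0 71 239 255 140))
    (.node 2
    (.leaf (lf 1024 0 0 618 124 (-176) 206 0 73 233 255 124))
    (.leaf (lf 1024 0 0 614 124 (-175) 202 0 70 234 255 125))))
    (.node 0
    (.leaf (lf 1024 0 0 580 131 (-187) 187 0 68 241 255 142))
    (.node 2
    (.leaf (lf 1024 0 0 609 124 (-175) 198 0 68 233 255 124))
    (.leaf (lf 1024 0 0 604 125 (-176) 194 0 66 234 255 120))))))
    (by decide +kernel)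

def goodS3X_92 :
    Check.Good noCone cfS3X (reach cfS3X ⟨litS3X, 1, fsS3X⟩
      [(1, false), (2, true), (0, false), (2, true), (1, true), (0, false), (2, true), (2, false)]) :=
  Check.good_node (a := 0) (by decide +kernel)
    goodS3X_93 goodS3X_94

def goodS3X_95 :
    Check.Good noCone cfS3X (reach cfS3X ⟨litS3X, 1, fsS3X⟩
      [(1, true), (2, true), (0, false), (2, true), (1, true), (0, false), (2, true), (2, false)]) :=
  Check.check_sound
    (.node 0
    (.node 2
    (.node 0
    (.leaf (lf 1024 0 0 656 260 (-408) 217 0 137 253 255 142))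
    (.leaf (lf 1024 0 0 687 255 (-394) 229 0 141 255 236 134)))
    (.node 0
    (.leaf (lf 1024 0 0 633 262 (-408) 211 0 129 251 255 145))
    (.leaf (lf 1024 0 0 668 256 (-393) 221 0 132 252 255 144))))
    (.node 2
    (.node 1
    (.leaf (lf 1024 0 0 690 185 (-273) 234 0 108 250 255 147))
    (.leaf (lf 1024 0 0 778 280 (-433) 262 0 170 255 255 255)))
    (.node 1
    (.leaf (lf 1024 0 0 677 186 (-273) 225 0 101 250 255 142))
    (.leaf (lf 1024 0 0 761 277 (-427) 252 0 157 255 255 255)))))
    (by decide +kernel)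

def goodS3X_91 :
    Check.Good noCone cfS3X (reach cfS3X ⟨litS3X, 1, fsS3X⟩
      [(2, true), (0, false), (2, true), (1, true), (0, false), (2, true), (2, false)]) :=
  Check.good_node (a := 1) (by decide +kernel)
    goodS3X_92 goodS3X_95

def goodS3X_85 :
    Check.Good noCone cfS3X (reach cfS3X ⟨litS3X, 1, fsS3X⟩
      [(0, false), (2, true), (1, true), (0, false), (2, true), (2, false)]) :=
  Check.good_node (a := 2) (by decide +kernel)
    goodS3X_86 goodS3X_91

def goodS3X_99 :
    Check.Good noCone cfS3X (reach cfS3X ⟨litS3X, 1, fsS3X⟩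
      [(0, false), (1, false), (2, false), (0, true), (2, true), (1, true), (0, false), (2, true), (2, false)]) :=
  Check.check_sound
    (.node 1
    (.node 2
    (.node 0
    (.leaf (lf 1024 0 0 552 135 (-183) 190 0 92 242 255 147))
    (.leaf (lf 1024 0 0 568 141 (-189) 199 0 101 255 255 255)))
    (.node 0
    (.leaf (lf 1024 0 0 549 129 (-175) 181 0 82 241 255 144))
    (.leaf (lf 1024 0 0 566 135 (-181) 189 0 90 241 255 142))))
    (.node 2
    (.node 0
    (.leaf (lf 1024 0 0 649 131 (-184) 236 0 92 240 255 152))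
    (.leaf (lf 1024 0 0 667 133 (-183) 248 0 98 241 255 155)))
    (.node 0
    (.node 2
    (.leaf (lf 1024 0 0 646 127 (-177) 227 0 84 233 255 130))
    (.leaf (lf 1024 0 0 643 124 (-174) 221 0 79 234 255 124)))
    (.node 2
    (.leaf (lf 1024 0 0 665 128 (-176) 238 0 89 232 255 128))
    (.leaf (lf 1024 0 0 664 125 (-172) 232 0 84 232 255 127))))))
    (by decide +kernel)

def goodS3X_100 :
    Check.Good noCone cfS3X (reach cfS3X ⟨litS3X, 1, fsS3X⟩
      [(0, true), (1, false), (2, false), (0, true), (2, true), (1, true), (0, false), (2, true), (2, false)]) :=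
  Check.check_sound
    (.node 1
    (.node 2
    (.leaf (lf 1024 0 0 591 154 (-201) 214 0 118 247 255 147))
    (.node 0
    (.leaf (lf 1024 0 0 582 142 (-188) 198 0 99 255 255 255))
    (.leaf (lf 1024 0 0 598 150 (-195) 207 0 109 255 255 255))))
    (.node 2
    (.node 0
    (.leaf (lf 1024 0 0 684 137 (-185) 261 0 105 241 255 157))
    (.leaf (lf 1024 0 0 701 142 (-189) 274 0 113 255 255 255)))
    (.node 0
    (.leaf (lf 1024 0 0 684 129 (-175) 247 0 92 239 255 151))
    (.leaf (lf 1024 0 0 702 134 (-178) 259 0 99 240 255 152)))))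
    (by decide +kernel)

def goodS3X_98 :
    Check.Good noCone cfS3X (reach cfS3X ⟨litS3X, 1, fsS3X⟩
      [(1, false), (2, false), (0, true), (2, true), (1, true), (0, false), (2, true), (2, false)]) :=
  Check.good_node (a := 0) (by decide +kernel)
    goodS3X_99 goodS3X_100

def goodS3X_101 :
    Check.Good noCone cfS3X (reach cfS3X ⟨litS3X, 1, fsS3X⟩
      [(1, true), (2, false), (0, true), (2, true), (1, true), (0, false), (2, true), (2, false)]) :=
  Check.check_sound
    (.node 0
    (.node 2
    (.node 1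
    (.leaf (lf 1024 0 0 751 188 (-268) 286 0 138 255 255 255))
    (.leaf (lf 1024 0 0 845 292 (-435) 323 0 223 255 255 255)))
    (.node 1
    (.leaf (lf 1024 0 0 747 181 (-259) 271 0 124 249 255 153))
    (.leaf (lf 1024 0 0 839 283 (-422) 307 0 201 255 255 255))))
    (.node 2
    (.node 1
    (.leaf (lf 1024 0 0 788 188 (-261) 320 0 152 249 255 168))
    (.leaf (lf 1024 0 0 881 295 (-424) 365 0 245 255 255 255)))
    (.node 1
    (.leaf (lf 1024 0 0 788 180 (-249) 302 0 134 248 255 163))
    (.leaf (lf 1024 0 0 881 284 (-409) 344 0 219 255 255 255)))))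
    (by decide +kernel)

def goodS3X_97 :
    Check.Good noCone cfS3X (reach cfS3X ⟨litS3X, 1, fsS3X⟩
      [(2, false), (0, true), (2, true), (1, true), (0, false), (2, true), (2, false)]) :=
  Check.good_node (a := 1) (by decide +kernel)
    goodS3X_98 goodS3X_101

def goodS3X_104 :
    Check.Good noCone cfS3X (reach cfS3X ⟨litS3X, 1, fsS3X⟩
      [(0, false), (1, false), (2, true), (0, true), (2, true), (1, true), (0, false), (2, true), (2, false)]) :=
  Check.check_sound
    (.node 1
    (.node 2
    (.node 0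
    (.node 1
    (.leaf (lf 1024 0 0 519 118 (-159) 163 0 69 255 255 255))
    (.leaf (lf 1024 0 0 569 106 (-144) 183 0 63 255 255 255)))
    (.leaf (lf 1024 0 0 563 129 (-172) 181 0 80 241 255 142)))
    (.node 0
    (.node 1
    (.leaf (lf 1024 0 0 513 112 (-151) 156 0 62 255 255 255))
    (.leaf (lf 1024 0 0 563 102 (-138) 176 0 56 255 255 255)))
    (.node 1
    (.leaf (lf 1024 0 0 533 118 (-157) 163 0 68 255 255 255))
    (.leaf (lf 1024 0 0 584 104 (-140) 184 0 61 255 255 255)))))
    (.node 2
    (.node 0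
    (.node 2
    (.leaf (lf 1024 0 0 641 122 (-171) 216 0 75 234 255 124))
    (.leaf (lf 1024 0 0 637 121 (-168) 212 0 72 232 255 128)))
    (.node 2
    (.leaf (lf 1024 0 0 662 122 (-168) 227 0 79 231 255 128))
    (.leaf (lf 1024 0 0 660 120 (-165) 222 0 75 231 255 128))))
    (.node 0
    (.node 2
    (.leaf (lf 1024 0 0 634 120 (-167) 207 0 69 232 255 123))
    (.leaf (lf 1024 0 0 630 120 (-166) 203 0 67 233 255 125)))
    (.node 2
    (.leaf (lf 1024 0 0 657 118 (-162) 217 0 71 232 255 125))
    (.leaf (lf 16384 0 0 10470 1870 (-2562) 3400 0 1089 231 255 124))))))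
    (by decide +kernel)

def goodS3X_105 :
    Check.Good noCone cfS3X (reach cfS3X ⟨litS3X, 1, fsS3X⟩
      [(0, true), (1, false), (2, true), (0, true), (2, true), (1, true), (0, false), (2, true), (2, false)]) :=
  Check.check_sound
    (.node 1
    (.node 2
    (.node 0
    (.leaf (lf 1024 0 0 580 136 (-179) 189 0 88 240 255 141))
    (.leaf (lf 1024 0 0 597 143 (-187) 197 0 97 255 255 255)))
    (.node 0
    (.leaf (lf 1024 0 0 578 129 (-170) 181 0 78 239 255 137))
    (.leaf (lf 1024 0 0 595 137 (-178) 189 0 87 240 255 140))))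
    (.node 2
    (.node 0
    (.node 2
    (.leaf (lf 1024 0 0 682 124 (-168) 238 0 84 232 255 129))
    (.leaf (lf 1024 0 0 681 121 (-164) 232 0 79 231 255 125)))
    (.node 2
    (.leaf (lf 1024 0 0 701 128 (-171) 249 0 90 233 255 126))
    (.leaf (lf 1024 0 0 701 125 (-166) 243 0 85 232 255 127))))
    (.node 0
    (.node 1
    (.leaf (lf 1024 0 0 655 102 (-137) 214 0 63 255 255 255))
    (.leaf (lf 1024 0 0 702 110 (-150) 236 0 69 255 255 255)))
    (.node 1
    (.leaf (lf 1024 0 0 675 106 (-140) 223 0 68 255 255 255))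
    (.leaf (lf 1024 0 0 724 111 (-149) 247 0 72 255 255 255))))))
    (by decide +kernel)

def goodS3X_103 :
    Check.Good noCone cfS3X (reach cfS3X ⟨litS3X, 1, fsS3X⟩
      [(1, false), (2, true), (0, true), (2, true), (1, true), (0, false), (2, true), (2, false)]) :=
  Check.good_node (a := 0) (by decide +kernel)
    goodS3X_104 goodS3X_105

def goodS3X_106 :
    Check.Good noCone cfS3X (reach cfS3X ⟨litS3X, 1, fsS3X⟩
      [(1, true), (2, true), (0, true), (2, true), (1, true), (0, false), (2, true), (2, false)]) :=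
  Check.check_sound
    (.node 0
    (.node 2
    (.node 1
    (.leaf (lf 1024 0 0 741 176 (-251) 259 0 112 249 255 152))
    (.leaf (lf 1024 0 0 831 275 (-410) 293 0 182 255 255 255)))
    (.node 1
    (.leaf (lf 1024 0 0 734 173 (-247) 248 0 103 249 255 146))
    (.leaf (lf 1024 0 0 821 270 (-402) 281 0 167 255 255 255))))
    (.node 2
    (.node 1
    (.leaf (lf 1024 0 0 787 173 (-239) 286 0 120 246 255 155))
    (.leaf (lf 1024 0 0 878 275 (-396) 327 0 198 255 255 255)))
    (.node 1
    (.leaf (lf 1024 0 0 784 167 (-231) 273 0 109 245 255 151))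
    (.leaf (lf 1024 0 0 874 267 (-385) 312 0 180 255 255 255)))))
    (by decide +kernel)

def goodS3X_102 :
    Check.Good noCone cfS3X (reach cfS3X ⟨litS3X, 1, fsS3X⟩
      [(2, true), (0, true), (2, true), (1, true), (0, false), (2, true), (2, false)]) :=
  Check.good_node (a := 1) (by decide +kernel)
    goodS3X_103 goodS3X_106

def goodS3X_96 :
    Check.Good noCone cfS3X (reach cfS3X ⟨litS3X, 1, fsS3X⟩
      [(0, true), (2, true), (1, true), (0, false), (2, true), (2, false)]) :=
  Check.good_node (a := 2) (by decide +kernel)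
    goodS3X_97 goodS3X_102

def goodS3X_84 :
    Check.Good noCone cfS3X (reach cfS3X ⟨litS3X, 1, fsS3X⟩
      [(2, true), (1, true), (0, false), (2, true), (2, false)]) :=
  Check.good_node (a := 0) (by decide +kernel)
    goodS3X_85 goodS3X_96

def goodS3X_68 :
    Check.Good noCone cfS3X (reach cfS3X ⟨litS3X, 1, fsS3X⟩
      [(1, true), (0, false), (2, true), (2, false)]) :=
  Check.good_node (a := 2) (by decide +kernel)
    goodS3X_69 goodS3X_84

def goodS3X_58 :
    Check.Good noCone cfS3X (reach cfS3X ⟨litS3X, 1, fsS3X⟩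
      [(0, false), (2, true), (2, false)]) :=
  Check.good_node (a := 1) (by decide +kernel)
    goodS3X_59 goodS3X_68

def goodS3X_109 :
    Check.Good noCone cfS3X (reach cfS3X ⟨litS3X, 1, fsS3X⟩
      [(1, false), (1, false), (0, true), (2, true), (2, false)]) :=
  Check.check_sound
    (.node 0
    (.node 2
    (.leaf (lf 1024 703 222 0 469 (-416) 0 0 397 255 255 255))
    (.leaf (lf 1024 754 258 0 477 (-410) 0 0 290 255 255 255)))
    (.node 2
    (.leaf (lf 1024 668 198 0 491 (-424) 0 0 496 255 255 255))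
    (.leaf (lf 1024 0 0 167 336 (-382) 52 0 294 255 246 171))))
    (by decide +kernel)

def goodS3X_111 :
    Check.Good noCone cfS3X (reach cfS3X ⟨litS3X, 1, fsS3X⟩
      [(0, false), (1, true), (1, false), (0, true), (2, true), (2, false)]) :=
  Check.check_sound
    (.node 2
    (.node 2
    (.node 1
    (.leaf (lf 1024 0 0 368 262 (-315) 161 0 299 255 255 255))
    (.node 2
    (.leaf (lf 1024 0 0 497 230 (-280) 245 0 280 255 255 255))
    (.leaf (lf 1024 0 0 501 229 (-280) 225 0 253 255 255 255))))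
    (.node 1
    (.leaf (lf 1024 0 0 373 260 (-314) 139 0 248 255 255 255))
    (.leaf (lf 1024 0 0 508 226 (-276) 201 0 218 255 241 177))))
    (.node 2
    (.node 1
    (.leaf (lf 1024 0 0 377 253 (-306) 124 0 206 255 255 255))
    (.leaf (lf 1024 0 0 513 218 (-268) 178 0 180 255 243 163)))
    (.node 1
    (.leaf (lf 1024 0 0 378 242 (-294) 113 0 171 255 255 255))
    (.node 0
    (.leaf (lf 1024 0 0 501 195 (-243) 156 0 133 255 255 255))
    (.leaf (lf 1024 0 0 525 215 (-261) 168 0 160 255 255 255))))))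
    (by decide +kernel)

def goodS3X_112 :
    Check.Good noCone cfS3X (reach cfS3X ⟨litS3X, 1, fsS3X⟩
      [(0, true), (1, true), (1, false), (0, true), (2, true), (2, false)]) :=
  Check.check_sound
    (.node 2
    (.node 2
    (.node 1
    (.leaf (lf 1024 0 0 392 290 (-331) 188 0 389 255 255 255))
    (.leaf (lf 1024 0 0 532 260 (-301) 276 0 354 255 255 255)))
    (.node 1
    (.leaf (lf 1024 0 0 400 291 (-334) 162 0 326 255 255 255))
    (.leaf (lf 1024 0 0 543 260 (-302) 237 0 295 255 255 255))))
    (.node 2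
    (.node 1
    (.leaf (lf 1024 0 0 406 288 (-331) 144 0 276 255 255 255))
    (.leaf (lf 1024 0 0 553 256 (-298) 208 0 248 255 255 255)))
    (.node 1
    (.leaf (lf 1024 0 0 410 281 (-324) 130 0 234 255 255 255))
    (.leaf (lf 1024 0 0 560 248 (-289) 187 0 209 255 255 255)))))
    (by decide +kernel)

def goodS3X_110 :
    Check.Good noCone cfS3X (reach cfS3X ⟨litS3X, 1, fsS3X⟩
      [(1, true), (1, false), (0, true), (2, true), (2, false)]) :=
  Check.good_node (a := 0) (by decide +kernel)
    goodS3X_111 goodS3X_112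

def goodS3X_108 :
    Check.Good noCone cfS3X (reach cfS3X ⟨litS3X, 1, fsS3X⟩
      [(1, false), (0, true), (2, true), (2, false)]) :=
  Check.good_node (a := 1) (by decide +kernel)
    goodS3X_109 goodS3X_110

def goodS3X_116 :
    Check.Good noCone cfS3X (reach cfS3X ⟨litS3X, 1, fsS3X⟩
      [(2, false), (0, false), (2, false), (1, true), (0, true), (2, true), (2, false)]) :=
  Check.check_sound
    (.node 1
    (.node 2
    (.node 0
    (.node 1
    (.leaf (lf 1024 0 0 600 188 (-238) 315 0 223 255 255 255))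
    (.leaf (lf 1024 0 0 700 184 (-239) 402 0 224 255 255 255)))
    (.node 1
    (.leaf (lf 1024 0 0 619 204 (-251) 348 0 264 255 255 255))
    (.leaf (lf 1024 0 0 719 200 (-252) 447 0 264 255 255 255))))
    (.node 0
    (.node 1
    (.leaf (lf 1024 0 0 606 185 (-234) 289 0 199 255 255 255))
    (.leaf (lf 1024 0 0 708 177 (-229) 367 0 194 255 255 255)))
    (.node 1
    (.leaf (lf 1024 0 0 626 202 (-248) 319 0 236 255 255 255))
    (.leaf (lf 1024 0 0 730 193 (-243) 407 0 231 255 255 255)))))
    (.node 2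
    (.node 0
    (.leaf (lf 1024 0 0 834 319 (-433) 525 0 403 255 221 170))
    (.leaf (lf 1024 0 0 849 333 (-439) 594 0 457 255 221 176)))
    (.node 0
    (.leaf (lf 1024 0 0 845 515 0 479 (-282) 207 254 113 255))
    (.leaf (lf 1024 0 0 864 319 (-421) 540 0 397 255 224 172)))))
    (by decide +kernel)

def goodS3X_117 :
    Check.Good noCone cfS3X (reach cfS3X ⟨litS3X, 1, fsS3X⟩
      [(2, true), (0, false), (2, false), (1, true), (0, true), (2, true), (2, false)]) :=
  Check.check_sound
    (.node 1
    (.node 0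
    (.node 2
    (.node 1
    (.leaf (lf 1024 0 0 611 181 (-229) 268 0 178 255 255 255))
    (.leaf (lf 1024 0 0 715 169 (-219) 339 0 170 249 255 174)))
    (.node 1
    (.leaf (lf 1024 0 0 615 176 (-224) 250 0 159 255 255 255))
    (.leaf (lf 1024 0 0 721 161 (-210) 315 0 149 247 255 166))))
    (.node 2
    (.node 1
    (.leaf (lf 1024 0 0 633 198 (-245) 294 0 212 255 255 255))
    (.leaf (lf 1024 0 0 739 186 (-235) 375 0 203 255 255 255)))
    (.node 1
    (.leaf (lf 1024 0 0 639 194 (-240) 274 0 191 255 255 255))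
    (.leaf (lf 1024 0 0 747 179 (-226) 348 0 179 255 255 255)))))
    (.node 2
    (.node 0
    (.node 1
    (.leaf (lf 1024 0 0 808 217 (-290) 411 0 224 255 255 188))
    (.leaf (lf 1024 0 0 900 329 (-456) 474 0 350 255 255 255)))
    (.leaf (lf 1024 0 0 876 507 0 495 (-277) 210 252 107 255)))
    (.node 0
    (.node 1
    (.leaf (lf 1024 0 0 815 206 (-276) 381 0 195 252 255 180))
    (.leaf (lf 1024 0 0 908 315 (-437) 440 0 308 255 255 255)))
    (.node 1
    (.leaf (lf 1024 0 0 842 220 (-286) 424 0 226 254 255 185))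
    (.leaf (lf 1024 0 0 932 329 (-442) 495 0 348 255 255 255))))))
    (by decide +kernel)

def goodS3X_115 :
    Check.Good noCone cfS3X (reach cfS3X ⟨litS3X, 1, fsS3X⟩
      [(0, false), (2, false), (1, true), (0, true), (2, true), (2, false)]) :=
  Check.good_node (a := 2) (by decide +kernel)
    goodS3X_116 goodS3X_117

def goodS3X_118 :
    Check.Good noCone cfS3X (reach cfS3X ⟨litS3X, 1, fsS3X⟩
      [(0, true), (2, false), (1, true), (0, true), (2, true), (2, false)]) :=
  Check.check_sound
    (.node 2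
    (.node 1
    (.node 2
    (.node 1
    (.leaf (lf 1024 0 0 648 234 (-277) 396 0 342 255 255 255))
    (.leaf (lf 1024 0 0 751 235 (-284) 516 0 350 255 255 255)))
    (.node 1
    (.leaf (lf 1024 0 0 658 233 (-275) 362 0 308 255 255 255))
    (.leaf (lf 1024 0 0 764 229 (-277) 469 0 309 255 255 255))))
    (.node 2
    (.node 0
    (.leaf (lf 1024 0 0 863 352 (-451) 669 0 523 255 219 181))
    (.leaf (lf 1024 0 0 876 375 (-469) 748 0 602 255 217 186)))
    (.node 0
    (.leaf (lf 1024 0 0 881 338 (-433) 606 0 455 255 223 177))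
    (.leaf (lf 1024 0 0 897 361 (-451) 676 0 526 255 221 183)))))
    (.node 1
    (.node 2
    (.node 1
    (.leaf (lf 1024 0 0 667 231 (-273) 333 0 279 255 255 255))
    (.leaf (lf 1024 0 0 776 223 (-270) 430 0 275 255 255 255)))
    (.node 1
    (.leaf (lf 1024 0 0 675 228 (-270) 310 0 253 255 255 255))
    (.leaf (lf 1024 0 0 787 217 (-262) 398 0 246 255 255 166))))
    (.node 2
    (.node 0
    (.leaf (lf 1024 0 0 897 325 (-416) 554 0 399 255 226 174))
    (.leaf (lf 1024 0 0 916 349 (-435) 616 0 463 255 225 179)))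
    (.node 0
    (.leaf (lf 1024 0 0 911 313 (-401) 510 0 353 255 229 170))
    (.leaf (lf 1024 0 0 933 337 (-420) 566 0 410 255 228 175))))))
    (by decide +kernel)

def goodS3X_114 :
    Check.Good noCone cfS3X (reach cfS3X ⟨litS3X, 1, fsS3X⟩
      [(2, false), (1, true), (0, true), (2, true), (2, false)]) :=
  Check.good_node (a := 0) (by decide +kernel)
    goodS3X_115 goodS3X_118

def goodS3X_122 :
    Check.Good noCone cfS3X (reach cfS3X ⟨litS3X, 1, fsS3X⟩
      [(1, false), (2, false), (0, false), (2, true), (1, true), (0, true), (2, true), (2, false)]) :=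
  Check.check_sound
    (.node 0
    (.node 1
    (.node 2
    (.leaf (lf 1024 0 0 618 171 (-217) 235 0 143 255 255 255))
    (.leaf (lf 1024 0 0 621 165 (-209) 222 0 128 247 255 148)))
    (.node 2
    (.node 0
    (.leaf (lf 1024 0 0 716 148 (-194) 288 0 124 255 255 255))
    (.leaf (lf 1024 0 0 731 156 (-201) 303 0 136 255 255 255)))
    (.node 0
    (.leaf (lf 1024 0 0 719 140 (-184) 272 0 109 241 255 154))
    (.leaf (lf 1024 0 0 735 148 (-191) 285 0 119 255 255 255)))))
    (.node 1
    (.leaf (lf 1024 0 0 647 187 (-231) 248 0 163 255 255 255))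
    (.node 2
    (.leaf (lf 1024 0 0 754 171 (-216) 325 0 159 255 255 255))
    (.leaf (lf 1024 0 0 759 164 (-207) 305 0 141 245 255 157)))))
    (by decide +kernel)

def goodS3X_123 :
    Check.Good noCone cfS3X (reach cfS3X ⟨litS3X, 1, fsS3X⟩
      [(1, true), (2, false), (0, false), (2, true), (1, true), (0, true), (2, true), (2, false)]) :=
  Check.check_sound
    (.node 0
    (.node 2
    (.node 1
    (.leaf (lf 1024 0 0 821 195 (-262) 356 0 171 249 255 174))
    (.leaf (lf 1024 0 0 913 302 (-420) 411 0 273 255 255 255)))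
    (.node 1
    (.leaf (lf 1024 0 0 825 186 (-249) 335 0 151 247 255 169))
    (.leaf (lf 1024 0 0 918 290 (-404) 386 0 243 255 255 255))))
    (.node 2
    (.node 1
    (.leaf (lf 1024 0 0 851 209 (-272) 395 0 199 251 255 179))
    (.leaf (lf 1024 0 0 942 315 (-424) 461 0 308 255 255 255)))
    (.node 1
    (.leaf (lf 1024 0 0 858 199 (-259) 370 0 175 249 255 172))
    (.leaf (lf 1024 0 0 951 303 (-407) 431 0 274 255 155 113)))))
    (by decide +kernel)

def goodS3X_121 :
    Check.Good noCone cfS3X (reach cfS3X ⟨litS3X, 1, fsS3X⟩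
      [(2, false), (0, false), (2, true), (1, true), (0, true), (2, true), (2, false)]) :=
  Check.good_node (a := 1) (by decide +kernel)
    goodS3X_122 goodS3X_123

def goodS3X_125 :
    Check.Good noCone cfS3X (reach cfS3X ⟨litS3X, 1, fsS3X⟩
      [(1, false), (2, true), (0, false), (2, true), (1, true), (0, true), (2, true), (2, false)]) :=
  Check.check_sound
    (.node 0
    (.node 1
    (.node 2
    (.leaf (lf 1024 0 0 622 158 (-201) 210 0 114 246 255 138))
    (.leaf (lf 1024 0 0 622 152 (-192) 201 0 102 245 255 138)))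
    (.node 2
    (.node 0
    (.leaf (lf 1024 0 0 720 132 (-174) 258 0 96 239 255 150))
    (.leaf (lf 1024 0 0 738 140 (-181) 270 0 105 240 255 150)))
    (.node 0
    (.node 1
    (.leaf (lf 1024 0 0 695 112 (-146) 233 0 75 255 255 255))
    (.leaf (lf 1024 0 0 745 115 (-152) 258 0 78 255 255 255)))
    (.leaf (lf 1024 0 0 739 132 (-171) 257 0 93 238 255 147)))))
    (.node 1
    (.node 2
    (.leaf (lf 1024 0 0 651 178 (-221) 229 0 140 255 255 255))
    (.leaf (lf 1024 0 0 653 172 (-213) 218 0 126 255 255 255)))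
    (.node 2
    (.leaf (lf 1024 0 0 764 156 (-197) 288 0 125 244 255 152))
    (.node 0
    (.leaf (lf 1024 0 0 757 141 (-180) 268 0 103 240 255 147))
    (.leaf (lf 1024 0 0 775 152 (-191) 280 0 116 255 255 255))))))
    (by decide +kernel)

def goodS3X_126 :
    Check.Good noCone cfS3X (reach cfS3X ⟨litS3X, 1, fsS3X⟩
      [(1, true), (2, true), (0, false), (2, true), (1, true), (0, true), (2, true), (2, false)]) :=
  Check.check_sound
    (.node 0
    (.node 2
    (.node 1
    (.leaf (lf 1024 0 0 827 177 (-237) 316 0 134 244 255 159))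
    (.leaf (lf 1024 0 0 920 280 (-389) 364 0 218 255 252 167)))
    (.node 1
    (.leaf (lf 1024 0 0 829 170 (-227) 301 0 120 244 255 158))
    (.leaf (lf 1024 0 0 921 271 (-377) 346 0 197 255 253 164))))
    (.node 2
    (.node 1
    (.leaf (lf 1024 0 0 864 190 (-246) 349 0 155 247 255 167))
    (.leaf (lf 1024 0 0 958 291 (-392) 406 0 246 255 154 109)))
    (.node 1
    (.leaf (lf 1024 0 0 869 181 (-235) 331 0 139 244 255 163))
    (.leaf (lf 1024 0 0 964 281 (-378) 384 0 222 255 254 173)))))
    (by decide +kernel)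

def goodS3X_124 :
    Check.Good noCone cfS3X (reach cfS3X ⟨litS3X, 1, fsS3X⟩
      [(2, true), (0, false), (2, true), (1, true), (0, true), (2, true), (2, false)]) :=
  Check.good_node (a := 1) (by decide +kernel)
    goodS3X_125 goodS3X_126

def goodS3X_120 :
    Check.Good noCone cfS3X (reach cfS3X ⟨litS3X, 1, fsS3X⟩
      [(0, false), (2, true), (1, true), (0, true), (2, true), (2, false)]) :=
  Check.good_node (a := 2) (by decide +kernel)
    goodS3X_121 goodS3X_124

def goodS3X_128 :
    Check.Good noCone cfS3X (reach cfS3X ⟨litS3X, 1, fsS3X⟩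
      [(1, false), (0, true), (2, true), (1, true), (0, true), (2, true), (2, false)]) :=
  Check.check_sound
    (.node 2
    (.node 1
    (.node 0
    (.leaf (lf 1024 0 0 671 209 (-250) 270 0 197 255 255 255))
    (.leaf (lf 1024 0 0 695 232 (-271) 292 0 236 255 255 255)))
    (.node 0
    (.leaf (lf 1024 0 0 786 191 (-234) 343 0 183 255 255 255))
    (.leaf (lf 1024 0 0 812 217 (-259) 374 0 226 255 255 255))))
    (.node 1
    (.node 0
    (.leaf (lf 1024 0 0 680 198 (-238) 241 0 162 255 255 255))
    (.leaf (lf 1024 0 0 707 223 (-260) 260 0 197 255 255 255)))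
    (.node 0
    (.node 2
    (.leaf (lf 1024 0 0 795 180 (-220) 315 0 155 255 255 255))
    (.leaf (lf 1024 0 0 801 172 (-211) 298 0 139 255 255 255)))
    (.leaf (lf 1024 0 0 830 204 (-243) 331 0 184 255 255 255)))))
    (by decide +kernel)

def goodS3X_129 :
    Check.Good noCone cfS3X (reach cfS3X ⟨litS3X, 1, fsS3X⟩
      [(1, true), (0, true), (2, true), (1, true), (0, true), (2, true), (2, false)]) :=
  Check.check_sound
    (.node 2
    (.node 2
    (.node 0
    (.leaf (lf 1024 0 0 924 302 (-387) 474 0 314 255 231 167))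
    (.leaf (lf 1024 0 0 949 327 (-406) 524 0 366 255 230 171)))
    (.node 0
    (.node 1
    (.leaf (lf 1024 0 0 889 220 (-277) 408 0 209 251 255 178))
    (.leaf (lf 1024 0 0 982 321 (-418) 480 0 314 255 255 255)))
    (.leaf (lf 1024 0 0 964 317 (-393) 488 0 329 255 233 168))))
    (.node 0
    (.node 2
    (.node 1
    (.leaf (lf 1024 0 0 898 210 (-265) 384 0 186 249 255 173))
    (.leaf (lf 1024 0 0 993 310 (-403) 450 0 282 255 255 255)))
    (.node 1
    (.leaf (lf 1024 0 0 906 201 (-253) 362 0 166 246 255 165))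
    (.leaf (lf 1024 0 0 1003 299 (-388) 424 0 254 255 155 110))))
    (.node 2
    (.leaf (lf 1024 0 0 977 307 (-380) 457 0 297 255 236 165))
    (.leaf (lf 1024 0 0 989 298 (-369) 430 0 269 255 237 161)))))
    (by decide +kernel)

def goodS3X_127 :
    Check.Good noCone cfS3X (reach cfS3X ⟨litS3X, 1, fsS3X⟩
      [(0, true), (2, true), (1, true), (0, true), (2, true), (2, false)]) :=
  Check.good_node (a := 1) (by decide +kernel)
    goodS3X_128 goodS3X_129

def goodS3X_119 :
    Check.Good noCone cfS3X (reach cfS3X ⟨litS3X, 1, fsS3X⟩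
      [(2, true), (1, true), (0, true), (2, true), (2, false)]) :=
  Check.good_node (a := 0) (by decide +kernel)
    goodS3X_120 goodS3X_127

def goodS3X_113 :
    Check.Good noCone cfS3X (reach cfS3X ⟨litS3X, 1, fsS3X⟩
      [(1, true), (0, true), (2, true), (2, false)]) :=
  Check.good_node (a := 2) (by decide +kernel)
    goodS3X_114 goodS3X_119

def goodS3X_107 :
    Check.Good noCone cfS3X (reach cfS3X ⟨litS3X, 1, fsS3X⟩
      [(0, true), (2, true), (2, false)]) :=
  Check.good_node (a := 1) (by decide +kernel)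
    goodS3X_108 goodS3X_113

def goodS3X_57 :
    Check.Good noCone cfS3X (reach cfS3X ⟨litS3X, 1, fsS3X⟩
      [(2, true), (2, false)]) :=
  Check.good_node (a := 0) (by decide +kernel)
    goodS3X_58 goodS3X_107

end

end Vale.Agent.P211.Cert.Interior.Data
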