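import Vale.Agent.P211.Cert.Interior.Data.S3Xr

/-!
P211, a part of a cell of the interior family (generated).
-/

namespace Vale.Agent.P211.Cert.Interior.Data

open Vale.Agent.P098.Check6 (ofChunks eqList reach St Cfg Face)
open Vale.Agent.P098.Cert6.Kron (RootPar parOK)

set_option linter.defProp false

noncomputable section

def goodS3X_134 :
    Check.Good noCone cfS3X (reach cfS3X ⟨litS3X, 1, fsS3X⟩
      [(1, false), (1, false), (2, false), (0, false), (2, true)]) :=
  Check.check_sound
    (.node 0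
    (.node 1
    (.node 2
    (.leaf (lf 1024 0 0 57 160 (-204) 15 0 62 255 241 165))
    (.leaf (lf 1024 0 0 50 169 (-207) 14 0 53 255 255 255)))
    (.node 2
    (.node 1
    (.leaf (lf 1024 0 0 141 147 (-188) 37 0 57 255 255 255))
    (.leaf (lf 521 978 1024 0 449 (-3) 0 0 113 255 153 255)))
    (.node 1
    (.leaf (lf 1024 0 0 125 162 (-199) 35 0 50 255 255 255))
    (.leaf (lf 1024 0 0 173 165 (-204) 48 0 52 255 255 255)))))
    (.node 1
    (.node 2
    (.leaf (lf 1024 0 0 68 206 (-255) 17 0 99 255 238 159))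
    (.leaf (lf 1024 0 0 64 173 (-209) 16 0 66 255 255 255)))
    (.node 2
    (.node 1
    (.leaf (lf 1024 0 0 169 191 (-237) 43 0 92 255 255 255))
    (.leaf (lf 1024 0 0 236 183 (-228) 60 0 88 255 230 193)))
    (.node 1
    (.leaf (lf 1024 0 0 159 159 (-192) 39 0 61 255 255 255))
    (.leaf (lf 1024 0 0 222 155 (-188) 55 0 60 255 255 255))))))
    (by decide +kernel)

def goodS3X_138 :
    Check.Good noCone cfS3X (reach cfS3X ⟨litS3X, 1, fsS3X⟩
      [(1, false), (2, false), (0, false), (1, true), (1, false), (2, false), (0, false), (2, true)]) :=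
  Check.check_sound
    (.node 2
    (.node 0
    (.node 1
    (.leaf (lf 1024 0 0 237 130 (-172) 67 0 52 255 255 255))
    (.leaf (lf 1024 0 0 286 125 (-167) 83 0 51 255 255 255)))
    (.node 1
    (.leaf (lf 1024 0 0 265 145 (-190) 73 0 65 255 255 255))
    (.leaf (lf 1024 0 0 320 136 (-179) 89 0 61 255 255 255))))
    (.node 0
    (.node 1
    (.leaf (lf 1024 0 0 222 135 (-176) 64 0 48 255 255 255))
    (.leaf (lf 1024 0 0 268 136 (-178) 79 0 49 255 255 255)))
    (.node 1
    (.leaf (lf 1024 0 0 253 136 (-175) 69 0 54 255 255 255))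
    (.leaf (lf 1024 0 0 306 131 (-170) 85 0 52 255 255 255)))))
    (by decide +kernel)

def goodS3X_139 :
    Check.Good noCone cfS3X (reach cfS3X ⟨litS3X, 1, fsS3X⟩
      [(1, true), (2, false), (0, false), (1, true), (1, false), (2, false), (0, false), (2, true)]) :=
  Check.check_sound
    (.node 2
    (.node 0
    (.node 2
    (.node 0
    (.leaf (lf 1024 0 0 348 127 (-175) 105 0 53 236 255 132))
    (.leaf (lf 1024 0 0 370 127 (-172) 110 0 55 237 255 138)))
    (.node 0
    (.leaf (lf 1024 0 0 336 135 (-183) 103 0 52 255 255 255))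
    (.leaf (lf 1024 0 0 360 130 (-176) 107 0 53 237 255 136))))
    (.node 2
    (.node 0
    (.leaf (lf 1024 0 0 390 129 (-174) 114 0 59 237 255 132))
    (.leaf (lf 1024 0 0 410 134 (-179) 118 0 65 236 255 129)))
    (.node 0
    (.leaf (lf 1024 0 0 381 129 (-173) 111 0 56 236 255 134))
    (.leaf (lf 1024 0 0 402 131 (-174) 115 0 60 236 255 133)))))
    (.node 0
    (.node 2
    (.leaf (lf 16384 0 0 5413 2290 (-3064) 1634 0 856 236 255 129))
    (.leaf (lf 1024 0 0 326 157 (-208) 100 0 55 239 255 129)))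
    (.node 2
    (.node 0
    (.leaf (lf 1024 0 0 372 133 (-176) 108 0 54 235 255 134))
    (.leaf (lf 1024 0 0 394 132 (-173) 112 0 56 235 255 131)))
    (.node 0
    (.leaf (lf 1024 0 0 362 141 (-185) 106 0 54 255 255 255))
    (.leaf (lf 1024 0 0 385 135 (-177) 109 0 54 235 255 127))))))
    (by decide +kernel)

def goodS3X_137 :
    Check.Good noCone cfS3X (reach cfS3X ⟨litS3X, 1, fsS3X⟩
      [(2, false), (0, false), (1, true), (1, false), (2, false), (0, false), (2, true)]) :=
  Check.good_node (a := 1) (by decide +kernel)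
    goodS3X_138 goodS3X_139

def goodS3X_140 :
    Check.Good noCone cfS3X (reach cfS3X ⟨litS3X, 1, fsS3X⟩
      [(2, true), (0, false), (1, true), (1, false), (2, false), (0, false), (2, true)]) :=
  Check.check_sound
    (.node 1
    (.node 2
    (.node 0
    (.leaf (lf 1024 0 0 227 172 (-219) 69 0 54 255 255 255))
    (.leaf (lf 1024 0 0 265 152 (-193) 74 0 54 244 255 152)))
    (.leaf (lf 1024 0 0 234 197 (-242) 69 0 59 248 255 141)))
    (.node 2
    (.node 0
    (.leaf (lf 1024 0 0 308 186 (-241) 97 0 60 255 255 255))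
    (.node 2
    (.leaf (lf 1024 0 0 365 149 (-193) 105 0 55 236 255 126))
    (.leaf (lf 1024 0 0 355 163 (-209) 103 0 57 236 255 127))))
    (.leaf (lf 331 619 1024 0 554 133 0 0 141 255 137 241))))
    (by decide +kernel)

def goodS3X_136 :
    Check.Good noCone cfS3X (reach cfS3X ⟨litS3X, 1, fsS3X⟩
      [(0, false), (1, true), (1, false), (2, false), (0, false), (2, true)]) :=
  Check.good_node (a := 2) (by decide +kernel)
    goodS3X_137 goodS3X_140

def goodS3X_142 :
    Check.Good noCone cfS3X (reach cfS3X ⟨litS3X, 1, fsS3X⟩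
      [(2, false), (0, true), (1, true), (1, false), (2, false), (0, false), (2, true)]) :=
  Check.check_sound
    (.node 1
    (.node 2
    (.node 0
    (.leaf (lf 1024 0 0 319 170 (-219) 87 0 84 255 255 255))
    (.leaf (lf 1024 0 0 343 193 (-242) 94 0 105 255 255 255)))
    (.node 0
    (.leaf (lf 1024 0 0 310 157 (-199) 82 0 69 247 255 150))
    (.leaf (lf 1024 0 0 337 176 (-219) 88 0 85 255 255 255))))
    (.node 2
    (.node 0
    (.node 2
    (.leaf (lf 1024 0 0 438 146 (-191) 125 0 76 241 255 125))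
    (.node 0
    (.leaf (lf 1024 0 0 422 136 (-179) 119 0 65 235 255 127))
    (.leaf (lf 1024 0 0 440 143 (-185) 124 0 71 255 255 255))))
    (.node 2
    (.leaf (lf 1024 0 0 470 164 (-209) 136 0 93 255 255 255))
    (.leaf (lf 1024 0 0 467 157 (-200) 131 0 84 242 255 125))))
    (.node 0
    (.node 2
    (.node 0
    (.leaf (lf 1024 0 0 415 134 (-174) 116 0 60 235 255 130))
    (.leaf (lf 1024 0 0 434 138 (-179) 121 0 65 235 255 131)))
    (.node 0
    (.leaf (lf 1024 0 0 407 134 (-174) 113 0 57 234 255 127))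
    (.leaf (lf 1024 0 0 427 136 (-175) 118 0 60 236 255 131))))
    (.node 2
    (.leaf (lf 1024 0 0 462 150 (-191) 127 0 76 239 255 122))
    (.leaf (lf 1024 0 0 457 145 (-183) 124 0 69 238 255 124))))))
    (by decide +kernel)

def goodS3X_143 :
    Check.Good noCone cfS3X (reach cfS3X ⟨litS3X, 1, fsS3X⟩
      [(2, true), (0, true), (1, true), (1, false), (2, false), (0, false), (2, true)]) :=
  Check.check_sound
    (.node 1
    (.node 2
    (.node 0
    (.leaf (lf 1024 0 0 298 151 (-189) 79 0 59 245 255 148))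
    (.leaf (lf 1024 0 0 329 162 (-200) 84 0 70 244 255 144)))
    (.node 0
    (.leaf (lf 1024 0 0 286 158 (-194) 76 0 56 242 255 147))
    (.leaf (lf 1024 0 0 319 156 (-190) 81 0 61 242 255 143))))
    (.node 2
    (.node 0
    (.node 2
    (.node 0
    (.leaf (lf 1024 0 0 399 138 (-177) 111 0 55 233 255 132))
    (.leaf (lf 1024 0 0 420 137 (-174) 115 0 57 235 255 130)))
    (.node 0
    (.leaf (lf 1024 0 0 390 146 (-186) 109 0 55 255 255 255))
    (.leaf (lf 1024 0 0 413 141 (-178) 112 0 56 255 255 255))))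
    (.node 2
    (.node 0
    (.leaf (lf 1024 0 0 441 138 (-175) 119 0 61 233 255 128))
    (.leaf (lf 1024 0 0 460 143 (-179) 123 0 66 255 255 255)))
    (.node 0
    (.leaf (lf 1024 0 0 434 139 (-174) 116 0 58 233 255 126))
    (.leaf (lf 1024 0 0 455 141 (-175) 120 0 62 234 255 127)))))
    (.node 0
    (.node 1
    (.leaf (lf 1024 0 0 365 149 (-185) 99 0 53 255 255 255))
    (.leaf (lf 1024 0 0 415 153 (-192) 115 0 55 255 255 255)))
    (.node 1
    (.leaf (lf 1024 0 0 408 136 (-167) 106 0 53 255 255 255))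
    (.leaf (lf 1024 0 0 464 133 (-164) 123 0 52 255 255 255))))))
    (by decide +kernel)

def goodS3X_141 :
    Check.Good noCone cfS3X (reach cfS3X ⟨litS3X, 1, fsS3X⟩
      [(0, true), (1, true), (1, false), (2, false), (0, false), (2, true)]) :=
  Check.good_node (a := 2) (by decide +kernel)
    goodS3X_142 goodS3X_143

def goodS3X_135 :
    Check.Good noCone cfS3X (reach cfS3X ⟨litS3X, 1, fsS3X⟩
      [(1, true), (1, false), (2, false), (0, false), (2, true)]) :=
  Check.good_node (a := 0) (by decide +kernel)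
    goodS3X_136 goodS3X_141

def goodS3X_133 :
    Check.Good noCone cfS3X (reach cfS3X ⟨litS3X, 1, fsS3X⟩
      [(1, false), (2, false), (0, false), (2, true)]) :=
  Check.good_node (a := 1) (by decide +kernel)
    goodS3X_134 goodS3X_135

def goodS3X_149 :
    Check.Good noCone cfS3X (reach cfS3X ⟨litS3X, 1, fsS3X⟩
      [(0, false), (2, false), (1, false), (0, false), (2, false), (1, true), (2, false), (0, false), (2, true)]) :=
  Check.check_sound
    (.node 1
    (.node 2
    (.node 0
    (.leaf (lf 1024 0 0 430 132 (-186) 136 0 56 237 255 136))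
    (.leaf (lf 16384 0 0 7326 1991 (-2773) 2270 0 887 236 255 137)))
    (.node 0
    (.leaf (lf 1024 0 0 415 145 (-202) 133 0 57 255 255 255))
    (.leaf (lf 1024 0 0 445 134 (-185) 138 0 56 237 255 137))))
    (.node 2
    (.node 0
    (.leaf (lf 1024 0 0 503 160 (-232) 167 0 70 255 255 255))
    (.leaf (lf 1024 0 0 536 148 (-213) 174 0 68 255 255 255)))
    (.leaf (lf 1024 0 0 506 170 (-242) 165 0 71 244 255 133))))
    (by decide +kernel)

def goodS3X_150 :
    Check.Good noCone cfS3X (reach cfS3X ⟨litS3X, 1, fsS3X⟩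
      [(0, true), (2, false), (1, false), (0, false), (2, false), (1, true), (2, false), (0, false), (2, true)]) :=
  Check.check_sound
    (.node 1
    (.node 2
    (.node 0
    (.node 1
    (.leaf (lf 1024 0 0 462 107 (-147) 139 0 50 255 255 255))
    (.leaf (lf 1024 0 0 506 108 (-150) 156 0 51 255 255 255)))
    (.node 1
    (.leaf (lf 1024 0 0 485 106 (-144) 145 0 52 255 255 255))
    (.leaf (lf 1024 0 0 532 103 (-141) 163 0 51 255 255 255))))
    (.node 0
    (.leaf (lf 16384 0 0 7562 2005 (-2746) 2296 0 882 236 255 136))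
    (.node 1
    (.leaf (lf 1024 0 0 476 108 (-146) 141 0 50 255 255 255))
    (.leaf (lf 1024 0 0 522 108 (-147) 158 0 50 255 255 255)))))
    (.node 2
    (.node 0
    (.leaf (lf 1024 0 0 567 137 (-195) 181 0 66 240 255 137))
    (.leaf (lf 1024 0 0 596 128 (-180) 189 0 65 238 255 138)))
    (.node 0
    (.leaf (lf 1024 0 0 553 147 (-207) 176 0 66 255 255 255))
    (.leaf (lf 1024 0 0 585 135 (-189) 183 0 64 239 255 135)))))
    (by decide +kernel)

def goodS3X_148 :
    Check.Good noCone cfS3X (reach cfS3X ⟨litS3X, 1, fsS3X⟩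
      [(2, false), (1, false), (0, false), (2, false), (1, true), (2, false), (0, false), (2, true)]) :=
  Check.good_node (a := 0) (by decide +kernel)
    goodS3X_149 goodS3X_150

def goodS3X_151 :
    Check.Good noCone cfS3X (reach cfS3X ⟨litS3X, 1, fsS3X⟩
      [(2, true), (1, false), (0, false), (2, false), (1, true), (2, false), (0, false), (2, true)]) :=
  Check.check_sound
    (.node 0
    (.node 1
    (.node 2
    (.leaf (lf 1024 0 0 418 156 (-214) 132 0 60 239 255 132))
    (.leaf (lf 1024 0 0 403 174 (-236) 129 0 63 240 255 132)))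
    (.node 2
    (.leaf (lf 1024 0 0 488 186 (-263) 161 0 73 255 255 255))
    (.leaf (lf 1024 0 0 469 206 (-288) 158 0 76 255 255 255))))
    (.node 1
    (.node 2
    (.node 0
    (.leaf (lf 1024 0 0 461 135 (-184) 140 0 56 236 255 137))
    (.leaf (lf 1024 0 0 488 126 (-170) 145 0 55 234 255 132)))
    (.node 0
    (.leaf (lf 1024 0 0 448 149 (-201) 137 0 58 255 255 255))
    (.leaf (lf 1024 0 0 477 137 (-183) 142 0 56 237 255 137))))
    (.node 2
    (.node 0
    (.leaf (lf 1024 0 0 539 160 (-224) 172 0 68 255 255 255))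
    (.leaf (lf 1024 0 0 572 146 (-203) 178 0 65 255 255 255)))
    (.leaf (lf 1024 0 0 543 171 (-236) 170 0 70 244 255 130)))))
    (by decide +kernel)

def goodS3X_147 :
    Check.Good noCone cfS3X (reach cfS3X ⟨litS3X, 1, fsS3X⟩
      [(1, false), (0, false), (2, false), (1, true), (2, false), (0, false), (2, true)]) :=
  Check.good_node (a := 2) (by decide +kernel)
    goodS3X_148 goodS3X_151

def goodS3X_152 :
    Check.Good noCone cfS3X (reach cfS3X ⟨litS3X, 1, fsS3X⟩
      [(1, true), (0, false), (2, false), (1, true), (2, false), (0, false), (2, true)]) :=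
  Check.check_sound
    (.node 2
    (.node 0
    (.node 2
    (.node 0
    (.leaf (lf 1024 0 0 609 267 (-413) 205 0 123 255 255 255))
    (.leaf (lf 1024 0 0 647 259 (-396) 215 0 125 252 255 146)))
    (.leaf (lf 1024 0 0 608 272 (-415) 204 0 121 254 255 146)))
    (.node 2
    (.node 1
    (.leaf (lf 1024 0 0 663 190 (-278) 217 0 97 249 255 136))
    (.leaf (lf 1024 0 0 743 277 (-425) 245 0 147 255 255 255)))
    (.node 1
    (.leaf (lf 1024 0 0 647 197 (-286) 211 0 94 255 255 255))
    (.leaf (lf 1024 0 0 723 279 (-426) 238 0 139 255 255 255)))))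
    (.node 0
    (.node 2
    (.leaf (lf 1024 0 0 583 283 (-427) 200 0 118 254 255 150))
    (.leaf (lf 1024 0 0 558 296 (-444) 196 0 116 255 255 255)))
    (.node 2
    (.node 1
    (.leaf (lf 1024 0 0 631 207 (-299) 205 0 93 255 255 255))
    (.leaf (lf 1024 0 0 702 285 (-432) 232 0 134 255 255 255)))
    (.leaf (lf 1024 0 0 647 272 (-400) 213 0 118 254 255 150)))))
    (by decide +kernel)

def goodS3X_146 :
    Check.Good noCone cfS3X (reach cfS3X ⟨litS3X, 1, fsS3X⟩
      [(0, false), (2, false), (1, true), (2, false), (0, false), (2, true)]) :=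
  Check.good_node (a := 1) (by decide +kernel)
    goodS3X_147 goodS3X_152

def goodS3X_156 :
    Check.Good noCone cfS3X (reach cfS3X ⟨litS3X, 1, fsS3X⟩
      [(0, false), (2, false), (1, false), (0, true), (2, false), (1, true), (2, false), (0, false), (2, true)]) :=
  Check.check_sound
    (.node 1
    (.node 2
    (.node 0
    (.node 1
    (.leaf (lf 1024 0 0 507 108 (-145) 151 0 56 255 255 255))
    (.leaf (lf 1024 0 0 556 100 (-136) 170 0 52 255 255 255)))
    (.node 1
    (.leaf (lf 1024 0 0 527 113 (-149) 157 0 61 255 255 255))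
    (.leaf (lf 1024 0 0 579 101 (-135) 177 0 55 255 255 255))))
    (.node 0
    (.node 1
    (.leaf (lf 1024 0 0 499 107 (-143) 146 0 52 255 255 255))
    (.leaf (lf 1024 0 0 547 102 (-138) 164 0 50 255 255 255)))
    (.node 1
    (.leaf (lf 1024 0 0 521 109 (-143) 152 0 55 255 255 255))
    (.leaf (lf 1024 0 0 572 99 (-132) 171 0 51 255 255 255)))))
    (.node 2
    (.node 0
    (.node 1
    (.leaf (lf 1024 0 0 602 103 (-141) 188 0 54 255 255 255))
    (.leaf (lf 1024 0 0 646 119 (-166) 207 0 63 255 255 255)))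
    (.node 1
    (.leaf (lf 1024 0 0 627 99 (-134) 197 0 54 255 255 255))
    (.leaf (lf 1024 0 0 672 112 (-154) 216 0 62 255 255 255))))
    (.node 0
    (.node 1
    (.leaf (lf 1024 0 0 593 107 (-146) 182 0 53 255 255 255))
    (.leaf (lf 1024 0 0 635 124 (-172) 200 0 62 255 255 255)))
    (.node 1
    (.leaf (lf 1024 0 0 620 100 (-135) 190 0 52 255 255 255))
    (.leaf (lf 1024 0 0 664 115 (-157) 209 0 60 255 255 255))))))
    (by decide +kernel)

def goodS3X_157 :
    Check.Good noCone cfS3X (reach cfS3X ⟨litS3X, 1, fsS3X⟩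
      [(0, true), (2, false), (1, false), (0, true), (2, false), (1, true), (2, false), (0, false), (2, true)]) :=
  Check.check_sound
    (.node 1
    (.node 2
    (.node 0
    (.node 1
    (.leaf (lf 1024 0 0 547 119 (-156) 164 0 67 255 255 255))
    (.leaf (lf 1024 0 0 600 104 (-137) 184 0 59 255 255 255)))
    (.leaf (lf 1024 0 0 593 131 (-169) 181 0 77 239 255 134)))
    (.node 0
    (.node 1
    (.leaf (lf 1024 0 0 542 114 (-148) 158 0 60 255 255 255))
    (.leaf (lf 1024 0 0 595 100 (-132) 178 0 54 255 255 255)))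
    (.node 1
    (.leaf (lf 1024 0 0 562 121 (-155) 165 0 67 255 255 255))
    (.leaf (lf 1024 0 0 617 104 (-135) 185 0 58 255 255 255)))))
    (.node 2
    (.node 0
    (.node 1
    (.leaf (lf 1024 0 0 650 98 (-131) 205 0 56 255 255 255))
    (.leaf (lf 1024 0 0 698 108 (-146) 226 0 63 255 255 255)))
    (.node 1
    (.leaf (lf 1024 0 0 672 100 (-132) 214 0 60 255 255 255))
    (.leaf (lf 1024 0 0 721 106 (-142) 236 0 65 255 255 255))))
    (.node 0
    (.node 1
    (.leaf (lf 1024 0 0 645 96 (-128) 198 0 52 255 255 255))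
    (.leaf (lf 1024 0 0 692 108 (-146) 218 0 59 255 255 255)))
    (.node 1
    (.leaf (lf 1024 0 0 669 96 (-126) 206 0 54 255 255 255))
    (.leaf (lf 1024 0 0 717 104 (-139) 227 0 60 255 255 255))))))
    (by decide +kernel)

def goodS3X_155 :
    Check.Good noCone cfS3X (reach cfS3X ⟨litS3X, 1, fsS3X⟩
      [(2, false), (1, false), (0, true), (2, false), (1, true), (2, false), (0, false), (2, true)]) :=
  Check.good_node (a := 0) (by decide +kernel)
    goodS3X_156 goodS3X_157

def goodS3X_159 :
    Check.Good noCone cfS3X (reach cfS3X ⟨litS3X, 1, fsS3X⟩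
      [(0, false), (2, true), (1, false), (0, true), (2, false), (1, true), (2, false), (0, false), (2, true)]) :=
  Check.check_sound
    (.node 1
    (.node 2
    (.node 0
    (.node 1
    (.leaf (lf 1024 0 0 491 109 (-145) 142 0 50 255 255 255))
    (.leaf (lf 1024 0 0 538 108 (-144) 160 0 49 255 255 255)))
    (.node 1
    (.leaf (lf 1024 0 0 514 108 (-141) 148 0 51 255 255 255))
    (.leaf (lf 1024 0 0 564 102 (-135) 166 0 49 255 255 255))))
    (.node 0
    (.leaf (lf 1024 0 0 505 128 (-169) 147 0 55 235 255 134))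
    (.node 1
    (.leaf (lf 1024 0 0 507 110 (-144) 144 0 50 255 255 255))
    (.leaf (lf 1024 0 0 556 108 (-142) 161 0 49 255 255 255)))))
    (.node 2
    (.node 0
    (.leaf (lf 1024 0 0 604 134 (-184) 186 0 63 239 255 140))
    (.node 1
    (.leaf (lf 1024 0 0 611 105 (-142) 184 0 51 255 255 255))
    (.leaf (lf 1024 0 0 655 121 (-166) 202 0 60 255 255 255))))
    (.node 0
    (.leaf (lf 1024 0 0 592 146 (-199) 181 0 65 240 255 141))
    (.leaf (lf 1024 0 0 624 134 (-180) 188 0 62 239 255 139)))))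
    (by decide +kernel)

def goodS3X_160 :
    Check.Good noCone cfS3X (reach cfS3X ⟨litS3X, 1, fsS3X⟩
      [(0, true), (2, true), (1, false), (0, true), (2, false), (1, true), (2, false), (0, false), (2, true)]) :=
  Check.check_sound
    (.node 1
    (.node 2
    (.node 0
    (.node 1
    (.leaf (lf 1024 0 0 537 110 (-143) 153 0 55 255 255 255))
    (.leaf (lf 1024 0 0 589 99 (-130) 172 0 50 255 255 255)))
    (.node 1
    (.leaf (lf 1024 0 0 558 115 (-147) 159 0 60 255 255 255))
    (.leaf (lf 1024 0 0 612 100 (-130) 179 0 53 255 255 255))))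
    (.node 0
    (.node 1
    (.leaf (lf 1024 0 0 530 109 (-141) 149 0 51 255 255 255))
    (.leaf (lf 1024 0 0 582 102 (-133) 168 0 49 255 255 255)))
    (.node 1
    (.leaf (lf 1024 0 0 553 112 (-142) 155 0 55 255 255 255))
    (.leaf (lf 1024 0 0 607 100 (-129) 174 0 50 255 255 255)))))
    (.node 2
    (.node 0
    (.node 1
    (.leaf (lf 1024 0 0 638 99 (-131) 192 0 50 255 255 255))
    (.leaf (lf 1024 0 0 685 112 (-151) 211 0 58 255 255 255)))
    (.node 1
    (.leaf (lf 1024 0 0 664 95 (-125) 199 0 51 255 255 255))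
    (.leaf (lf 1024 0 0 712 105 (-140) 220 0 57 255 255 255))))
    (.node 0
    (.node 1
    (.leaf (lf 1024 0 0 631 105 (-138) 186 0 50 255 255 255))
    (.leaf (lf 1024 0 0 676 120 (-161) 205 0 58 255 255 255)))
    (.node 1
    (.leaf (lf 1024 0 0 658 98 (-128) 193 0 49 255 255 255))
    (.leaf (lf 1024 0 0 706 110 (-146) 213 0 56 255 255 255))))))
    (by decide +kernel)

def goodS3X_158 :
    Check.Good noCone cfS3X (reach cfS3X ⟨litS3X, 1, fsS3X⟩
      [(2, true), (1, false), (0, true), (2, false), (1, true), (2, false), (0, false), (2, true)]) :=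
  Check.good_node (a := 0) (by decide +kernel)
    goodS3X_159 goodS3X_160

def goodS3X_154 :
    Check.Good noCone cfS3X (reach cfS3X ⟨litS3X, 1, fsS3X⟩
      [(1, false), (0, true), (2, false), (1, true), (2, false), (0, false), (2, true)]) :=
  Check.good_node (a := 2) (by decide +kernel)
    goodS3X_155 goodS3X_158

def goodS3X_162 :
    Check.Good noCone cfS3X (reach cfS3X ⟨litS3X, 1, fsS3X⟩
      [(2, false), (1, true), (0, true), (2, false), (1, true), (2, false), (0, false), (2, true)]) :=
  Check.check_sound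
    (.node 0
    (.node 2
    (.node 1
    (.leaf (lf 1024 0 0 725 173 (-247) 238 0 97 247 255 139))
    (.leaf (lf 1024 0 0 809 267 (-397) 270 0 155 255 255 255)))
    (.node 1
    (.leaf (lf 1024 0 0 714 177 (-250) 230 0 93 248 255 137))
    (.leaf (lf 1024 0 0 796 266 (-395) 261 0 145 255 255 255))))
    (.node 2
    (.node 1
    (.node 0
    (.leaf (lf 1024 0 0 764 163 (-227) 256 0 97 255 255 255))
    (.leaf (lf 1024 0 0 790 160 (-220) 268 0 100 255 255 255)))
    (.leaf (lf 1024 0 0 868 262 (-377) 299 0 165 255 255 255)))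
    (.node 1
    (.node 0
    (.leaf (lf 1024 0 0 757 163 (-226) 247 0 91 255 255 255))
    (.leaf (lf 1024 0 0 786 159 (-217) 258 0 93 255 255 255)))
    (.leaf (lf 1024 0 0 861 259 (-371) 287 0 154 255 255 255)))))
    (by decide +kernel)

def goodS3X_163 :
    Check.Good noCone cfS3X (reach cfS3X ⟨litS3X, 1, fsS3X⟩
      [(2, true), (1, true), (0, true), (2, false), (1, true), (2, false), (0, false), (2, true)]) :=
  Check.check_sound
    (.node 0
    (.node 2
    (.node 1
    (.leaf (lf 1024 0 0 703 183 (-258) 223 0 90 249 255 135))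
    (.leaf (lf 1024 0 0 781 269 (-397) 254 0 138 255 255 255)))
    (.node 1
    (.leaf (lf 1024 0 0 690 193 (-271) 217 0 90 255 255 255))
    (.leaf (lf 1024 0 0 765 275 (-404) 247 0 133 255 255 255))))
    (.node 2
    (.node 1
    (.node 0
    (.leaf (lf 1024 0 0 749 166 (-230) 239 0 88 255 255 255))
    (.leaf (lf 1024 0 0 780 160 (-218) 249 0 88 255 255 255)))
    (.leaf (lf 1024 0 0 852 258 (-370) 278 0 144 255 255 255)))
    (.node 1
    (.leaf (lf 16384 0 0 12145 2744 (-3747) 3768 0 1397 246 255 136))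
    (.leaf (lf 1024 0 0 842 261 (-372) 269 0 138 255 255 255)))))
    (by decide +kernel)

def goodS3X_161 :
    Check.Good noCone cfS3X (reach cfS3X ⟨litS3X, 1, fsS3X⟩
      [(1, true), (0, true), (2, false), (1, true), (2, false), (0, false), (2, true)]) :=
  Check.good_node (a := 2) (by decide +kernel)
    goodS3X_162 goodS3X_163

def goodS3X_153 :
    Check.Good noCone cfS3X (reach cfS3X ⟨litS3X, 1, fsS3X⟩
      [(0, true), (2, false), (1, true), (2, false), (0, false), (2, true)]) :=
  Check.good_node (a := 1) (by decide +kernel)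
    goodS3X_154 goodS3X_161

def goodS3X_145 :
    Check.Good noCone cfS3X (reach cfS3X ⟨litS3X, 1, fsS3X⟩
      [(2, false), (1, true), (2, false), (0, false), (2, true)]) :=
  Check.good_node (a := 0) (by decide +kernel)
    goodS3X_146 goodS3X_153

def goodS3X_165 :
    Check.Good noCone cfS3X (reach cfS3X ⟨litS3X, 1, fsS3X⟩
      [(0, false), (2, true), (1, true), (2, false), (0, false), (2, true)]) :=
  Check.check_sound
    (.node 1
    (.node 2
    (.node 0
    (.node 1
    (.leaf (lf 1024 0 0 380 209 (-278) 125 0 69 255 255 255))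
    (.leaf (lf 1024 0 0 441 242 (-332) 153 0 82 255 255 255)))
    (.node 1
    (.node 2
    (.leaf (lf 1024 0 0 452 161 (-213) 136 0 61 239 255 131))
    (.leaf (lf 1024 0 0 439 180 (-236) 133 0 64 255 255 255)))
    (.leaf (lf 1024 0 0 521 201 (-273) 164 0 76 255 254 155))))
    (.node 0
    (.leaf (lf 1024 0 0 376 296 (-388) 134 0 89 255 250 176))
    (.node 1
    (.leaf (lf 1024 0 0 419 214 (-276) 129 0 71 255 255 255))
    (.leaf (lf 1024 0 0 488 248 (-330) 158 0 84 255 255 255)))))
    (.node 2
    (.node 0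
    (.leaf (lf 1024 0 0 519 325 (-477) 190 0 116 255 255 255))
    (.node 2
    (.leaf (lf 1024 0 0 626 286 (-416) 208 0 117 255 255 255))
    (.leaf (lf 1024 0 0 605 302 (-436) 204 0 117 255 255 255))))
    (.node 0
    (.leaf (lf 1024 0 0 467 371 (-530) 184 0 119 255 255 255))
    (.leaf (lf 1024 0 0 572 334 (-474) 198 0 119 255 255 255)))))
    (by decide +kernel)

def goodS3X_169 :
    Check.Good noCone cfS3X (reach cfS3X ⟨litS3X, 1, fsS3X⟩
      [(0, false), (2, false), (1, false), (0, true), (2, true), (1, true), (2, false), (0, false), (2, true)]) :=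
  Check.check_sound
    (.node 1
    (.node 2
    (.node 0
    (.leaf (lf 1024 0 0 495 139 (-182) 144 0 57 237 255 140))
    (.leaf (lf 1024 0 0 522 129 (-168) 149 0 55 234 255 133)))
    (.node 0
    (.leaf (lf 1024 0 0 484 153 (-200) 141 0 59 255 255 255))
    (.leaf (lf 1024 0 0 513 141 (-182) 146 0 57 235 255 136))))
    (.node 2
    (.node 0
    (.leaf (lf 1024 0 0 579 161 (-218) 176 0 67 255 255 255))
    (.leaf (lf 1024 0 0 613 147 (-196) 183 0 64 255 255 255)))
    (.leaf (lf 1024 0 0 586 173 (-231) 175 0 70 242 255 128))))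
    (by decide +kernel)

def goodS3X_170 :
    Check.Good noCone cfS3X (reach cfS3X ⟨litS3X, 1, fsS3X⟩
      [(0, true), (2, false), (1, false), (0, true), (2, true), (1, true), (2, false), (0, false), (2, true)]) :=
  Check.check_sound
    (.node 1
    (.node 2
    (.node 0
    (.node 1
    (.leaf (lf 1024 0 0 523 112 (-143) 145 0 50 255 255 255))
    (.leaf (lf 1024 0 0 574 109 (-141) 163 0 49 255 255 255)))
    (.node 1
    (.leaf (lf 1024 0 0 547 111 (-140) 151 0 52 255 255 255))
    (.leaf (lf 1024 0 0 600 103 (-132) 169 0 48 255 255 255))))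
    (.node 0
    (.leaf (lf 1024 0 0 541 131 (-168) 151 0 56 234 255 135))
    (.node 1
    (.leaf (lf 1024 0 0 540 114 (-143) 147 0 50 255 255 255))
    (.leaf (lf 1024 0 0 593 110 (-140) 165 0 49 255 255 255)))))
    (.node 2
    (.node 0
    (.leaf (lf 1024 0 0 645 134 (-177) 190 0 61 239 255 136))
    (.node 1
    (.leaf (lf 1024 0 0 651 105 (-136) 188 0 50 255 255 255))
    (.leaf (lf 1024 0 0 699 119 (-157) 207 0 57 255 255 255))))
    (.node 0
    (.leaf (lf 1024 0 0 635 147 (-194) 185 0 64 255 255 255))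
    (.leaf (lf 1024 0 0 667 135 (-175) 192 0 61 237 255 135)))))
    (by decide +kernel)

def goodS3X_168 :
    Check.Good noCone cfS3X (reach cfS3X ⟨litS3X, 1, fsS3X⟩
      [(2, false), (1, false), (0, true), (2, true), (1, true), (2, false), (0, false), (2, true)]) :=
  Check.good_node (a := 0) (by decide +kernel)
    goodS3X_169 goodS3X_170

def goodS3X_171 :
    Check.Good noCone cfS3X (reach cfS3X ⟨litS3X, 1, fsS3X⟩
      [(2, true), (1, false), (0, true), (2, true), (1, true), (2, false), (0, false), (2, true)]) :=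
  Check.check_sound
    (.node 0
    (.node 1
    (.node 2
    (.leaf (lf 1024 0 0 489 165 (-211) 140 0 62 238 255 128))
    (.leaf (lf 1024 0 0 478 184 (-234) 137 0 65 255 255 255)))
    (.leaf (lf 1024 0 0 567 205 (-269) 170 0 77 255 255 158)))
    (.node 1
    (.node 2
    (.node 0
    (.leaf (lf 1024 0 0 532 143 (-181) 147 0 57 235 255 129))
    (.leaf (lf 1024 0 0 560 133 (-167) 152 0 56 232 255 128)))
    (.node 0
    (.leaf (lf 1024 0 0 523 157 (-198) 145 0 60 255 255 255))
    (.leaf (lf 1024 0 0 552 145 (-180) 149 0 58 255 255 255))))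
    (.node 2
    (.node 0
    (.leaf (lf 1024 0 0 625 164 (-214) 181 0 67 255 255 255))
    (.leaf (lf 1024 0 0 659 149 (-192) 188 0 64 255 255 255)))
    (.leaf (lf 1024 0 0 634 176 (-227) 180 0 71 240 255 128)))))
    (by decide +kernel)

def goodS3X_167 :
    Check.Good noCone cfS3X (reach cfS3X ⟨litS3X, 1, fsS3X⟩
      [(1, false), (0, true), (2, true), (1, true), (2, false), (0, false), (2, true)]) :=
  Check.good_node (a := 2) (by decide +kernel)
    goodS3X_168 goodS3X_171

def goodS3X_172 :
    Check.Good noCone cfS3X (reach cfS3X ⟨litS3X, 1, fsS3X⟩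
      [(1, true), (0, true), (2, true), (1, true), (2, false), (0, false), (2, true)]) :=
  Check.check_sound
    (.node 2
    (.node 0
    (.node 2
    (.node 1
    (.leaf (lf 1024 0 0 676 206 (-287) 212 0 91 255 255 255))
    (.leaf (lf 1024 0 0 747 284 (-414) 241 0 130 255 255 255)))
    (.leaf (lf 1024 0 0 696 275 (-389) 220 0 117 253 255 148)))
    (.node 2
    (.node 1
    (.leaf (lf 1024 0 0 750 181 (-245) 229 0 87 246 255 136))
    (.leaf (lf 1024 0 0 830 266 (-378) 261 0 133 255 255 255)))
    (.node 1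
    (.leaf (lf 1024 0 0 740 193 (-260) 223 0 88 255 255 255))
    (.leaf (lf 1024 0 0 818 275 (-388) 255 0 130 255 255 255)))))
    (.node 0
    (.node 1
    (.leaf (lf 1024 0 0 638 253 (-345) 200 0 98 255 255 255))
    (.leaf (lf 1024 0 0 701 321 (-459) 228 0 129 255 255 255)))
    (.node 1
    (.leaf (lf 1024 0 0 723 218 (-291) 215 0 92 255 255 255))
    (.leaf (lf 1024 0 0 798 295 (-411) 245 0 129 255 255 255)))))
    (by decide +kernel)

def goodS3X_166 :
    Check.Good noCone cfS3X (reach cfS3X ⟨litS3X, 1, fsS3X⟩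
      [(0, true), (2, true), (1, true), (2, false), (0, false), (2, true)]) :=
  Check.good_node (a := 1) (by decide +kernel)
    goodS3X_167 goodS3X_172

def goodS3X_164 :
    Check.Good noCone cfS3X (reach cfS3X ⟨litS3X, 1, fsS3X⟩
      [(2, true), (1, true), (2, false), (0, false), (2, true)]) :=
  Check.good_node (a := 0) (by decide +kernel)
    goodS3X_165 goodS3X_166

def goodS3X_144 :
    Check.Good noCone cfS3X (reach cfS3X ⟨litS3X, 1, fsS3X⟩
      [(1, true), (2, false), (0, false), (2, true)]) :=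
  Check.good_node (a := 2) (by decide +kernel)
    goodS3X_145 goodS3X_164

def goodS3X_132 :
    Check.Good noCone cfS3X (reach cfS3X ⟨litS3X, 1, fsS3X⟩
      [(2, false), (0, false), (2, true)]) :=
  Check.good_node (a := 1) (by decide +kernel)
    goodS3X_133 goodS3X_144

def goodS3X_174 :
    Check.Good noCone cfS3X (reach cfS3X ⟨litS3X, 1, fsS3X⟩
      [(1, false), (2, true), (0, false), (2, true)]) :=
  Check.check_sound
    (.node 1
    (.node 0
    (.node 2
    (.node 1
    (.leaf (lf 1024 0 0 43 248 (-286) 13 0 63 255 255 255))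
    (.leaf (lf 1024 0 0 128 258 (-299) 39 0 66 255 255 255)))
    (.leaf (lf 1024 0 0 73 397 (-428) 25 0 84 255 255 255)))
    (.node 1
    (.leaf (lf 1024 0 0 56 219 (-245) 14 0 62 255 255 255))
    (.leaf (lf 1024 0 0 168 226 (-254) 43 0 64 255 255 255))))
    (.node 0
    (.node 2
    (.node 1
    (.leaf (lf 1024 0 0 209 276 (-324) 65 0 71 255 255 255))
    (.leaf (lf 1024 0 0 284 302 (-361) 92 0 79 255 255 255)))
    (.leaf (lf 1024 0 0 209 437 (-483) 74 0 95 255 255 255)))
    (.node 2
    (.node 1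
    (.node 2
    (.node 0
    (.leaf (lf 1024 0 0 272 181 (-218) 74 0 58 255 255 255))
    (.leaf (lf 1024 0 0 308 163 (-194) 79 0 57 242 255 148)))
    (.leaf (lf 1024 0 0 282 203 (-237) 74 0 62 244 255 134)))
    (.node 2
    (.node 0
    (.leaf (lf 1024 0 0 371 195 (-238) 104 0 63 255 255 255))
    (.leaf (lf 1024 0 0 421 165 (-200) 110 0 59 240 255 141)))
    (.leaf (lf 311 605 1024 0 583 211 0 0 149 255 140 243))))
    (.node 1
    (.leaf (lf 1024 0 0 262 274 (-307) 71 0 73 255 255 255))
    (.leaf (lf 1024 0 0 359 301 (-342) 99 0 81 255 255 255))))))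
    (by decide +kernel)

def goodS3X_176 :
    Check.Good noCone cfS3X (reach cfS3X ⟨litS3X, 1, fsS3X⟩
      [(0, false), (1, true), (2, true), (0, false), (2, true)]) :=
  Check.check_sound
    (.node 1
    (.node 2
    (.node 0
    (.leaf (lf 1024 0 0 325 394 (-490) 127 0 101 255 255 255))
    (.node 2
    (.leaf (lf 1024 0 0 423 303 (-386) 139 0 91 255 255 255))
    (.leaf (lf 1024 0 0 393 362 (-448) 135 0 99 255 255 255))))
    (.leaf (lf 1024 0 0 317 507 (-588) 123 0 114 255 255 255)))
    (.node 2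
    (.node 0
    (.leaf (lf 1024 0 0 393 467 (-633) 174 0 128 255 255 255))
    (.leaf (lf 1024 0 0 507 418 (-567) 188 0 127 255 255 255)))
    (.leaf (lf 1024 0 0 380 590 (-745) 169 0 142 255 255 255))))
    (by decide +kernel)

def goodS3X_177 :
    Check.Good noCone cfS3X (reach cfS3X ⟨litS3X, 1, fsS3X⟩
      [(0, true), (1, true), (2, true), (0, false), (2, true)]) :=
  Check.check_sound
    (.node 1
    (.node 2
    (.node 2
    (.node 0
    (.node 1
    (.leaf (lf 1024 0 0 461 218 (-273) 134 0 72 255 255 255))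
    (.leaf (lf 1024 0 0 539 253 (-325) 164 0 86 255 255 255)))
    (.node 1
    (.leaf (lf 1024 0 0 525 179 (-220) 143 0 65 247 255 151))
    (.leaf (lf 1024 0 0 618 209 (-265) 175 0 78 255 255 255))))
    (.node 0
    (.leaf (lf 1024 0 0 475 309 (-382) 144 0 94 255 255 255))
    (.node 1
    (.leaf (lf 1024 0 0 506 221 (-267) 138 0 73 255 255 255))
    (.leaf (lf 1024 0 0 595 257 (-319) 169 0 87 255 255 255)))))
    (.node 0
    (.leaf (lf 1024 0 0 436 401 (-474) 137 0 106 255 255 255))
    (.leaf (lf 1024 0 0 518 344 (-405) 146 0 100 255 255 255))))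
    (.node 2
    (.node 2
    (.node 0
    (.leaf (lf 1024 0 0 634 344 (-471) 206 0 122 255 255 255))
    (.leaf (lf 1024 0 0 734 310 (-416) 220 0 121 255 248 167)))
    (.node 0
    (.leaf (lf 1024 0 0 597 396 (-529) 199 0 128 255 255 255))
    (.leaf (lf 1024 0 0 705 355 (-467) 213 0 126 255 255 255))))
    (.node 0
    (.leaf (lf 1024 0 0 544 494 (-631) 190 0 139 255 255 255))
    (.leaf (lf 1024 0 0 661 442 (-560) 202 0 137 255 255 255)))))
    (by decide +kernel)

def goodS3X_175 :
    Check.Good noCone cfS3X (reach cfS3X ⟨litS3X, 1, fsS3X⟩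
      [(1, true), (2, true), (0, false), (2, true)]) :=
  Check.good_node (a := 0) (by decide +kernel)
    goodS3X_176 goodS3X_177

def goodS3X_173 :
    Check.Good noCone cfS3X (reach cfS3X ⟨litS3X, 1, fsS3X⟩
      [(2, true), (0, false), (2, true)]) :=
  Check.good_node (a := 1) (by decide +kernel)
    goodS3X_174 goodS3X_175

def goodS3X_131 :
    Check.Good noCone cfS3X (reach cfS3X ⟨litS3X, 1, fsS3X⟩
      [(0, false), (2, true)]) :=
  Check.good_node (a := 2) (by decide +kernel)
    goodS3X_132 goodS3X_173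

end

end Vale.Agent.P211.Cert.Interior.Data
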