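import Vale.Agent.P211.Cert.Interior.Data.S3Xr

/-!
P211, a part of a cell of the interior family (generated).
-/

namespace Vale.Agent.P211.Cert.Interior.Data

open Vale.Agent.P098.Check6 (ofChunks eqList reach St Cfg Face)
open Vale.Agent.P098.Cert6.Kron (RootPar parOK)

set_option linter.defProp false

noncomputable section

def goodS3X_181 :
    Check.Good noCone cfS3X (reach cfS3X ⟨litS3X, 1, fsS3X⟩
      [(1, false), (1, false), (2, false), (0, true), (2, true)]) :=
  Check.check_sound
    (.node 0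
    (.node 1
    (.node 2
    (.leaf (lf 1024 0 0 77 256 (-304) 20 0 147 255 255 255))
    (.leaf (lf 1024 0 0 75 217 (-254) 18 0 100 255 244 150)))
    (.node 2
    (.leaf (lf 1024 0 0 230 244 (-290) 59 0 140 255 255 255))
    (.leaf (lf 1024 0 0 224 207 (-243) 54 0 96 255 246 159))))
    (.node 1
    (.leaf (lf 1024 0 0 85 280 (-313) 21 0 165 255 213 217))
    (.leaf (lf 1024 0 0 254 404 0 63 (-118) 106 223 144 255))))
    (by decide +kernel)

def goodS3X_184 :
    Check.Good noCone cfS3X (reach cfS3X ⟨litS3X, 1, fsS3X⟩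
      [(2, false), (0, false), (1, true), (1, false), (2, false), (0, true), (2, true)]) :=
  Check.check_sound
    (.node 1
    (.node 2
    (.leaf (lf 1024 0 0 377 228 (-276) 104 0 142 255 255 255))
    (.leaf (lf 1024 0 0 375 212 (-255) 98 0 117 255 255 255)))
    (.node 2
    (.node 0
    (.leaf (lf 1024 0 0 499 180 (-224) 144 0 109 255 255 255))
    (.leaf (lf 1024 0 0 526 202 (-245) 155 0 132 255 255 255)))
    (.node 0
    (.leaf (lf 1024 0 0 494 166 (-205) 135 0 88 253 255 157))
    (.leaf (lf 1024 0 0 525 187 (-225) 144 0 109 255 255 255)))))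
    (by decide +kernel)

def goodS3X_185 :
    Check.Good noCone cfS3X (reach cfS3X ⟨litS3X, 1, fsS3X⟩
      [(2, true), (0, false), (1, true), (1, false), (2, false), (0, true), (2, true)]) :=
  Check.check_sound
    (.node 1
    (.node 2
    (.node 0
    (.leaf (lf 1024 0 0 356 181 (-219) 90 0 86 255 255 255))
    (.leaf (lf 1024 0 0 380 204 (-241) 96 0 105 255 255 255)))
    (.node 0
    (.leaf (lf 1024 0 0 349 168 (-200) 86 0 72 255 255 255))
    (.leaf (lf 1024 0 0 376 187 (-219) 92 0 87 255 255 255))))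
    (.node 2
    (.node 0
    (.node 2
    (.leaf (lf 1024 0 0 489 156 (-191) 129 0 77 239 255 121))
    (.leaf (lf 1024 0 0 485 150 (-184) 126 0 70 237 255 119)))
    (.leaf (lf 1024 0 0 521 172 (-206) 136 0 89 249 255 146)))
    (.node 0
    (.node 1
    (.leaf (lf 1024 0 0 447 139 (-168) 113 0 60 255 255 255))
    (.leaf (lf 1024 0 0 509 128 (-156) 131 0 55 255 255 255)))
    (.node 1
    (.leaf (lf 1024 0 0 482 154 (-182) 120 0 72 255 255 255))
    (.leaf (lf 1024 0 0 549 138 (-165) 140 0 65 255 255 255))))))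
    (by decide +kernel)

def goodS3X_183 :
    Check.Good noCone cfS3X (reach cfS3X ⟨litS3X, 1, fsS3X⟩
      [(0, false), (1, true), (1, false), (2, false), (0, true), (2, true)]) :=
  Check.good_node (a := 2) (by decide +kernel)
    goodS3X_184 goodS3X_185

def goodS3X_186 :
    Check.Good noCone cfS3X (reach cfS3X ⟨litS3X, 1, fsS3X⟩
      [(0, true), (1, true), (1, false), (2, false), (0, true), (2, true)]) :=
  Check.check_sound
    (.node 2
    (.node 1
    (.leaf (lf 1024 0 0 415 264 (-302) 114 0 180 255 255 255))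
    (.node 2
    (.leaf (lf 1024 0 0 565 238 (-276) 171 0 176 255 255 255))
    (.leaf (lf 1024 0 0 568 225 (-260) 159 0 147 255 255 255))))
    (.node 1
    (.leaf (lf 1024 0 0 415 232 (-263) 102 0 128 255 255 255))
    (.node 2
    (.leaf (lf 1024 0 0 569 210 (-241) 150 0 123 255 254 134))
    (.node 0
    (.leaf (lf 1024 0 0 549 179 (-207) 138 0 91 255 255 255))
    (.leaf (lf 1024 0 0 581 203 (-230) 147 0 112 255 255 255))))))
    (by decide +kernel)

def goodS3X_182 :
    Check.Good noCone cfS3X (reach cfS3X ⟨litS3X, 1, fsS3X⟩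
      [(1, true), (1, false), (2, false), (0, true), (2, true)]) :=
  Check.good_node (a := 0) (by decide +kernel)
    goodS3X_183 goodS3X_186

def goodS3X_180 :
    Check.Good noCone cfS3X (reach cfS3X ⟨litS3X, 1, fsS3X⟩
      [(1, false), (2, false), (0, true), (2, true)]) :=
  Check.good_node (a := 1) (by decide +kernel)
    goodS3X_181 goodS3X_182

def goodS3X_192 :
    Check.Good noCone cfS3X (reach cfS3X ⟨litS3X, 1, fsS3X⟩
      [(0, false), (2, false), (1, false), (0, false), (2, false), (1, true), (2, false), (0, true), (2, true)]) :=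
  Check.check_sound
    (.node 1
    (.node 2
    (.node 0
    (.leaf (lf 1024 0 0 611 139 (-177) 189 0 86 239 255 138))
    (.leaf (lf 1024 0 0 629 148 (-187) 197 0 96 255 255 255)))
    (.node 0
    (.leaf (lf 1024 0 0 609 132 (-169) 182 0 77 237 255 133))
    (.leaf (lf 1024 0 0 628 141 (-178) 189 0 86 237 255 133))))
    (.node 2
    (.node 0
    (.node 1
    (.leaf (lf 1024 0 0 693 105 (-137) 224 0 66 255 255 255))
    (.leaf (lf 1024 0 0 744 109 (-143) 247 0 69 255 255 255)))
    (.node 1
    (.leaf (lf 1024 0 0 713 113 (-145) 233 0 74 255 255 255))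
    (.leaf (lf 1024 0 0 766 114 (-148) 258 0 75 255 255 255))))
    (.node 0
    (.node 1
    (.leaf (lf 1024 0 0 691 99 (-129) 215 0 59 255 255 255))
    (.leaf (lf 1024 0 0 742 104 (-137) 237 0 62 255 255 255)))
    (.node 1
    (.leaf (lf 1024 0 0 713 106 (-135) 224 0 65 255 255 255))
    (.leaf (lf 1024 0 0 765 108 (-139) 247 0 67 255 255 255))))))
    (by decide +kernel)

def goodS3X_193 :
    Check.Good noCone cfS3X (reach cfS3X ⟨litS3X, 1, fsS3X⟩
      [(0, true), (2, false), (1, false), (0, false), (2, false), (1, true), (2, false), (0, true), (2, true)]) :=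
  Check.check_sound
    (.node 1
    (.node 2
    (.leaf (lf 1024 0 0 654 165 (-204) 208 0 114 243 255 132))
    (.leaf (lf 1024 0 0 655 158 (-195) 200 0 102 243 255 130)))
    (.node 2
    (.node 0
    (.leaf (lf 1024 0 0 759 134 (-170) 256 0 92 238 255 145))
    (.leaf (lf 1024 0 0 778 144 (-181) 267 0 103 255 255 255)))
    (.node 0
    (.node 1
    (.leaf (lf 1024 0 0 733 115 (-145) 233 0 74 255 255 255))
    (.leaf (lf 1024 0 0 787 114 (-146) 258 0 74 255 255 255)))
    (.leaf (lf 1024 0 0 780 137 (-171) 256 0 92 238 255 143)))))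
    (by decide +kernel)

def goodS3X_191 :
    Check.Good noCone cfS3X (reach cfS3X ⟨litS3X, 1, fsS3X⟩
      [(2, false), (1, false), (0, false), (2, false), (1, true), (2, false), (0, true), (2, true)]) :=
  Check.good_node (a := 0) (by decide +kernel)
    goodS3X_192 goodS3X_193

def goodS3X_195 :
    Check.Good noCone cfS3X (reach cfS3X ⟨litS3X, 1, fsS3X⟩
      [(0, false), (2, true), (1, false), (0, false), (2, false), (1, true), (2, false), (0, true), (2, true)]) :=
  Check.check_sound
    (.node 1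
    (.node 2
    (.node 0
    (.node 1
    (.leaf (lf 1024 0 0 577 122 (-155) 165 0 67 255 255 255))
    (.leaf (lf 1024 0 0 634 105 (-134) 186 0 58 255 255 255)))
    (.leaf (lf 1024 0 0 626 135 (-169) 183 0 77 237 255 133)))
    (.node 0
    (.node 1
    (.leaf (lf 1024 0 0 574 117 (-147) 160 0 60 255 255 255))
    (.leaf (lf 1024 0 0 630 102 (-129) 181 0 53 255 255 255)))
    (.leaf (lf 1024 0 0 623 130 (-162) 177 0 70 236 255 131))))
    (.node 2
    (.node 0
    (.node 1
    (.leaf (lf 1024 0 0 688 96 (-124) 207 0 53 255 255 255))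
    (.leaf (lf 1024 0 0 738 102 (-134) 229 0 58 255 255 255)))
    (.node 1
    (.leaf (lf 1024 0 0 711 100 (-128) 216 0 58 255 255 255))
    (.leaf (lf 1024 0 0 763 103 (-134) 238 0 61 255 255 255))))
    (.node 0
    (.node 1
    (.leaf (lf 1024 0 0 684 95 (-123) 201 0 50 255 255 255))
    (.leaf (lf 1024 0 0 734 104 (-136) 221 0 55 255 255 255)))
    (.node 1
    (.leaf (lf 1024 0 0 708 97 (-123) 209 0 53 255 255 255))
    (.leaf (lf 1024 0 0 760 102 (-132) 230 0 57 255 255 255))))))
    (by decide +kernel)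

def goodS3X_196 :
    Check.Good noCone cfS3X (reach cfS3X ⟨litS3X, 1, fsS3X⟩
      [(0, true), (2, true), (1, false), (0, false), (2, false), (1, true), (2, false), (0, true), (2, true)]) :=
  Check.check_sound
    (.node 1
    (.node 2
    (.leaf (lf 16384 0 0 10477 2421 (-2973) 3086 0 1473 242 255 129))
    (.node 0
    (.leaf (lf 1024 0 0 643 138 (-170) 183 0 78 237 255 130))
    (.leaf (lf 1024 0 0 662 148 (-181) 190 0 87 255 255 255))))
    (.node 2
    (.node 0
    (.node 1
    (.leaf (lf 1024 0 0 733 108 (-136) 224 0 65 255 255 255))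
    (.leaf (lf 1024 0 0 787 108 (-138) 248 0 66 255 255 255)))
    (.leaf (lf 16384 0 0 12500 2087 (-2602) 3929 0 1320 236 255 139)))
    (.node 0
    (.node 1
    (.leaf (lf 1024 0 0 731 103 (-129) 217 0 59 255 255 255))
    (.leaf (lf 1024 0 0 786 105 (-133) 239 0 60 255 255 255)))
    (.node 1
    (.leaf (lf 1024 0 0 753 112 (-138) 225 0 67 255 255 255))
    (.leaf (lf 1024 0 0 810 112 (-139) 249 0 67 255 255 255))))))
    (by decide +kernel)

def goodS3X_194 :
    Check.Good noCone cfS3X (reach cfS3X ⟨litS3X, 1, fsS3X⟩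
      [(2, true), (1, false), (0, false), (2, false), (1, true), (2, false), (0, true), (2, true)]) :=
  Check.good_node (a := 0) (by decide +kernel)
    goodS3X_195 goodS3X_196

def goodS3X_190 :
    Check.Good noCone cfS3X (reach cfS3X ⟨litS3X, 1, fsS3X⟩
      [(1, false), (0, false), (2, false), (1, true), (2, false), (0, true), (2, true)]) :=
  Check.good_node (a := 2) (by decide +kernel)
    goodS3X_191 goodS3X_194

def goodS3X_198 :
    Check.Good noCone cfS3X (reach cfS3X ⟨litS3X, 1, fsS3X⟩
      [(2, false), (1, true), (0, false), (2, false), (1, true), (2, false), (0, true), (2, true)]) :=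
  Check.check_sound
    (.node 0
    (.node 2
    (.node 1
    (.node 0
    (.leaf (lf 1024 0 0 815 160 (-216) 281 0 104 241 255 150))
    (.leaf (lf 1024 0 0 838 162 (-216) 294 0 110 240 255 152)))
    (.leaf (lf 1024 0 0 921 263 (-366) 330 0 180 255 255 255)))
    (.node 1
    (.node 0
    (.leaf (lf 1024 0 0 812 157 (-211) 270 0 96 241 255 149))
    (.leaf (lf 1024 0 0 838 158 (-209) 282 0 100 240 255 149)))
    (.leaf (lf 1024 0 0 919 258 (-358) 316 0 166 255 255 255))))
    (.node 2
    (.node 1
    (.leaf (lf 1024 0 0 873 173 (-225) 315 0 124 244 255 158))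
    (.leaf (lf 1024 0 0 968 272 (-366) 365 0 201 255 254 169)))
    (.node 1
    (.leaf (lf 1024 0 0 875 167 (-216) 301 0 112 243 255 154))
    (.leaf (lf 1024 0 0 971 265 (-355) 348 0 184 253 255 163)))))
    (by decide +kernel)

def goodS3X_199 :
    Check.Good noCone cfS3X (reach cfS3X ⟨litS3X, 1, fsS3X⟩
      [(2, true), (1, true), (0, false), (2, false), (1, true), (2, false), (0, true), (2, true)]) :=
  Check.check_sound
    (.node 0
    (.node 2
    (.node 1
    (.node 0
    (.leaf (lf 1024 0 0 809 156 (-209) 260 0 90 255 255 255))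
    (.leaf (lf 1024 0 0 836 155 (-205) 271 0 93 255 255 255)))
    (.leaf (lf 1024 0 0 915 255 (-353) 304 0 154 255 255 255)))
    (.node 1
    (.node 0
    (.leaf (lf 1024 0 0 804 158 (-212) 251 0 86 255 255 255))
    (.leaf (lf 1024 0 0 833 155 (-204) 261 0 88 255 255 255)))
    (.leaf (lf 1024 0 0 911 254 (-351) 293 0 145 255 255 255))))
    (.node 2
    (.node 1
    (.leaf (lf 1024 0 0 876 162 (-209) 288 0 103 240 255 146))
    (.leaf (lf 1024 0 0 972 259 (-347) 333 0 170 251 255 156)))
    (.node 1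
    (.node 0
    (.leaf (lf 1024 0 0 861 155 (-202) 272 0 91 255 255 255))
    (.leaf (lf 1024 0 0 888 159 (-203) 284 0 97 255 255 255)))
    (.leaf (lf 1024 0 0 973 256 (-341) 320 0 158 255 255 255)))))
    (by decide +kernel)

def goodS3X_197 :
    Check.Good noCone cfS3X (reach cfS3X ⟨litS3X, 1, fsS3X⟩
      [(1, true), (0, false), (2, false), (1, true), (2, false), (0, true), (2, true)]) :=
  Check.good_node (a := 2) (by decide +kernel)
    goodS3X_198 goodS3X_199

def goodS3X_189 :
    Check.Good noCone cfS3X (reach cfS3X ⟨litS3X, 1, fsS3X⟩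
      [(0, false), (2, false), (1, true), (2, false), (0, true), (2, true)]) :=
  Check.good_node (a := 1) (by decide +kernel)
    goodS3X_190 goodS3X_197

def goodS3X_201 :
    Check.Good noCone cfS3X (reach cfS3X ⟨litS3X, 1, fsS3X⟩
      [(1, false), (0, true), (2, false), (1, true), (2, false), (0, true), (2, true)]) :=
  Check.check_sound
    (.node 2
    (.node 0
    (.node 1
    (.leaf (lf 1024 0 0 687 185 (-222) 220 0 133 255 255 255))
    (.node 2
    (.leaf (lf 1024 0 0 806 165 (-202) 284 0 125 244 255 149))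
    (.leaf (lf 1024 0 0 810 157 (-192) 271 0 112 242 255 143))))
    (.node 1
    (.leaf (lf 1024 0 0 716 211 (-246) 236 0 164 255 255 255))
    (.leaf (lf 1024 0 0 844 190 (-226) 299 0 150 255 255 255))))
    (.node 0
    (.node 1
    (.node 2
    (.leaf (lf 1024 0 0 689 175 (-209) 208 0 115 255 255 255))
    (.leaf (lf 1024 0 0 690 168 (-200) 200 0 104 255 255 255)))
    (.node 2
    (.node 0
    (.leaf (lf 1024 0 0 802 142 (-174) 255 0 93 237 255 140))
    (.leaf (lf 1024 0 0 822 155 (-188) 265 0 106 255 255 255)))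
    (.node 0
    (.leaf (lf 1024 0 0 803 135 (-166) 246 0 84 236 255 137))
    (.leaf (lf 1024 0 0 825 148 (-179) 255 0 96 255 255 255)))))
    (.node 1
    (.leaf (lf 1024 0 0 723 198 (-230) 218 0 137 255 255 255))
    (.node 2
    (.leaf (lf 1024 0 0 851 179 (-212) 280 0 130 255 255 255))
    (.leaf (lf 1024 0 0 856 172 (-203) 269 0 118 241 255 139))))))
    (by decide +kernel)

def goodS3X_202 :
    Check.Good noCone cfS3X (reach cfS3X ⟨litS3X, 1, fsS3X⟩
      [(1, true), (0, true), (2, false), (1, true), (2, false), (0, true), (2, true)]) :=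
  Check.check_sound
    (.node 2
    (.node 0
    (.node 2
    (.node 1
    (.leaf (lf 1024 0 0 913 193 (-242) 344 0 149 245 255 162))
    (.leaf (lf 1024 0 0 1011 289 (-375) 402 0 230 255 155 108)))
    (.node 1
    (.leaf (lf 1024 0 0 919 185 (-232) 328 0 135 242 255 158))
    (.leaf (lf 1024 0 0 1018 280 (-363) 382 0 210 253 255 169))))
    (.node 2
    (.node 1
    (.leaf (lf 1024 0 0 951 220 (-268) 375 0 184 255 255 255))
    (.leaf (lf 998 0 0 1024 306 (-383) 430 0 262 255 255 255)))
    (.node 1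
    (.leaf (lf 1024 0 0 959 212 (-257) 356 0 166 255 255 255))
    (.leaf (lf 987 0 0 1024 294 (-367) 403 0 236 255 255 255)))))
    (.node 0
    (.node 2
    (.node 1
    (.leaf (lf 1024 0 0 924 178 (-223) 314 0 122 242 255 155))
    (.leaf (lf 1024 0 0 1024 273 (-353) 365 0 193 251 255 165)))
    (.node 1
    (.leaf (lf 1024 0 0 927 173 (-215) 301 0 112 239 255 149))
    (.leaf (lf 1019 0 0 1024 266 (-343) 348 0 177 250 255 161))))
    (.node 2
    (.node 1
    (.leaf (lf 1024 0 0 967 204 (-248) 340 0 151 243 255 156))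
    (.leaf (lf 978 0 0 1024 283 (-353) 380 0 214 255 158 106)))
    (.node 1
    (.leaf (lf 1024 0 0 974 198 (-239) 326 0 138 242 255 154))
    (.leaf (lf 970 0 0 1024 274 (-341) 360 0 196 255 157 102))))))
    (by decide +kernel)

def goodS3X_200 :
    Check.Good noCone cfS3X (reach cfS3X ⟨litS3X, 1, fsS3X⟩
      [(0, true), (2, false), (1, true), (2, false), (0, true), (2, true)]) :=
  Check.good_node (a := 1) (by decide +kernel)
    goodS3X_201 goodS3X_202

def goodS3X_188 :
    Check.Good noCone cfS3X (reach cfS3X ⟨litS3X, 1, fsS3X⟩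
      [(2, false), (1, true), (2, false), (0, true), (2, true)]) :=
  Check.good_node (a := 0) (by decide +kernel)
    goodS3X_189 goodS3X_200

def goodS3X_207 :
    Check.Good noCone cfS3X (reach cfS3X ⟨litS3X, 1, fsS3X⟩
      [(0, false), (2, false), (1, false), (0, false), (2, true), (1, true), (2, false), (0, true), (2, true)]) :=
  Check.check_sound
    (.node 1
    (.node 2
    (.node 0
    (.node 1
    (.leaf (lf 1024 0 0 569 114 (-142) 156 0 55 255 255 255))
    (.leaf (lf 1024 0 0 625 101 (-128) 175 0 50 255 255 255)))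
    (.node 1
    (.leaf (lf 1024 0 0 590 119 (-148) 162 0 61 255 255 255))
    (.leaf (lf 1024 0 0 649 104 (-130) 182 0 53 255 255 255))))
    (.node 0
    (.node 1
    (.leaf (lf 1024 0 0 564 113 (-141) 152 0 52 255 255 255))
    (.leaf (lf 1024 0 0 620 105 (-132) 171 0 49 255 255 255)))
    (.node 1
    (.leaf (lf 1024 0 0 586 116 (-143) 157 0 56 255 255 255))
    (.leaf (lf 1024 0 0 645 104 (-129) 177 0 50 255 255 255)))))
    (.node 2
    (.node 0
    (.node 1
    (.leaf (lf 1024 0 0 679 99 (-126) 195 0 49 255 255 255))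
    (.leaf (lf 1024 0 0 729 110 (-143) 215 0 55 255 255 255)))
    (.node 1
    (.leaf (lf 1024 0 0 704 97 (-122) 202 0 50 255 255 255))
    (.leaf (lf 1024 0 0 757 105 (-134) 223 0 55 255 255 255))))
    (.node 0
    (.node 1
    (.leaf (lf 1024 0 0 673 106 (-135) 190 0 50 255 255 255))
    (.leaf (lf 1024 0 0 722 120 (-154) 209 0 57 255 255 255)))
    (.node 1
    (.leaf (lf 1024 0 0 700 100 (-126) 197 0 49 255 255 255))
    (.leaf (lf 1024 0 0 752 111 (-142) 217 0 55 255 255 255))))))
    (by decide +kernel)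

def goodS3X_208 :
    Check.Good noCone cfS3X (reach cfS3X ⟨litS3X, 1, fsS3X⟩
      [(0, true), (2, false), (1, false), (0, false), (2, true), (1, true), (2, false), (0, true), (2, true)]) :=
  Check.check_sound
    (.node 1
    (.node 2
    (.node 0
    (.leaf (lf 1024 0 0 641 133 (-163) 178 0 71 236 255 131))
    (.leaf (lf 1024 0 0 661 142 (-172) 184 0 79 236 255 129)))
    (.node 0
    (.leaf (lf 1024 0 0 638 129 (-158) 173 0 65 234 255 127))
    (.leaf (lf 1024 0 0 659 137 (-165) 179 0 72 235 255 128))))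
    (.node 2
    (.node 0
    (.node 1
    (.leaf (lf 1024 0 0 729 100 (-124) 210 0 54 255 255 255))
    (.leaf (lf 1024 0 0 784 104 (-132) 231 0 57 255 255 255)))
    (.node 1
    (.leaf (lf 1024 0 0 753 107 (-131) 218 0 60 255 255 255))
    (.leaf (lf 1024 0 0 809 108 (-135) 240 0 62 255 255 255))))
    (.node 0
    (.node 1
    (.leaf (lf 1024 0 0 726 100 (-124) 204 0 51 255 255 255))
    (.leaf (lf 1024 0 0 781 107 (-135) 225 0 55 255 255 255)))
    (.node 1
    (.leaf (lf 1024 0 0 751 104 (-127) 211 0 55 255 255 255))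
    (.leaf (lf 1024 0 0 808 108 (-134) 233 0 58 255 255 255))))))
    (by decide +kernel)

def goodS3X_206 :
    Check.Good noCone cfS3X (reach cfS3X ⟨litS3X, 1, fsS3X⟩
      [(2, false), (1, false), (0, false), (2, true), (1, true), (2, false), (0, true), (2, true)]) :=
  Check.good_node (a := 0) (by decide +kernel)
    goodS3X_207 goodS3X_208

def goodS3X_210 :
    Check.Good noCone cfS3X (reach cfS3X ⟨litS3X, 1, fsS3X⟩
      [(0, false), (2, true), (1, false), (0, false), (2, true), (1, true), (2, false), (0, true), (2, true)]) :=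
  Check.check_sound
    (.node 1
    (.node 2
    (.node 0
    (.node 1
    (.leaf (lf 1024 0 0 558 116 (-143) 149 0 51 255 255 255))
    (.leaf (lf 1024 0 0 613 112 (-140) 167 0 49 255 255 255)))
    (.node 1
    (.leaf (lf 1024 0 0 581 115 (-141) 154 0 53 255 255 255))
    (.leaf (lf 1024 0 0 640 107 (-132) 173 0 49 255 255 255))))
    (.node 0
    (.leaf (lf 1024 0 0 579 135 (-167) 154 0 57 233 255 128))
    (.leaf (lf 16384 0 0 9682 2079 (-2543) 2552 0 909 232 255 128))))
    (.node 2
    (.node 0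
    (.leaf (lf 1024 0 0 691 136 (-174) 194 0 61 237 255 132))
    (.node 1
    (.leaf (lf 1024 0 0 695 108 (-135) 192 0 50 255 255 255))
    (.leaf (lf 1024 0 0 747 121 (-154) 211 0 57 255 255 255))))
    (.node 0
    (.leaf (lf 1024 0 0 683 151 (-191) 190 0 64 255 255 255))
    (.leaf (lf 1024 0 0 715 139 (-173) 196 0 62 236 255 133)))))
    (by decide +kernel)

def goodS3X_211 :
    Check.Good noCone cfS3X (reach cfS3X ⟨litS3X, 1, fsS3X⟩
      [(0, true), (2, true), (1, false), (0, false), (2, true), (1, true), (2, false), (0, true), (2, true)]) :=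
  Check.check_sound
    (.node 1
    (.node 2
    (.node 0
    (.node 1
    (.leaf (lf 1024 0 0 604 119 (-144) 159 0 57 255 255 255))
    (.leaf (lf 1024 0 0 665 107 (-130) 179 0 51 255 255 255)))
    (.leaf (lf 1024 0 0 657 133 (-160) 174 0 66 235 255 124)))
    (.node 0
    (.node 1
    (.leaf (lf 1024 0 0 600 118 (-142) 155 0 54 255 255 255))
    (.leaf (lf 1024 0 0 660 110 (-134) 175 0 50 255 255 255)))
    (.leaf (lf 1024 0 0 653 131 (-157) 170 0 62 233 255 123))))
    (.node 2
    (.node 0
    (.node 1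
    (.leaf (lf 1024 0 0 722 103 (-128) 199 0 50 255 255 255))
    (.leaf (lf 1024 0 0 777 114 (-142) 218 0 56 255 255 255)))
    (.node 1
    (.leaf (lf 1024 0 0 748 104 (-127) 206 0 53 255 255 255))
    (.leaf (lf 1024 0 0 805 111 (-137) 226 0 57 255 255 255))))
    (.node 0
    (.node 1
    (.leaf (lf 1024 0 0 718 111 (-136) 194 0 51 255 255 255))
    (.leaf (lf 1024 0 0 772 124 (-154) 213 0 58 255 255 255)))
    (.node 1
    (.leaf (lf 1024 0 0 745 107 (-130) 200 0 52 255 255 255))
    (.leaf (lf 1024 0 0 802 118 (-144) 220 0 57 255 255 255))))))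
    (by decide +kernel)

def goodS3X_209 :
    Check.Good noCone cfS3X (reach cfS3X ⟨litS3X, 1, fsS3X⟩
      [(2, true), (1, false), (0, false), (2, true), (1, true), (2, false), (0, true), (2, true)]) :=
  Check.good_node (a := 0) (by decide +kernel)
    goodS3X_210 goodS3X_211

def goodS3X_205 :
    Check.Good noCone cfS3X (reach cfS3X ⟨litS3X, 1, fsS3X⟩
      [(1, false), (0, false), (2, true), (1, true), (2, false), (0, true), (2, true)]) :=
  Check.good_node (a := 2) (by decide +kernel)
    goodS3X_206 goodS3X_209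

def goodS3X_212 :
    Check.Good noCone cfS3X (reach cfS3X ⟨litS3X, 1, fsS3X⟩
      [(1, true), (0, false), (2, true), (1, true), (2, false), (0, true), (2, true)]) :=
  Check.check_sound
    (.node 2
    (.node 0
    (.node 2
    (.node 1
    (.node 0
    (.leaf (lf 1024 0 0 798 164 (-218) 243 0 84 255 255 255))
    (.leaf (lf 1024 0 0 830 158 (-208) 253 0 85 255 255 255)))
    (.leaf (lf 1024 0 0 905 256 (-352) 284 0 139 255 255 255)))
    (.node 1
    (.leaf (lf 1024 0 0 810 171 (-225) 240 0 85 243 255 132))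
    (.leaf (lf 1024 0 0 898 261 (-357) 276 0 134 255 255 255))))
    (.node 1
    (.node 2
    (.node 0
    (.leaf (lf 1024 0 0 859 156 (-202) 263 0 87 255 255 255))
    (.leaf (lf 1024 0 0 888 158 (-201) 274 0 91 255 255 255)))
    (.node 0
    (.leaf (lf 1024 0 0 857 160 (-206) 255 0 84 255 255 255))
    (.leaf (lf 1024 0 0 887 159 (-202) 265 0 87 255 255 255))))
    (.leaf (lf 1024 0 0 972 256 (-339) 303 0 145 255 255 255))))
    (.node 0
    (.node 1
    (.node 2
    (.leaf (lf 1024 0 0 803 182 (-238) 234 0 86 243 255 133))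
    (.leaf (lf 1024 0 0 796 196 (-255) 228 0 88 255 255 255)))
    (.leaf (lf 1024 0 0 886 275 (-373) 264 0 131 255 255 255)))
    (.node 1
    (.node 2
    (.leaf (lf 1024 0 0 871 168 (-213) 252 0 86 240 255 136))
    (.leaf (lf 1024 0 0 867 177 (-223) 245 0 86 240 255 133)))
    (.leaf (lf 1024 0 0 966 264 (-347) 285 0 135 255 255 255)))))
    (by decide +kernel)

def goodS3X_204 :
    Check.Good noCone cfS3X (reach cfS3X ⟨litS3X, 1, fsS3X⟩
      [(0, false), (2, true), (1, true), (2, false), (0, true), (2, true)]) :=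
  Check.good_node (a := 1) (by decide +kernel)
    goodS3X_205 goodS3X_212

def goodS3X_215 :
    Check.Good noCone cfS3X (reach cfS3X ⟨litS3X, 1, fsS3X⟩
      [(2, false), (1, false), (0, true), (2, true), (1, true), (2, false), (0, true), (2, true)]) :=
  Check.check_sound
    (.node 0
    (.node 1
    (.node 2
    (.leaf (lf 1024 0 0 691 161 (-191) 194 0 95 241 255 127))
    (.leaf (lf 1024 0 0 690 154 (-182) 188 0 86 239 255 123)))
    (.node 2
    (.node 0
    (.node 1
    (.leaf (lf 1024 0 0 775 117 (-142) 226 0 69 255 255 255))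
    (.leaf (lf 1024 0 0 833 117 (-143) 249 0 69 255 255 255)))
    (.leaf (lf 1024 0 0 826 142 (-171) 246 0 87 235 255 136)))
    (.node 0
    (.node 1
    (.leaf (lf 1024 0 0 775 112 (-136) 219 0 62 255 255 255))
    (.leaf (lf 1024 0 0 834 114 (-139) 242 0 64 255 255 255)))
    (.leaf (lf 1024 0 0 828 137 (-164) 238 0 79 235 255 133)))))
    (.node 1
    (.leaf (lf 1024 0 0 727 184 (-212) 204 0 114 255 255 255))
    (.node 2
    (.leaf (lf 1024 0 0 859 165 (-195) 259 0 107 239 255 133))
    (.leaf (lf 1024 0 0 862 159 (-187) 251 0 98 238 255 133)))))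
    (by decide +kernel)

def goodS3X_216 :
    Check.Good noCone cfS3X (reach cfS3X ⟨litS3X, 1, fsS3X⟩
      [(2, true), (1, false), (0, true), (2, true), (1, true), (2, false), (0, true), (2, true)]) :=
  Check.check_sound
    (.node 0
    (.node 1
    (.node 2
    (.node 0
    (.leaf (lf 1024 0 0 678 141 (-168) 180 0 74 234 255 125))
    (.leaf (lf 1024 0 0 698 152 (-178) 186 0 82 255 255 255)))
    (.node 0
    (.leaf (lf 1024 0 0 676 138 (-163) 176 0 68 234 255 125))
    (.leaf (lf 1024 0 0 697 147 (-171) 182 0 76 234 255 128))))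
    (.node 2
    (.node 0
    (.node 1
    (.leaf (lf 1024 0 0 773 109 (-132) 213 0 58 255 255 255))
    (.leaf (lf 1024 0 0 833 113 (-138) 234 0 60 255 255 255)))
    (.leaf (lf 1024 0 0 828 134 (-160) 231 0 74 234 255 132)))
    (.node 0
    (.node 1
    (.leaf (lf 1024 0 0 772 109 (-131) 207 0 55 255 255 255))
    (.leaf (lf 1024 0 0 831 116 (-141) 228 0 59 255 255 255)))
    (.leaf (lf 16384 0 0 13240 2122 (-2522) 3597 0 1112 233 255 130)))))
    (.node 1
    (.leaf (lf 1024 0 0 729 170 (-194) 192 0 95 248 255 150))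
    (.node 2
    (.node 0
    (.leaf (lf 1024 0 0 852 145 (-171) 239 0 83 233 255 131))
    (.leaf (lf 1024 0 0 875 159 (-185) 247 0 95 255 255 255)))
    (.node 0
    (.leaf (lf 1024 0 0 853 142 (-166) 232 0 77 233 255 129))
    (.leaf (lf 1024 0 0 877 155 (-179) 240 0 87 255 255 255))))))
    (by decide +kernel)

def goodS3X_214 :
    Check.Good noCone cfS3X (reach cfS3X ⟨litS3X, 1, fsS3X⟩
      [(1, false), (0, true), (2, true), (1, true), (2, false), (0, true), (2, true)]) :=
  Check.good_node (a := 2) (by decide +kernel)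
    goodS3X_215 goodS3X_216

def goodS3X_217 :
    Check.Good noCone cfS3X (reach cfS3X ⟨litS3X, 1, fsS3X⟩
      [(1, true), (0, true), (2, true), (1, true), (2, false), (0, true), (2, true)]) :=
  Check.check_sound
    (.node 2
    (.node 0
    (.node 1
    (.node 2
    (.leaf (lf 1024 0 0 930 169 (-210) 290 0 104 238 255 146))
    (.leaf (lf 1024 0 0 931 168 (-207) 280 0 97 239 255 142)))
    (.leaf (lf 1013 0 0 1024 260 (-334) 326 0 159 255 251 179)))
    (.node 1
    (.leaf (lf 1024 0 0 982 190 (-228) 307 0 122 251 255 178))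
    (.leaf (lf 960 0 0 1024 264 (-326) 334 0 174 255 251 185))))
    (.node 0
    (.node 1
    (.node 2
    (.leaf (lf 1024 0 0 932 168 (-207) 271 0 93 237 255 138))
    (.leaf (lf 1024 0 0 932 172 (-211) 263 0 90 238 255 135)))
    (.leaf (lf 1010 0 0 1024 261 (-331) 303 0 144 255 255 255)))
    (.node 1
    (.leaf (lf 16384 0 0 15839 2949 (-3511) 4582 0 1707 247 255 168))
    (.leaf (lf 950 0 0 1024 257 (-315) 308 0 152 255 254 178)))))
    (by decide +kernel)

def goodS3X_213 :
    Check.Good noCone cfS3X (reach cfS3X ⟨litS3X, 1, fsS3X⟩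
      [(0, true), (2, true), (1, true), (2, false), (0, true), (2, true)]) :=
  Check.good_node (a := 1) (by decide +kernel)
    goodS3X_214 goodS3X_217

def goodS3X_203 :
    Check.Good noCone cfS3X (reach cfS3X ⟨litS3X, 1, fsS3X⟩
      [(2, true), (1, true), (2, false), (0, true), (2, true)]) :=
  Check.good_node (a := 0) (by decide +kernel)
    goodS3X_204 goodS3X_213

def goodS3X_187 :
    Check.Good noCone cfS3X (reach cfS3X ⟨litS3X, 1, fsS3X⟩
      [(1, true), (2, false), (0, true), (2, true)]) :=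
  Check.good_node (a := 2) (by decide +kernel)
    goodS3X_188 goodS3X_203

def goodS3X_179 :
    Check.Good noCone cfS3X (reach cfS3X ⟨litS3X, 1, fsS3X⟩
      [(2, false), (0, true), (2, true)]) :=
  Check.good_node (a := 1) (by decide +kernel)
    goodS3X_180 goodS3X_187

def goodS3X_220 :
    Check.Good noCone cfS3X (reach cfS3X ⟨litS3X, 1, fsS3X⟩
      [(1, false), (1, false), (2, true), (0, true), (2, true)]) :=
  Check.check_sound
    (.node 0
    (.node 1
    (.leaf (lf 16384 0 0 1129 2968 (-3289) 258 0 1016 255 255 255))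
    (.node 2
    (.node 1
    (.leaf (lf 1024 0 0 180 169 (-193) 42 0 64 255 255 255))
    (.leaf (lf 1024 0 0 251 164 (-188) 59 0 63 255 255 255)))
    (.leaf (lf 1024 0 0 204 188 (-208) 48 0 60 250 255 151))))
    (.node 1
    (.leaf (lf 1024 0 0 82 208 (-224) 18 0 84 255 240 190))
    (.node 2
    (.leaf (lf 1024 0 0 248 216 (-239) 56 0 97 255 255 255))
    (.leaf (lf 1024 0 0 242 187 (-202) 53 0 71 248 255 140)))))
    (by decide +kernel)

def goodS3X_223 :
    Check.Good noCone cfS3X (reach cfS3X ⟨litS3X, 1, fsS3X⟩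
      [(2, false), (0, false), (1, true), (1, false), (2, true), (0, true), (2, true)]) :=
  Check.check_sound
    (.node 1
    (.node 2
    (.node 0
    (.leaf (lf 1024 0 0 340 162 (-190) 83 0 62 241 255 136))
    (.leaf (lf 1024 0 0 370 173 (-200) 89 0 73 255 255 255)))
    (.node 0
    (.leaf (lf 1024 0 0 331 167 (-194) 81 0 59 255 255 255))
    (.leaf (lf 1024 0 0 363 166 (-190) 86 0 64 239 255 136))))
    (.node 2
    (.node 0
    (.node 1
    (.leaf (lf 1024 0 0 436 140 (-167) 109 0 55 255 255 255))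
    (.leaf (lf 1024 0 0 497 136 (-163) 126 0 54 255 255 255)))
    (.node 1
    (.leaf (lf 1024 0 0 474 144 (-168) 116 0 61 255 255 255))
    (.leaf (lf 1024 0 0 541 133 (-157) 134 0 57 255 255 255))))
    (.node 0
    (.leaf (lf 1024 0 0 454 169 (-198) 114 0 60 241 255 143))
    (.node 1
    (.leaf (lf 1024 0 0 466 144 (-166) 112 0 56 255 255 255))
    (.leaf (lf 1024 0 0 532 140 (-162) 130 0 55 255 255 255))))))
    (by decide +kernel)

def goodS3X_224 :
    Check.Good noCone cfS3X (reach cfS3X ⟨litS3X, 1, fsS3X⟩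
      [(2, true), (0, false), (1, true), (1, false), (2, true), (0, true), (2, true)]) :=
  Check.check_sound
    (.node 1
    (.node 2
    (.node 0
    (.leaf (lf 1024 0 0 321 187 (-212) 79 0 61 255 255 255))
    (.leaf (lf 1024 0 0 355 171 (-192) 84 0 60 255 255 255)))
    (.leaf (lf 1024 0 0 332 206 (-227) 79 0 64 240 255 125)))
    (.node 2
    (.node 0
    (.leaf (lf 1024 0 0 441 199 (-229) 111 0 65 255 255 255))
    (.leaf (lf 1024 0 0 488 172 (-195) 117 0 61 239 255 136)))
    (.node 0
    (.leaf (lf 1024 0 0 427 240 (-270) 108 0 72 255 255 255))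
    (.leaf (lf 1024 0 0 477 200 (-223) 114 0 66 255 255 255)))))
    (by decide +kernel)

def goodS3X_222 :
    Check.Good noCone cfS3X (reach cfS3X ⟨litS3X, 1, fsS3X⟩
      [(0, false), (1, true), (1, false), (2, true), (0, true), (2, true)]) :=
  Check.good_node (a := 2) (by decide +kernel)
    goodS3X_223 goodS3X_224

def goodS3X_225 :
    Check.Good noCone cfS3X (reach cfS3X ⟨litS3X, 1, fsS3X⟩
      [(0, true), (1, true), (1, false), (2, true), (0, true), (2, true)]) :=
  Check.check_sound
    (.node 2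
    (.node 1
    (.node 2
    (.leaf (lf 1024 0 0 411 206 (-231) 96 0 98 255 255 255))
    (.node 0
    (.leaf (lf 1024 0 0 391 178 (-200) 91 0 75 255 255 255))
    (.leaf (lf 1024 0 0 417 197 (-218) 96 0 90 255 255 255))))
    (.node 2
    (.node 0
    (.leaf (lf 1024 0 0 545 166 (-190) 133 0 77 242 255 142))
    (.leaf (lf 1024 0 0 579 187 (-210) 141 0 94 255 255 255)))
    (.node 0
    (.node 1
    (.leaf (lf 1024 0 0 503 150 (-169) 119 0 63 255 255 255))
    (.leaf (lf 1024 0 0 575 139 (-158) 138 0 59 255 255 255)))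
    (.leaf (lf 1024 0 0 576 173 (-192) 136 0 79 240 255 137)))))
    (.node 1
    (.node 2
    (.node 0
    (.leaf (lf 1024 0 0 385 171 (-189) 88 0 66 255 255 255))
    (.leaf (lf 1024 0 0 413 183 (-199) 93 0 77 255 255 255)))
    (.node 0
    (.leaf (lf 1024 0 0 379 174 (-190) 86 0 62 255 255 255))
    (.leaf (lf 1024 0 0 408 176 (-188) 91 0 68 255 255 255))))
    (.node 2
    (.node 0
    (.leaf (lf 1024 0 0 532 161 (-179) 124 0 62 238 255 135))
    (.leaf (lf 1024 0 0 571 166 (-181) 131 0 70 238 255 132)))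
    (.node 0
    (.leaf (lf 1024 0 0 523 175 (-192) 121 0 63 237 255 137))
    (.leaf (lf 1024 0 0 565 166 (-180) 128 0 65 236 255 133))))))
    (by decide +kernel)

def goodS3X_221 :
    Check.Good noCone cfS3X (reach cfS3X ⟨litS3X, 1, fsS3X⟩
      [(1, true), (1, false), (2, true), (0, true), (2, true)]) :=
  Check.good_node (a := 0) (by decide +kernel)
    goodS3X_222 goodS3X_225

def goodS3X_219 :
    Check.Good noCone cfS3X (reach cfS3X ⟨litS3X, 1, fsS3X⟩
      [(1, false), (2, true), (0, true), (2, true)]) :=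
  Check.good_node (a := 1) (by decide +kernel)
    goodS3X_220 goodS3X_221

def goodS3X_230 :
    Check.Good noCone cfS3X (reach cfS3X ⟨litS3X, 1, fsS3X⟩
      [(2, false), (1, false), (0, false), (2, false), (1, true), (2, true), (0, true), (2, true)]) :=
  Check.check_sound
    (.node 0
    (.node 1
    (.node 2
    (.node 0
    (.leaf (lf 1024 0 0 572 147 (-180) 151 0 58 235 255 127))
    (.leaf (lf 1024 0 0 599 138 (-167) 156 0 57 233 255 126)))
    (.leaf (lf 1024 0 0 580 156 (-189) 151 0 61 234 255 125)))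
    (.node 2
    (.node 0
    (.leaf (lf 1024 0 0 675 168 (-211) 186 0 68 255 255 255))
    (.leaf (lf 1024 0 0 708 153 (-190) 192 0 65 255 255 255)))
    (.leaf (lf 1024 0 0 685 180 (-224) 185 0 72 238 255 126))))
    (.node 1
    (.node 2
    (.node 0
    (.leaf (lf 1024 0 0 625 133 (-160) 161 0 58 231 255 124))
    (.leaf (lf 16384 0 0 10396 2117 (-2517) 2665 0 959 232 255 125)))
    (.node 0
    (.leaf (lf 1024 0 0 620 140 (-168) 158 0 58 232 255 124))
    (.leaf (lf 1024 0 0 645 136 (-161) 163 0 59 230 255 123))))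
    (.node 2
    (.node 0
    (.leaf (lf 1024 0 0 740 142 (-174) 199 0 63 235 255 133))
    (.leaf (lf 1024 0 0 770 134 (-163) 205 0 62 233 255 129)))
    (.node 0
    (.leaf (lf 1024 0 0 734 156 (-190) 194 0 66 255 255 255))
    (.leaf (lf 1024 0 0 766 145 (-175) 201 0 64 233 255 130))))))
    (by decide +kernel)

def goodS3X_231 :
    Check.Good noCone cfS3X (reach cfS3X ⟨litS3X, 1, fsS3X⟩
      [(2, true), (1, false), (0, false), (2, false), (1, true), (2, true), (0, true), (2, true)]) :=
  Check.check_sound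
    (.node 0
    (.node 1
    (.leaf (lf 1024 0 0 569 182 (-217) 147 0 66 244 255 146))
    (.leaf (lf 1024 0 0 673 213 (-260) 180 0 79 255 255 255)))
    (.node 1
    (.node 2
    (.node 0
    (.leaf (lf 1024 0 0 614 151 (-179) 155 0 60 255 255 255))
    (.leaf (lf 1024 0 0 641 143 (-168) 160 0 59 231 255 124)))
    (.leaf (lf 1024 0 0 623 161 (-188) 155 0 62 234 255 121)))
    (.node 2
    (.leaf (lf 1024 0 0 746 168 (-202) 193 0 69 237 255 122))
    (.leaf (lf 1024 0 0 740 185 (-221) 190 0 73 237 255 126)))))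
    (by decide +kernel)

def goodS3X_229 :
    Check.Good noCone cfS3X (reach cfS3X ⟨litS3X, 1, fsS3X⟩
      [(1, false), (0, false), (2, false), (1, true), (2, true), (0, true), (2, true)]) :=
  Check.good_node (a := 2) (by decide +kernel)
    goodS3X_230 goodS3X_231

def goodS3X_232 :
    Check.Good noCone cfS3X (reach cfS3X ⟨litS3X, 1, fsS3X⟩
      [(1, true), (0, false), (2, false), (1, true), (2, true), (0, true), (2, true)]) :=
  Check.check_sound
    (.node 2
    (.node 0
    (.node 1
    (.leaf (lf 1024 0 0 783 223 (-286) 221 0 93 255 255 255))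
    (.leaf (lf 1024 0 0 866 302 (-405) 252 0 130 255 255 255)))
    (.node 1
    (.leaf (lf 1024 0 0 860 196 (-245) 236 0 89 253 255 157))
    (.leaf (lf 1024 0 0 956 283 (-368) 270 0 132 255 255 255))))
    (.node 0
    (.leaf (lf 1024 0 0 804 320 (-412) 227 0 124 255 251 166))
    (.node 1
    (.leaf (lf 1024 0 0 848 230 (-284) 226 0 95 255 255 255))
    (.leaf (lf 1024 0 0 943 313 (-402) 259 0 133 255 255 255)))))
    (by decide +kernel)

def goodS3X_228 :
    Check.Good noCone cfS3X (reach cfS3X ⟨litS3X, 1, fsS3X⟩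
      [(0, false), (2, false), (1, true), (2, true), (0, true), (2, true)]) :=
  Check.good_node (a := 1) (by decide +kernel)
    goodS3X_229 goodS3X_232

def goodS3X_235 :
    Check.Good noCone cfS3X (reach cfS3X ⟨litS3X, 1, fsS3X⟩
      [(2, false), (1, false), (0, true), (2, false), (1, true), (2, true), (0, true), (2, true)]) :=
  Check.check_sound
    (.node 0
    (.node 1
    (.node 2
    (.node 0
    (.leaf (lf 1024 0 0 673 136 (-160) 172 0 64 233 255 124))
    (.leaf (lf 1024 0 0 696 143 (-166) 177 0 70 232 255 122)))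
    (.node 0
    (.leaf (lf 1024 0 0 670 137 (-159) 168 0 61 233 255 122))
    (.leaf (lf 1024 0 0 693 141 (-163) 174 0 66 232 255 124))))
    (.node 2
    (.node 0
    (.node 1
    (.leaf (lf 1024 0 0 769 113 (-134) 202 0 54 255 255 255))
    (.leaf (lf 1024 0 0 829 123 (-148) 222 0 59 255 255 255)))
    (.leaf (lf 1024 0 0 826 134 (-158) 219 0 67 233 255 130)))
    (.node 0
    (.leaf (lf 1024 0 0 796 139 (-166) 207 0 64 232 255 128))
    (.leaf (lf 1024 0 0 825 138 (-162) 214 0 66 232 255 129)))))
    (.node 1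
    (.node 2
    (.leaf (lf 1024 0 0 728 160 (-183) 185 0 83 238 255 116))
    (.leaf (lf 1024 0 0 728 156 (-176) 181 0 77 236 255 117)))
    (.node 2
    (.node 0
    (.leaf (lf 1024 0 0 853 141 (-164) 226 0 73 232 255 128))
    (.leaf (lf 1024 0 0 878 152 (-174) 234 0 82 233 255 131)))
    (.node 0
    (.leaf (lf 1024 0 0 852 142 (-165) 221 0 70 233 255 127))
    (.leaf (lf 1024 0 0 878 150 (-172) 228 0 77 232 255 127))))))
    (by decide +kernel)

def goodS3X_236 :
    Check.Good noCone cfS3X (reach cfS3X ⟨litS3X, 1, fsS3X⟩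
      [(2, true), (1, false), (0, true), (2, false), (1, true), (2, true), (0, true), (2, true)]) :=
  Check.check_sound
    (.node 0
    (.node 1
    (.node 2
    (.node 0
    (.leaf (lf 1024 0 0 666 140 (-163) 165 0 60 232 255 122))
    (.leaf (lf 1024 0 0 691 141 (-162) 170 0 63 231 255 122)))
    (.node 0
    (.leaf (lf 1024 0 0 662 147 (-169) 162 0 60 231 255 123))
    (.leaf (lf 1024 0 0 688 145 (-165) 167 0 62 230 255 123))))
    (.node 2
    (.node 0
    (.leaf (lf 1024 0 0 792 150 (-177) 203 0 66 233 255 131))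
    (.leaf (lf 1024 0 0 822 145 (-170) 209 0 66 232 255 125)))
    (.node 0
    (.leaf (lf 1024 0 0 788 163 (-192) 199 0 68 255 255 255))
    (.leaf (lf 1024 0 0 819 155 (-180) 205 0 68 255 255 255)))))
    (.node 1
    (.node 2
    (.node 0
    (.leaf (lf 1024 0 0 714 147 (-166) 175 0 68 231 255 121))
    (.leaf (lf 1024 0 0 736 156 (-174) 180 0 75 255 255 255)))
    (.node 0
    (.leaf (lf 1024 0 0 712 147 (-165) 172 0 65 231 255 122))
    (.leaf (lf 1024 0 0 735 153 (-171) 177 0 71 255 255 255))))
    (.node 2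
    (.node 0
    (.leaf (lf 1024 0 0 851 146 (-168) 216 0 69 231 255 127))
    (.leaf (lf 1024 0 0 878 151 (-172) 223 0 74 232 255 127)))
    (.node 0
    (.leaf (lf 1024 0 0 849 152 (-174) 211 0 69 230 255 125))
    (.leaf (lf 1024 0 0 878 154 (-174) 218 0 73 231 255 127))))))
    (by decide +kernel)

def goodS3X_234 :
    Check.Good noCone cfS3X (reach cfS3X ⟨litS3X, 1, fsS3X⟩
      [(1, false), (0, true), (2, false), (1, true), (2, true), (0, true), (2, true)]) :=
  Check.good_node (a := 2) (by decide +kernel)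
    goodS3X_235 goodS3X_236

def goodS3X_237 :
    Check.Good noCone cfS3X (reach cfS3X ⟨litS3X, 1, fsS3X⟩
      [(1, true), (0, true), (2, false), (1, true), (2, true), (0, true), (2, true)]) :=
  Check.check_sound
    (.node 2
    (.node 0
    (.node 1
    (.node 2
    (.leaf (lf 1024 0 0 931 178 (-217) 256 0 89 237 255 134))
    (.leaf (lf 1024 0 0 929 187 (-227) 250 0 89 239 255 133)))
    (.leaf (lf 1011 0 0 1024 272 (-342) 286 0 136 255 255 255)))
    (.node 1
    (.leaf (lf 1024 0 0 994 187 (-220) 270 0 98 245 255 161))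
    (.leaf (lf 943 0 0 1024 258 (-313) 287 0 139 255 255 255))))
    (.node 0
    (.node 1
    (.leaf (lf 1024 0 0 925 206 (-248) 241 0 92 255 255 255))
    (.leaf (lf 1015 0 0 1024 294 (-365) 274 0 135 255 255 255)))
    (.node 1
    (.leaf (lf 1024 0 0 996 199 (-232) 257 0 96 244 255 155))
    (.leaf (lf 940 0 0 1024 268 (-322) 270 0 132 255 255 255)))))
    (by decide +kernel)

def goodS3X_233 :
    Check.Good noCone cfS3X (reach cfS3X ⟨litS3X, 1, fsS3X⟩
      [(0, true), (2, false), (1, true), (2, true), (0, true), (2, true)]) :=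
  Check.good_node (a := 1) (by decide +kernel)
    goodS3X_234 goodS3X_237

def goodS3X_227 :
    Check.Good noCone cfS3X (reach cfS3X ⟨litS3X, 1, fsS3X⟩
      [(2, false), (1, true), (2, true), (0, true), (2, true)]) :=
  Check.good_node (a := 0) (by decide +kernel)
    goodS3X_228 goodS3X_233

def goodS3X_239 :
    Check.Good noCone cfS3X (reach cfS3X ⟨litS3X, 1, fsS3X⟩
      [(0, false), (2, true), (1, true), (2, true), (0, true), (2, true)]) :=
  Check.check_sound
    (.node 1
    (.node 2
    (.node 0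
    (.node 1
    (.leaf (lf 1024 0 0 553 223 (-260) 143 0 74 255 255 255))
    (.leaf (lf 1024 0 0 654 260 (-312) 174 0 88 255 255 255)))
    (.node 1
    (.leaf (lf 1024 0 0 614 184 (-212) 151 0 67 241 255 141))
    (.leaf (lf 1024 0 0 730 216 (-255) 185 0 80 255 255 255))))
    (.node 0
    (.leaf (lf 1024 0 0 585 316 (-365) 154 0 97 255 255 255))
    (.node 1
    (.leaf (lf 1024 0 0 601 223 (-252) 147 0 75 255 255 255))
    (.leaf (lf 1024 0 0 715 263 (-303) 179 0 89 255 255 255)))))
    (.node 2
    (.node 0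
    (.leaf (lf 1024 0 0 782 366 (-462) 219 0 129 255 255 255))
    (.leaf (lf 1024 0 0 881 331 (-409) 233 0 127 255 254 162)))
    (.node 0
    (.leaf (lf 1024 0 0 759 419 (-518) 212 0 136 255 255 255))
    (.leaf (lf 1024 0 0 864 376 (-456) 225 0 133 255 255 255)))))
    (by decide +kernel)

def goodS3X_241 :
    Check.Good noCone cfS3X (reach cfS3X ⟨litS3X, 1, fsS3X⟩
      [(1, false), (0, true), (2, true), (1, true), (2, true), (0, true), (2, true)]) :=
  Check.check_sound
    (.node 2
    (.node 0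
    (.node 1
    (.node 2
    (.node 0
    (.leaf (lf 1024 0 0 658 157 (-179) 160 0 62 255 255 255))
    (.leaf (lf 1024 0 0 684 151 (-170) 164 0 62 230 255 123)))
    (.leaf (lf 1024 0 0 668 166 (-187) 159 0 64 231 255 118)))
    (.leaf (lf 1024 0 0 799 184 (-212) 196 0 74 243 255 143)))
    (.node 1
    (.node 2
    (.node 0
    (.leaf (lf 1024 0 0 709 150 (-167) 169 0 64 230 255 123))
    (.leaf (lf 1024 0 0 733 153 (-169) 174 0 68 230 255 122)))
    (.leaf (lf 1024 0 0 720 156 (-173) 168 0 65 232 255 114)))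
    (.node 2
    (.leaf (lf 1024 0 0 863 163 (-184) 210 0 72 232 255 120))
    (.leaf (lf 1024 0 0 861 173 (-194) 206 0 73 233 255 119)))))
    (.node 0
    (.node 1
    (.leaf (lf 1024 0 0 661 187 (-208) 156 0 68 239 255 142))
    (.leaf (lf 1024 0 0 789 221 (-250) 190 0 82 255 255 255)))
    (.node 1
    (.node 2
    (.leaf (lf 1024 0 0 717 163 (-178) 166 0 65 231 255 118))
    (.leaf (lf 1024 0 0 713 172 (-187) 163 0 66 231 255 114)))
    (.leaf (lf 1024 0 0 857 193 (-214) 201 0 77 240 255 141)))))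
    (by decide +kernel)

def goodS3X_242 :
    Check.Good noCone cfS3X (reach cfS3X ⟨litS3X, 1, fsS3X⟩
      [(1, true), (0, true), (2, true), (1, true), (2, true), (0, true), (2, true)]) :=
  Check.check_sound
    (.node 2
    (.node 0
    (.node 1
    (.leaf (lf 1024 0 0 918 239 (-283) 231 0 98 255 255 255))
    (.leaf (lf 1022 0 0 1024 326 (-399) 264 0 137 255 255 255)))
    (.node 1
    (.leaf (lf 1024 0 0 994 220 (-253) 246 0 97 255 255 255))
    (.leaf (lf 939 0 0 1024 287 (-340) 258 0 130 255 255 255))))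
    (.node 0
    (.leaf (lf 1024 0 0 962 343 (-405) 238 0 131 251 255 155))
    (.node 1
    (.leaf (lf 1024 0 0 991 251 (-284) 237 0 102 255 255 255))
    (.leaf (lf 940 0 0 1024 315 (-368) 247 0 132 255 255 255)))))
    (by decide +kernel)

def goodS3X_240 :
    Check.Good noCone cfS3X (reach cfS3X ⟨litS3X, 1, fsS3X⟩
      [(0, true), (2, true), (1, true), (2, true), (0, true), (2, true)]) :=
  Check.good_node (a := 1) (by decide +kernel)
    goodS3X_241 goodS3X_242

def goodS3X_238 :
    Check.Good noCone cfS3X (reach cfS3X ⟨litS3X, 1, fsS3X⟩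
      [(2, true), (1, true), (2, true), (0, true), (2, true)]) :=
  Check.good_node (a := 0) (by decide +kernel)
    goodS3X_239 goodS3X_240

def goodS3X_226 :
    Check.Good noCone cfS3X (reach cfS3X ⟨litS3X, 1, fsS3X⟩
      [(1, true), (2, true), (0, true), (2, true)]) :=
  Check.good_node (a := 2) (by decide +kernel)
    goodS3X_227 goodS3X_238

def goodS3X_218 :
    Check.Good noCone cfS3X (reach cfS3X ⟨litS3X, 1, fsS3X⟩
      [(2, true), (0, true), (2, true)]) :=
  Check.good_node (a := 1) (by decide +kernel)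
    goodS3X_219 goodS3X_226

def goodS3X_178 :
    Check.Good noCone cfS3X (reach cfS3X ⟨litS3X, 1, fsS3X⟩
      [(0, true), (2, true)]) :=
  Check.good_node (a := 2) (by decide +kernel)
    goodS3X_179 goodS3X_218

end

end Vale.Agent.P211.Cert.Interior.Data
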