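import Vale.Agent.P211.Cert.Interior.Data.S3Xr

/-!
P211, a part of a cell of the interior family (generated).
-/

namespace Vale.Agent.P211.Cert.Interior.Data

open Vale.Agent.P098.Check6 (ofChunks eqList reach St Cfg Face)
open Vale.Agent.P098.Cert6.Kron (RootPar parOK)

set_option linter.defProp false

noncomputable section

def goodS3X_7 :
    Check.Good noCone cfS3X (reach cfS3X ⟨litS3X, 1, fsS3X⟩
      [(2, false), (0, false), (1, false), (0, false), (2, false), (2, false), (2, false)]) :=
  Check.check_sound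
    (.node 1
    (.node 1
    (.node 2
    (.leaf (lf 1024 0 0 62 220 (-284) 69 0 656 255 255 255))
    (.leaf (lf 1024 0 0 63 228 (-296) 54 0 526 255 255 255)))
    (.leaf (lf 831 1024 432 0 458 (-270) 0 0 764 219 210 255)))
    (.node 2
    (.node 1
    (.leaf (lf 508 1024 736 0 564 (-67) 0 0 905 255 181 222))
    (.node 2
    (.node 0
    (.leaf (lf 1024 0 0 378 173 (-237) 569 0 553 255 255 255))
    (.leaf (lf 1024 0 0 385 180 (-240) 651 0 640 255 255 255)))
    (.node 0
    (.leaf (lf 1024 0 0 384 172 (-236) 487 0 473 255 255 255))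
    (.leaf (lf 1024 0 0 392 179 (-239) 557 0 547 255 255 255)))))
    (.node 1
    (.leaf (lf 512 1024 717 0 576 (-78) 0 0 710 255 172 204))
    (.node 0
    (.node 0
    (.leaf (lf 1024 0 0 391 170 (-235) 383 0 372 255 255 255))
    (.leaf (lf 1024 0 0 396 173 (-236) 410 0 401 255 255 255)))
    (.leaf (lf 375 946 1024 0 687 166 0 0 897 255 154 231))))))
    (by decide +kernel)

def goodS3X_8 :
    Check.Good noCone cfS3X (reach cfS3X ⟨litS3X, 1, fsS3X⟩
      [(2, true), (0, false), (1, false), (0, false), (2, false), (2, false), (2, false)]) :=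
  Check.check_sound
    (.node 1
    (.node 1
    (.leaf (lf 1024 0 0 64 237 (-307) 40 0 395 255 255 255))
    (.leaf (lf 851 1024 427 0 481 (-301) 0 0 539 255 255 255)))
    (.node 2
    (.node 1
    (.leaf (lf 515 1024 704 0 586 (-88) 0 0 583 255 174 194))
    (.node 0
    (.leaf (lf 359 938 1024 0 676 169 0 0 628 255 158 227))
    (.leaf (lf 1024 0 0 412 181 (-241) 365 0 364 255 255 255))))
    (.node 1
    (.leaf (lf 1024 0 0 308 204 (-272) 196 0 322 255 240 173))
    (.node 0
    (.leaf (lf 1024 0 0 407 173 (-239) 269 0 263 255 255 255))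
    (.leaf (lf 1024 0 0 419 182 (-243) 306 0 306 255 255 255))))))
    (by decide +kernel)

def goodS3X_6 :
    Check.Good noCone cfS3X (reach cfS3X ⟨litS3X, 1, fsS3X⟩
      [(0, false), (1, false), (0, false), (2, false), (2, false), (2, false)]) :=
  Check.good_node (a := 2) (by decide +kernel)
    goodS3X_7 goodS3X_8

def goodS3X_10 :
    Check.Good noCone cfS3X (reach cfS3X ⟨litS3X, 1, fsS3X⟩
      [(2, false), (0, true), (1, false), (0, false), (2, false), (2, false), (2, false)]) :=
  Check.check_sound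
    (.node 1
    (.node 1
    (.leaf (lf 1024 0 0 66 241 (-289) 71 0 737 255 255 255))
    (.leaf (lf 870 1024 420 0 486 (-282) 0 0 1015 207 200 255)))
    (.node 2
    (.node 1
    (.leaf (lf 461 888 616 0 510 (-65) 0 0 1024 255 169 219))
    (.node 2
    (.node 0
    (.leaf (lf 1024 0 0 392 189 (-245) 739 0 741 255 255 255))
    (.leaf (lf 1024 0 0 399 198 (-252) 831 0 858 255 255 255)))
    (.leaf (lf 1024 0 0 407 194 (-247) 666 0 687 255 245 180))))
    (.node 1
    (.leaf (lf 1024 0 0 314 212 (-265) 361 0 605 255 255 255))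
    (.node 2
    (.leaf (lf 1024 0 0 414 194 (-247) 581 0 600 255 247 173))
    (.leaf (lf 1024 0 0 420 194 (-247) 514 0 533 255 249 166))))))
    (by decide +kernel)

def goodS3X_11 :
    Check.Good noCone cfS3X (reach cfS3X ⟨litS3X, 1, fsS3X⟩
      [(2, true), (0, true), (1, false), (0, false), (2, false), (2, false), (2, false)]) :=
  Check.check_sound
    (.node 1
    (.node 1
    (.leaf (lf 1024 0 0 68 258 (-315) 49 0 522 255 255 255))
    (.leaf (lf 1024 0 0 201 246 (-301) 151 0 499 255 255 255)))
    (.node 2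
    (.node 1
    (.leaf (lf 1024 0 0 320 219 (-274) 293 0 503 255 255 255))
    (.node 0
    (.leaf (lf 1024 0 0 422 190 (-245) 412 0 421 255 255 255))
    (.leaf (lf 1024 0 0 432 199 (-251) 462 0 486 255 255 255))))
    (.node 1
    (.leaf (lf 1024 0 0 326 225 (-282) 247 0 431 255 255 255))
    (.node 0
    (.leaf (lf 1024 0 0 430 192 (-248) 345 0 355 255 255 255))
    (.leaf (lf 1024 0 0 441 202 (-254) 386 0 410 255 255 255))))))
    (by decide +kernel)

def goodS3X_9 :
    Check.Good noCone cfS3X (reach cfS3X ⟨litS3X, 1, fsS3X⟩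
      [(0, true), (1, false), (0, false), (2, false), (2, false), (2, false)]) :=
  Check.good_node (a := 2) (by decide +kernel)
    goodS3X_10 goodS3X_11

def goodS3X_5 :
    Check.Good noCone cfS3X (reach cfS3X ⟨litS3X, 1, fsS3X⟩
      [(1, false), (0, false), (2, false), (2, false), (2, false)]) :=
  Check.good_node (a := 0) (by decide +kernel)
    goodS3X_6 goodS3X_9

def goodS3X_15 :
    Check.Good noCone cfS3X (reach cfS3X ⟨litS3X, 1, fsS3X⟩
      [(2, false), (2, false), (0, false), (1, true), (0, false), (2, false), (2, false), (2, false)]) :=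
  Check.check_sound
    (.node 1
    (.node 2
    (.node 0
    (.node 1
    (.leaf (lf 1024 0 0 462 203 (-282) 767 0 659 255 255 255))
    (.leaf (lf 1024 0 0 547 289 (-408) 950 0 954 255 230 203)))
    (.node 1
    (.leaf (lf 1024 0 0 467 209 (-283) 888 0 754 255 255 255))
    (.leaf (lf 939 0 0 501 271 (-373) 1024 0 993 255 228 207))))
    (.node 0
    (.node 1
    (.leaf (lf 1024 0 0 470 193 (-269) 656 0 540 255 255 255))
    (.leaf (lf 1024 0 0 556 269 (-382) 815 0 769 255 236 199)))
    (.node 1
    (.leaf (lf 1024 0 0 477 199 (-270) 757 0 617 255 255 255))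
    (.leaf (lf 1024 0 0 557 275 (-380) 955 0 869 255 235 202)))))
    (.node 2
    (.leaf (lf 552 0 0 402 293 (-405) 609 0 1024 255 206 144))
    (.leaf (lf 676 0 0 491 336 (-472) 656 0 1024 255 210 145))))
    (by decide +kernel)

def goodS3X_16 :
    Check.Good noCone cfS3X (reach cfS3X ⟨litS3X, 1, fsS3X⟩
      [(2, true), (2, false), (0, false), (1, true), (0, false), (2, false), (2, false), (2, false)]) :=
  Check.check_sound
    (.node 1
    (.node 0
    (.node 2
    (.node 1
    (.leaf (lf 1024 0 0 478 185 (-259) 571 0 456 255 255 255))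
    (.leaf (lf 1024 0 0 564 254 (-362) 711 0 636 255 255 255)))
    (.node 1
    (.leaf (lf 1024 0 0 485 180 (-252) 506 0 393 255 255 255))
    (.leaf (lf 1024 0 0 572 241 (-344) 630 0 537 255 255 255))))
    (.node 2
    (.node 1
    (.leaf (lf 1024 0 0 486 191 (-259) 659 0 520 255 255 255))
    (.leaf (lf 1024 0 0 568 258 (-358) 832 0 717 255 255 255)))
    (.node 1
    (.leaf (lf 1024 0 0 494 185 (-252) 582 0 448 255 255 255))
    (.leaf (lf 1024 0 0 577 244 (-340) 735 0 604 255 255 255)))))
    (.node 0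
    (.leaf (lf 949 0 0 696 426 (-618) 698 0 1024 255 195 171))
    (.leaf (lf 838 0 0 607 385 (-543) 746 0 1024 255 191 174))))
    (by decide +kernel)

def goodS3X_14 :
    Check.Good noCone cfS3X (reach cfS3X ⟨litS3X, 1, fsS3X⟩
      [(2, false), (0, false), (1, true), (0, false), (2, false), (2, false), (2, false)]) :=
  Check.good_node (a := 2) (by decide +kernel)
    goodS3X_15 goodS3X_16

def goodS3X_18 :
    Check.Good noCone cfS3X (reach cfS3X ⟨litS3X, 1, fsS3X⟩
      [(2, false), (2, true), (0, false), (1, true), (0, false), (2, false), (2, false), (2, false)]) :=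
  Check.check_sound
    (.node 1
    (.node 0
    (.node 2
    (.node 1
    (.leaf (lf 1024 0 0 491 175 (-246) 453 0 344 255 255 255))
    (.leaf (lf 1024 0 0 578 230 (-330) 565 0 461 255 255 255)))
    (.node 1
    (.leaf (lf 1024 0 0 496 172 (-242) 411 0 305 255 255 255))
    (.leaf (lf 1024 0 0 584 221 (-318) 511 0 402 255 255 255))))
    (.node 2
    (.node 1
    (.leaf (lf 1024 0 0 500 180 (-246) 521 0 392 255 255 255))
    (.leaf (lf 1024 0 0 585 233 (-324) 657 0 517 255 255 255)))
    (.node 1
    (.leaf (lf 1024 0 0 506 177 (-241) 471 0 348 255 255 255))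
    (.leaf (lf 1024 0 0 593 223 (-311) 594 0 449 255 255 255)))))
    (.node 0
    (.leaf (lf 1024 0 0 755 420 (-619) 620 0 823 255 200 169))
    (.leaf (lf 1024 0 0 749 427 (-612) 745 0 926 255 197 172))))
    (by decide +kernel)

def goodS3X_19 :
    Check.Good noCone cfS3X (reach cfS3X ⟨litS3X, 1, fsS3X⟩
      [(2, true), (2, true), (0, false), (1, true), (0, false), (2, false), (2, false), (2, false)]) :=
  Check.check_sound
    (.node 1
    (.node 0
    (.node 1
    (.node 0
    (.leaf (lf 1024 0 0 499 166 (-236) 346 0 250 255 255 255))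
    (.leaf (lf 1024 0 0 505 168 (-235) 371 0 267 255 255 255)))
    (.leaf (lf 16384 0 0 9500 3358 (-4839) 7113 0 5328 255 237 212)))
    (.node 1
    (.node 0
    (.leaf (lf 1024 0 0 511 171 (-235) 397 0 286 255 255 255))
    (.leaf (lf 1024 0 0 518 174 (-236) 424 0 306 255 255 255)))
    (.leaf (lf 1024 0 0 604 212 (-296) 515 0 372 255 235 215))))
    (.node 0
    (.leaf (lf 1024 0 0 759 390 (-582) 525 0 642 255 206 166))
    (.leaf (lf 1024 0 0 758 395 (-572) 627 0 718 255 204 170))))
    (by decide +kernel)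

def goodS3X_17 :
    Check.Good noCone cfS3X (reach cfS3X ⟨litS3X, 1, fsS3X⟩
      [(2, true), (0, false), (1, true), (0, false), (2, false), (2, false), (2, false)]) :=
  Check.good_node (a := 2) (by decide +kernel)
    goodS3X_18 goodS3X_19

def goodS3X_13 :
    Check.Good noCone cfS3X (reach cfS3X ⟨litS3X, 1, fsS3X⟩
      [(0, false), (1, true), (0, false), (2, false), (2, false), (2, false)]) :=
  Check.good_node (a := 2) (by decide +kernel)
    goodS3X_14 goodS3X_17

def goodS3X_22 :
    Check.Good noCone cfS3X (reach cfS3X ⟨litS3X, 1, fsS3X⟩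
      [(2, false), (2, false), (0, true), (1, true), (0, false), (2, false), (2, false), (2, false)]) :=
  Check.check_sound
    (.node 1
    (.node 2
    (.node 0
    (.node 1
    (.leaf (lf 1024 0 0 472 217 (-288) 1019 0 868 255 255 255))
    (.leaf (lf 806 0 0 429 239 (-322) 1024 0 970 255 226 211)))
    (.node 1
    (.leaf (lf 903 0 0 420 201 (-261) 1024 0 884 255 255 255))
    (.leaf (lf 696 0 0 370 214 (-284) 1024 0 958 255 148 145))))
    (.node 0
    (.node 1
    (.leaf (lf 1024 0 0 483 206 (-273) 868 0 709 255 255 255))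
    (.leaf (lf 944 0 0 515 260 (-351) 1024 0 911 255 232 207)))
    (.node 1
    (.leaf (lf 1024 0 0 489 216 (-280) 988 0 820 255 255 255))
    (.leaf (lf 818 0 0 447 233 (-309) 1024 0 901 255 255 255)))))
    (.node 2
    (.leaf (lf 425 0 0 295 239 (-320) 685 0 1024 255 199 151))
    (.leaf (lf 523 0 0 365 274 (-371) 736 0 1024 255 204 153))))
    (by decide +kernel)

def goodS3X_23 :
    Check.Good noCone cfS3X (reach cfS3X ⟨litS3X, 1, fsS3X⟩
      [(2, true), (2, false), (0, true), (1, true), (0, false), (2, false), (2, false), (2, false)]) :=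
  Check.check_sound
    (.node 1
    (.node 2
    (.node 0
    (.node 1
    (.leaf (lf 1024 0 0 493 198 (-263) 754 0 597 255 255 255))
    (.leaf (lf 1024 0 0 571 265 (-358) 965 0 813 255 255 255)))
    (.node 1
    (.leaf (lf 1024 0 0 501 208 (-269) 857 0 689 255 255 255))
    (.leaf (lf 944 0 0 528 253 (-335) 1024 0 854 255 255 255))))
    (.node 0
    (.node 1
    (.leaf (lf 1024 0 0 502 192 (-254) 665 0 513 255 255 255))
    (.leaf (lf 1024 0 0 582 251 (-339) 850 0 683 255 255 255)))
    (.node 1
    (.leaf (lf 1024 0 0 510 202 (-260) 754 0 592 255 255 255))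
    (.leaf (lf 1024 0 0 586 259 (-343) 977 0 778 255 255 255)))))
    (.node 2
    (.leaf (lf 398 0 304 485 247 (-53) 0 0 1024 255 255 255))
    (.leaf (lf 453 0 364 556 271 (-30) 0 0 1024 255 255 255))))
    (by decide +kernel)

def goodS3X_21 :
    Check.Good noCone cfS3X (reach cfS3X ⟨litS3X, 1, fsS3X⟩
      [(2, false), (0, true), (1, true), (0, false), (2, false), (2, false), (2, false)]) :=
  Check.good_node (a := 2) (by decide +kernel)
    goodS3X_22 goodS3X_23

def goodS3X_24 :
    Check.Good noCone cfS3X (reach cfS3X ⟨litS3X, 1, fsS3X⟩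
      [(2, true), (0, true), (1, true), (0, false), (2, false), (2, false), (2, false)]) :=
  Check.check_sound
    (.node 2
    (.node 1
    (.node 0
    (.node 2
    (.node 1
    (.leaf (lf 1024 0 0 510 188 (-248) 594 0 449 255 255 255))
    (.leaf (lf 1024 0 0 592 239 (-323) 759 0 584 255 255 255)))
    (.node 1
    (.leaf (lf 1024 0 0 517 184 (-244) 537 0 399 255 255 255))
    (.leaf (lf 1024 0 0 601 229 (-310) 684 0 507 255 255 255))))
    (.node 2
    (.node 1
    (.leaf (lf 1024 0 0 519 197 (-254) 673 0 519 255 255 255))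
    (.leaf (lf 1024 0 0 597 247 (-327) 870 0 665 255 255 255)))
    (.node 1
    (.leaf (lf 1024 0 0 527 193 (-249) 607 0 461 255 255 255))
    (.leaf (lf 1024 0 0 608 237 (-313) 783 0 576 255 255 255)))))
    (.node 0
    (.leaf (lf 1004 0 0 730 429 (-598) 868 0 1024 255 194 176))
    (.leaf (lf 499 0 441 623 292 19 0 0 1024 255 255 255))))
    (.node 1
    (.node 0
    (.node 1
    (.leaf (lf 1024 0 0 528 181 (-239) 466 0 341 255 255 255))
    (.leaf (lf 1024 0 0 614 217 (-294) 592 0 418 255 234 218)))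
    (.node 1
    (.leaf (lf 1024 0 0 539 190 (-245) 526 0 394 255 255 255))
    (.leaf (lf 1024 0 0 624 225 (-296) 676 0 476 255 231 221))))
    (.node 0
    (.leaf (lf 16384 0 0 12114 6445 (-9062) 11845 0 12894 255 201 175))
    (.leaf (lf 604 0 577 765 337 92 0 0 1024 255 255 255)))))
    (by decide +kernel)

def goodS3X_20 :
    Check.Good noCone cfS3X (reach cfS3X ⟨litS3X, 1, fsS3X⟩
      [(0, true), (1, true), (0, false), (2, false), (2, false), (2, false)]) :=
  Check.good_node (a := 2) (by decide +kernel)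
    goodS3X_21 goodS3X_24

def goodS3X_12 :
    Check.Good noCone cfS3X (reach cfS3X ⟨litS3X, 1, fsS3X⟩
      [(1, true), (0, false), (2, false), (2, false), (2, false)]) :=
  Check.good_node (a := 0) (by decide +kernel)
    goodS3X_13 goodS3X_20

def goodS3X_4 :
    Check.Good noCone cfS3X (reach cfS3X ⟨litS3X, 1, fsS3X⟩
      [(0, false), (2, false), (2, false), (2, false)]) :=
  Check.good_node (a := 1) (by decide +kernel)
    goodS3X_5 goodS3X_12

def goodS3X_27 :
    Check.Good noCone cfS3X (reach cfS3X ⟨litS3X, 1, fsS3X⟩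
      [(0, false), (1, false), (0, true), (2, false), (2, false), (2, false)]) :=
  Check.check_sound
    (.node 2
    (.node 1
    (.node 1
    (.leaf (lf 1024 0 0 70 254 (-290) 85 0 935 255 255 255))
    (.leaf (lf 1024 0 0 206 244 (-280) 265 0 901 255 255 255)))
    (.node 2
    (.node 1
    (.leaf (lf 1024 0 0 321 222 (-264) 569 0 990 255 255 255))
    (.node 2
    (.leaf (lf 971 0 0 392 206 (-253) 921 0 1024 255 255 255))
    (.leaf (lf 1024 0 0 423 215 (-263) 828 0 918 255 255 255))))
    (.node 1
    (.leaf (lf 1024 0 0 330 230 (-273) 440 0 786 255 255 255))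
    (.node 2
    (.leaf (lf 1024 0 0 431 215 (-262) 721 0 800 255 255 255))
    (.leaf (lf 1024 0 0 439 215 (-261) 637 0 710 255 255 255))))))
    (.node 1
    (.leaf (lf 1024 696 212 0 428 (-374) 0 0 871 255 255 255))
    (.node 2
    (.node 1
    (.leaf (lf 1024 0 0 337 238 (-282) 357 0 654 255 255 255))
    (.leaf (lf 1024 0 0 450 217 (-262) 538 0 607 255 255 255)))
    (.node 1
    (.leaf (lf 1024 0 0 343 245 (-291) 300 0 561 255 255 255))
    (.leaf (lf 1024 0 0 460 220 (-266) 448 0 512 255 255 255))))))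
    (by decide +kernel)

def goodS3X_28 :
    Check.Good noCone cfS3X (reach cfS3X ⟨litS3X, 1, fsS3X⟩
      [(0, true), (1, false), (0, true), (2, false), (2, false), (2, false)]) :=
  Check.check_sound
    (.node 2
    (.node 1
    (.node 1
    (.leaf (lf 907 0 0 66 235 (-257) 86 0 1024 255 255 255))
    (.leaf (lf 931 0 0 198 234 (-258) 276 0 1024 255 255 255)))
    (.node 2
    (.node 1
    (.leaf (lf 823 0 0 272 194 (-222) 533 0 1024 255 255 255))
    (.leaf (lf 795 0 0 341 190 (-224) 819 0 1024 255 255 255)))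
    (.node 1
    (.leaf (lf 1024 0 0 347 249 (-283) 514 0 1006 255 255 255))
    (.leaf (lf 1024 0 0 457 242 (-282) 801 0 995 255 255 255)))))
    (.node 1
    (.leaf (lf 981 649 188 0 423 (-357) 0 0 1024 255 255 255))
    (.node 2
    (.node 1
    (.leaf (lf 1024 0 0 355 257 (-291) 418 0 835 255 255 255))
    (.leaf (lf 1024 0 0 471 243 (-282) 643 0 803 255 255 255)))
    (.node 1
    (.leaf (lf 1024 0 0 362 264 (-300) 352 0 716 255 255 255))
    (.leaf (lf 1024 0 0 483 246 (-284) 535 0 675 255 255 255))))))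
    (by decide +kernel)

def goodS3X_26 :
    Check.Good noCone cfS3X (reach cfS3X ⟨litS3X, 1, fsS3X⟩
      [(1, false), (0, true), (2, false), (2, false), (2, false)]) :=
  Check.good_node (a := 0) (by decide +kernel)
    goodS3X_27 goodS3X_28

def goodS3X_32 :
    Check.Good noCone cfS3X (reach cfS3X ⟨litS3X, 1, fsS3X⟩
      [(2, false), (2, false), (0, false), (1, true), (0, true), (2, false), (2, false), (2, false)]) :=
  Check.check_sound
    (.node 1
    (.node 2
    (.node 0
    (.node 1
    (.leaf (lf 798 0 0 375 187 (-239) 1024 0 908 255 255 255))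
    (.leaf (lf 606 0 0 320 194 (-254) 1024 0 956 255 255 255)))
    (.node 1
    (.leaf (lf 710 0 0 337 177 (-224) 1024 0 942 255 255 255))
    (.leaf (lf 530 0 0 278 178 (-230) 1024 0 963 255 255 255))))
    (.node 0
    (.node 1
    (.leaf (lf 940 0 0 455 210 (-267) 1024 0 873 255 255 255))
    (.leaf (lf 713 0 0 389 212 (-277) 1024 0 901 255 255 255)))
    (.leaf (lf 720 0 0 373 211 (-268) 1024 0 972 255 230 212))))
    (.node 2
    (.leaf (lf 329 0 0 215 197 (-259) 743 0 1024 255 193 159))
    (.leaf (lf 405 0 0 268 226 (-300) 796 0 1024 255 196 162))))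
    (by decide +kernel)

def goodS3X_33 :
    Check.Good noCone cfS3X (reach cfS3X ⟨litS3X, 1, fsS3X⟩
      [(2, true), (2, false), (0, false), (1, true), (0, true), (2, false), (2, false), (2, false)]) :=
  Check.check_sound
    (.node 1
    (.node 2
    (.node 0
    (.node 1
    (.leaf (lf 1024 0 0 508 220 (-279) 966 0 800 255 255 255))
    (.leaf (lf 825 0 0 463 231 (-300) 1024 0 856 255 255 255)))
    (.leaf (lf 834 0 0 445 234 (-295) 1024 0 940 255 235 207)))
    (.node 0
    (.node 1
    (.leaf (lf 1024 0 0 519 214 (-270) 849 0 688 255 255 255))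
    (.leaf (lf 940 0 0 541 249 (-323) 1024 0 819 255 255 255)))
    (.leaf (lf 951 0 0 521 257 (-323) 1024 0 914 255 240 201))))
    (.node 2
    (.leaf (lf 292 0 240 364 198 (-42) 0 0 1024 255 255 255))
    (.leaf (lf 333 0 287 418 218 (-22) 0 0 1024 255 255 255))))
    (by decide +kernel)

def goodS3X_31 :
    Check.Good noCone cfS3X (reach cfS3X ⟨litS3X, 1, fsS3X⟩
      [(2, false), (0, false), (1, true), (0, true), (2, false), (2, false), (2, false)]) :=
  Check.good_node (a := 2) (by decide +kernel)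
    goodS3X_32 goodS3X_33

def goodS3X_34 :
    Check.Good noCone cfS3X (reach cfS3X ⟨litS3X, 1, fsS3X⟩
      [(2, true), (0, false), (1, true), (0, true), (2, false), (2, false), (2, false)]) :=
  Check.check_sound
    (.node 2
    (.node 1
    (.node 0
    (.node 2
    (.node 1
    (.leaf (lf 1024 0 0 529 209 (-263) 757 0 602 255 255 255))
    (.leaf (lf 1024 0 0 603 259 (-335) 992 0 763 255 255 255)))
    (.node 1
    (.leaf (lf 1024 0 0 537 205 (-258) 682 0 535 255 255 255))
    (.leaf (lf 1024 0 0 615 248 (-320) 891 0 661 255 255 255))))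
    (.node 2
    (.leaf (lf 1024 0 0 573 268 (-335) 979 0 854 255 245 195))
    (.leaf (lf 1024 0 0 585 261 (-326) 879 0 752 255 249 189))))
    (.node 2
    (.leaf (lf 374 0 338 475 238 1 0 0 1024 255 255 255))
    (.leaf (lf 417 0 391 533 258 29 0 0 1024 255 255 255))))
    (.node 1
    (.node 0
    (.node 1
    (.leaf (lf 1024 0 0 550 202 (-253) 589 0 457 255 255 255))
    (.leaf (lf 1024 0 0 632 236 (-303) 766 0 546 255 229 225)))
    (.node 1
    (.leaf (lf 1024 0 0 562 216 (-264) 656 0 533 255 255 255))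
    (.leaf (lf 1024 0 0 641 250 (-315) 864 0 633 255 255 255))))
    (.node 0
    (.leaf (lf 520 0 512 668 303 86 0 0 1024 255 255 255))
    (.leaf (lf 451 0 452 585 275 74 0 0 1024 255 255 255)))))
    (by decide +kernel)

def goodS3X_30 :
    Check.Good noCone cfS3X (reach cfS3X ⟨litS3X, 1, fsS3X⟩
      [(0, false), (1, true), (0, true), (2, false), (2, false), (2, false)]) :=
  Check.good_node (a := 2) (by decide +kernel)
    goodS3X_31 goodS3X_34

def goodS3X_36 :
    Check.Good noCone cfS3X (reach cfS3X ⟨litS3X, 1, fsS3X⟩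
      [(2, false), (0, true), (1, true), (0, true), (2, false), (2, false), (2, false)]) :=
  Check.check_sound
    (.node 2
    (.node 1
    (.node 2
    (.node 1
    (.leaf (lf 607 0 0 294 169 (-209) 1023 0 1024 255 229 213))
    (.leaf (lf 440 0 0 229 162 (-207) 1024 0 999 255 217 219)))
    (.node 1
    (.leaf (lf 719 0 0 361 192 (-234) 1024 0 993 255 233 207))
    (.leaf (lf 522 0 0 284 180 (-227) 1024 0 953 255 223 216))))
    (.node 2
    (.leaf (lf 256 0 0 153 165 (-216) 790 0 1024 255 142 132))
    (.leaf (lf 315 0 0 193 189 (-248) 842 0 1024 255 188 174))))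
    (.node 1
    (.node 2
    (.node 1
    (.leaf (lf 834 0 0 431 215 (-260) 1024 0 970 255 255 255))
    (.leaf (lf 608 0 0 344 198 (-248) 1024 0 916 255 228 211)))
    (.node 1
    (.leaf (lf 952 0 0 504 238 (-287) 1024 0 953 255 255 255))
    (.leaf (lf 696 0 0 407 216 (-269) 1024 0 885 255 233 207))))
    (.node 2
    (.leaf (lf 380 0 0 240 215 (-282) 886 0 1024 255 154 145))
    (.leaf (lf 249 0 224 319 179 (-28) 0 0 1024 255 255 255)))))
    (by decide +kernel)

def goodS3X_37 :
    Check.Good noCone cfS3X (reach cfS3X ⟨litS3X, 1, fsS3X⟩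
      [(2, true), (0, true), (1, true), (0, true), (2, false), (2, false), (2, false)]) :=
  Check.check_sound
    (.node 2
    (.node 1
    (.node 2
    (.node 1
    (.leaf (lf 1024 0 0 555 251 (-301) 978 0 898 255 255 255))
    (.leaf (lf 788 0 0 474 234 (-290) 1024 0 860 255 238 202)))
    (.node 1
    (.leaf (lf 1024 0 0 566 247 (-295) 879 0 798 255 255 255))
    (.leaf (lf 881 0 0 544 253 (-312) 1024 0 838 255 240 198))))
    (.node 2
    (.leaf (lf 281 0 263 364 196 (-10) 0 0 1024 255 255 255))
    (.leaf (lf 314 0 304 410 214 11 0 0 1024 255 255 255))))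
    (.node 1
    (.node 1
    (.leaf (lf 1024 0 0 582 243 (-289) 757 0 682 255 255 255))
    (.leaf (lf 1024 0 0 656 281 (-344) 1017 0 808 255 223 222)))
    (.node 0
    (.leaf (lf 392 0 397 515 251 59 0 0 1024 255 255 255))
    (.leaf (lf 344 0 349 456 230 42 0 0 1024 255 255 255)))))
    (by decide +kernel)

def goodS3X_35 :
    Check.Good noCone cfS3X (reach cfS3X ⟨litS3X, 1, fsS3X⟩
      [(0, true), (1, true), (0, true), (2, false), (2, false), (2, false)]) :=
  Check.good_node (a := 2) (by decide +kernel)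
    goodS3X_36 goodS3X_37

def goodS3X_29 :
    Check.Good noCone cfS3X (reach cfS3X ⟨litS3X, 1, fsS3X⟩
      [(1, true), (0, true), (2, false), (2, false), (2, false)]) :=
  Check.good_node (a := 0) (by decide +kernel)
    goodS3X_30 goodS3X_35

def goodS3X_25 :
    Check.Good noCone cfS3X (reach cfS3X ⟨litS3X, 1, fsS3X⟩
      [(0, true), (2, false), (2, false), (2, false)]) :=
  Check.good_node (a := 1) (by decide +kernel)
    goodS3X_26 goodS3X_29

def goodS3X_3 :
    Check.Good noCone cfS3X (reach cfS3X ⟨litS3X, 1, fsS3X⟩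
      [(2, false), (2, false), (2, false)]) :=
  Check.good_node (a := 0) (by decide +kernel)
    goodS3X_4 goodS3X_25

def goodS3X_41 :
    Check.Good noCone cfS3X (reach cfS3X ⟨litS3X, 1, fsS3X⟩
      [(0, false), (1, false), (0, false), (2, true), (2, false), (2, false)]) :=
  Check.check_sound
    (.node 1
    (.node 1
    (.leaf (lf 1024 0 0 66 395 0 26 (-198) 154 196 161 255))
    (.leaf (lf 840 1024 438 0 493 (-301) 0 0 343 230 203 255)))
    (.node 2
    (.node 2
    (.node 1
    (.leaf (lf 1024 0 0 312 207 (-276) 170 0 279 255 255 255))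
    (.node 0
    (.leaf (lf 1024 0 0 411 173 (-240) 233 0 225 255 255 255))
    (.leaf (lf 1024 0 0 424 183 (-246) 264 0 263 255 255 255))))
    (.node 1
    (.leaf (lf 1024 0 0 314 207 (-278) 150 0 243 255 255 255))
    (.node 0
    (.leaf (lf 1024 0 0 414 172 (-239) 206 0 195 255 255 255))
    (.leaf (lf 1024 0 0 429 183 (-247) 232 0 229 255 255 255)))))
    (.node 1
    (.leaf (lf 507 1024 731 0 614 (-82) 0 0 314 255 181 203))
    (.node 2
    (.node 0
    (.leaf (lf 1024 0 0 415 170 (-237) 185 0 170 255 255 255))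
    (.leaf (lf 1024 0 0 432 182 (-246) 208 0 201 255 255 255)))
    (.node 0
    (.leaf (lf 1024 0 0 415 166 (-233) 168 0 149 255 255 255))
    (.leaf (lf 1024 0 0 433 180 (-244) 189 0 177 255 255 255)))))))
    (by decide +kernel)

def goodS3X_42 :
    Check.Good noCone cfS3X (reach cfS3X ⟨litS3X, 1, fsS3X⟩
      [(0, true), (1, false), (0, false), (2, true), (2, false), (2, false)]) :=
  Check.check_sound
    (.node 1
    (.node 1
    (.leaf (lf 1024 0 0 71 271 (-329) 32 0 341 255 255 255))
    (.leaf (lf 1024 0 0 210 407 0 98 (-253) 207 199 150 255)))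
    (.node 2
    (.node 2
    (.node 1
    (.leaf (lf 1024 0 0 330 229 (-288) 213 0 375 255 255 255))
    (.leaf (lf 407 1014 1024 0 789 173 0 0 667 255 159 221)))
    (.node 1
    (.leaf (lf 1024 0 0 334 232 (-293) 188 0 331 255 255 255))
    (.leaf (lf 1024 0 0 452 202 (-259) 273 0 292 255 245 166))))
    (.node 1
    (.leaf (lf 1024 0 0 340 235 (-296) 158 0 276 255 255 255))
    (.node 2
    (.leaf (lf 1024 0 0 457 203 (-260) 244 0 258 255 247 160))
    (.leaf (lf 1024 0 0 461 202 (-260) 220 0 230 255 249 153))))))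
    (by decide +kernel)

def goodS3X_40 :
    Check.Good noCone cfS3X (reach cfS3X ⟨litS3X, 1, fsS3X⟩
      [(1, false), (0, false), (2, true), (2, false), (2, false)]) :=
  Check.good_node (a := 0) (by decide +kernel)
    goodS3X_41 goodS3X_42

def goodS3X_45 :
    Check.Good noCone cfS3X (reach cfS3X ⟨litS3X, 1, fsS3X⟩
      [(2, false), (0, false), (1, true), (0, false), (2, true), (2, false), (2, false)]) :=
  Check.check_sound
    (.node 1
    (.node 2
    (.node 0
    (.node 1
    (.node 0
    (.leaf (lf 1024 0 0 504 160 (-229) 299 0 208 255 255 255))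
    (.leaf (lf 1024 0 0 512 163 (-229) 319 0 222 255 255 255)))
    (.leaf (lf 1024 0 0 601 197 (-285) 382 0 268 255 244 203)))
    (.node 1
    (.node 0
    (.leaf (lf 1024 0 0 519 166 (-230) 341 0 238 255 255 255))
    (.leaf (lf 1024 0 0 526 170 (-231) 363 0 255 255 255 255)))
    (.leaf (lf 1024 0 0 614 199 (-279) 441 0 298 255 255 255))))
    (.node 0
    (.node 1
    (.node 0
    (.leaf (lf 1024 0 0 507 155 (-223) 263 0 175 255 255 255))
    (.leaf (lf 1024 0 0 516 158 (-224) 281 0 188 255 255 255)))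
    (.leaf (lf 1024 0 0 606 186 (-271) 336 0 220 255 250 196)))
    (.node 1
    (.node 0
    (.leaf (lf 1024 0 0 524 162 (-225) 299 0 201 255 255 255))
    (.leaf (lf 1024 0 0 533 166 (-226) 318 0 216 255 255 255)))
    (.leaf (lf 1024 0 0 622 188 (-264) 385 0 245 255 255 255)))))
    (.node 2
    (.node 0
    (.leaf (lf 1024 0 0 762 365 (-551) 455 0 517 255 211 162))
    (.leaf (lf 1024 0 0 766 369 (-539) 540 0 576 255 209 167)))
    (.node 0
    (.leaf (lf 1024 0 0 764 345 (-525) 402 0 427 255 215 158))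
    (.leaf (lf 1024 0 0 772 348 (-512) 474 0 474 255 213 164)))))
    (by decide +kernel)

def goodS3X_46 :
    Check.Good noCone cfS3X (reach cfS3X ⟨litS3X, 1, fsS3X⟩
      [(2, true), (0, false), (1, true), (0, false), (2, true), (2, false), (2, false)]) :=
  Check.check_sound
    (.node 1
    (.node 2
    (.node 0
    (.node 1
    (.node 0
    (.leaf (lf 1024 0 0 508 150 (-217) 236 0 150 255 255 255))
    (.leaf (lf 1024 0 0 519 154 (-218) 251 0 161 255 255 255)))
    (.leaf (lf 1024 0 0 608 177 (-259) 300 0 185 255 254 187)))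
    (.node 1
    (.leaf (lf 16384 0 0 8547 2569 (-3542) 4399 0 2892 255 255 181))
    (.leaf (lf 1024 0 0 628 178 (-252) 343 0 205 255 253 191))))
    (.node 0
    (.node 1
    (.node 0
    (.leaf (lf 1024 0 0 508 145 (-210) 215 0 129 255 255 255))
    (.leaf (lf 1024 0 0 519 149 (-211) 228 0 139 255 255 255)))
    (.leaf (lf 1024 0 0 608 168 (-247) 272 0 157 251 255 176)))
    (.node 1
    (.node 0
    (.leaf (lf 1024 0 0 530 153 (-213) 242 0 150 255 255 255))
    (.leaf (lf 1024 0 0 541 157 (-216) 257 0 162 255 255 255)))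
    (.leaf (lf 1024 0 0 631 169 (-240) 310 0 174 253 255 183)))))
    (.node 2
    (.node 0
    (.leaf (lf 1024 0 0 764 328 (-503) 361 0 359 255 218 153))
    (.leaf (lf 1024 0 0 777 330 (-488) 423 0 397 255 217 160)))
    (.node 0
    (.leaf (lf 16384 0 0 12177 5017 (-7734) 5262 0 4912 255 221 149))
    (.leaf (lf 1024 0 0 779 564 0 383 (-281) 189 255 136 247)))))
    (by decide +kernel)

def goodS3X_44 :
    Check.Good noCone cfS3X (reach cfS3X ⟨litS3X, 1, fsS3X⟩
      [(0, false), (1, true), (0, false), (2, true), (2, false), (2, false)]) :=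
  Check.good_node (a := 2) (by decide +kernel)
    goodS3X_45 goodS3X_46

def goodS3X_48 :
    Check.Good noCone cfS3X (reach cfS3X ⟨litS3X, 1, fsS3X⟩
      [(2, false), (0, true), (1, true), (0, false), (2, true), (2, false), (2, false)]) :=
  Check.check_sound
    (.node 1
    (.node 2
    (.node 0
    (.node 1
    (.leaf (lf 1024 0 0 537 176 (-234) 398 0 284 255 255 255))
    (.leaf (lf 1024 0 0 627 203 (-276) 505 0 335 255 255 255)))
    (.node 1
    (.leaf (lf 1024 0 0 551 186 (-240) 449 0 329 255 255 255))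
    (.leaf (lf 1024 0 0 639 211 (-278) 574 0 380 255 255 255))))
    (.node 0
    (.node 1
    (.leaf (lf 1024 0 0 545 173 (-230) 348 0 243 255 255 255))
    (.leaf (lf 1024 0 0 638 192 (-262) 440 0 275 255 255 255)))
    (.node 1
    (.leaf (lf 1024 0 0 560 183 (-237) 391 0 282 255 255 255))
    (.leaf (lf 1024 0 0 652 199 (-264) 499 0 313 255 255 255)))))
    (.node 2
    (.node 0
    (.leaf (lf 1024 0 0 769 376 (-532) 634 0 644 255 207 172))
    (.leaf (lf 709 0 726 910 381 180 0 0 1024 255 255 255)))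
    (.node 0
    (.leaf (lf 1024 0 0 780 354 (-503) 554 0 528 255 212 169))
    (.leaf (lf 789 0 858 1024 411 274 0 0 993 255 255 255)))))
    (by decide +kernel)

def goodS3X_49 :
    Check.Good noCone cfS3X (reach cfS3X ⟨litS3X, 1, fsS3X⟩
      [(2, true), (0, true), (1, true), (0, false), (2, true), (2, false), (2, false)]) :=
  Check.check_sound
    (.node 1
    (.node 2
    (.node 0
    (.node 1
    (.leaf (lf 1024 0 0 552 170 (-226) 310 0 210 255 255 255))
    (.leaf (lf 1024 0 0 646 182 (-249) 390 0 230 255 255 255)))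
    (.node 1
    (.leaf (lf 1024 0 0 568 180 (-234) 347 0 245 255 255 255))
    (.leaf (lf 1024 0 0 663 190 (-252) 441 0 262 255 255 255))))
    (.node 0
    (.node 1
    (.leaf (lf 1024 0 0 557 166 (-222) 280 0 183 254 255 178))
    (.leaf (lf 1024 0 0 653 173 (-238) 351 0 196 254 255 188)))
    (.node 1
    (.leaf (lf 1024 0 0 575 177 (-230) 312 0 215 255 255 255))
    (.leaf (lf 1024 0 0 672 181 (-241) 396 0 223 255 255 255)))))
    (.node 2
    (.node 0
    (.leaf (lf 1024 0 0 788 335 (-479) 492 0 441 255 215 165))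
    (.leaf (lf 1024 0 0 799 342 (-474) 568 0 493 255 215 172)))
    (.node 0
    (.leaf (lf 1024 0 0 795 557 0 443 (-308) 214 255 127 250))
    (.leaf (lf 1024 0 0 809 325 (-452) 509 0 418 255 219 168)))))
    (by decide +kernel)

def goodS3X_47 :
    Check.Good noCone cfS3X (reach cfS3X ⟨litS3X, 1, fsS3X⟩
      [(0, true), (1, true), (0, false), (2, true), (2, false), (2, false)]) :=
  Check.good_node (a := 2) (by decide +kernel)
    goodS3X_48 goodS3X_49

def goodS3X_43 :
    Check.Good noCone cfS3X (reach cfS3X ⟨litS3X, 1, fsS3X⟩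
      [(1, true), (0, false), (2, true), (2, false), (2, false)]) :=
  Check.good_node (a := 0) (by decide +kernel)
    goodS3X_44 goodS3X_47

def goodS3X_39 :
    Check.Good noCone cfS3X (reach cfS3X ⟨litS3X, 1, fsS3X⟩
      [(0, false), (2, true), (2, false), (2, false)]) :=
  Check.good_node (a := 1) (by decide +kernel)
    goodS3X_40 goodS3X_43

def goodS3X_51 :
    Check.Good noCone cfS3X (reach cfS3X ⟨litS3X, 1, fsS3X⟩
      [(1, false), (0, true), (2, true), (2, false), (2, false)]) :=
  Check.check_sound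
    (.node 0
    (.node 1
    (.node 2
    (.leaf (lf 1024 0 0 145 302 (-354) 91 0 538 255 243 169))
    (.leaf (lf 1024 0 0 148 311 (-367) 74 0 432 255 248 155)))
    (.node 2
    (.node 2
    (.node 1
    (.leaf (lf 1024 0 0 349 251 (-298) 259 0 490 255 255 255))
    (.leaf (lf 1024 0 0 469 223 (-270) 384 0 443 255 255 255)))
    (.node 1
    (.leaf (lf 1024 0 0 354 255 (-305) 228 0 434 255 255 255))
    (.leaf (lf 1024 0 0 478 226 (-274) 336 0 389 255 255 255))))
    (.node 1
    (.leaf (lf 1024 0 0 362 260 (-311) 192 0 365 255 255 255))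
    (.leaf (lf 425 1024 955 0 854 156 0 0 614 255 177 239)))))
    (.node 1
    (.node 2
    (.leaf (lf 1024 0 0 154 320 (-356) 106 0 672 255 244 169))
    (.leaf (lf 1024 0 0 157 331 (-372) 85 0 543 255 255 255)))
    (.node 2
    (.node 2
    (.leaf (lf 1024 0 0 431 281 (-322) 379 0 654 255 253 153))
    (.leaf (lf 1024 0 0 439 286 (-328) 332 0 578 255 255 146)))
    (.node 1
    (.leaf (lf 1024 0 0 383 284 (-323) 225 0 470 255 255 255))
    (.leaf (lf 1024 0 0 518 257 (-296) 333 0 431 255 255 255))))))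
    (by decide +kernel)

def goodS3X_54 :
    Check.Good noCone cfS3X (reach cfS3X ⟨litS3X, 1, fsS3X⟩
      [(2, false), (0, false), (1, true), (0, true), (2, true), (2, false), (2, false)]) :=
  Check.check_sound
    (.node 1
    (.node 2
    (.node 0
    (.node 1
    (.leaf (lf 1024 0 0 563 198 (-248) 502 0 383 255 255 255))
    (.leaf (lf 1024 0 0 650 221 (-285) 649 0 438 255 255 255)))
    (.node 1
    (.leaf (lf 1024 0 0 576 212 (-260) 558 0 447 255 255 255))
    (.leaf (lf 1024 0 0 661 236 (-296) 730 0 508 255 255 255))))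
    (.node 0
    (.node 1
    (.leaf (lf 1024 0 0 575 195 (-246) 437 0 328 255 255 255))
    (.leaf (lf 1024 0 0 666 210 (-271) 563 0 361 255 255 255)))
    (.node 1
    (.leaf (lf 1024 0 0 589 210 (-257) 484 0 384 255 255 255))
    (.leaf (lf 1024 0 0 679 225 (-282) 630 0 420 255 255 255)))))
    (.node 2
    (.node 0
    (.leaf (lf 613 0 643 797 344 167 0 0 1024 255 255 255))
    (.leaf (lf 533 0 567 702 313 146 0 0 1024 255 255 255)))
    (.node 0
    (.leaf (lf 705 0 784 929 384 261 0 0 1024 255 255 255))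
    (.leaf (lf 615 0 691 821 350 231 0 0 1024 255 255 255)))))
    (by decide +kernel)

def goodS3X_55 :
    Check.Good noCone cfS3X (reach cfS3X ⟨litS3X, 1, fsS3X⟩
      [(2, true), (0, false), (1, true), (0, true), (2, true), (2, false), (2, false)]) :=
  Check.check_sound
    (.node 1
    (.node 2
    (.node 0
    (.node 1
    (.leaf (lf 1024 0 0 584 193 (-243) 387 0 286 255 255 255))
    (.leaf (lf 1024 0 0 679 201 (-259) 496 0 303 255 255 255)))
    (.node 1
    (.leaf (lf 1024 0 0 600 208 (-255) 428 0 335 255 255 255))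
    (.leaf (lf 1024 0 0 694 216 (-271) 554 0 355 255 255 255))))
    (.node 0
    (.node 1
    (.leaf (lf 1024 0 0 593 191 (-241) 347 0 252 255 255 255))
    (.leaf (lf 1024 0 0 690 192 (-248) 444 0 259 255 255 255)))
    (.node 1
    (.leaf (lf 1024 0 0 610 206 (-253) 384 0 296 255 255 255))
    (.leaf (lf 1024 0 0 707 208 (-261) 495 0 304 255 255 255)))))
    (.node 2
    (.node 0
    (.leaf (lf 768 0 902 1024 408 355 0 0 989 255 255 255))
    (.leaf (lf 696 0 823 942 386 328 0 0 1024 255 255 255)))
    (.node 0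
    (.leaf (lf 1024 0 0 822 335 (-453) 581 0 470 255 218 174))
    (.leaf (lf 1024 0 0 834 349 (-459) 660 0 532 255 217 179)))))
    (by decide +kernel)

def goodS3X_53 :
    Check.Good noCone cfS3X (reach cfS3X ⟨litS3X, 1, fsS3X⟩
      [(0, false), (1, true), (0, true), (2, true), (2, false), (2, false)]) :=
  Check.good_node (a := 2) (by decide +kernel)
    goodS3X_54 goodS3X_55

def goodS3X_56 :
    Check.Good noCone cfS3X (reach cfS3X ⟨litS3X, 1, fsS3X⟩
      [(0, true), (1, true), (0, true), (2, true), (2, false), (2, false)]) :=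
  Check.check_sound
    (.node 2
    (.node 1
    (.node 2
    (.node 1
    (.leaf (lf 1024 0 0 598 240 (-283) 641 0 572 255 255 255))
    (.leaf (lf 1024 0 0 680 268 (-325) 855 0 654 255 230 213)))
    (.node 1
    (.leaf (lf 1024 0 0 613 238 (-281) 556 0 492 255 255 255))
    (.leaf (lf 1024 0 0 701 257 (-312) 736 0 544 255 236 205))))
    (.node 2
    (.node 0
    (.leaf (lf 466 0 499 621 286 123 0 0 1024 255 255 255))
    (.leaf (lf 410 0 437 553 264 98 0 0 1024 255 255 255)))
    (.node 0
    (.leaf (lf 541 0 607 731 322 198 0 0 1024 255 255 255))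
    (.leaf (lf 962 0 0 751 401 (-508) 1024 0 921 255 201 199)))))
    (.node 1
    (.node 2
    (.node 1
    (.leaf (lf 1024 0 0 626 237 (-279) 490 0 431 255 255 255))
    (.leaf (lf 1024 0 0 719 249 (-301) 645 0 463 255 240 197)))
    (.node 1
    (.leaf (lf 1024 0 0 638 236 (-278) 438 0 382 255 255 255))
    (.leaf (lf 1024 0 0 736 242 (-292) 573 0 400 255 244 190))))
    (.node 2
    (.node 0
    (.leaf (lf 1024 0 0 822 385 (-495) 841 0 716 255 209 188))
    (.leaf (lf 1024 0 0 828 407 (-512) 948 0 820 255 207 195)))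
    (.node 0
    (.leaf (lf 1024 0 0 844 367 (-471) 745 0 608 255 215 185))
    (.leaf (lf 1024 0 0 853 390 (-489) 837 0 698 255 212 191))))))
    (by decide +kernel)

def goodS3X_52 :
    Check.Good noCone cfS3X (reach cfS3X ⟨litS3X, 1, fsS3X⟩
      [(1, true), (0, true), (2, true), (2, false), (2, false)]) :=
  Check.good_node (a := 0) (by decide +kernel)
    goodS3X_53 goodS3X_56

def goodS3X_50 :
    Check.Good noCone cfS3X (reach cfS3X ⟨litS3X, 1, fsS3X⟩
      [(0, true), (2, true), (2, false), (2, false)]) :=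
  Check.good_node (a := 1) (by decide +kernel)
    goodS3X_51 goodS3X_52

def goodS3X_38 :
    Check.Good noCone cfS3X (reach cfS3X ⟨litS3X, 1, fsS3X⟩
      [(2, true), (2, false), (2, false)]) :=
  Check.good_node (a := 0) (by decide +kernel)
    goodS3X_39 goodS3X_50

def goodS3X_2 :
    Check.Good noCone cfS3X (reach cfS3X ⟨litS3X, 1, fsS3X⟩
      [(2, false), (2, false)]) :=
  Check.good_node (a := 2) (by decide +kernel)
    goodS3X_3 goodS3X_38

end

end Vale.Agent.P211.Cert.Interior.Data
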