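import Vale.Agent.P211.Cert.Interior.Charts

/-!
P211, the segments and pieces of the interior family (generated).
-/

namespace Vale.Agent.P211.Cert.Interior

/-- The segments. -/
def segsV : List Seg :=
  [
    ⟨(0), (653 / 4096), (0), (185369 / 131072), (0)⟩,
    ⟨(653 / 4096), (7 / 32), (1 / 5), (0), (1)⟩,
    ⟨(7 / 32), (19 / 64), (1 / 5), (0), (1)⟩,
    ⟨(19 / 64), (7 / 16), (1 / 5), (0), (1)⟩,
    ⟨(7 / 16), (9 / 16), (1 / 5), (0), (1)⟩,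
    ⟨(9 / 16), (11 / 16), (1 / 5), (0), (1)⟩,
    ⟨(11 / 16), (13 / 16), (1 / 5), (0), (1)⟩,
    ⟨(13 / 16), (237 / 256), (1 / 5), (0), (1)⟩]

/-- One of them. -/
def segV (n : ℕ) : Seg := segsV.getD n ⟨0, 0, 0, 0, 0⟩

/-- The pieces. -/
def piecesV : List Piece :=
  [
    ⟨(0), (1 / 4), (663417 / 524288), (-29 / 2048)⟩,
    ⟨(1 / 4), (3 / 8), (335063 / 262144), (-69 / 1024)⟩,
    ⟨(3 / 8), (1 / 2), (1366283 / 1048576), (-543 / 4096)⟩,
    ⟨(1 / 2), (35 / 64), (697861 / 524288), (-781 / 4096)⟩,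
    ⟨(35 / 64), (19 / 32), (354329 / 262144), (-935 / 4096)⟩,
    ⟨(19 / 32), (41 / 64), (1443649 / 1048576), (-277 / 1024)⟩,
    ⟨(41 / 64), (11 / 16), (737671 / 524288), (-1301 / 4096)⟩,
    ⟨(11 / 16), (23 / 32), (376673 / 262144), (-185 / 512)⟩,
    ⟨(23 / 32), (3 / 4), (1535965 / 1048576), (-1639 / 4096)⟩,
    ⟨(3 / 4), (25 / 32), (784601 / 524288), (-453 / 1024)⟩,
    ⟨(25 / 32), (13 / 16), (200953 / 131072), (-501 / 1024)⟩,
    ⟨(13 / 16), (53 / 64), (1640135 / 1048576), (-2161 / 4096)⟩,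
    ⟨(53 / 64), (27 / 32), (416077 / 262144), (-2275 / 4096)⟩,
    ⟨(27 / 32), (55 / 64), (845225 / 524288), (-599 / 1024)⟩,
    ⟨(55 / 64), (917083 / 1048576), (429611 / 262144), (-161487 / 262144)⟩]

/-- One of them. -/
def pieceV (n : ℕ) : Piece := piecesV.getD n ⟨0, 0, 0, 0⟩

/-- The weight of the right hand side. -/
def wgtV : Wgt := ⟨1, 2⟩

end Vale.Agent.P211.Cert.Interior
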